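import Crest.Agent.Lib.Propeller.ConeCap

/-!
# Propeller: exact cap bounds for cones in dimension 3, 4, 5

For a unit vector `u` and `0 < τ < 1` in a space `E` of dimension `n`:
* `integral_capCone`: `∫_{⟪u,g⟫ > τ‖g‖} ⟪u,g⟫ = φ₀ (1-τ²)^{(n-1)/2}`;
* `real_capCone`: the measure of the cap as an integral over the slope;
* `mean_norm`: `E‖g‖ = Dc (n) / Dc (n-1)`;
* `cap3_tangent`, `cap4_tangent`, `cap5_tangent`: the tangent form of the cap bound for a cone `A`;
* `cap3`, `norm_moment_cap3`: `‖∫_A g‖ ≤ 4 φ₀ a (1-a)`, `a = γ(A)` (`n = 3`).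
-/

set_option autoImplicit false
set_option linter.unusedSectionVars false
open MeasureTheory ProbabilityTheory Set Metric Filter Topology
open scoped RealInnerProductSpace

namespace Crest.Agent.Propeller

/-- `φ₀ = 1/√(2π)`. -/
noncomputable def phi0 : ℝ := (Real.sqrt (2 * Real.pi))⁻¹

lemma phi0_pos : 0 < phi0 := by unfold phi0; positivity

lemma integral_gaussianReal_std (f : ℝ → ℝ) :
    ∫ x, f x ∂(gaussianReal 0 1) = ∫ x, phi0 * Real.exp (-x ^ 2 / 2) * f x := by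
  rw [integral_gaussianReal_eq_integral_smul (by norm_num)]
  refine integral_congr_ae (Eventually.of_forall fun x => ?_)
  simp [gaussianPDFReal, phi0]

lemma hasDerivAt_neg_exp (x : ℝ) :
    HasDerivAt (fun x : ℝ => -Real.exp (-x ^ 2 / 2)) (x * Real.exp (-x ^ 2 / 2)) x := by
  have h1 : HasDerivAt (fun x : ℝ => -x ^ 2 / 2) (-x) x :=
    ((hasDerivAt_pow 2 x).fun_neg.div_const 2).congr_deriv (by simp; ring)
  have h2 := (h1.exp).fun_neg
  exact h2.congr_deriv (by ring)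

lemma integrable_mul_exp_half : Integrable (fun x : ℝ => x * Real.exp (-x ^ 2 / 2)) := by
  have := integrable_mul_exp_neg_mul_sq (b := 1 / 2) (by norm_num)
  refine this.congr (Eventually.of_forall fun x => ?_)
  simp only
  congr 2
  ring

lemma integral_Ioi_mul_exp (c : ℝ) :
    ∫ x in Ioi c, x * Real.exp (-x ^ 2 / 2) = Real.exp (-c ^ 2 / 2) := by
  have h := integral_Ioi_of_hasDerivAt_of_tendsto' (a := c) (m := 0)
    (f := fun x : ℝ => -Real.exp (-x ^ 2 / 2)) (f' := fun x : ℝ => x * Real.exp (-x ^ 2 / 2))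
    (fun x _ => hasDerivAt_neg_exp x) integrable_mul_exp_half.integrableOn ?_
  · rw [h]; ring
  · have h1 : Tendsto (fun x : ℝ => -x ^ 2 / 2) atTop atBot := by
      have h2 : Tendsto (fun x : ℝ => x ^ 2) atTop atTop := tendsto_pow_atTop (by norm_num)
      have h3 := (tendsto_neg_atTop_atBot.comp h2).atBot_div_const (r := 2) (by norm_num)
      exact h3
    have := (Real.tendsto_exp_atBot.comp h1).neg
    simpa using this

/-- `E[ξ ; ξ > c] = φ₀ e^{-c²/2}`. -/
lemma integral_gaussian_Ioi_id (c : ℝ) :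
    ∫ x in Ioi c, x ∂(gaussianReal 0 1) = phi0 * Real.exp (-c ^ 2 / 2) := by
  rw [← integral_indicator measurableSet_Ioi, integral_gaussianReal_std]
  have : ∀ x : ℝ, phi0 * Real.exp (-x ^ 2 / 2) * (Ioi c).indicator (fun x => x) x
      = (Ioi c).indicator (fun x => phi0 * (x * Real.exp (-x ^ 2 / 2))) x := by
    intro x
    by_cases hx : x ∈ Ioi c
    · simp only [indicator_of_mem hx]; ring
    · simp only [indicator_of_notMem hx]; ring
  simp_rw [this]
  rw [integral_indicator measurableSet_Ioi, integral_const_mul, integral_Ioi_mul_exp]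

/-! ### The moments `Dc` -/

/-- `∫_0^∞ y^j e^{-y²/2} dy`. -/
noncomputable def Dc (j : ℕ) : ℝ := ∫ y in Ioi (0 : ℝ), y ^ j * Real.exp (-y ^ 2 / 2)

/-- Scaling form, from the Gamma function. -/
lemma integral_pow_exp (j : ℕ) {b : ℝ} (hb : 0 < b) :
    ∫ y in Ioi (0 : ℝ), y ^ j * Real.exp (-(b / 2) * y ^ 2)
      = (b / 2) ^ (-((j : ℝ) + 1) / 2) * (1 / 2) * Real.Gamma (((j : ℝ) + 1) / 2) := by
  have h := integral_rpow_mul_exp_neg_mul_rpow (p := 2) (q := j) (b := b / 2) (by norm_num)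
    (by have : (0 : ℝ) ≤ j := Nat.cast_nonneg j
        linarith) (by positivity)
  have h2 : ∫ y in Ioi (0 : ℝ), y ^ j * Real.exp (-(b / 2) * y ^ 2)
      = ∫ y in Ioi (0 : ℝ), y ^ (j : ℝ) * Real.exp (-(b / 2) * y ^ (2 : ℝ)) := by
    refine setIntegral_congr_fun measurableSet_Ioi fun y hy => ?_
    simp only [Real.rpow_natCast]
    rw [show (2 : ℝ) = ((2 : ℕ) : ℝ) by norm_num, Real.rpow_natCast]
  rw [h2, h]

lemma Dc_eq (j : ℕ) :
    Dc j = (1 / 2 : ℝ) ^ (-((j : ℝ) + 1) / 2) * (1 / 2) * Real.Gamma (((j : ℝ) + 1) / 2) := by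
  have h := integral_pow_exp j (b := 1) (by norm_num)
  unfold Dc
  rw [← h]
  refine setIntegral_congr_fun measurableSet_Ioi fun y hy => ?_
  congr 2
  ring

lemma Dc_pos (j : ℕ) : 0 < Dc j := by
  rw [Dc_eq]
  have : 0 < ((j : ℝ) + 1) / 2 := by positivity
  have h := Real.Gamma_pos_of_pos this
  positivity

/-- `∫_0^∞ y^j e^{-(b/2) y²} dy = Dc j * b^{-(j+1)/2}`. -/
lemma integral_pow_exp' (j : ℕ) {b : ℝ} (hb : 0 < b) :
    ∫ y in Ioi (0 : ℝ), y ^ j * Real.exp (-(b / 2) * y ^ 2)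
      = Dc j * b ^ (-((j : ℝ) + 1) / 2) := by
  rw [integral_pow_exp j hb, Dc_eq]
  have : (b / 2) ^ (-((j : ℝ) + 1) / 2)
      = (1 / 2 : ℝ) ^ (-((j : ℝ) + 1) / 2) * b ^ (-((j : ℝ) + 1) / 2) := by
    rw [← Real.mul_rpow (by norm_num) hb.le]
    congr 1
    ring
  rw [this]
  ring

lemma Dc_add_two (j : ℕ) : Dc (j + 2) = ((j : ℝ) + 1) * Dc j := by
  rw [Dc_eq, Dc_eq]
  have h1 : (((j + 2 : ℕ) : ℝ) + 1) / 2 = ((j : ℝ) + 1) / 2 + 1 := by push_cast; ring
  have h2 : (-(((j + 2 : ℕ) : ℝ) + 1)) / 2 = -((j : ℝ) + 1) / 2 + (-1) := by push_cast; ring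
  rw [h1, h2, Real.rpow_add (by norm_num), Real.Gamma_add_one (by positivity)]
  rw [Real.rpow_neg_one]
  have hz : (0 : ℝ) < 1 / 2 := by norm_num
  field_simp

lemma Dc_zero : Dc 0 = 1 / (2 * phi0) := by
  have h := integral_gaussian_Ioi (1 / 2)
  unfold Dc
  have h2 : ∫ y in Ioi (0 : ℝ), y ^ 0 * Real.exp (-y ^ 2 / 2)
      = ∫ x in Ioi (0 : ℝ), Real.exp (-(1 / 2) * x ^ 2) := by
    refine setIntegral_congr_fun measurableSet_Ioi fun y hy => ?_
    simp only [pow_zero, one_mul]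
    congr 1
    ring
  rw [h2, h]
  unfold phi0
  have h3 : Real.pi / (1 / 2) = 2 * Real.pi := by ring
  rw [h3]
  field_simp

lemma Dc_one : Dc 1 = 1 := by
  have h := integral_Ioi_mul_exp 0
  unfold Dc
  simpa using h

lemma Dc_two : Dc 2 = 1 / (2 * phi0) := by
  have := Dc_add_two 0
  simp only [Nat.cast_zero, zero_add, one_mul] at this
  rw [this, Dc_zero]

lemma Dc_three : Dc 3 = 2 := by
  have := Dc_add_two 1
  norm_num [Dc_one] at this
  exact this

lemma Dc_four : Dc 4 = 3 / (2 * phi0) := by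
  have := Dc_add_two 2
  norm_num [Dc_two] at this
  rw [this]
  ring

lemma Dc_five : Dc 5 = 8 := by
  have := Dc_add_two 3
  norm_num [Dc_three] at this
  exact this


/-! ### Radial integrals -/

universe u

variable {E : Type u} [NormedAddCommGroup E] [InnerProductSpace ℝ E] [FiniteDimensional ℝ E]
  [MeasurableSpace E] [BorelSpace E]

/-- Radial law of the standard Gaussian. -/
theorem radial_std [Nontrivial E] (h : ℝ → ℝ) :
    ∫ v, h ‖v‖ ∂(stdGaussian E)
      = (∫ y in Ioi (0 : ℝ), y ^ (Module.finrank ℝ E - 1) * Real.exp (-y ^ 2 / 2) * h y)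
        / Dc (Module.finrank ℝ E - 1) := by
  set k := Module.finrank ℝ E
  have key : ∀ h : ℝ → ℝ, ∫ v, h ‖v‖ ∂(stdGaussian E)
      = (k • (volume : Measure E).real (ball 0 1)) * gcst E
        * ∫ y in Ioi (0 : ℝ), y ^ (k - 1) * Real.exp (-y ^ 2 / 2) * h y := by
    intro h
    have h1 := setIntegral_std_radial (E := E) MeasurableSet.univ (fun v => h ‖v‖)
    simp only [setIntegral_univ] at h1
    rw [h1]
    have h2 := integral_fun_norm_addHaar (E := E) (volume : Measure E)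
      (fun r : ℝ => gcst E * Real.exp (-r ^ 2 / 2) * h r)
    rw [h2]
    simp only [smul_eq_mul, nsmul_eq_mul]
    have h3 : ∫ y in Ioi (0 : ℝ), y ^ (k - 1) * (gcst E * Real.exp (-y ^ 2 / 2) * h y)
        = gcst E * ∫ y in Ioi (0 : ℝ), y ^ (k - 1) * Real.exp (-y ^ 2 / 2) * h y := by
      rw [← integral_const_mul]
      refine setIntegral_congr_fun measurableSet_Ioi fun y _ => ?_
      ring
    rw [h3]
    ring
  have h1 := key (fun _ => 1)
  simp only [integral_const, probReal_univ, smul_eq_mul, mul_one] at h1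
  have h2 : ∫ y in Ioi (0 : ℝ), y ^ (k - 1) * Real.exp (-y ^ 2 / 2) = Dc (k - 1) := rfl
  rw [h2] at h1
  have hD : Dc (k - 1) ≠ 0 := (Dc_pos _).ne'
  rw [key h, eq_div_iff hD]
  have h3 : (k • (volume : Measure E).real (ball 0 1)) * gcst E = (Dc (k - 1))⁻¹ := by
    field_simp
    linarith
  rw [h3]
  field_simp

/-- Gaussian integral of a Gaussian. -/
lemma integral_exp_std {s : ℝ} (hs : 0 ≤ s) :
    ∫ v : E, Real.exp (-(s / 2) * ‖v‖ ^ 2) ∂(stdGaussian E)
      = (1 + s) ^ (-(Module.finrank ℝ E : ℝ) / 2) := by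
  have h1 := setIntegral_std_radial (E := E) MeasurableSet.univ
    (fun v => Real.exp (-(s / 2) * ‖v‖ ^ 2))
  simp only [setIntegral_univ] at h1
  rw [h1]
  have h2 : ∀ v : E, gcst E * Real.exp (-‖v‖ ^ 2 / 2) * Real.exp (-(s / 2) * ‖v‖ ^ 2)
      = gcst E * Real.exp (-((1 + s) / 2) * ‖v‖ ^ 2) := by
    intro v
    rw [mul_assoc, ← Real.exp_add]
    congr 2
    ring
  simp_rw [h2]
  have hb : 0 < (1 + s) / 2 := by positivity
  rw [integral_const_mul, GaussianFourier.integral_rexp_neg_mul_sq_norm hb]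
  unfold gcst
  have h3 : Real.pi / ((1 + s) / 2) = 2 * Real.pi * (1 + s)⁻¹ := by
    field_simp
  have h5 : (2 * Real.pi * (1 + s)⁻¹) ^ ((Module.finrank ℝ E : ℝ) / 2)
      = (2 * Real.pi) ^ ((Module.finrank ℝ E : ℝ) / 2)
        * ((1 + s)⁻¹) ^ ((Module.finrank ℝ E : ℝ) / 2) :=
    Real.mul_rpow (by positivity) (by positivity)
  rw [h3, h5, ← mul_assoc, ← Real.rpow_add (by positivity)]
  have h4 : -(Module.finrank ℝ E : ℝ) / 2 + (Module.finrank ℝ E : ℝ) / 2 = 0 := by ring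
  rw [h4, Real.rpow_zero, one_mul, Real.inv_rpow (by positivity), ← Real.rpow_neg (by positivity)]
  congr 1
  ring

section line

variable (u : E)

/-- The projection onto `u^⊥`. -/
noncomputable def perpPart (g : E) : E := g - ⟪u, g⟫ • u

lemma inner_perpPart (hu : ‖u‖ = 1) (g : E) : ⟪u, perpPart u g⟫ = 0 := by
  unfold perpPart
  rw [inner_sub_right, real_inner_smul_right, real_inner_self_eq_norm_sq, hu]
  ring

lemma continuous_perpPart : Continuous (perpPart u) := by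
  unfold perpPart
  fun_prop

/-- The law of `‖g - ⟪u,g⟫ u‖` is the radial law on `u^⊥`. -/
theorem integral_perpPart (hu : ‖u‖ = 1) {h : ℝ → ℝ}
    (hf : Integrable (fun g : E => h ‖perpPart u g‖) (stdGaussian E)) :
    ∫ g, h ‖perpPart u g‖ ∂(stdGaussian E)
      = ∫ v : ((ℝ ∙ u)ᗮ : Submodule ℝ E), h ‖v‖ ∂(stdGaussian ((ℝ ∙ u)ᗮ : Submodule ℝ E)) := by
  set V : Submodule ℝ E := (ℝ ∙ u)ᗮ
  rw [integral_split V hf]
  refine integral_congr_ae (Eventually.of_forall fun x => ?_)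
  have hx : ∀ y : (Vᗮ : Submodule ℝ E), perpPart u ((x : E) + (y : E)) = x := by
    intro y
    have hy : (y : E) ∈ (ℝ ∙ u) := by
      have := y.2
      simpa [V, Submodule.orthogonal_orthogonal] using this
    obtain ⟨a, ha⟩ := Submodule.mem_span_singleton.1 hy
    have hxu : ⟪u, (x : E)⟫ = 0 := by
      have := x.2
      simp only [V] at this
      exact Submodule.mem_orthogonal_singleton_iff_inner_right.1 this
    unfold perpPart
    rw [← ha, inner_add_right, hxu, real_inner_smul_right, real_inner_self_eq_norm_sq, hu]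
    simp
  simp only [hx]
  simp

lemma finrank_perp (hu : ‖u‖ = 1) :
    Module.finrank ℝ ((ℝ ∙ u)ᗮ : Submodule ℝ E) = Module.finrank ℝ E - 1 := by
  have h1 := Submodule.finrank_add_finrank_orthogonal (ℝ ∙ u)
  have hu0 : u ≠ 0 := by
    intro h
    rw [h] at hu
    simp at hu
  rw [finrank_span_singleton hu0] at h1
  omega

end line


section cap

variable {u : E}

lemma norm_sq_smul_add (hu : ‖u‖ = 1) {w : E} (hw : ⟪u, w⟫ = 0) (ξ : ℝ) :
    ‖ξ • u + w‖ ^ 2 = ξ ^ 2 + ‖w‖ ^ 2 := by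
  rw [norm_add_sq_real, norm_smul, real_inner_smul_left, hw, hu]
  simp

lemma inner_smul_add (hu : ‖u‖ = 1) {w : E} (hw : ⟪u, w⟫ = 0) (ξ : ℝ) :
    ⟪u, ξ • u + w⟫ = ξ := by
  rw [inner_add_right, hw, real_inner_smul_right, real_inner_self_eq_norm_sq, hu]
  ring

/-- The slope `c = τ/√(1-τ²)`. -/
noncomputable def slope (τ : ℝ) : ℝ := τ / Real.sqrt (1 - τ ^ 2)

lemma mem_capCone_iff (hu : ‖u‖ = 1) {τ : ℝ} (h0 : 0 < τ) (h1 : τ < 1) {w : E} (hw : ⟪u, w⟫ = 0)
    (ξ : ℝ) : ξ • u + w ∈ capCone u τ ↔ slope τ * ‖w‖ < ξ := by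
  have hs2 : 0 < 1 - τ ^ 2 := by nlinarith
  set s := Real.sqrt (1 - τ ^ 2) with hs
  have hspos : 0 < s := Real.sqrt_pos.2 hs2
  have hss : s ^ 2 = 1 - τ ^ 2 := Real.sq_sqrt hs2.le
  set N := ‖ξ • u + w‖ with hN
  have hN0 : 0 ≤ N := norm_nonneg _
  have hN2 : N ^ 2 = ξ ^ 2 + ‖w‖ ^ 2 := norm_sq_smul_add hu hw ξ
  have hw0 : 0 ≤ ‖w‖ := norm_nonneg _
  simp only [capCone, mem_ofPred_eq, inner_smul_add hu hw, slope]
  rw [← hs, div_mul_eq_mul_div, div_lt_iff₀ hspos]
  constructor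
  · intro h
    have hξ : 0 < ξ := lt_of_le_of_lt (by positivity) h
    nlinarith [mul_pos hspos hξ, mul_nonneg h0.le hw0, mul_pos hξ hξ,
      mul_self_lt_mul_self (by positivity : 0 ≤ τ * N) h]
  · intro h
    have hξ : 0 < ξ := by
      by_contra hc
      have : s * ξ ≤ 0 := mul_nonpos_of_nonneg_of_nonpos hspos.le (not_lt.1 hc)
      have h3 : 0 ≤ τ * ‖w‖ := by positivity
      linarith [mul_comm ξ s]
    have h4 : (τ * ‖w‖) ^ 2 < (ξ * s) ^ 2 := by
      apply pow_lt_pow_left₀ h (by positivity) (by norm_num)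
    have h5 : (τ * N) ^ 2 < ξ ^ 2 := by
      have : (τ * N) ^ 2 = τ ^ 2 * ξ ^ 2 + (τ * ‖w‖) ^ 2 := by
        rw [mul_pow, hN2]; ring
      rw [this]
      have h6 : (ξ * s) ^ 2 = ξ ^ 2 * (1 - τ ^ 2) := by rw [mul_pow, hss]
      nlinarith
    exact lt_of_pow_lt_pow_left₀ 2 hξ.le h5

lemma slope_pos {τ : ℝ} (h0 : 0 < τ) (h1 : τ < 1) : 0 < slope τ := by
  have hs2 : 0 < 1 - τ ^ 2 := by nlinarith
  exact div_pos h0 (Real.sqrt_pos.2 hs2)

lemma one_add_slope_sq {τ : ℝ} (h0 : 0 < τ) (h1 : τ < 1) :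
    1 + slope τ ^ 2 = (1 - τ ^ 2)⁻¹ := by
  have hs2 : 0 < 1 - τ ^ 2 := by nlinarith
  unfold slope
  rw [div_pow, Real.sq_sqrt hs2.le]
  field_simp
  ring

/-- `e(τ) = φ₀ (1-τ²)^{(n-1)/2}`. -/
theorem integral_capCone (hu : ‖u‖ = 1) {τ : ℝ} (h0 : 0 < τ) (h1 : τ < 1) :
    ∫ g in capCone u τ, ⟪u, g⟫ ∂(stdGaussian E)
      = phi0 * (1 - τ ^ 2) ^ (((Module.finrank ℝ E - 1 : ℕ) : ℝ) / 2) := by
  have hs2 : 0 < 1 - τ ^ 2 := by nlinarith
  set γ := stdGaussian E
  set f : E → ℝ := (capCone u τ).indicator (fun g => ⟪u, g⟫) with hf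
  have hfint : Integrable f γ := (integrable_inner_std u).indicator (measurableSet_capCone u τ)
  have hT : Measurable (fun p : ℝ × E => p.1 • u + (p.2 - ⟪u, p.2⟫ • u)) :=
    Continuous.measurable (by fun_prop)
  have hmap := map_line_split u hu
  rw [← integral_indicator (measurableSet_capCone u τ)]
  have hfm : AEStronglyMeasurable f γ := hfint.aestronglyMeasurable
  change ∫ g, f g ∂γ = _
  have hfint2 := hfint
  have hfm2 := hfm
  simp only [γ] at hfint2 hfm2
  rw [← hmap] at hfint2 hfm2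
  have h2 : ∫ g, f g ∂γ = ∫ g, f g ∂(((gaussianReal 0 1).prod (stdGaussian E)).map
      (fun p : ℝ × E => p.1 • u + (p.2 - ⟪u, p.2⟫ • u))) := by
    rw [hmap]
  rw [h2, integral_map hT.aemeasurable hfm2]
  have hint3 : Integrable (fun p : ℝ × E => f (p.1 • u + (p.2 - ⟪u, p.2⟫ • u)))
      ((gaussianReal 0 1).prod (stdGaussian E)) :=
    (integrable_map_measure hfm2 hT.aemeasurable).1 hfint2
  rw [integral_prod_symm _ hint3]
  have h3 : ∀ g' : E, ∫ ξ, f (ξ • u + (g' - ⟪u, g'⟫ • u)) ∂(gaussianReal 0 1)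
      = phi0 * Real.exp (-(slope τ ^ 2 / 2) * ‖perpPart u g'‖ ^ 2) := by
    intro g'
    have h4 : ∀ ξ : ℝ, f (ξ • u + (g' - ⟪u, g'⟫ • u))
        = (Ioi (slope τ * ‖perpPart u g'‖)).indicator (fun x => x) ξ := by
      intro ξ
      have hw := inner_perpPart u hu g'
      have hiff := mem_capCone_iff hu h0 h1 hw ξ
      change (capCone u τ).indicator _ (ξ • u + perpPart u g') = _
      by_cases hc : slope τ * ‖perpPart u g'‖ < ξ
      · rw [indicator_of_mem (hiff.2 hc), indicator_of_mem (mem_Ioi.2 hc),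
          inner_smul_add hu hw]
      · rw [indicator_of_notMem (fun h => hc (hiff.1 h)),
          indicator_of_notMem (s := Ioi (slope τ * ‖perpPart u g'‖)) (fun h => hc (mem_Ioi.1 h))]
    simp_rw [h4]
    rw [integral_indicator measurableSet_Ioi, integral_gaussian_Ioi_id]
    congr 2
    ring
  simp_rw [h3]
  rw [integral_const_mul]
  set hf0 : ℝ → ℝ := fun r : ℝ => Real.exp (-(slope τ ^ 2 / 2) * r ^ 2) with hhf0
  have hh : Integrable (fun g : E => hf0 ‖perpPart u g‖) (stdGaussian E) := by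
    refine Integrable.of_bound (Continuous.aestronglyMeasurable ?_) 1 (Eventually.of_forall fun g => ?_)
    · have := continuous_perpPart u
      fun_prop
    · rw [Real.norm_of_nonneg (Real.exp_pos _).le]
      apply Real.exp_le_one_iff.2
      have : 0 ≤ slope τ ^ 2 / 2 * ‖perpPart u g‖ ^ 2 := by positivity
      linarith
  have h5 := integral_perpPart u hu hh
  simp only [hhf0] at h5
  rw [h5, integral_exp_std (by positivity), finrank_perp u hu, one_add_slope_sq h0 h1]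
  congr 1
  rw [Real.inv_rpow hs2.le, ← Real.rpow_neg hs2.le]
  congr 1
  ring


/-- `∫_0^r y^j e^{-y²/2} dy`. -/
noncomputable def Jint (j : ℕ) (r : ℝ) : ℝ := ∫ y in (0 : ℝ)..r, y ^ j * Real.exp (-y ^ 2 / 2)

/-- Radial distribution function of the standard Gaussian. -/
lemma real_norm_lt_std [Nontrivial E] {j : ℕ} (hj : Module.finrank ℝ E = j + 1) {r : ℝ}
    (hr : 0 ≤ r) :
    (stdGaussian E).real {v : E | ‖v‖ < r} = Jint j r / Dc j := by
  have h1 : (stdGaussian E).real {v : E | ‖v‖ < r}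
      = ∫ v, (Iio r).indicator (fun _ => (1 : ℝ)) ‖v‖ ∂(stdGaussian E) := by
    have hm : MeasurableSet {v : E | ‖v‖ < r} := measurableSet_lt (by fun_prop) (by fun_prop)
    rw [← integral_indicator_one hm]
    congr 1
  rw [h1, radial_std, hj]
  simp only [Nat.add_sub_cancel]
  congr 1
  have h2 : ∀ y : ℝ, y ^ j * Real.exp (-y ^ 2 / 2) * (Iio r).indicator (fun _ => (1 : ℝ)) y
      = (Iio r).indicator (fun y => y ^ j * Real.exp (-y ^ 2 / 2)) y := by
    intro y
    by_cases hy : y ∈ Iio r <;> simp [hy]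
  simp_rw [h2]
  rw [setIntegral_indicator measurableSet_Iio]
  have h3 : Ioi (0 : ℝ) ∩ Iio r = Ioo 0 r := rfl
  rw [h3, Jint, intervalIntegral.integral_of_le hr, integral_Ioc_eq_integral_Ioo]

variable {u : E}

lemma real_perp_lt (hu : ‖u‖ = 1) {j : ℕ} (hj : Module.finrank ℝ E = j + 2) {r : ℝ} (hr : 0 ≤ r) :
    (stdGaussian E).real {g : E | ‖perpPart u g‖ < r} = Jint j r / Dc j := by
  have h1 : Module.finrank ℝ ((ℝ ∙ u)ᗮ : Submodule ℝ E) = j + 1 := by
    rw [finrank_perp u hu, hj]; rfl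
  have hpos : 0 < Module.finrank ℝ ((ℝ ∙ u)ᗮ : Submodule ℝ E) := by omega
  have : Nontrivial ((ℝ ∙ u)ᗮ : Submodule ℝ E) := Module.nontrivial_of_finrank_pos hpos
  rw [← real_norm_lt_std h1 hr]
  have hm : MeasurableSet {g : E | ‖perpPart u g‖ < r} :=
    measurableSet_lt ((continuous_perpPart u).norm.measurable) measurable_const
  have hint : Integrable (fun g : E => (Iio r).indicator (fun _ => (1 : ℝ)) ‖perpPart u g‖)
      (stdGaussian E) := by
    refine Integrable.of_bound ?_ 1 (Eventually.of_forall fun g => ?_)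
    · refine Measurable.aestronglyMeasurable ?_
      exact (measurable_const.indicator measurableSet_Iio).comp
        ((continuous_perpPart u).norm.measurable)
    · by_cases hy : ‖perpPart u g‖ ∈ Iio r <;> simp [hy]
  have h2 := integral_perpPart u hu hint
  have hm2 : MeasurableSet {v : ((ℝ ∙ u)ᗮ : Submodule ℝ E) | ‖v‖ < r} :=
    measurableSet_lt (by fun_prop) (by fun_prop)
  rw [← integral_indicator_one hm, ← integral_indicator_one hm2]
  refine Eq.trans ?_ (h2.trans ?_)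
  · refine integral_congr_ae (Eventually.of_forall fun g => ?_)
    by_cases hg : ‖perpPart u g‖ < r
    · simp [indicator, hg]
    · simp [indicator, hg]
  · refine integral_congr_ae (Eventually.of_forall fun g => ?_)
    by_cases hg : ‖g‖ < r
    · simp [indicator, hg]
    · simp [indicator, hg]

lemma real_slope_lt (hu : ‖u‖ = 1) {τ : ℝ} (h0 : 0 < τ) (h1 : τ < 1) {j : ℕ}
    (hj : Module.finrank ℝ E = j + 2) (ξ : ℝ) :
    (stdGaussian E).real {g : E | ξ • u + (g - ⟪u, g⟫ • u) ∈ capCone u τ}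
      = (Ioi (0 : ℝ)).indicator (fun ξ => Jint j (ξ / slope τ) / Dc j) ξ := by
  have hc := slope_pos h0 h1
  have hset : {g : E | ξ • u + (g - ⟪u, g⟫ • u) ∈ capCone u τ}
      = {g : E | slope τ * ‖perpPart u g‖ < ξ} := by
    ext g
    exact mem_capCone_iff hu h0 h1 (inner_perpPart u hu g) ξ
  rw [hset]
  by_cases hξ : 0 < ξ
  · rw [indicator_of_mem (mem_Ioi.2 hξ)]
    have : {g : E | slope τ * ‖perpPart u g‖ < ξ} = {g : E | ‖perpPart u g‖ < ξ / slope τ} := by
      ext g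
      simp only [mem_ofPred_eq]
      rw [lt_div_iff₀ hc, mul_comm]
    rw [this]
    exact real_perp_lt hu hj (by positivity)
  · rw [indicator_of_notMem (fun h => hξ (mem_Ioi.1 h))]
    have : {g : E | slope τ * ‖perpPart u g‖ < ξ} = ∅ := by
      ext g
      simp only [mem_ofPred_eq, mem_empty_iff_false, iff_false, not_lt]
      have : 0 ≤ slope τ * ‖perpPart u g‖ := by positivity
      linarith [not_lt.1 hξ]
    rw [this]
    simp


/-! ### The sector integral -/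

lemma integrableOn_pow_exp (j : ℕ) {b : ℝ} (hb : 0 < b) :
    IntegrableOn (fun y : ℝ => y ^ j * Real.exp (-(b / 2) * y ^ 2)) (Ioi 0) := by
  have h := integrableOn_rpow_mul_exp_neg_mul_rpow (s := (j : ℝ)) (p := 2) (b := b / 2)
    (by have : (0 : ℝ) ≤ j := Nat.cast_nonneg j
        linarith) (by norm_num) (by positivity)
  refine h.congr_fun (fun y hy => ?_) measurableSet_Ioi
  simp only [Real.rpow_natCast]
  rw [show (2 : ℝ) = ((2 : ℕ) : ℝ) by norm_num, Real.rpow_natCast]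

/-- The two-dimensional sector integral. -/
theorem sector_integral (j : ℕ) {lam : ℝ} (hlam : 0 < lam) :
    ∫ ξ in Ioi (0 : ℝ), Real.exp (-ξ ^ 2 / 2) * Jint j (lam * ξ)
      = Dc (j + 1) * ∫ t in (0 : ℝ)..lam, t ^ j * (1 + t ^ 2) ^ (-((j : ℝ) + 2) / 2) := by
  set F : ℝ → ℝ → ℝ := fun ξ t => t ^ j * (ξ ^ (j + 1) * Real.exp (-((1 + t ^ 2) / 2) * ξ ^ 2)) with hF
  -- substitution
  have hsub : ∀ ξ ∈ Ioi (0 : ℝ), Real.exp (-ξ ^ 2 / 2) * Jint j (lam * ξ)
      = ∫ t in Ioc (0 : ℝ) lam, F ξ t := by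
    intro ξ hξ
    have hξ0 : (0 : ℝ) < ξ := hξ
    have h1 := intervalIntegral.integral_comp_mul_right (a := 0) (b := lam)
      (fun y : ℝ => y ^ j * Real.exp (-y ^ 2 / 2)) hξ0.ne'
    simp only [zero_mul] at h1
    unfold Jint
    rw [← intervalIntegral.integral_of_le hlam.le, mul_comm lam ξ]
    have h2 : ∫ y in (0 : ℝ)..(ξ * lam), y ^ j * Real.exp (-y ^ 2 / 2)
        = ξ * ∫ t in (0 : ℝ)..lam, (t * ξ) ^ j * Real.exp (-(t * ξ) ^ 2 / 2) := by
      rw [h1, mul_comm ξ lam, smul_eq_mul, ← mul_assoc, mul_inv_cancel₀ hξ0.ne', one_mul]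
    rw [h2, ← intervalIntegral.integral_const_mul, ← intervalIntegral.integral_const_mul]
    refine intervalIntegral.integral_congr fun t _ => ?_
    simp only [hF]
    have : Real.exp (-((1 + t ^ 2) / 2) * ξ ^ 2)
        = Real.exp (-ξ ^ 2 / 2) * Real.exp (-(t * ξ) ^ 2 / 2) := by
      rw [← Real.exp_add]
      congr 1
      ring
    rw [this, mul_pow, pow_succ ξ j]
    ring
  rw [setIntegral_congr_fun measurableSet_Ioi hsub]
  -- Fubini
  have hint : Integrable (Function.uncurry F)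
      ((volume.restrict (Ioi (0 : ℝ))).prod (volume.restrict (Ioc (0 : ℝ) lam))) := by
    have hG : Integrable (fun p : ℝ × ℝ => (p.1 ^ (j + 1) * Real.exp (-(1 / 2) * p.1 ^ 2)) * lam ^ j)
        ((volume.restrict (Ioi (0 : ℝ))).prod (volume.restrict (Ioc (0 : ℝ) lam))) := by
      have h1 := integrableOn_pow_exp (j + 1) (b := 1) (by norm_num)
      have h2 : Integrable (fun _ : ℝ => lam ^ j) (volume.restrict (Ioc (0 : ℝ) lam)) :=
        integrable_const _
      exact Integrable.mul_prod h1 h2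
    refine hG.mono' ?_ ?_
    · apply Measurable.aestronglyMeasurable
      simp only [Function.uncurry_def, hF]
      fun_prop
    · rw [Measure.prod_restrict]
      refine (ae_restrict_iff' (measurableSet_Ioi.prod measurableSet_Ioc)).2
        (Eventually.of_forall fun p hp => ?_)
      have hξ : (0 : ℝ) < p.1 := hp.1
      have ht0 : (0 : ℝ) < p.2 := hp.2.1
      have ht1 : p.2 ≤ lam := hp.2.2
      simp only [Function.uncurry_def, hF]
      rw [Real.norm_of_nonneg (by positivity)]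
      have h3 : Real.exp (-((1 + p.2 ^ 2) / 2) * p.1 ^ 2) ≤ Real.exp (-(1 / 2) * p.1 ^ 2) := by
        apply Real.exp_le_exp.2
        nlinarith [mul_nonneg (sq_nonneg p.2) (sq_nonneg p.1)]
      have h4 : p.2 ^ j ≤ lam ^ j := pow_le_pow_left₀ ht0.le ht1 j
      calc p.2 ^ j * (p.1 ^ (j + 1) * Real.exp (-((1 + p.2 ^ 2) / 2) * p.1 ^ 2))
          ≤ lam ^ j * (p.1 ^ (j + 1) * Real.exp (-(1 / 2) * p.1 ^ 2)) := by
            apply mul_le_mul h4 _ (by positivity) (by positivity)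
            exact mul_le_mul_of_nonneg_left h3 (by positivity)
        _ = _ := by ring
  rw [integral_integral_swap hint, intervalIntegral.integral_of_le hlam.le, ← integral_const_mul]
  refine setIntegral_congr_fun measurableSet_Ioc fun t ht => ?_
  have ht0 : (0 : ℝ) < t := ht.1
  simp only [hF]
  rw [integral_const_mul]
  have hb : 0 < 1 + t ^ 2 := by positivity
  have h5 := integral_pow_exp' (j + 1) hb
  rw [h5]
  have : (-(((j + 1 : ℕ) : ℝ) + 1)) / 2 = -((j : ℝ) + 2) / 2 := by push_cast; ring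
  rw [this]
  ring

/-- The `τ`-dependent upper limit `λ = √(1-τ²)/τ`. -/
noncomputable def lamOf (τ : ℝ) : ℝ := Real.sqrt (1 - τ ^ 2) / τ

lemma lamOf_pos {τ : ℝ} (h0 : 0 < τ) (h1 : τ < 1) : 0 < lamOf τ := by
  have hs2 : 0 < 1 - τ ^ 2 := by nlinarith
  exact div_pos (Real.sqrt_pos.2 hs2) h0

lemma div_slope {τ : ℝ} (h0 : 0 < τ) (h1 : τ < 1) (ξ : ℝ) : ξ / slope τ = lamOf τ * ξ := by
  have hs2 : 0 < 1 - τ ^ 2 := by nlinarith
  unfold slope lamOf
  have := (Real.sqrt_pos.2 hs2).ne'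
  field_simp

/-- `a(τ) = φ₀ (D_{j+1}/D_j) ∫_0^λ t^j (1+t²)^{-(j+2)/2} dt`, where `n = j + 2 = dim E`. -/
theorem real_capCone (hu : ‖u‖ = 1) {τ : ℝ} (h0 : 0 < τ) (h1 : τ < 1) {j : ℕ}
    (hj : Module.finrank ℝ E = j + 2) :
    (stdGaussian E).real (capCone u τ)
      = phi0 * (Dc (j + 1) / Dc j) *
        ∫ t in (0 : ℝ)..(lamOf τ), t ^ j * (1 + t ^ 2) ^ (-((j : ℝ) + 2) / 2) := by
  rw [real_line_split u hu (measurableSet_capCone u τ)]
  simp_rw [real_slope_lt hu h0 h1 hj]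
  rw [integral_indicator measurableSet_Ioi, ← integral_indicator measurableSet_Ioi,
    integral_gaussianReal_std]
  have h2 : ∀ x : ℝ, phi0 * Real.exp (-x ^ 2 / 2) *
        (Ioi (0 : ℝ)).indicator (fun ξ => Jint j (ξ / slope τ) / Dc j) x
      = (Ioi (0 : ℝ)).indicator
          (fun x => (phi0 / Dc j) * (Real.exp (-x ^ 2 / 2) * Jint j (lamOf τ * x))) x := by
    intro x
    by_cases hx : x ∈ Ioi (0 : ℝ)
    · simp only [indicator_of_mem hx]
      rw [div_slope h0 h1]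
      ring
    · simp only [indicator_of_notMem hx]
      ring
  simp_rw [h2]
  rw [integral_indicator measurableSet_Ioi, integral_const_mul, sector_integral j (lamOf_pos h0 h1)]
  have hD := (Dc_pos j).ne'
  field_simp


/-! ### Exact values -/

lemma one_add_lam_sq {τ : ℝ} (h0 : 0 < τ) (h1 : τ < 1) : 1 + lamOf τ ^ 2 = (τ ^ 2)⁻¹ := by
  have hs2 : 0 < 1 - τ ^ 2 := by nlinarith
  unfold lamOf
  rw [div_pow, Real.sq_sqrt hs2.le]
  field_simp
  ring

lemma one_add_lam_rpow {τ : ℝ} (h0 : 0 < τ) (h1 : τ < 1) :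
    (1 + lamOf τ ^ 2) ^ (-(1 / 2) : ℝ) = τ := by
  rw [one_add_lam_sq h0 h1, Real.inv_rpow (by positivity), ← Real.rpow_neg (by positivity),
    ← Real.rpow_natCast τ 2, ← Real.rpow_mul h0.le]
  norm_num

lemma one_add_lam_rpow' {τ : ℝ} (h0 : 0 < τ) (h1 : τ < 1) :
    (1 + lamOf τ ^ 2) ^ (-(3 / 2) : ℝ) = τ ^ 3 := by
  rw [one_add_lam_sq h0 h1, Real.inv_rpow (by positivity), ← Real.rpow_neg (by positivity),
    ← Real.rpow_natCast τ 2, ← Real.rpow_mul h0.le, ← Real.rpow_natCast τ 3]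
  norm_num

lemma hasDerivAt_one_add_sq_rpow (p t : ℝ) :
    HasDerivAt (fun t : ℝ => (1 + t ^ 2) ^ p) (p * (1 + t ^ 2) ^ (p - 1) * (2 * t)) t := by
  have h1 : HasDerivAt (fun t : ℝ => 1 + t ^ 2) (2 * t) t := by
    simpa using (hasDerivAt_pow 2 t).const_add 1
  have h2 := h1.rpow_const (p := p) (Or.inl (by positivity))
  exact h2.congr_deriv (by ring)

/-- `n = 3`. -/
lemma lam_integral_one {τ : ℝ} (h0 : 0 < τ) (h1 : τ < 1) :
    ∫ t in (0 : ℝ)..(lamOf τ), t ^ 1 * (1 + t ^ 2) ^ (-(((1 : ℕ) : ℝ) + 2) / 2) = 1 - τ := by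
  have hder : ∀ t ∈ uIcc (0 : ℝ) (lamOf τ), HasDerivAt (fun t : ℝ => -(1 + t ^ 2) ^ (-(1 / 2) : ℝ))
      (t ^ 1 * (1 + t ^ 2) ^ (-(((1 : ℕ) : ℝ) + 2) / 2)) t := by
    intro t _
    refine (hasDerivAt_one_add_sq_rpow _ t).fun_neg.congr_deriv ?_
    have : (-(1 / 2) : ℝ) - 1 = -(((1 : ℕ) : ℝ) + 2) / 2 := by norm_num
    rw [this]
    ring
  rw [intervalIntegral.integral_eq_sub_of_hasDerivAt hder]
  · rw [one_add_lam_rpow h0 h1]
    norm_num
    ring
  · refine Continuous.intervalIntegrable ?_ _ _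
    refine Continuous.mul (by fun_prop) ?_
    exact Continuous.rpow_const (by fun_prop) (fun t => Or.inl (by positivity))

/-- `n = 5`. -/
lemma lam_integral_three {τ : ℝ} (h0 : 0 < τ) (h1 : τ < 1) :
    ∫ t in (0 : ℝ)..(lamOf τ), t ^ 3 * (1 + t ^ 2) ^ (-(((3 : ℕ) : ℝ) + 2) / 2)
      = 2 / 3 - τ + τ ^ 3 / 3 := by
  have hder : ∀ t ∈ uIcc (0 : ℝ) (lamOf τ), HasDerivAt
      (fun t : ℝ => -(1 + t ^ 2) ^ (-(1 / 2) : ℝ) + (1 / 3) * (1 + t ^ 2) ^ (-(3 / 2) : ℝ))
      (t ^ 3 * (1 + t ^ 2) ^ (-(((3 : ℕ) : ℝ) + 2) / 2)) t := by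
    intro t _
    refine ((hasDerivAt_one_add_sq_rpow _ t).fun_neg.add
      ((hasDerivAt_one_add_sq_rpow _ t).const_mul (1 / 3))).congr_deriv ?_
    have hp : 0 < 1 + t ^ 2 := by positivity
    have e1 : (-(1 / 2) : ℝ) - 1 = -(3 / 2) := by norm_num
    have e2 : (-(3 / 2) : ℝ) - 1 = -(5 / 2) := by norm_num
    have e3 : -(((3 : ℕ) : ℝ) + 2) / 2 = -(5 / 2) := by norm_num
    rw [e1, e2, e3]
    have e4 : (1 + t ^ 2) ^ (-(3 / 2) : ℝ) = (1 + t ^ 2) * (1 + t ^ 2) ^ (-(5 / 2) : ℝ) := by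
      rw [← Real.rpow_one_add' hp.le (by norm_num)]
      norm_num
    rw [e4]
    ring
  rw [intervalIntegral.integral_eq_sub_of_hasDerivAt hder]
  · rw [one_add_lam_rpow h0 h1, one_add_lam_rpow' h0 h1]
    norm_num
    ring
  · refine Continuous.intervalIntegrable ?_ _ _
    refine Continuous.mul (by fun_prop) ?_
    exact Continuous.rpow_const (by fun_prop) (fun t => Or.inl (by positivity))

/-- `n = 4`. -/
lemma lam_integral_two {τ : ℝ} (h0 : 0 < τ) (h1 : τ < 1) :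
    ∫ t in (0 : ℝ)..(lamOf τ), t ^ 2 * (1 + t ^ 2) ^ (-(((2 : ℕ) : ℝ) + 2) / 2)
      = (Real.arccos τ - τ * Real.sqrt (1 - τ ^ 2)) / 2 := by
  have hs2 : 0 < 1 - τ ^ 2 := by nlinarith
  have hder : ∀ t ∈ uIcc (0 : ℝ) (lamOf τ), HasDerivAt
      (fun t : ℝ => (Real.arctan t - t / (1 + t ^ 2)) / 2)
      (t ^ 2 * (1 + t ^ 2) ^ (-(((2 : ℕ) : ℝ) + 2) / 2)) t := by
    intro t _
    have hp : 0 < 1 + t ^ 2 := by positivity
    have h3 : HasDerivAt (fun t : ℝ => 1 + t ^ 2) (2 * t) t := by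
      simpa using (hasDerivAt_pow 2 t).const_add 1
    have h4 := ((Real.hasDerivAt_arctan t).sub ((hasDerivAt_id t).div h3 hp.ne')).div_const 2
    refine h4.congr_deriv ?_
    have e3 : -(((2 : ℕ) : ℝ) + 2) / 2 = -(2 : ℝ) := by norm_num
    rw [e3, Real.rpow_neg hp.le]
    simp only [id_eq]
    have : (1 + t ^ 2) ^ (2 : ℝ) = (1 + t ^ 2) ^ 2 := by
      rw [← Real.rpow_natCast]
      norm_num
    rw [this]
    field_simp
    ring
  rw [intervalIntegral.integral_eq_sub_of_hasDerivAt hder]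
  · have h5 : Real.arctan (lamOf τ) = Real.arccos τ := by
      rw [Real.arctan_eq_arccos (lamOf_pos h0 h1).le, one_add_lam_sq h0 h1]
      congr 1
      rw [Real.sqrt_inv, Real.sqrt_sq h0.le, inv_inv]
    rw [h5, one_add_lam_sq h0 h1]
    unfold lamOf
    simp
    field_simp
  · refine Continuous.intervalIntegrable ?_ _ _
    refine Continuous.mul (by fun_prop) ?_
    exact Continuous.rpow_const (by fun_prop) (fun t => Or.inl (by positivity))


/-! ### The final form of the cap bounds -/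

lemma phi0_sq : phi0 ^ 2 = 1 / (2 * Real.pi) := by
  unfold phi0
  rw [inv_pow, Real.sq_sqrt (by positivity)]
  simp

/-- The mean norm. -/
theorem mean_norm {j : ℕ} (hj : Module.finrank ℝ E = j + 2) :
    ∫ g, ‖g‖ ∂(stdGaussian E) = Dc (j + 2) / Dc (j + 1) := by
  have hpos : 0 < Module.finrank ℝ E := by omega
  have : Nontrivial E := Module.nontrivial_of_finrank_pos hpos
  have h := radial_std (E := E) (fun r => r)
  rw [h, hj]
  simp only [show j + 2 - 1 = j + 1 by omega]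
  congr 1
  unfold Dc
  refine setIntegral_congr_fun measurableSet_Ioi fun y _ => ?_
  rw [pow_succ y (j + 1)]
  ring

lemma nontrivial_of_eq {n : ℕ} (hn : Module.finrank ℝ E = n + 1) : Nontrivial E :=
  Module.nontrivial_of_finrank_pos (by rw [hn]; omega)

/-- **`n = 3`, tangent form.** -/
theorem cap3_tangent (hn : Module.finrank ℝ E = 3) (hu : ‖u‖ = 1) {τ : ℝ} (h0 : 0 < τ) (h1 : τ < 1)
    {A : Set E} (hA : IsConeSet A) (hm : MeasurableSet A) :
    ∫ g in A, ⟪u, g⟫ ∂(stdGaussian E)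
      ≤ phi0 * ((1 - τ) ^ 2 + 4 * τ * (stdGaussian E).real A) := by
  have : Nontrivial E := nontrivial_of_eq (n := 2) hn
  have h := cone_cap_tangent u τ hA hm
  rw [integral_capCone hu h0 h1, mean_norm (j := 1) hn, real_capCone hu h0 h1 (j := 1) hn, hn,
    lam_integral_one h0 h1] at h
  have hE : (((3 - 1 : ℕ) : ℝ) / 2) = 1 := by norm_num
  rw [hE, Real.rpow_one, Dc_one, Dc_two, show 1 + 2 = 3 from rfl, Dc_three] at h
  have hp := phi0_pos
  refine h.trans (le_of_eq ?_)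
  field_simp
  ring

/-- **`n = 5`, tangent form.** -/
theorem cap5_tangent (hn : Module.finrank ℝ E = 5) (hu : ‖u‖ = 1) {τ : ℝ} (h0 : 0 < τ) (h1 : τ < 1)
    {A : Set E} (hA : IsConeSet A) (hm : MeasurableSet A) :
    ∫ g in A, ⟪u, g⟫ ∂(stdGaussian E)
      ≤ phi0 * ((1 - τ ^ 2) ^ 2
          + (16 / 3) * τ * ((stdGaussian E).real A - (2 - 3 * τ + τ ^ 3) / 4)) := by
  have : Nontrivial E := nontrivial_of_eq (n := 4) hn
  have h := cone_cap_tangent u τ hA hm
  rw [integral_capCone hu h0 h1, mean_norm (j := 3) hn, real_capCone hu h0 h1 (j := 3) hn, hn,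
    lam_integral_three h0 h1] at h
  have hE : (((5 - 1 : ℕ) : ℝ) / 2) = ((2 : ℕ) : ℝ) := by norm_num
  rw [hE, Real.rpow_natCast, show 3 + 1 = 4 from rfl, show 3 + 2 = 5 from rfl, Dc_three, Dc_four,
    Dc_five] at h
  have hp := phi0_pos
  refine h.trans (le_of_eq ?_)
  field_simp
  ring

/-- **`n = 4`, tangent form.** -/
theorem cap4_tangent (hn : Module.finrank ℝ E = 4) (hu : ‖u‖ = 1) {τ : ℝ} (h0 : 0 < τ) (h1 : τ < 1)
    {A : Set E} (hA : IsConeSet A) (hm : MeasurableSet A) :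
    ∫ g in A, ⟪u, g⟫ ∂(stdGaussian E)
      ≤ phi0 * (1 - τ ^ 2) ^ ((3 : ℝ) / 2)
        + τ * (3 / (4 * phi0)) *
          ((stdGaussian E).real A - (Real.arccos τ - τ * Real.sqrt (1 - τ ^ 2)) / Real.pi) := by
  have : Nontrivial E := nontrivial_of_eq (n := 3) hn
  have h := cone_cap_tangent u τ hA hm
  rw [integral_capCone hu h0 h1, mean_norm (j := 2) hn, real_capCone hu h0 h1 (j := 2) hn, hn,
    lam_integral_two h0 h1] at h
  have hE : (((4 - 1 : ℕ) : ℝ) / 2) = (3 : ℝ) / 2 := by norm_num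
  rw [hE, show 2 + 1 = 3 from rfl, show 2 + 2 = 4 from rfl, Dc_two, Dc_three, Dc_four] at h
  have hp := phi0_pos
  have hsq := phi0_sq
  have hpi : Real.pi ≠ 0 := Real.pi_ne_zero
  have key : phi0 * (2 / (1 / (2 * phi0)))
      * ((Real.arccos τ - τ * Real.sqrt (1 - τ ^ 2)) / 2)
      = (Real.arccos τ - τ * Real.sqrt (1 - τ ^ 2)) / Real.pi := by
    have : phi0 * (2 / (1 / (2 * phi0))) = 4 * phi0 ^ 2 := by field_simp; ring
    rw [this, hsq]
    field_simp
    ring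
  rw [key] at h
  refine h.trans (le_of_eq ?_)
  field_simp
  ring

/-! ### Complements and the closed form for `n = 3` -/

/-- A cone and its complement have opposite moments. -/
lemma setIntegral_inner_compl (u : E) {A : Set E} (hm : MeasurableSet A) :
    ∫ g in A, ⟪u, g⟫ ∂(stdGaussian E) = ∫ g in Aᶜ, ⟪-u, g⟫ ∂(stdGaussian E) := by
  have h1 := integral_add_compl hm (integrable_inner_std (E := E) u)
  rw [integral_inner_std] at h1
  simp only [inner_neg_left]
  rw [integral_neg]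
  linarith

lemma real_compl_std {A : Set E} (hm : MeasurableSet A) :
    (stdGaussian E).real Aᶜ = 1 - (stdGaussian E).real A := by
  rw [probReal_compl_eq_one_sub hm]

/-- **`n = 3`, closed form**, half-range. -/
theorem cap3_half (hn : Module.finrank ℝ E = 3) (hu : ‖u‖ = 1)
    {A : Set E} (hA : IsConeSet A) (hm : MeasurableSet A) (ha : (stdGaussian E).real A ≤ 1 / 2) :
    ∫ g in A, ⟪u, g⟫ ∂(stdGaussian E)
      ≤ 4 * phi0 * ((stdGaussian E).real A * (1 - (stdGaussian E).real A)) := by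
  set a := (stdGaussian E).real A with hadef
  set X := ∫ g in A, ⟪u, g⟫ ∂(stdGaussian E)
  have ha0 : 0 ≤ a := measureReal_nonneg
  have hcl : IsClosed {τ : ℝ | X ≤ phi0 * ((1 - τ) ^ 2 + 4 * τ * a)} :=
    isClosed_le continuous_const (by fun_prop)
  have hsub : Ioo (0 : ℝ) 1 ⊆ {τ : ℝ | X ≤ phi0 * ((1 - τ) ^ 2 + 4 * τ * a)} :=
    fun τ hτ => cap3_tangent hn hu hτ.1 hτ.2 hA hm
  have hcl2 : Icc (0 : ℝ) 1 ⊆ {τ : ℝ | X ≤ phi0 * ((1 - τ) ^ 2 + 4 * τ * a)} := by
    have := closure_minimal hsub hcl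
    rwa [closure_Ioo (by norm_num)] at this
  have h := hcl2 (show (1 - 2 * a) ∈ Icc (0 : ℝ) 1 from ⟨by linarith, by linarith⟩)
  refine le_trans h (le_of_eq ?_)
  ring

/-- **`n = 3`, closed form**: `σ ≤ 4 φ₀ a (1-a) = 2 √(2/π) a (1-a)`. -/
theorem cap3 (hn : Module.finrank ℝ E = 3) (hu : ‖u‖ = 1)
    {A : Set E} (hA : IsConeSet A) (hm : MeasurableSet A) :
    ∫ g in A, ⟪u, g⟫ ∂(stdGaussian E)
      ≤ 4 * phi0 * ((stdGaussian E).real A * (1 - (stdGaussian E).real A)) := by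
  by_cases ha : (stdGaussian E).real A ≤ 1 / 2
  · exact cap3_half hn hu hA hm ha
  · have hc := real_compl_std (E := E) hm
    have h2 : (stdGaussian E).real Aᶜ ≤ 1 / 2 := by rw [hc]; linarith [not_le.1 ha]
    have hu' : ‖-u‖ = 1 := by rwa [norm_neg]
    have h3 := cap3_half hn hu' hA.compl hm.compl h2
    rw [setIntegral_inner_compl u hm]
    refine h3.trans (le_of_eq ?_)
    rw [hc]
    ring

/-- From directional bounds to the norm of the moment. -/
lemma norm_setIntegral_le {A : Set E} {C : ℝ} (hC : 0 ≤ C)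
    (h : ∀ u : E, ‖u‖ = 1 → ∫ g in A, ⟪u, g⟫ ∂(stdGaussian E) ≤ C) :
    ‖∫ g in A, g ∂(stdGaussian E)‖ ≤ C := by
  set m := ∫ g in A, g ∂(stdGaussian E)
  by_cases hm0 : m = 0
  · rw [hm0, norm_zero]; exact hC
  · have hnorm : 0 < ‖m‖ := norm_pos_iff.2 hm0
    have hu : ‖(‖m‖⁻¹ • m)‖ = 1 := by
      rw [norm_smul, norm_inv, norm_norm, inv_mul_cancel₀ hnorm.ne']
    have h1 := h _ hu
    have h2 : ∫ g in A, ⟪‖m‖⁻¹ • m, g⟫ ∂(stdGaussian E) = ⟪‖m‖⁻¹ • m, m⟫ := by
      have := integral_inner (𝕜 := ℝ) (μ := (stdGaussian E).restrict A)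
        (f := fun g => g) integrable_id_std.integrableOn (‖m‖⁻¹ • m)
      exact this
    rw [h2, real_inner_smul_left, real_inner_self_eq_norm_sq] at h1
    have h3 : ‖m‖⁻¹ * ‖m‖ ^ 2 = ‖m‖ := by field_simp
    rwa [h3] at h1

/-- The norm version of `cap3`. -/
theorem norm_moment_cap3 (hn : Module.finrank ℝ E = 3)
    {A : Set E} (hA : IsConeSet A) (hm : MeasurableSet A) :
    ‖∫ g in A, g ∂(stdGaussian E)‖
      ≤ 4 * phi0 * ((stdGaussian E).real A * (1 - (stdGaussian E).real A)) := by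
  refine norm_setIntegral_le ?_ fun u hu => cap3 hn hu hA hm
  have h1 : (stdGaussian E).real A ≤ 1 := measureReal_le_one
  have h0 : 0 ≤ (stdGaussian E).real A := measureReal_nonneg
  have := phi0_pos
  have : 0 ≤ (stdGaussian E).real A * (1 - (stdGaussian E).real A) :=
    mul_nonneg h0 (by linarith)
  positivity

end cap

end Crest.Agent.Propeller
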