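import Crest.Agent.Lib.Propeller.PairSet
import Crest.Agent.Lib.Propeller.ConeCapExact

/-!
# Propeller: the three-dimensional small ball

* `tetra_bound`: `P(⟪u,g⟫<A, ⟪v,g⟫<B, ⟪w,g⟫<C, ⟪u+v+w,g⟫>-D) ≤ (A+B+C+D)₊³/(6 (2π)^{3/2} T₀)`,
  `T₀² = det Gram(u,v,w)`;
* `simplex_bound3`, `posPart_bound3`: for a zero-sum family on `T`.
-/

set_option autoImplicit false
set_option linter.unusedSectionVars false
open MeasureTheory ProbabilityTheory
open scoped RealInnerProductSpace NNReal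

namespace Crest.Agent.Propeller

universe u v

variable {E : Type u} [NormedAddCommGroup E] [InnerProductSpace ℝ E] [FiniteDimensional ℝ E]
  [MeasurableSpace E] [BorelSpace E]

/-- The Gram determinant of three vectors. -/
noncomputable def gram3 (u v w : E) : ℝ :=
  ‖u‖ ^ 2 * ‖v‖ ^ 2 * ‖w‖ ^ 2 + 2 * ⟪u, v⟫ * ⟪u, w⟫ * ⟪v, w⟫
    - ‖u‖ ^ 2 * ⟪v, w⟫ ^ 2 - ‖v‖ ^ 2 * ⟪u, w⟫ ^ 2 - ‖w‖ ^ 2 * ⟪u, v⟫ ^ 2

lemma tri2_eq (p q c : ℝ) (hq : 0 < q) :
    (Set.Iio c).indicator (fun ξ => (max 0 (p + q * ξ)) ^ 2)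
      = (Set.Ioo (-p / q) c).indicator (fun ξ => (p + q * ξ) ^ 2) := by
  set s : ℝ := -p / q with hs
  have hps : p + q * s = 0 := by rw [hs]; field_simp; ring
  ext ξ
  by_cases h1 : ξ < c
  · by_cases h2 : s < ξ
    · have : 0 ≤ p + q * ξ := by nlinarith
      simp [h1, h2, Set.indicator, max_eq_right this]
    · have : p + q * ξ ≤ 0 := by
        have : ξ ≤ s := not_lt.1 h2
        nlinarith
      simp [h1, h2, Set.indicator, max_eq_left this]
  · simp [h1, Set.indicator]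

lemma integrable_tri2 (p q c : ℝ) (hq : 0 < q) :
    Integrable ((Set.Iio c).indicator (fun ξ => (max 0 (p + q * ξ)) ^ 2)) := by
  rw [tri2_eq p q c hq, integrable_indicator_iff measurableSet_Ioo]
  have h1 : Continuous (fun ξ : ℝ => (p + q * ξ) ^ 2) := by fun_prop
  exact (h1.integrableOn_Icc (a := -p / q) (b := c)).mono_set Set.Ioo_subset_Icc_self

/-- `∫_{ξ<c} (p+qξ)₊² dξ = (p+qc)₊³/(3q)`. -/
lemma integral_tri2 (p q c : ℝ) (hq : 0 < q) :
    ∫ ξ : ℝ, (Set.Iio c).indicator (fun ξ => (max 0 (p + q * ξ)) ^ 2) ξ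
      = (max 0 (p + q * c)) ^ 3 / (3 * q) := by
  rw [tri2_eq p q c hq]
  set s : ℝ := -p / q with hs
  have hps : p + q * s = 0 := by rw [hs]; field_simp; ring
  by_cases hc : s < c
  · have hval : 0 ≤ p + q * c := by nlinarith
    rw [max_eq_right hval, integral_indicator measurableSet_Ioo]
    rw [← MeasureTheory.integral_Ioc_eq_integral_Ioo, ← intervalIntegral.integral_of_le hc.le]
    have hderiv : ∀ x ∈ Set.uIcc s c,
        HasDerivAt (fun x => (p + q * x) ^ 3 / (3 * q)) ((p + q * x) ^ 2) x := by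
      intro x _
      have h2 : HasDerivAt (fun x => p + q * x) q x := by
        simpa using ((hasDerivAt_id x).const_mul q).const_add p
      refine HasDerivAt.congr_deriv (f' := ((3 : ℕ) * (p + q * x) ^ (3 - 1) * q) / (3 * q))
        ((h2.pow 3).div_const (3 * q)) ?_
      norm_num
      field_simp
    rw [intervalIntegral.integral_eq_sub_of_hasDerivAt hderiv]
    · rw [hps]
      ring
    · apply Continuous.intervalIntegrable
      fun_prop
  · have hval : p + q * c ≤ 0 := by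
      have : c ≤ s := not_lt.1 hc
      nlinarith
    rw [max_eq_left hval, Set.Ioo_eq_empty hc]
    simp

/-- **Tetrahedron small ball.** -/
theorem tetra_bound (u v w : E) (T₀ : ℝ) (hT : 0 < T₀) (hT2 : T₀ ^ 2 = gram3 u v w)
    (A B C D : ℝ) :
    (stdGaussian E).real
      {g : E | ⟪u, g⟫ < A ∧ ⟪v, g⟫ < B ∧ ⟪w, g⟫ < C ∧ -D < ⟪u, g⟫ + ⟪v, g⟫ + ⟪w, g⟫}
      ≤ (max 0 (A + B + C + D)) ^ 3 / (12 * Real.pi * Real.sqrt (2 * Real.pi) * T₀) := by
  have hu0 : u ≠ 0 := by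
    rintro rfl
    simp [gram3] at hT2
    exact hT.ne' hT2
  have hn : 0 < ‖u‖ := norm_pos_iff.2 hu0
  obtain ⟨e, he, hue⟩ : ∃ e : E, ‖e‖ = 1 ∧ u = ‖u‖ • e := by
    refine ⟨(‖u‖)⁻¹ • u, ?_, ?_⟩
    · rw [norm_smul, norm_inv, norm_norm]
      field_simp
    · rw [smul_smul]
      field_simp
      simp
  obtain ⟨α, hα⟩ : ∃ α : ℝ, α = ⟪v, e⟫ := ⟨_, rfl⟩
  obtain ⟨β, hβ⟩ : ∃ β : ℝ, β = ⟪w, e⟫ := ⟨_, rfl⟩
  obtain ⟨v', hv'⟩ : ∃ v' : E, v' = v - α • e := ⟨_, rfl⟩
  obtain ⟨w', hw'⟩ : ∃ w' : E, w' = w - β • e := ⟨_, rfl⟩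
  have hvv : ‖v'‖ ^ 2 = ‖v‖ ^ 2 - α ^ 2 := by
    rw [hv', norm_sub_sq_real, norm_smul, inner_smul_right, mul_pow, he, ← hα]
    simp
    ring
  have hww : ‖w'‖ ^ 2 = ‖w‖ ^ 2 - β ^ 2 := by
    rw [hw', norm_sub_sq_real, norm_smul, inner_smul_right, mul_pow, he, ← hβ]
    simp
    ring
  have hvw : ⟪v', w'⟫ = ⟪v, w⟫ - α * β := by
    rw [hv', hw', inner_sub_left, inner_sub_right, inner_sub_right, inner_smul_left,
      inner_smul_left, inner_smul_right, inner_smul_right, real_inner_self_eq_norm_sq, he,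
      real_inner_comm w e, ← hα, ← hβ]
    simp
    ring
  have huv : ⟪u, v⟫ = ‖u‖ * α := by
    conv_lhs => rw [hue, inner_smul_left]
    simp [hα, real_inner_comm]
  have huw : ⟪u, w⟫ = ‖u‖ * β := by
    conv_lhs => rw [hue, inner_smul_left]
    simp [hβ, real_inner_comm]
  set Δ : ℝ := T₀ / ‖u‖ with hΔdef
  have hΔ : 0 < Δ := div_pos hT hn
  have hΔ2 : Δ ^ 2 = ‖v'‖ ^ 2 * ‖w'‖ ^ 2 - ⟪v', w'⟫ ^ 2 := by
    rw [hΔdef, div_pow, hT2, hvv, hww, hvw]
    unfold gram3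
    rw [huv, huw]
    field_simp
    ring
  have hwe : ⟪v', e⟫ = 0 := by
    rw [hv', inner_sub_left, inner_smul_left, real_inner_self_eq_norm_sq, he, ← hα]
    simp
  have hwe' : ⟪w', e⟫ = 0 := by
    rw [hw', inner_sub_left, inner_smul_left, real_inner_self_eq_norm_sq, he, ← hβ]
    simp
  set Ev : Set E := {g : E | ⟪u, g⟫ < A ∧ ⟪v, g⟫ < B ∧ ⟪w, g⟫ < C ∧ -D < ⟪u, g⟫ + ⟪v, g⟫ + ⟪w, g⟫}
    with hEvdef
  have hEv : MeasurableSet Ev := by
    have h1 : Continuous fun g : E => ⟪u, g⟫ := continuous_const.inner continuous_id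
    have h2 : Continuous fun g : E => ⟪v, g⟫ := continuous_const.inner continuous_id
    have h3 : Continuous fun g : E => ⟪w, g⟫ := continuous_const.inner continuous_id
    exact (measurableSet_lt h1.measurable measurable_const).inter
      ((measurableSet_lt h2.measurable measurable_const).inter
        ((measurableSet_lt h3.measurable measurable_const).inter
          (measurableSet_lt measurable_const ((h1.add h2).add h3).measurable)))
  rw [real_line_split e he hEv]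
  set K : ℝ := (4 * Real.pi * Δ)⁻¹ with hK
  have hKpos : 0 < K := by
    have := Real.pi_pos
    positivity
  set L : ℝ := B + C + D with hL
  set G : ℝ → ℝ := (Set.Iio (A / ‖u‖)).indicator (fun ξ => (max 0 (L + ‖u‖ * ξ)) ^ 2) with hG
  have hGnn : ∀ ξ, 0 ≤ G ξ := by
    intro ξ
    rw [hG]
    exact Set.indicator_nonneg (fun _ _ => by positivity) _
  have hGint : Integrable G := integrable_tri2 _ _ _ hn
  have hpt : ∀ ξ : ℝ, (stdGaussian E).real {g' : E | ξ • e + (g' - ⟪e, g'⟫ • e) ∈ Ev} ≤ K * G ξ := by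
    intro ξ
    have hform : ∀ g' : E, ⟪u, ξ • e + (g' - ⟪e, g'⟫ • e)⟫ = ‖u‖ * ξ
        ∧ ⟪v, ξ • e + (g' - ⟪e, g'⟫ • e)⟫ = ⟪v', g'⟫ + α * ξ
        ∧ ⟪w, ξ • e + (g' - ⟪e, g'⟫ • e)⟫ = ⟪w', g'⟫ + β * ξ := by
      intro g'
      have h0 := inner_line_split e he ξ g'
      refine ⟨?_, ?_, ?_⟩
      · conv_lhs => rw [hue, inner_smul_left]
        simp [h0]
      · have hv : v = v' + α • e := by rw [hv']; abel
        have h1 : ⟪v', ξ • e + (g' - ⟪e, g'⟫ • e)⟫ = ⟪v', g'⟫ := by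
          rw [inner_add_right, inner_sub_right, inner_smul_right, inner_smul_right, hwe]
          simp
        conv_lhs => rw [hv, inner_add_left, inner_smul_left]
        rw [h1, h0]
        simp
      · have hv : w = w' + β • e := by rw [hw']; abel
        have h1 : ⟪w', ξ • e + (g' - ⟪e, g'⟫ • e)⟫ = ⟪w', g'⟫ := by
          rw [inner_add_right, inner_sub_right, inner_smul_right, inner_smul_right, hwe']
          simp
        conv_lhs => rw [hv, inner_add_left, inner_smul_left]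
        rw [h1, h0]
        simp
    by_cases hξ : ξ < A / ‖u‖
    · have hGξ : G ξ = (max 0 (L + ‖u‖ * ξ)) ^ 2 := by
        rw [hG]
        simp [hξ]
      rw [hGξ]
      have hsub : {g' : E | ξ • e + (g' - ⟪e, g'⟫ • e) ∈ Ev}
          ⊆ {g' : E | ⟪v', g'⟫ < B - α * ξ ∧ ⟪w', g'⟫ < C - β * ξ
              ∧ -(D + ‖u‖ * ξ + α * ξ + β * ξ) < ⟪v', g'⟫ + ⟪w', g'⟫} := by
        intro g' hg'
        obtain ⟨_, h2, h3, h4⟩ := hg'
        obtain ⟨hf1, hf2, hf3⟩ := hform g'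
        rw [hf2] at h2
        rw [hf3] at h3
        rw [hf1, hf2, hf3] at h4
        refine ⟨?_, ?_, ?_⟩ <;> linarith
      calc _ ≤ _ := measureReal_mono hsub (by simp)
        _ ≤ (max 0 ((B - α * ξ) + (C - β * ξ) + (D + ‖u‖ * ξ + α * ξ + β * ξ))) ^ 2
              / (4 * Real.pi * Δ) := triangle_bound v' w' Δ hΔ hΔ2 _ _ _
        _ = K * (max 0 (L + ‖u‖ * ξ)) ^ 2 := by
            have : (B - α * ξ) + (C - β * ξ) + (D + ‖u‖ * ξ + α * ξ + β * ξ) = L + ‖u‖ * ξ := by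
              rw [hL]; ring
            rw [this, hK, div_eq_mul_inv, mul_comm]
    · have hGξ : G ξ = 0 := by
        rw [hG]
        simp [hξ]
      have hem : {g' : E | ξ • e + (g' - ⟪e, g'⟫ • e) ∈ Ev} = ∅ := by
        ext g'
        simp only [Set.mem_ofPred_eq, Set.mem_empty_iff_false, iff_false]
        intro h1
        have h1' := h1.1
        rw [(hform g').1] at h1'
        apply hξ
        rw [lt_div_iff₀ hn, mul_comm]
        exact h1'
      rw [hem, hGξ]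
      simp
  have hGN : ∫ ξ, G ξ ∂(gaussianReal 0 1) ≤ (Real.sqrt (2 * Real.pi))⁻¹ * ∫ ξ, G ξ := by
    rw [integral_gaussianReal_eq_integral_smul one_ne_zero, ← integral_const_mul]
    apply integral_mono_of_nonneg
    · exact Filter.Eventually.of_forall fun ξ => by
        simpa using mul_nonneg (gaussianPDFReal_nonneg 0 1 ξ) (hGnn ξ)
    · exact hGint.const_mul _
    · exact Filter.Eventually.of_forall fun ξ => by
        simpa using mul_le_mul_of_nonneg_right (gaussianPDFReal_one_le ξ) (hGnn ξ)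
  have hGintN : Integrable G (gaussianReal 0 1) := by
    have hmeas : Measurable G :=
      Measurable.indicator (by fun_prop) measurableSet_Iio
    rw [gaussianReal_of_var_ne_zero _ one_ne_zero]
    rw [integrable_withDensity_iff_integrable_smul₀' (measurable_gaussianPDF 0 1).aemeasurable
      (Filter.Eventually.of_forall fun ξ => gaussianPDF_lt_top)]
    refine Integrable.mono' (hGint.const_mul (Real.sqrt (2 * Real.pi))⁻¹)
      (by
        apply Measurable.aestronglyMeasurable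
        exact ((measurable_gaussianPDF 0 1).ennreal_toReal.smul hmeas)) ?_
    refine Filter.Eventually.of_forall fun ξ => ?_
    rw [smul_eq_mul, toReal_gaussianPDF, norm_mul,
      Real.norm_of_nonneg (gaussianPDFReal_nonneg 0 1 ξ), Real.norm_of_nonneg (hGnn ξ)]
    exact mul_le_mul_of_nonneg_right (gaussianPDFReal_one_le ξ) (hGnn ξ)
  have hfint : Integrable (fun ξ : ℝ => (stdGaussian E).real
      {g' : E | ξ • e + (g' - ⟪e, g'⟫ • e) ∈ Ev}) (gaussianReal 0 1) := by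
    have hs : MeasurableSet {p : ℝ × E | p.1 • e + (p.2 - ⟪e, p.2⟫ • e) ∈ Ev} := by
      have h1 : Continuous (fun p : ℝ × E => p.1 • e + (p.2 - ⟪e, p.2⟫ • e)) := by fun_prop
      exact h1.measurable hEv
    have hm := (measurable_measure_prodMk_left (ν := stdGaussian E) hs).ennreal_toReal
    refine Integrable.mono' (integrable_const (1 : ℝ)) hm.aestronglyMeasurable
      (Filter.Eventually.of_forall fun ξ => ?_)
    rw [Real.norm_of_nonneg measureReal_nonneg]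
    exact measureReal_le_one
  calc _ ≤ ∫ ξ, K * G ξ ∂(gaussianReal 0 1) :=
        integral_mono hfint (hGintN.const_mul K) hpt
    _ = K * ∫ ξ, G ξ ∂(gaussianReal 0 1) := integral_const_mul _ _
    _ ≤ K * ((Real.sqrt (2 * Real.pi))⁻¹ * ∫ ξ, G ξ) := mul_le_mul_of_nonneg_left hGN hKpos.le
    _ = _ := by
        rw [hG, integral_tri2 _ _ _ hn, hK]
        have h1 : L + ‖u‖ * (A / ‖u‖) = A + B + C + D := by
          rw [hL]
          field_simp
          ring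
        rw [h1, hΔdef]
        have hpi := Real.pi_pos
        have h3 : 0 < Real.sqrt (2 * Real.pi) := by positivity
        field_simp
        ring

section simplex

variable {ι : Type v} [DecidableEq ι]

omit [NormedAddCommGroup E] [InnerProductSpace ℝ E] [FiniteDimensional ℝ E] [MeasurableSpace E] [BorelSpace E] in
lemma sum_split_three {M : Type*} [AddCommMonoid M] (T : Finset ι) {a b c : ι} (ha : a ∈ T)
    (hb : b ∈ T.erase a) (hc : c ∈ (T.erase a).erase b) (f : ι → M) :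
    ∑ i ∈ T, f i = f a + (f b + (f c + ∑ i ∈ ((T.erase a).erase b).erase c, f i)) := by
  rw [← Finset.add_sum_erase T f ha, ← Finset.add_sum_erase (T.erase a) f hb,
    ← Finset.add_sum_erase ((T.erase a).erase b) f hc]

/-- The simplex event forces a triple into a tetrahedron. -/
theorem simplex_bound3 (T : Finset ι) (h : ι → E) (hsum : ∑ i ∈ T, h i = 0) {a b c : ι}
    (ha : a ∈ T) (hb : b ∈ T) (hc : c ∈ T) (hab : a ≠ b) (hac : a ≠ c) (hbc : b ≠ c)
    (T₀ : ℝ) (hT : 0 < T₀) (hT2 : T₀ ^ 2 = gram3 (h a) (h b) (h c)) (d : ι → ℝ) :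
    (stdGaussian E).real {y : E | ∀ i ∈ T, ⟪h i, y⟫ < d i}
      ≤ (max 0 (∑ i ∈ T, d i)) ^ 3 / (12 * Real.pi * Real.sqrt (2 * Real.pi) * T₀) := by
  have hbe : b ∈ T.erase a := Finset.mem_erase.2 ⟨hab.symm, hb⟩
  have hce : c ∈ (T.erase a).erase b :=
    Finset.mem_erase.2 ⟨hbc.symm, Finset.mem_erase.2 ⟨hac.symm, hc⟩⟩
  set R := ((T.erase a).erase b).erase c with hR
  have hne : R.Nonempty := by
    by_contra hemp
    rw [Finset.not_nonempty_iff_eq_empty] at hemp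
    have h1 : ∑ i ∈ T, h i = h a + (h b + (h c + ∑ i ∈ R, h i)) := sum_split_three T ha hbe hce h
    rw [hsum, hemp, Finset.sum_empty, add_zero] at h1
    have h2 : h c = -(h a + h b) := by
      have h3 : (h a + h b) + h c = 0 := by rw [add_assoc]; exact h1.symm
      exact eq_neg_of_add_eq_zero_right h3
    have h4 : T₀ ^ 2 = 0 := by
      rw [hT2]
      unfold gram3
      rw [h2, norm_neg, inner_neg_right, inner_neg_right, inner_add_right, inner_add_right,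
        real_inner_self_eq_norm_sq, real_inner_self_eq_norm_sq, norm_add_sq_real,
        real_inner_comm (h a) (h b)]
      ring
    exact (pow_pos hT 2).ne' h4
  have hsub : {y : E | ∀ i ∈ T, ⟪h i, y⟫ < d i}
      ⊆ {y : E | ⟪h a, y⟫ < d a ∧ ⟪h b, y⟫ < d b ∧ ⟪h c, y⟫ < d c
          ∧ -(∑ i ∈ R, d i) < ⟪h a, y⟫ + ⟪h b, y⟫ + ⟪h c, y⟫} := by
    intro y hy
    refine ⟨hy a ha, hy b hb, hy c hc, ?_⟩
    have h1 : ∑ i ∈ R, ⟪h i, y⟫ < ∑ i ∈ R, d i :=
      Finset.sum_lt_sum_of_nonempty hne fun i hi =>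
        hy i (Finset.mem_of_mem_erase (Finset.mem_of_mem_erase (Finset.mem_of_mem_erase hi)))
    have h2 : ∑ i ∈ T, ⟪h i, y⟫ = 0 := by
      rw [← sum_inner, hsum, inner_zero_left]
    have h3 : ∑ i ∈ T, ⟪h i, y⟫ = ⟪h a, y⟫ + (⟪h b, y⟫ + (⟪h c, y⟫ + ∑ i ∈ R, ⟪h i, y⟫)) :=
      sum_split_three T ha hbe hce (fun i => ⟪h i, y⟫)
    rw [h3] at h2
    linarith
  calc _ ≤ _ := measureReal_mono hsub (by simp)
    _ ≤ (max 0 (d a + d b + d c + ∑ i ∈ R, d i)) ^ 3
          / (12 * Real.pi * Real.sqrt (2 * Real.pi) * T₀) :=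
        tetra_bound _ _ _ T₀ hT hT2 _ _ _ _
    _ = _ := by
        have h3 : ∑ i ∈ T, d i = d a + (d b + (d c + ∑ i ∈ R, d i)) :=
          sum_split_three T ha hbe hce d
        rw [h3]
        congr 3
        ring

/-- `(L - τ t)₊³` on `t > 0`. -/
lemma ramp3_eq (L τ : ℝ) (hτ : 0 < τ) :
    (Set.Ioi (0 : ℝ)).indicator (fun t => (max 0 (L - τ * t)) ^ 3)
      = (Set.Ioo 0 (L / τ)).indicator (fun t => (L - τ * t) ^ 3) := by
  ext t
  by_cases h0 : 0 < t
  · by_cases h1 : t < L / τ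
    · have : 0 ≤ L - τ * t := by
        rw [lt_div_iff₀ hτ] at h1
        nlinarith
      simp [h0, h1, Set.indicator, max_eq_right this]
    · have : L - τ * t ≤ 0 := by
        rw [not_lt, div_le_iff₀ hτ] at h1
        nlinarith
      simp [h0, h1, Set.indicator, max_eq_left this]
  · simp [h0, Set.indicator]

lemma integrable_ramp3 (L τ : ℝ) (hτ : 0 < τ) :
    IntegrableOn (fun t => (max 0 (L - τ * t)) ^ 3) (Set.Ioi 0) := by
  rw [← integrable_indicator_iff measurableSet_Ioi, ramp3_eq L τ hτ,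
    integrable_indicator_iff measurableSet_Ioo]
  have h1 : Continuous (fun t : ℝ => (L - τ * t) ^ 3) := by fun_prop
  exact (h1.integrableOn_Icc (a := 0) (b := L / τ)).mono_set Set.Ioo_subset_Icc_self

lemma integral_ramp3 (L τ : ℝ) (hτ : 0 < τ) :
    ∫ t in Set.Ioi (0 : ℝ), (max 0 (L - τ * t)) ^ 3 = (max 0 L) ^ 4 / (4 * τ) := by
  rw [← integral_indicator measurableSet_Ioi, ramp3_eq L τ hτ]
  by_cases hL : 0 < L
  · have hc : 0 < L / τ := by positivity
    rw [max_eq_right hL.le, integral_indicator measurableSet_Ioo,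
      ← MeasureTheory.integral_Ioc_eq_integral_Ioo, ← intervalIntegral.integral_of_le hc.le]
    have hderiv : ∀ x ∈ Set.uIcc 0 (L / τ),
        HasDerivAt (fun x => -(L - τ * x) ^ 4 / (4 * τ)) ((L - τ * x) ^ 3) x := by
      intro x _
      have h2 : HasDerivAt (fun x => L - τ * x) (-τ) x := by
        simpa using ((hasDerivAt_id x).const_mul τ).const_sub L
      refine HasDerivAt.congr_deriv (f' := -((4 : ℕ) * (L - τ * x) ^ (4 - 1) * (-τ)) / (4 * τ))
        (((h2.pow 4).neg).div_const (4 * τ)) ?_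
      norm_num
      field_simp
    rw [intervalIntegral.integral_eq_sub_of_hasDerivAt hderiv]
    · have : L - τ * (L / τ) = 0 := by field_simp; ring
      rw [this]
      simp
      ring
    · apply Continuous.intervalIntegrable
      fun_prop
  · have hc : L / τ ≤ 0 := div_nonpos_of_nonpos_of_nonneg (not_lt.1 hL) hτ.le
    rw [Set.Ioo_eq_empty (not_lt.2 hc), max_eq_left (not_lt.1 hL)]
    simp

/-- Integrated simplex bound in the tetrahedron form. -/
theorem posPart_bound3 (T : Finset ι) (h : ι → E) (hsum : ∑ i ∈ T, h i = 0) {a b c : ι}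
    (ha : a ∈ T) (hb : b ∈ T) (hc : c ∈ T) (hab : a ≠ b) (hac : a ≠ c) (hbc : b ≠ c)
    (T₀ : ℝ) (hT : 0 < T₀) (hT2 : T₀ ^ 2 = gram3 (h a) (h b) (h c))
    (A : ℝ) (μ : ι → ℝ) (Y : E → ℝ)
    (hY : ∀ y t, Y y < t → ∀ i ∈ T, ⟪h i, y⟫ + μ i < t)
    (hint : Integrable (fun y => max 0 (A - Y y)) (stdGaussian E)) :
    ∫ y, max 0 (A - Y y) ∂(stdGaussian E)
      ≤ (max 0 ((T.card : ℝ) * A - ∑ i ∈ T, μ i)) ^ 4
        / (48 * Real.pi * Real.sqrt (2 * Real.pi) * (T.card : ℝ) * T₀) := by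
  have hcard : 0 < (T.card : ℝ) := by
    have : 0 < T.card := Finset.card_pos.2 ⟨a, ha⟩
    exact_mod_cast this
  rw [Integrable.integral_eq_integral_meas_lt hint
    (Filter.Eventually.of_forall fun y => le_max_left _ _)]
  set L : ℝ := (T.card : ℝ) * A - ∑ i ∈ T, μ i with hL
  set K : ℝ := 12 * Real.pi * Real.sqrt (2 * Real.pi) * T₀ with hK
  have hKpos : 0 < K := by
    have := Real.pi_pos
    positivity
  have hpt : ∀ t ∈ Set.Ioi (0 : ℝ), (stdGaussian E).real {y : E | t < max 0 (A - Y y)}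
      ≤ (max 0 (L - (T.card : ℝ) * t)) ^ 3 / K := by
    intro t ht
    have hsub : {y : E | t < max 0 (A - Y y)} ⊆ {y : E | ∀ i ∈ T, ⟪h i, y⟫ < (A - t) - μ i} := by
      intro y hy i hi
      have h1 : t < A - Y y := by
        have hy' : t < max 0 (A - Y y) := hy
        rcases lt_max_iff.1 hy' with h2 | h2
        · exact absurd h2 (not_lt.2 (le_of_lt ht))
        · exact h2
      have := hY y (A - t) (by linarith) i hi
      linarith
    have hsum2 : ∑ i ∈ T, ((A - t) - μ i) = L - (T.card : ℝ) * t := by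
      rw [Finset.sum_sub_distrib, Finset.sum_const, nsmul_eq_mul, hL]
      ring
    calc _ ≤ _ := measureReal_mono hsub (by simp)
      _ ≤ _ := simplex_bound3 T h hsum ha hb hc hab hac hbc T₀ hT hT2 (fun i => (A - t) - μ i)
      _ = _ := by rw [hsum2]
  have hRamp := integrable_ramp3 L _ hcard
  have hRHSint : IntegrableOn (fun t => (max 0 (L - (T.card : ℝ) * t)) ^ 3 / K)
      (Set.Ioi 0) := hRamp.div_const _
  calc ∫ t in Set.Ioi (0 : ℝ), (stdGaussian E).real {y : E | t < max 0 (A - Y y)}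
      ≤ ∫ t in Set.Ioi (0 : ℝ), (max 0 (L - (T.card : ℝ) * t)) ^ 3 / K := by
        have hnn : ∀ t ∈ Set.Ioi (0 : ℝ), 0 ≤ (stdGaussian E).real {y : E | t < max 0 (A - Y y)} :=
          fun _ _ => measureReal_nonneg
        refine integral_mono_of_nonneg ?_ hRHSint ?_
        · exact (ae_restrict_iff' measurableSet_Ioi).2 (Filter.Eventually.of_forall hnn)
        · exact (ae_restrict_iff' measurableSet_Ioi).2 (Filter.Eventually.of_forall hpt)
    _ = _ := by
        rw [integral_div, integral_ramp3 L _ hcard, hK]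
        have hpi := Real.pi_pos
        have h3 : 0 < Real.sqrt (2 * Real.pi) := by positivity
        field_simp
        ring

end simplex

section moments

lemma integrable_pos_pow_gaussian (p : ℕ) (v : ℝ≥0) :
    Integrable (fun ξ : ℝ => (max 0 ξ) ^ p) (gaussianReal 0 v) := by
  have h1 : MemLp (id : ℝ → ℝ) ((p : ℕ) : ENNReal) (gaussianReal 0 v) := by
    have := memLp_id_gaussianReal (μ := 0) (v := v) (p : ℝ≥0)
    simpa using this
  by_cases hp : p = 0
  · subst hp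
    simp
  have h2 := h1.integrable_norm_pow hp
  refine Integrable.mono' h2 (by
    apply Measurable.aestronglyMeasurable
    fun_prop) (Filter.Eventually.of_forall fun ξ => ?_)
  have h3 : 0 ≤ max 0 ξ := le_max_left _ _
  rw [Real.norm_of_nonneg (pow_nonneg h3 p)]
  simp only [id, Real.norm_eq_abs]
  apply pow_le_pow_left₀ h3
  exact max_le (abs_nonneg _) (le_abs_self _)

lemma integrable_pos_pow_inner (p : ℕ) (v : E) :
    Integrable (fun g : E => (max 0 ⟪v, g⟫) ^ p) (stdGaussian E) := by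
  have hm : Measurable (fun g : E => ⟪v, g⟫) := (continuous_const.inner continuous_id).measurable
  have h := integrable_pos_pow_gaussian p (Real.toNNReal (‖v‖ ^ 2))
  rw [← map_inner_std v] at h
  exact (integrable_map_measure (by
    apply Measurable.aestronglyMeasurable
    fun_prop) hm.aemeasurable).1 h

/-- `E ⟪v,g⟫₊^p = ‖v‖^p E ξ₊^p`. -/
lemma integral_pos_pow_inner (p : ℕ) (v : E) :
    ∫ g : E, (max 0 ⟪v, g⟫) ^ p ∂(stdGaussian E)
      = ‖v‖ ^ p * ∫ ξ : ℝ, (max 0 ξ) ^ p ∂(gaussianReal 0 1) := by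
  have hm : Measurable (fun g : E => ⟪v, g⟫) := (continuous_const.inner continuous_id).measurable
  have hc : Measurable (fun ξ : ℝ => (max 0 ξ) ^ p) := by fun_prop
  have h1 : ∫ g : E, (max 0 ⟪v, g⟫) ^ p ∂(stdGaussian E)
      = ∫ ξ : ℝ, (max 0 ξ) ^ p ∂((stdGaussian E).map (fun g => ⟪v, g⟫)) :=
    (integral_map hm.aemeasurable hc.aestronglyMeasurable).symm
  rw [h1, map_inner_std]
  have h2 : gaussianReal 0 (Real.toNNReal (‖v‖ ^ 2))
      = (gaussianReal 0 1).map (fun x => ‖v‖ * x) := by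
    rw [gaussianReal_map_const_mul]
    congr 1
    · simp
    · ext
      simp
  rw [h2, integral_map (measurable_const_mul _).aemeasurable hc.aestronglyMeasurable]
  have h3 : ∀ x : ℝ, (max 0 (‖v‖ * x)) ^ p = ‖v‖ ^ p * (max 0 x) ^ p := by
    intro x
    have h4 : max 0 (‖v‖ * x) = ‖v‖ * max 0 x := by
      rw [mul_max_of_nonneg _ _ (norm_nonneg v), mul_zero]
    rw [h4, mul_pow]
  simp_rw [h3]
  rw [integral_const_mul]

/-- `E ξ₊⁴ = 3/2`. -/
lemma integral_pos_quart_gaussian :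
    ∫ ξ : ℝ, (max 0 ξ) ^ 4 ∂(gaussianReal 0 1) = 3 / 2 := by
  rw [integral_gaussianReal_std]
  have h0 : (fun x : ℝ => phi0 * Real.exp (-x ^ 2 / 2) * (max 0 x) ^ 4)
      = (Set.Ioi (0 : ℝ)).indicator (fun x : ℝ => phi0 * (x ^ 4 * Real.exp (-x ^ 2 / 2))) := by
    ext x
    by_cases hx : 0 < x
    · simp only [Set.indicator, Set.mem_Ioi, hx, if_true, max_eq_right hx.le]
      ring
    · have hx' : x ≤ 0 := not_lt.1 hx
      simp [Set.indicator, hx, max_eq_left hx']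
  rw [h0, integral_indicator measurableSet_Ioi, integral_const_mul]
  have h1 : ∫ x in Set.Ioi (0 : ℝ), x ^ 4 * Real.exp (-x ^ 2 / 2) = Dc 4 := rfl
  rw [h1, Dc_four]
  have := phi0_pos
  field_simp

/-- The cube moment, in the same form. -/
lemma integral_pos_cube_gaussian' :
    ∫ ξ : ℝ, (max 0 ξ) ^ 3 ∂(gaussianReal 0 1) = Real.sqrt (2 / Real.pi) :=
  integral_pos_cube_gaussian

lemma add_pow_le_split (q : ℕ) {a b μ : ℝ} (ha : 0 ≤ a) (hb : 0 ≤ b) (h0 : 0 < μ) (h1 : μ < 1) :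
    (a + b) ^ (q + 1) ≤ a ^ (q + 1) / μ ^ q + b ^ (q + 1) / (1 - μ) ^ q := by
  have h1' : 0 < 1 - μ := by linarith
  have hc := (convexOn_pow (q + 1)).2 (x := a / μ) (y := b / (1 - μ))
    (Set.mem_Ici.2 (by positivity)) (Set.mem_Ici.2 (by positivity)) h0.le h1'.le (by ring)
  simp only [smul_eq_mul] at hc
  have e1 : μ * (a / μ) + (1 - μ) * (b / (1 - μ)) = a + b := by
    field_simp
  rw [e1] at hc
  refine hc.trans (le_of_eq ?_)
  rw [div_pow, div_pow, pow_succ μ q, pow_succ (1 - μ) q]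
  field_simp

variable {κ : Type*} [Fintype κ] [Nonempty κ]

/-- The moment bound for `(τ Y + U)₊^{q+1}`. -/
theorem moment_split (q : ℕ) (u : κ → E) (ν : E) {τ μ : ℝ} (hτ : 0 ≤ τ) (h0 : 0 < μ) (h1 : μ < 1) :
    Integrable (fun g => (max 0 (τ * mx u g + ⟪ν, g⟫)) ^ (q + 1)) (stdGaussian E) ∧
    ∫ g, (max 0 (τ * mx u g + ⟪ν, g⟫)) ^ (q + 1) ∂(stdGaussian E)
      ≤ (τ ^ (q + 1) / μ ^ q * ∑ l, ‖u l‖ ^ (q + 1) + ‖ν‖ ^ (q + 1) / (1 - μ) ^ q)
        * ∫ ξ : ℝ, (max 0 ξ) ^ (q + 1) ∂(gaussianReal 0 1) := by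
  set M := ∫ ξ : ℝ, (max 0 ξ) ^ (q + 1) ∂(gaussianReal 0 1) with hM
  have h1' : 0 < 1 - μ := by linarith
  set Dom : E → ℝ := fun g => τ ^ (q + 1) / μ ^ q * ∑ l, (max 0 ⟪u l, g⟫) ^ (q + 1)
    + (max 0 ⟪ν, g⟫) ^ (q + 1) / (1 - μ) ^ q with hDom
  have hDomint : Integrable Dom (stdGaussian E) := by
    refine Integrable.add ?_ ((integrable_pos_pow_inner _ ν).div_const _)
    exact (integrable_finsetSum _ fun l _ => integrable_pos_pow_inner _ (u l)).const_mul _
  have hpt : ∀ g, (max 0 (τ * mx u g + ⟪ν, g⟫)) ^ (q + 1) ≤ Dom g := by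
    intro g
    have ha : 0 ≤ τ * max 0 (mx u g) := mul_nonneg hτ (le_max_left _ _)
    have hb : 0 ≤ max 0 ⟪ν, g⟫ := le_max_left _ _
    have h2 : max 0 (τ * mx u g + ⟪ν, g⟫) ≤ τ * max 0 (mx u g) + max 0 ⟪ν, g⟫ := by
      refine max_le (by positivity) ?_
      have h3 : τ * mx u g ≤ τ * max 0 (mx u g) := mul_le_mul_of_nonneg_left (le_max_right _ _) hτ
      have h4 := le_max_right 0 ⟪ν, g⟫
      linarith
    have h5 : (max 0 (τ * mx u g + ⟪ν, g⟫)) ^ (q + 1)
        ≤ (τ * max 0 (mx u g) + max 0 ⟪ν, g⟫) ^ (q + 1) :=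
      pow_le_pow_left₀ (le_max_left _ _) h2 _
    refine h5.trans ((add_pow_le_split q ha hb h0 h1).trans ?_)
    simp only [hDom]
    refine add_le_add ?_ le_rfl
    rw [mul_pow]
    have h6 : (max 0 (mx u g)) ^ (q + 1) ≤ ∑ l, (max 0 ⟪u l, g⟫) ^ (q + 1) := by
      obtain ⟨l, hl⟩ := exists_mx_eq u g
      rw [hl]
      exact Finset.single_le_sum (f := fun l => (max 0 ⟪u l, g⟫) ^ (q + 1))
        (fun _ _ => by positivity) (Finset.mem_univ l)
    rw [div_mul_eq_mul_div, div_le_div_iff_of_pos_right (by positivity)]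
    exact mul_le_mul_of_nonneg_left h6 (by positivity)
  have hmeas : Measurable (fun g => (max 0 (τ * mx u g + ⟪ν, g⟫)) ^ (q + 1)) := by
    have h2 : Measurable (fun g : E => ⟪ν, g⟫) := (continuous_const.inner continuous_id).measurable
    exact (measurable_const.max ((measurable_const.mul (measurable_mx u)).add h2)).pow_const _
  have hint : Integrable (fun g => (max 0 (τ * mx u g + ⟪ν, g⟫)) ^ (q + 1)) (stdGaussian E) := by
    refine Integrable.mono' hDomint hmeas.aestronglyMeasurable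
      (Filter.Eventually.of_forall fun g => ?_)
    rw [Real.norm_of_nonneg (by positivity)]
    exact hpt g
  refine ⟨hint, (integral_mono hint hDomint hpt).trans (le_of_eq ?_)⟩
  simp only [hDom]
  rw [integral_add
    ((integrable_finsetSum _ fun l _ => integrable_pos_pow_inner _ (u l)).const_mul _)
    ((integrable_pos_pow_inner _ ν).div_const _), integral_const_mul, integral_div,
    integral_finsetSum _ fun l _ => integrable_pos_pow_inner _ (u l), integral_pos_pow_inner]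
  simp_rw [integral_pos_pow_inner]
  rw [← hM, ← Finset.sum_mul]
  ring

end moments

section top

variable {ι : Type v} [Fintype ι] [DecidableEq ι]

/-- **Generic set deletion**: from a bound on the conditional positive part to the moment bound. -/
theorem F_sub_F_restr_generic (z : ι → E) (hsum : ∑ i, z i = 0) (T : Finset ι) (hT : T.Nonempty)
    (hX : Tᶜ.Nonempty) (W : Submodule ℝ E) (hW : ∀ l ∈ Tᶜ, z l ∈ W) (q : ℕ) (C : ℝ) (hC : 0 ≤ C)
    (hb : ∀ (A : ℝ) (μ : ι → ℝ) (Y : Wᗮ → ℝ),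
      (∀ y t, Y y < t → ∀ i ∈ T, ⟪Wᗮ.orthogonalProjectionOnto (z i), y⟫ + μ i < t) →
      Integrable (fun y => max 0 (A - Y y)) (stdGaussian Wᗮ) →
      ∫ y, max 0 (A - Y y) ∂(stdGaussian Wᗮ)
        ≤ C * (max 0 ((T.card : ℝ) * A - ∑ i ∈ T, μ i)) ^ (q + 1))
    {μ₀ : ℝ} (h0 : 0 < μ₀) (h1 : μ₀ < 1) :
    F z - F (restr z T)
      ≤ C * (((T.card : ℝ) ^ (q + 1) / μ₀ ^ q * ∑ l ∈ Tᶜ, ‖z l‖ ^ (q + 1)
          + ‖∑ m ∈ Tᶜ, z m‖ ^ (q + 1) / (1 - μ₀) ^ q)
        * ∫ ξ : ℝ, (max 0 ξ) ^ (q + 1) ∂(gaussianReal 0 1)) := by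
  have : Nonempty {i // i ∈ T} := hT.to_subtype
  have : Nonempty {i // i ∈ Tᶜ} := hX.to_subtype
  have hcard : 0 < (T.card : ℝ) := by exact_mod_cast hT.card_pos
  set τ : ℝ := (T.card : ℝ) with hτ
  set ν : E := ∑ m ∈ Tᶜ, z m with hν
  have hνW : ν ∈ W := Submodule.sum_mem _ hW
  have hsumT : ∑ i ∈ T, z i = -ν := by
    have := Finset.sum_add_sum_compl T z
    rw [hsum] at this
    exact eq_neg_of_add_eq_zero_left this
  set f : E → ℝ := fun g => max 0 (mx (restr z Tᶜ) g - mx (restr z T) g) with hf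
  have hfeq : ∀ g, f g = mx z g - mx (restr z T) g := by
    intro g
    show max 0 (mx (restr z Tᶜ) g - mx (restr z T) g) = mx z g - mx (restr z T) g
    rw [mx_eq_max_compl z T hT hX g]
    by_cases h : mx (restr z Tᶜ) g ≤ mx (restr z T) g
    · rw [max_eq_right h, max_eq_left (by linarith)]
      ring
    · have h' := (not_le.1 h).le
      rw [max_eq_left h', max_eq_right (by linarith)]
  have hfint : Integrable f (stdGaussian E) := by
    have : f = fun g => mx z g - mx (restr z T) g := funext hfeq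
    rw [this]
    exact (integrable_mx z).sub (integrable_mx _)
  have hF : F z - F (restr z T) = ∫ g, f g ∂(stdGaussian E) := by
    unfold F
    rw [← integral_sub (integrable_mx z) (integrable_mx _)]
    exact integral_congr_ae (Filter.Eventually.of_forall fun g => (hfeq g).symm)
  rw [hF, integral_split W hfint]
  have hperp : ∀ (l : ι), l ∈ Tᶜ → ∀ (y : Wᗮ), ⟪z l, (y : E)⟫ = 0 := by
    intro l hl y
    exact Submodule.inner_right_of_mem_orthogonal (hW l hl) y.2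
  set h : ι → Wᗮ := fun i => Wᗮ.orthogonalProjectionOnto (z i) with hh
  have hhinner : ∀ i (y : Wᗮ), ⟪h i, y⟫ = ⟪z i, (y : E)⟫ := fun i y =>
    Submodule.inner_orthogonalProjectionOnto_eq_of_mem_right y (z i)
  -- the `W`-level vectors
  set u : {i // i ∈ Tᶜ} → W := fun l => ⟨z l.1, hW l.1 l.2⟩ with hu
  set νW : W := ⟨ν, hνW⟩ with hνWdef
  have hmxu : ∀ x : W, mx (restr z Tᶜ) (x : E) = mx u x := by
    intro x
    unfold mx
    rfl
  have hpt : ∀ x : W, ∫ y : Wᗮ, f ((x : E) + (y : E)) ∂(stdGaussian Wᗮ)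
      ≤ C * (max 0 (τ * mx u x + ⟪νW, x⟫)) ^ (q + 1) := by
    intro x
    set A := mx (restr z Tᶜ) (x : E) with hA
    have hAeq : ∀ y : Wᗮ, mx (restr z Tᶜ) ((x : E) + (y : E)) = A := by
      intro y
      rw [hA]
      unfold mx
      congr 1
      ext l
      simp only [restr]
      rw [inner_add_right, hperp l.1 l.2 y, add_zero]
    set Y : Wᗮ → ℝ := fun y => mx (restr z T) ((x : E) + (y : E)) with hY
    have hfY : ∀ y : Wᗮ, f ((x : E) + (y : E)) = max 0 (A - Y y) := by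
      intro y
      show max 0 (mx (restr z Tᶜ) ((x : E) + (y : E)) - mx (restr z T) ((x : E) + (y : E))) = _
      rw [hAeq]
    simp_rw [hfY]
    set μ : ι → ℝ := fun i => ⟪z i, (x : E)⟫ with hμ
    have hYle : ∀ y t, Y y < t → ∀ i ∈ T, ⟪h i, y⟫ + μ i < t := by
      intro y t hlt i hi
      rw [hhinner]
      have h1 := le_mx (restr z T) ⟨i, hi⟩ ((x : E) + (y : E))
      simp only [restr] at h1
      rw [inner_add_right] at h1
      simp only [hμ]
      have h2 : Y y = mx (restr z T) ((x : E) + (y : E)) := rfl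
      linarith
    have hYint : Integrable Y (stdGaussian Wᗮ) := integrable_mx_add _ _ _
    have hint : Integrable (fun y => max 0 (A - Y y)) (stdGaussian Wᗮ) := by
      have h0 : Integrable (fun y => A - Y y) (stdGaussian Wᗮ) := (integrable_const A).sub hYint
      refine Integrable.mono h0 ?_ (Filter.Eventually.of_forall fun y => ?_)
      · have h1 : Measurable Y := by
          have h2 : Measurable (fun y : Wᗮ => (x : E) + (y : E)) := by
            have : Continuous (fun y : Wᗮ => (x : E) + (y : E)) := by fun_prop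
            exact this.measurable
          exact (measurable_mx _).comp h2
        apply Measurable.aestronglyMeasurable
        exact measurable_const.max (measurable_const.sub h1)
      · rw [Real.norm_eq_abs, Real.norm_eq_abs]
        rcases le_total 0 (A - Y y) with h1 | h1
        · rw [max_eq_right h1]
        · rw [max_eq_left h1]
          simp
    have hmain := hb A μ Y hYle hint
    refine hmain.trans (le_of_eq ?_)
    have hsumμ : ∑ i ∈ T, μ i = -⟪ν, (x : E)⟫ := by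
      simp only [hμ]
      rw [← sum_inner, hsumT, inner_neg_left]
    rw [hsumμ, hA, hmxu]
    congr 3
    have : ⟪νW, x⟫ = ⟪ν, (x : E)⟫ := rfl
    rw [this]
    ring
  obtain ⟨hmint, hmle⟩ := moment_split q u νW hcard.le h0 h1
  have hRHS : Integrable (fun x : W => C * (max 0 (τ * mx u x + ⟪νW, x⟫)) ^ (q + 1))
      (stdGaussian W) := hmint.const_mul _
  calc ∫ x : W, ∫ y : Wᗮ, f ((x : E) + (y : E)) ∂(stdGaussian Wᗮ) ∂(stdGaussian W)
      ≤ ∫ x : W, C * (max 0 (τ * mx u x + ⟪νW, x⟫)) ^ (q + 1) ∂(stdGaussian W) := by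
        refine integral_mono_of_nonneg ?_ hRHS (Filter.Eventually.of_forall hpt)
        exact Filter.Eventually.of_forall fun x => integral_nonneg fun y => le_max_left _ _
    _ = C * ∫ x : W, (max 0 (τ * mx u x + ⟪νW, x⟫)) ^ (q + 1) ∂(stdGaussian W) :=
        integral_const_mul _ _
    _ ≤ _ := by
        refine mul_le_mul_of_nonneg_left (hmle.trans (le_of_eq ?_)) hC
        congr 2
        congr 1
        have h3 : ∑ l : {i // i ∈ Tᶜ}, ‖u l‖ ^ (q + 1) = ∑ l ∈ Tᶜ, ‖z l‖ ^ (q + 1) :=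
          Finset.sum_coe_sort Tᶜ fun l => ‖z l‖ ^ (q + 1)
        rw [h3]

/-- Set deletion with the triangle bound, `E B₊³` split by `μ₀`. -/
theorem F_sub_F_restr_tri (z : ι → E) (hsum : ∑ i, z i = 0) (T : Finset ι) {a b : ι} (ha : a ∈ T)
    (hb : b ∈ T) (hab : a ≠ b) (hX : Tᶜ.Nonempty) (W : Submodule ℝ E) (hW : ∀ l ∈ Tᶜ, z l ∈ W)
    (Δ : ℝ) (hΔ : 0 < Δ)
    (hΔ2 : Δ ^ 2 = ‖Wᗮ.starProjection (z a)‖ ^ 2 * ‖Wᗮ.starProjection (z b)‖ ^ 2
      - ⟪Wᗮ.starProjection (z a), Wᗮ.starProjection (z b)⟫ ^ 2)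
    {μ₀ : ℝ} (h0 : 0 < μ₀) (h1 : μ₀ < 1) :
    F z - F (restr z T)
      ≤ ((T.card : ℝ) ^ 3 / μ₀ ^ 2 * ∑ l ∈ Tᶜ, ‖z l‖ ^ 3 + ‖∑ m ∈ Tᶜ, z m‖ ^ 3 / (1 - μ₀) ^ 2)
        * Real.sqrt (2 / Real.pi) / (12 * Real.pi * (T.card : ℝ) * Δ) := by
  have hT : T.Nonempty := ⟨a, ha⟩
  have hcard : 0 < (T.card : ℝ) := by exact_mod_cast hT.card_pos
  have hpi := Real.pi_pos
  have key := F_sub_F_restr_generic z hsum T hT hX W hW 2 (12 * Real.pi * (T.card : ℝ) * Δ)⁻¹
    (by positivity) ?_ h0 h1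
  · refine key.trans (le_of_eq ?_)
    rw [integral_pos_cube_gaussian]
    field_simp
  · intro A μ Y hY hint
    set h : ι → Wᗮ := fun i => Wᗮ.orthogonalProjectionOnto (z i) with hh
    have hhinner : ∀ i (y : Wᗮ), ⟪h i, y⟫ = ⟪z i, (y : E)⟫ := fun i y =>
      Submodule.inner_orthogonalProjectionOnto_eq_of_mem_right y (z i)
    have hsumT : ∑ i ∈ T, z i = -∑ m ∈ Tᶜ, z m := by
      have := Finset.sum_add_sum_compl T z
      rw [hsum] at this
      exact eq_neg_of_add_eq_zero_left this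
    have hνW : ∑ m ∈ Tᶜ, z m ∈ W := Submodule.sum_mem _ hW
    have hhsum : ∑ i ∈ T, h i = 0 := by
      have h1 : ⟪∑ i ∈ T, h i, ∑ i ∈ T, h i⟫ = 0 := by
        rw [sum_inner]
        simp_rw [hhinner]
        rw [← sum_inner, hsumT, inner_neg_left, neg_eq_zero]
        exact Submodule.inner_right_of_mem_orthogonal hνW (Submodule.coe_mem _)
      exact inner_self_eq_zero.1 h1
    have hΔ3 : Δ ^ 2 = ‖h a‖ ^ 2 * ‖h b‖ ^ 2 - ⟪h a, h b⟫ ^ 2 := by
      rw [hΔ2, Submodule.coe_inner, Submodule.coe_norm, Submodule.coe_norm]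
      simp only [hh, Submodule.coe_orthogonalProjectionOnto_apply]
    have := posPart_bound T h hhsum ha hb hab Δ hΔ hΔ3 A μ Y hY hint
    refine this.trans (le_of_eq ?_)
    rw [div_eq_inv_mul]

/-- Set deletion with the tetrahedron bound, `E B₊⁴` split by `μ₀`. -/
theorem F_sub_F_restr_tetra (z : ι → E) (hsum : ∑ i, z i = 0) (T : Finset ι) {a b c : ι}
    (ha : a ∈ T) (hb : b ∈ T) (hc : c ∈ T) (hab : a ≠ b) (hac : a ≠ c) (hbc : b ≠ c)
    (hX : Tᶜ.Nonempty) (W : Submodule ℝ E) (hW : ∀ l ∈ Tᶜ, z l ∈ W)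
    (T₀ : ℝ) (hT₀ : 0 < T₀)
    (hT2 : T₀ ^ 2 = gram3 (Wᗮ.starProjection (z a)) (Wᗮ.starProjection (z b))
      (Wᗮ.starProjection (z c)))
    {μ₀ : ℝ} (h0 : 0 < μ₀) (h1 : μ₀ < 1) :
    F z - F (restr z T)
      ≤ ((T.card : ℝ) ^ 4 / μ₀ ^ 3 * ∑ l ∈ Tᶜ, ‖z l‖ ^ 4 + ‖∑ m ∈ Tᶜ, z m‖ ^ 4 / (1 - μ₀) ^ 3)
        * (3 / 2) / (48 * Real.pi * Real.sqrt (2 * Real.pi) * (T.card : ℝ) * T₀) := by
  have hT : T.Nonempty := ⟨a, ha⟩
  have hcard : 0 < (T.card : ℝ) := by exact_mod_cast hT.card_pos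
  have hpi := Real.pi_pos
  have hs : 0 < Real.sqrt (2 * Real.pi) := by positivity
  have key := F_sub_F_restr_generic z hsum T hT hX W hW 3
    (48 * Real.pi * Real.sqrt (2 * Real.pi) * (T.card : ℝ) * T₀)⁻¹ (by positivity) ?_ h0 h1
  · refine key.trans (le_of_eq ?_)
    rw [integral_pos_quart_gaussian]
    field_simp
  · intro A μ Y hY hint
    set h : ι → Wᗮ := fun i => Wᗮ.orthogonalProjectionOnto (z i) with hh
    have hhinner : ∀ i (y : Wᗮ), ⟪h i, y⟫ = ⟪z i, (y : E)⟫ := fun i y =>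
      Submodule.inner_orthogonalProjectionOnto_eq_of_mem_right y (z i)
    have hsumT : ∑ i ∈ T, z i = -∑ m ∈ Tᶜ, z m := by
      have := Finset.sum_add_sum_compl T z
      rw [hsum] at this
      exact eq_neg_of_add_eq_zero_left this
    have hνW : ∑ m ∈ Tᶜ, z m ∈ W := Submodule.sum_mem _ hW
    have hhsum : ∑ i ∈ T, h i = 0 := by
      have h1 : ⟪∑ i ∈ T, h i, ∑ i ∈ T, h i⟫ = 0 := by
        rw [sum_inner]
        simp_rw [hhinner]
        rw [← sum_inner, hsumT, inner_neg_left, neg_eq_zero]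
        exact Submodule.inner_right_of_mem_orthogonal hνW (Submodule.coe_mem _)
      exact inner_self_eq_zero.1 h1
    have hT3 : T₀ ^ 2 = gram3 (h a) (h b) (h c) := by
      rw [hT2]
      unfold gram3
      simp only [Submodule.coe_inner, Submodule.coe_norm, hh,
        Submodule.coe_orthogonalProjectionOnto_apply]
    have := posPart_bound3 T h hhsum ha hb hc hab hac hbc T₀ hT₀ hT3 A μ Y hY hint
    refine this.trans (le_of_eq ?_)
    rw [div_eq_inv_mul]

end top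

section survive

variable {k : ℕ} {z : Fin k → E} {A : Fin k → Set E}

/-- **Survival, abstract form.** If `2 Λ ≤ (τ^{r+2}/μ^{r+1} Σ_X ‖z‖^{r+2} + x^{r+2}/(1-μ)^{r+1})/(τ c)`
then not both `τ^{r+1} σ^r < c μ^{r+1}` and `x^r ≤ c (1-μ)^{r+1}`. -/
theorem Critical.no_deletion (hc : Critical z A) (hR : R < S z) (hP : PF E (k - 1))
    (T : Finset (Fin k)) (hT : T.Nonempty) (hX : Tᶜ.Nonempty) (r : ℕ) {c μ₀ σ : ℝ} (hcpos : 0 < c)
    (h0 : 0 < μ₀) (h1 : μ₀ < 1)
    (hL : F z - F (restr z T)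
      ≤ ((T.card : ℝ) ^ (r + 2) / μ₀ ^ (r + 1) * ∑ l ∈ Tᶜ, ‖z l‖ ^ (r + 2)
          + ‖∑ m ∈ Tᶜ, z m‖ ^ (r + 2) / (1 - μ₀) ^ (r + 1)) / (2 * (T.card : ℝ) * c))
    (hσ : ∀ l ∈ Tᶜ, ‖z l‖ ≤ σ) (hne : ∃ l ∈ Tᶜ, z l ≠ 0)
    (hn1 : (T.card : ℝ) ^ (r + 1) * σ ^ r < c * μ₀ ^ (r + 1))
    (hn2 : ‖∑ m ∈ Tᶜ, z m‖ ^ r ≤ c * (1 - μ₀) ^ (r + 1)) : False := by
  have hcard : 0 < (T.card : ℝ) := by exact_mod_cast hT.card_pos
  have hS : 0 < S z := R_pos.trans hR
  have hTk : T.card ≤ k - 1 := by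
    have h2 : T.card + Tᶜ.card = k := by
      rw [Finset.card_add_card_compl]
      simp
    have h3 : 0 < Tᶜ.card := hX.card_pos
    omega
  have hdel := hc.deletion' hR hP T hT hTk
  have hLam : Lam z T = F z - F (restr z T) := by
    unfold Lam
    rw [hc.F_eq]
  set t2 := ∑ i ∈ Tᶜ, ‖z i‖ ^ 2 with ht2
  set x := ‖∑ m ∈ Tᶜ, z m‖ with hx
  have hx0 : 0 ≤ x := norm_nonneg _
  set τ : ℝ := (T.card : ℝ) with hτ
  have h1' : 0 < 1 - μ₀ := by linarith
  have hLam2 : 2 * Lam z T - Lam z T ^ 2 / S z ≤ 2 * Lam z T := by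
    have : 0 ≤ Lam z T ^ 2 / S z := by positivity
    linarith
  have ht2pos : 0 < t2 := by
    obtain ⟨l, hl, hl0⟩ := hne
    have : 0 < ‖z l‖ ^ 2 := by
      have := norm_pos_iff.2 hl0
      positivity
    exact lt_of_lt_of_le this (Finset.single_le_sum (f := fun i => ‖z i‖ ^ 2)
      (fun _ _ => by positivity) hl)
  have hσ0 : 0 ≤ σ := by
    obtain ⟨l, hl, _⟩ := hne
    exact (norm_nonneg _).trans (hσ l hl)
  have hsum4 : ∑ l ∈ Tᶜ, ‖z l‖ ^ (r + 2) ≤ σ ^ r * t2 := by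
    rw [ht2, Finset.mul_sum]
    refine Finset.sum_le_sum fun l hl => ?_
    rw [pow_add]
    exact mul_le_mul_of_nonneg_right (pow_le_pow_left₀ (norm_nonneg _) (hσ l hl) r) (by positivity)
  -- the two terms
  have hA : τ ^ (r + 2) / μ₀ ^ (r + 1) * ∑ l ∈ Tᶜ, ‖z l‖ ^ (r + 2) < τ * c * t2 := by
    have h2 : τ ^ (r + 2) / μ₀ ^ (r + 1) * ∑ l ∈ Tᶜ, ‖z l‖ ^ (r + 2)
        ≤ τ ^ (r + 2) / μ₀ ^ (r + 1) * (σ ^ r * t2) :=
      mul_le_mul_of_nonneg_left hsum4 (by positivity)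
    refine lt_of_le_of_lt h2 ?_
    have h3 : τ ^ (r + 2) / μ₀ ^ (r + 1) * (σ ^ r * t2)
        = (τ ^ (r + 1) * σ ^ r) * (τ * t2) / μ₀ ^ (r + 1) := by
      rw [pow_succ τ (r + 1)]
      ring
    rw [h3, div_lt_iff₀ (by positivity)]
    have h4 : 0 < τ * t2 := by positivity
    nlinarith [mul_lt_mul_of_pos_right hn1 h4]
  have hB : x ^ (r + 2) / (1 - μ₀) ^ (r + 1) ≤ c * x ^ 2 := by
    rw [div_le_iff₀ (by positivity), pow_add]
    have h4 : 0 ≤ x ^ 2 := by positivity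
    nlinarith [mul_le_mul_of_nonneg_right hn2 h4]
  have hchain : t2 + x ^ 2 / τ ≤ 2 * Lam z T := hdel.trans hLam2
  rw [hLam] at hchain
  have hfinal : 2 * (F z - F (restr z T))
      ≤ (τ ^ (r + 2) / μ₀ ^ (r + 1) * ∑ l ∈ Tᶜ, ‖z l‖ ^ (r + 2) + x ^ (r + 2) / (1 - μ₀) ^ (r + 1))
        / (τ * c) := by
    have := mul_le_mul_of_nonneg_left hL (show (0 : ℝ) ≤ 2 by norm_num)
    refine this.trans (le_of_eq ?_)
    field_simp
  have hlt : (τ ^ (r + 2) / μ₀ ^ (r + 1) * ∑ l ∈ Tᶜ, ‖z l‖ ^ (r + 2)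
      + x ^ (r + 2) / (1 - μ₀) ^ (r + 1)) / (τ * c) < t2 + x ^ 2 / τ := by
    rw [div_lt_iff₀ (by positivity)]
    have : (t2 + x ^ 2 / τ) * (τ * c) = τ * c * t2 + c * x ^ 2 := by
      field_simp
    rw [this]
    linarith
  linarith

/-- **Survival with the triangle bound.** -/
theorem Critical.no_deletion_tri (hc : Critical z A) (hR : R < S z) (hP : PF E (k - 1))
    (T : Finset (Fin k)) {a b : Fin k} (ha : a ∈ T) (hb : b ∈ T) (hab : a ≠ b) (hX : Tᶜ.Nonempty)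
    (W : Submodule ℝ E) (hW : ∀ l ∈ Tᶜ, z l ∈ W) (Δ : ℝ) (hΔ : 0 < Δ)
    (hΔ2 : Δ ^ 2 = ‖Wᗮ.starProjection (z a)‖ ^ 2 * ‖Wᗮ.starProjection (z b)‖ ^ 2
      - ⟪Wᗮ.starProjection (z a), Wᗮ.starProjection (z b)⟫ ^ 2)
    {μ₀ σ : ℝ} (h0 : 0 < μ₀) (h1 : μ₀ < 1)
    (hσ : ∀ l ∈ Tᶜ, ‖z l‖ ≤ σ) (hne : ∃ l ∈ Tᶜ, z l ≠ 0)
    (hn1 : (T.card : ℝ) ^ 2 * σ * Real.sqrt (2 / Real.pi) < 6 * Real.pi * Δ * μ₀ ^ 2)
    (hn2 : ‖∑ m ∈ Tᶜ, z m‖ * Real.sqrt (2 / Real.pi) ≤ 6 * Real.pi * Δ * (1 - μ₀) ^ 2) : False := by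
  have hT : T.Nonempty := ⟨a, ha⟩
  have hcard : 0 < (T.card : ℝ) := by exact_mod_cast hT.card_pos
  have hpi := Real.pi_pos
  have hs : 0 < Real.sqrt (2 / Real.pi) := by positivity
  set c : ℝ := 6 * Real.pi * Δ / Real.sqrt (2 / Real.pi) with hc'
  have hcpos : 0 < c := by positivity
  refine hc.no_deletion hR hP T hT hX 1 hcpos h0 h1 ?_ hσ hne ?_ ?_
  · refine (F_sub_F_restr_tri z hc.sum_zero T ha hb hab hX W hW Δ hΔ hΔ2 h0 h1).trans (le_of_eq ?_)
    rw [hc']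
    field_simp
    ring
  · rw [hc', pow_one, div_mul_eq_mul_div, lt_div_iff₀ hs]
    exact hn1
  · rw [hc', pow_one, div_mul_eq_mul_div, le_div_iff₀ hs]
    exact hn2

/-- **Survival with the tetrahedron bound.** -/
theorem Critical.no_deletion_tetra (hc : Critical z A) (hR : R < S z) (hP : PF E (k - 1))
    (T : Finset (Fin k)) {a b d : Fin k} (ha : a ∈ T) (hb : b ∈ T) (hd : d ∈ T)
    (hab : a ≠ b) (had : a ≠ d) (hbd : b ≠ d) (hX : Tᶜ.Nonempty)
    (W : Submodule ℝ E) (hW : ∀ l ∈ Tᶜ, z l ∈ W) (T₀ : ℝ) (hT₀ : 0 < T₀)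
    (hT2 : T₀ ^ 2 = gram3 (Wᗮ.starProjection (z a)) (Wᗮ.starProjection (z b))
      (Wᗮ.starProjection (z d)))
    {μ₀ σ : ℝ} (h0 : 0 < μ₀) (h1 : μ₀ < 1)
    (hσ : ∀ l ∈ Tᶜ, ‖z l‖ ≤ σ) (hne : ∃ l ∈ Tᶜ, z l ≠ 0)
    (hn1 : (T.card : ℝ) ^ 3 * σ ^ 2 < 16 * Real.pi * Real.sqrt (2 * Real.pi) * T₀ * μ₀ ^ 3)
    (hn2 : ‖∑ m ∈ Tᶜ, z m‖ ^ 2 ≤ 16 * Real.pi * Real.sqrt (2 * Real.pi) * T₀ * (1 - μ₀) ^ 3) :
    False := by
  have hT : T.Nonempty := ⟨a, ha⟩
  have hcard : 0 < (T.card : ℝ) := by exact_mod_cast hT.card_pos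
  have hpi := Real.pi_pos
  have hs : 0 < Real.sqrt (2 * Real.pi) := by positivity
  set c : ℝ := 16 * Real.pi * Real.sqrt (2 * Real.pi) * T₀ with hc'
  have hcpos : 0 < c := by positivity
  refine hc.no_deletion hR hP T hT hX 2 hcpos h0 h1 ?_ hσ hne hn1 hn2
  refine (F_sub_F_restr_tetra z hc.sum_zero T ha hb hd hab had hbd hX W hW T₀ hT₀ hT2 h0 h1).trans
    (le_of_eq ?_)
  rw [hc']
  field_simp
  ring

end survive

end Crest.Agent.Propeller
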