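import Crest.Agent.Lib.Propeller.HClose
import Crest.Agent.Lib.Propeller.Tetra

/-!
# Propeller: the step at all levels `k ≥ K0`

The top lemma gives the block `B` of the nodes of norm at least `κ₀` and the lower bound `Δ` of the
pair determinant.  `j` is the smallest of the `m` largest nodes of the dust; the master inequality of
`BlockH` is used twice (with the mid nodes in the block `G` or in the Harris product), Tool A
(`Critical.no_deletion_tri`) bounds `‖z j‖ / Δ` from below, the tangents from above.  The table `HClose`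
gives the contradiction.
-/

set_option autoImplicit false
set_option linter.unusedSectionVars false
open MeasureTheory ProbabilityTheory
open scoped RealInnerProductSpace

namespace Crest.Agent.Propeller.HT

open Crest.Agent.Propeller

universe u

/-! ### Selection -/

/-- The `m` largest elements of a finset. -/
lemma exists_top_subset {ι : Type*} [DecidableEq ι] (D : Finset ι) (σ : ι → ℝ) (m : ℕ) (hm : m ≤ D.card) :
    ∃ U ⊆ D, U.card = m ∧ ∀ u ∈ U, ∀ y ∈ D \ U, σ y ≤ σ u := by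
  induction m with
  | zero => exact ⟨∅, by simp, by simp, by simp⟩
  | succ m ih =>
    obtain ⟨U, hU, hcard, htop⟩ := ih (by omega)
    have hne : (D \ U).Nonempty := by
      rw [← Finset.card_pos, Finset.card_sdiff_of_subset hU]
      omega
    obtain ⟨x, hx, hmax⟩ := Finset.exists_max_image (D \ U) σ hne
    have hxD := (Finset.mem_sdiff.1 hx).1
    have hxU := (Finset.mem_sdiff.1 hx).2
    refine ⟨insert x U, Finset.insert_subset hxD hU, ?_, ?_⟩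
    · rw [Finset.card_insert_of_notMem hxU, hcard]
    · intro u hu y hy
      have hy1 := (Finset.mem_sdiff.1 hy).1
      have hy2 := (Finset.mem_sdiff.1 hy).2
      have hyU : y ∉ U := fun h => hy2 (Finset.mem_insert_of_mem h)
      rcases Finset.mem_insert.1 hu with rfl | hu
      · exact hmax y (Finset.mem_sdiff.2 ⟨hy1, hyU⟩)
      · exact htop u hu y (Finset.mem_sdiff.2 ⟨hy1, hyU⟩)

/-- The three largest elements of a finset. -/
lemma exists_top3 {ι : Type*} [DecidableEq ι] (B : Finset ι) (σ : ι → ℝ) (h3 : 3 ≤ B.card) :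
    ∃ i1 i2 i3, i1 ∈ B ∧ i2 ∈ B ∧ i3 ∈ B ∧ i1 ≠ i2 ∧ i1 ≠ i3 ∧ i2 ≠ i3 ∧ σ i2 ≤ σ i1 ∧ σ i3 ≤ σ i2 ∧
      ∀ l ∈ B, l ≠ i1 → l ≠ i2 → l ≠ i3 → σ l ≤ σ i3 := by
  have hne1 : B.Nonempty := Finset.card_pos.1 (by omega)
  obtain ⟨i1, h1, m1⟩ := Finset.exists_max_image B σ hne1
  have hc1 : (B.erase i1).card = B.card - 1 := Finset.card_erase_of_mem h1
  have hne2 : (B.erase i1).Nonempty := Finset.card_pos.1 (by omega)
  obtain ⟨i2, h2, m2⟩ := Finset.exists_max_image (B.erase i1) σ hne2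
  have hc2 : ((B.erase i1).erase i2).card = B.card - 2 := by
    rw [Finset.card_erase_of_mem h2, hc1]
    omega
  have hne3 : ((B.erase i1).erase i2).Nonempty := Finset.card_pos.1 (by omega)
  obtain ⟨i3, h3', m3⟩ := Finset.exists_max_image ((B.erase i1).erase i2) σ hne3
  have h3a := Finset.mem_erase.1 h3'
  have h3b := Finset.mem_erase.1 h3a.2
  have h2a := Finset.mem_erase.1 h2
  refine ⟨i1, i2, i3, h1, h2a.2, h3b.2, h2a.1.symm, h3b.1.symm, h3a.1.symm, m1 i2 h2a.2,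
    m2 i3 h3a.2, ?_⟩
  intro l hl hl1 hl2 _
  exact m3 l (Finset.mem_erase.2 ⟨hl2, Finset.mem_erase.2 ⟨hl1, hl⟩⟩)

/-! ### The tail energy -/

lemma exp_nine : (8103 : ℝ) ≤ Real.exp 9 := by
  have h1 : Real.exp 9 = Real.exp 1 ^ 9 := by
    rw [← Real.exp_nat_mul]
    norm_num
  have h2 := Real.exp_one_gt_d9
  have h3 : (2.7182818283 : ℝ) ^ 9 ≤ Real.exp 1 ^ 9 := pow_le_pow_left₀ (by norm_num) h2.le 9
  rw [h1]
  refine le_trans ?_ h3
  norm_num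

/-- **The tail energy**: a node below `s ≥ .0008` has `σ² ≤ 4.2 s a`. -/
theorem tail_sq_le {σ a s : ℝ} (hT : Top.Tang σ a) (h0 : 0 ≤ σ) (ha : 0 ≤ a) (hσ : σ ≤ s)
    (hs : 8 / 10000 ≤ s) : σ ^ 2 ≤ 42 / 10 * s * a := by
  rcases eq_or_lt_of_le h0 with h | hpos
  · rw [← h]
    have : 0 ≤ s * a := mul_nonneg (by linarith) ha
    nlinarith
  have hs0 : 0 < s := by linarith
  set c := 4 * s / σ with hc
  have hcσ : c * σ = 4 * s := by
    rw [hc]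
    field_simp
  have hc4 : 4 ≤ c := by
    rw [hc, le_div_iff₀ hpos]
    nlinarith
  have hcpos : 0 < c := by linarith
  have h1 := hT c hcpos.le
  have h2 := Top.psi_le_exp hcpos
  have h3 : Real.exp (-c ^ 2 / 2) ≤ Real.exp (-8) := by
    apply Real.exp_le_exp.2
    nlinarith
  have h4 : Real.exp (-8) / (Real.exp 1 * c) = Real.exp (-9) / c := by
    have : Real.exp (-9) = Real.exp (-8) / Real.exp 1 := by
      rw [← Real.exp_sub]
      norm_num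
    rw [this]
    field_simp
  have h5 : Real.exp (-9) ≤ 1 / 8103 := by
    rw [Real.exp_neg, one_div]
    exact inv_anti₀ (by norm_num) exp_nine
  have h6 : psi c ≤ 4 / 100 * σ := by
    refine h2.trans ?_
    have hE : 0 < Real.exp 1 * c := by positivity
    have h7 : Real.exp (-c ^ 2 / 2) / (Real.exp 1 * c) ≤ Real.exp (-8) / (Real.exp 1 * c) :=
      div_le_div_of_nonneg_right h3 hE.le
    refine h7.trans ?_
    rw [h4, div_le_iff₀ hcpos]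
    have h8 : 4 / 100 * σ * c = 4 / 100 * (c * σ) := by ring
    rw [h8, hcσ]
    have : (1 : ℝ) / 8103 ≤ 4 / 100 * (4 * (8 / 10000)) := by norm_num
    nlinarith
  have h9 : 96 / 100 * σ ≤ c * a := by linarith
  have h10 := mul_le_mul_of_nonneg_left h9 h0
  have h11 : σ * (c * a) = (c * σ) * a := by ring
  rw [h11, hcσ] at h10
  have h12 : 0 ≤ s * a := mul_nonneg hs0.le ha
  nlinarith

variable {E : Type u} [NormedAddCommGroup E] [InnerProductSpace ℝ E] [FiniteDimensional ℝ E]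
  [MeasurableSpace E] [BorelSpace E]
variable {k : ℕ} {z : Fin k → E} {A : Fin k → Set E}

lemma D3_eq (e2 e3 xx : ℝ) : Crest.Agent.Propeller.D3 e2 e3 xx = Top.D3 e2 e3 xx := rfl

/-! ### Tool A -/

/-- The lower bound of `‖z j‖ / Δ` from Tool A. -/
theorem toolA (hc : Critical z A) (hR : R < S z) (hP : PF E (k - 1)) (X : Finset (Fin k))
    {j i1 i2 i3 : Fin k} (hj : j ∈ X) (hs : 0 < ‖z j‖) (hmax : ∀ l ∈ X, ‖z l‖ ≤ ‖z j‖)
    (h1 : i1 ∉ X) (h2 : i2 ∉ X) (h3 : i3 ∉ X) (h12 : i1 ≠ i2) (h13 : i1 ≠ i3) (h23 : i2 ≠ i3)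
    {e2 xx Δ τ : ℝ} (he₁ : e2 ≤ ‖z i1‖ ^ 2) (he₂ : e2 ≤ ‖z i2‖ ^ 2) (hxx : ∑ l ∈ X, ‖z l‖ ^ 2 ≤ xx)
    (hxxa : xx ≤ ‖z i3‖ ^ 2) (hΔ : 0 < Δ)
    (hD : Δ ^ 2 ≤ Crest.Agent.Propeller.D3 e2 (‖z i3‖ ^ 2) xx)
    (hx : xx * (2 / Real.pi) ≤ 36 * Real.pi ^ 2 * Δ ^ 2 * (35 / 100) ^ 4) (hτ0 : 0 < τ)
    (hτ : ((Xᶜ).card : ℝ) = τ) : 998 / 100 / τ ^ 2 * Δ ≤ ‖z j‖ := by
  classical
  have hobt : ∀ i l, i ≠ l → ⟪z i, z l⟫ ≤ 0 := fun i l hil => (hc.inner_neg hR hP hil).le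
  have hpi := Real.pi_pos
  set W := Submodule.span ℝ (z '' (X : Set (Fin k))) with hW
  have hnorm : ‖∑ l ∈ X, z l‖ ^ 2 ≤ xx :=
    (norm_sum_sq_le_of_obtuse X z fun i _ l _ hil => hobt i l hil).trans hxx
  obtain ⟨b, hb, hdet⟩ := pick_D3 z X hc.sum_zero hobt hW h3 h1 h2 h13.symm h23.symm h12 he₁ he₂ hnorm hxxa
  have hbX : b ∉ X := by rcases hb with rfl | rfl <;> assumption
  have hb3 : i3 ≠ b := by rcases hb with rfl | rfl <;> [exact h13.symm; exact h23.symm]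
  set d := ‖Wᗮ.starProjection (z i3)‖ ^ 2 * ‖Wᗮ.starProjection (z b)‖ ^ 2
    - ⟪Wᗮ.starProjection (z i3), Wᗮ.starProjection (z b)⟫ ^ 2 with hd
  have hd0 : 0 < d := lt_of_lt_of_le (by positivity) (hD.trans hdet)
  set Δ' := Real.sqrt d with hΔ'
  have hΔ'0 : 0 < Δ' := Real.sqrt_pos.2 hd0
  have hΔ'2 : Δ' ^ 2 = d := Real.sq_sqrt hd0.le
  have hle : Δ ≤ Δ' := Real.le_sqrt_of_sq_le (hD.trans hdet)
  by_contra hcon
  push Not at hcon
  have hsq : Real.sqrt (2 / Real.pi) ≤ 7979 / 10000 := by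
    rw [show (7979 / 10000 : ℝ) = Real.sqrt ((7979 / 10000) ^ 2) by
      rw [Real.sqrt_sq (by norm_num)]]
    apply Real.sqrt_le_sqrt
    have h4 := Real.pi_gt_d4
    rw [div_le_iff₀ hpi]
    nlinarith
  have hsq0 : 0 ≤ Real.sqrt (2 / Real.pi) := Real.sqrt_nonneg _
  have hpi4 := Real.pi_gt_d4
  refine hc.no_deletion_tri hR hP Xᶜ (a := i3) (b := b) (Finset.mem_compl.2 h3)
    (Finset.mem_compl.2 hbX) hb3 (by rw [compl_compl]; exact ⟨j, hj⟩) W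
    (by
      intro l hl
      rw [compl_compl] at hl
      rw [hW]
      exact Submodule.subset_span ⟨l, hl, rfl⟩) Δ' hΔ'0 hΔ'2 (μ₀ := 65 / 100) (σ := ‖z j‖)
    (by norm_num) (by norm_num)
    (by
      intro l hl
      rw [compl_compl] at hl
      exact hmax l hl)
    ⟨j, by rw [compl_compl]; exact hj, norm_pos_iff.1 hs⟩ ?_ ?_
  · -- the first condition
    rw [hτ]
    have h5 : τ ^ 2 * ‖z j‖ < 998 / 100 * Δ := by
      have h6 := mul_lt_mul_of_pos_left hcon (by positivity : 0 < τ ^ 2)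
      have e : τ ^ 2 * (998 / 100 / τ ^ 2 * Δ) = 998 / 100 * Δ := by
        field_simp
      rw [e] at h6
      exact h6
    have h7 : τ ^ 2 * ‖z j‖ * Real.sqrt (2 / Real.pi) ≤ τ ^ 2 * ‖z j‖ * (7979 / 10000) :=
      mul_le_mul_of_nonneg_left hsq (by positivity)
    have h8 : 998 / 100 * Δ * (7979 / 10000) ≤ 6 * Real.pi * Δ' * (65 / 100) ^ 2 := by
      have h9 : 6 * (3.1415 : ℝ) * Δ * (65 / 100) ^ 2 ≤ 6 * Real.pi * Δ' * (65 / 100) ^ 2 := by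
        have : (3.1415 : ℝ) * Δ ≤ Real.pi * Δ' := mul_le_mul hpi4.le hle hΔ.le hpi.le
        nlinarith
      refine le_trans ?_ h9
      nlinarith
    nlinarith
  · -- the second condition
    rw [compl_compl]
    have hrhs : 0 ≤ 6 * Real.pi * Δ' * (1 - 65 / 100) ^ 2 := by positivity
    apply abs_le_of_sq_le_sq' _ hrhs |>.2
    have hnorm2 : ‖∑ m ∈ X, z m‖ ^ 2 * (2 / Real.pi) ≤ 36 * Real.pi ^ 2 * Δ' ^ 2 * (35 / 100) ^ 4 := by
      have h5 : ‖∑ m ∈ X, z m‖ ^ 2 * (2 / Real.pi) ≤ xx * (2 / Real.pi) :=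
        mul_le_mul_of_nonneg_right hnorm (by positivity)
      refine h5.trans (hx.trans ?_)
      have h6 : Δ ^ 2 ≤ Δ' ^ 2 := pow_le_pow_left₀ hΔ.le hle 2
      have h7 : (0 : ℝ) ≤ 36 * Real.pi ^ 2 * (35 / 100) ^ 4 := by positivity
      nlinarith
    rw [mul_pow, Real.sq_sqrt (by positivity)]
    refine hnorm2.trans (le_of_eq ?_)
    ring

/-! ### One use of the master inequality -/

/-- The master inequality with the pick and the table. -/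
theorem Q_form (hc : Critical z A) (hR : R < S z) (hP : PF E (k - 1)) (hk : K0 ≤ k) (j : Fin k)
    (G C₁ C₂ C₃ : Finset (Fin k)) (hG : Disjoint G (C₁ ∪ C₂ ∪ C₃)) (hC : Disjoint C₁ C₂)
    (hC3 : Disjoint (C₁ ∪ C₂) C₃) (hcov : G ∪ (C₁ ∪ C₂ ∪ C₃) = Finset.univ.erase j)
    {i1 i2 i3 : Fin k} (h1 : i1 ∈ G) (h2 : i2 ∈ G) (h3 : i3 ∈ G) (h12 : i1 ≠ i2) (h13 : i1 ≠ i3)
    (h23 : i2 ≠ i3) {e2 xx Δ V : ℝ} (he₁ : e2 ≤ ‖z i1‖ ^ 2) (he₂ : e2 ≤ ‖z i2‖ ^ 2)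
    (hsj : ‖z j‖ ^ 2 + ∑ l ∈ C₁ ∪ C₂ ∪ C₃, ‖z l‖ ^ 2 ≤ xx) (hxxa : xx ≤ ‖z i3‖ ^ 2) (hΔ : 0 < Δ)
    (hD : Δ ^ 2 ≤ Crest.Agent.Propeller.D3 e2 (‖z i3‖ ^ 2) xx)
    (hσ₁ : ∀ l ∈ C₁, ‖z j‖ ≤ ‖z l‖) (hσ₂ : ∀ l ∈ C₂, 2 * ‖z j‖ ≤ ‖z l‖)
    (hV : ∑ l ∈ C₁ ∪ C₂ ∪ C₃, ‖z l‖ ^ 2 ≤ V) {m : Mo} (hm : findMo C₁.card C₂.card = some m) :
    2 * Real.pi * ((k : ℝ) / ((k : ℝ) - 1)) * Δ * ‖z j‖
      ≤ ‖z j‖ ^ 2 * (Uq m (G.card : ℚ) : ℝ) + V * (Vq m : ℝ) := by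
  classical
  have hk18 : (K0 : ℝ) ≤ k := by exact_mod_cast hk
  have hK0 : (K0 : ℝ) = 18 := by norm_num [K0]
  have hk2 : 2 ≤ k := by
    have : 18 ≤ k := by
      have h : K0 = 18 := rfl
      omega
    omega
  have hkr : (18 : ℝ) ≤ k := by rw [← hK0]; exact hk18
  have hk1 : (0 : ℝ) < (k : ℝ) - 1 := by linarith
  have hobt : ∀ i l, i ≠ l → ⟪z i, z l⟫ ≤ 0 := fun i l hil => (hc.inner_neg hR hP hil).le
  set C := C₁ ∪ C₂ ∪ C₃ with hCdef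
  set X := insert j C with hX
  set W := Submodule.span ℝ (z '' (X : Set (Fin k))) with hW
  have hnotC : ∀ i ∈ G, i ∉ X := by
    intro i hi hiX
    rcases Finset.mem_insert.1 hiX with rfl | hiC
    · have : i ∈ G ∪ C := Finset.mem_union_left _ hi
      rw [hcov] at this
      exact absurd rfl (Finset.ne_of_mem_erase this)
    · exact Finset.disjoint_left.1 hG hi hiC
  have hjC : j ∉ C := by
    intro hjC
    have : j ∈ G ∪ C := Finset.mem_union_right _ hjC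
    rw [hcov] at this
    exact absurd rfl (Finset.ne_of_mem_erase this)
  have hnorm : ‖∑ l ∈ X, z l‖ ^ 2 ≤ xx := by
    refine (norm_sum_sq_le_of_obtuse X z fun i _ l _ hil => hobt i l hil).trans ?_
    rw [hX, Finset.sum_insert hjC]
    exact hsj
  obtain ⟨b, hb, hdet⟩ := pick_D3 z X hc.sum_zero hobt hW (hnotC i3 h3) (hnotC i1 h1) (hnotC i2 h2)
    h13.symm h23.symm h12 he₁ he₂ hnorm hxxa
  have hbG : b ∈ G := by rcases hb with rfl | rfl <;> assumption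
  have hb3 : i3 ≠ b := by rcases hb with rfl | rfl <;> [exact h13.symm; exact h23.symm]
  have h := master_H hc hR hP hk2 j G C₁ C₂ C₃ hG hC hC3 hcov h3 hbG hb3 hΔ hW (hD.trans hdet)
    hσ₁ hσ₂ hV xg_zero xg_mono JJ
  refine h.trans ?_
  have hε0 : (0 : ℝ) ≤ 1 / ((k : ℝ) - 1) := by positivity
  have heD : (eD : ℝ) = 17 := by norm_num [eD]
  have hε : 1 / ((k : ℝ) - 1) ≤ 1 / (eD : ℝ) := by
    rw [heD]
    apply one_div_le_one_div_of_le (by norm_num)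
    linarith
  have hr0 : (0 : ℝ) ≤ (k : ℝ) / ((k : ℝ) - 1) := by positivity
  have hr : (k : ℝ) / ((k : ℝ) - 1) ≤ (r0Q : ℝ) := by
    rw [r0_cast, heD, div_le_div_iff₀ hk1 (by norm_num)]
    nlinarith
  have hU := U_bound hm G.card hε0 hε hr0 hr
  have hVb := V_bound hm hε0 hε hr0 hr
  have hV0 : 0 ≤ V := le_trans (Finset.sum_nonneg fun _ _ => by positivity) hV
  exact add_le_add (mul_le_mul_of_nonneg_left hU (by positivity))
    (mul_le_mul_of_nonneg_left hVb hV0)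

/-! ### Positivity of the constants -/

lemma dTab_pos {t : ℕ} (h3 : 3 ≤ t) (h10 : t ≤ 10) : 0 < Top.dTab t := by
  interval_cases t <;> decide

lemma cast_δq (t : ℕ) : ((δq t : ℚ) : ℝ) = (Top.dTab t : ℝ) / 10000 := by
  unfold δq
  push_cast
  rfl

lemma cast_ctq (t : ℕ) : ((ctq t : ℚ) : ℝ) = (Top.cTab t : ℝ) / 1000 := by
  unfold ctq
  push_cast
  rfl

lemma Vq_nonneg (m : Mo) : (0 : ℝ) ≤ (Vq m : ℝ) := by
  have h : (0 : ℚ) ≤ Vq m := by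
    unfold Vq SVq r0Q t1Q DD eD
    positivity
  exact_mod_cast h

lemma Uq_nonneg (m : Mo) (τ : ℕ) : (0 : ℝ) ≤ (Uq m (τ : ℚ) : ℝ) := by
  have h : (0 : ℚ) ≤ Uq m (τ : ℚ) := by
    unfold Uq SUq r0Q t3Q DD eD
    positivity
  exact_mod_cast h

/-- `Kq` is nonnegative. -/
lemma Kq_nonneg (tail : Bool) : (0 : ℝ) ≤ (Kq tail : ℝ) := by
  cases tail <;> simp [Kq] <;> norm_num

/-! ### The selection of the dust -/

/-- The selection: `j` is the smallest of the `m` largest, split into `Cs`, `Cm`, and the rest `Y`. -/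
theorem select_dust {ι : Type*} [DecidableEq ι] (Dd : Finset ι) (σ : ι → ℝ) (hne : Dd.Nonempty)
    (m : ℕ) (hm : 0 < m) :
    ∃ (j : ι) (Cs Cm Y : Finset ι), j ∈ Dd ∧ j ∉ Cs ∧ j ∉ Cm ∧ j ∉ Y ∧
      Cs ⊆ Dd ∧ Cm ⊆ Dd ∧ Y ⊆ Dd ∧
      Disjoint Cs Cm ∧ Disjoint Cs Y ∧ Disjoint Cm Y ∧
      (∀ l ∈ Dd, l = j ∨ l ∈ Cs ∨ l ∈ Cm ∨ l ∈ Y) ∧
      (∀ l ∈ Cs, σ j ≤ σ l ∧ σ l < 2 * σ j) ∧ (∀ l ∈ Cm, 2 * σ j ≤ σ l) ∧ (∀ l ∈ Y, σ l ≤ σ j) ∧
      Y.card + (Cs.card + Cm.card + 1) = Dd.card ∧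
      (Cs.card + Cm.card + 1 = m ∨ (Y = ∅ ∧ Cs.card + Cm.card + 1 < m)) := by
  have hsel : ∃ U ⊆ Dd, (∀ u ∈ U, ∀ y ∈ Dd \ U, σ y ≤ σ u) ∧ U.Nonempty ∧
      (U.card = m ∨ (U = Dd ∧ U.card < m)) := by
    by_cases h : Dd.card < m
    · exact ⟨Dd, subset_rfl, fun u _ y hy => absurd (Finset.mem_sdiff.1 hy).1 (Finset.mem_sdiff.1 hy).2,
        hne, Or.inr ⟨rfl, h⟩⟩
    · obtain ⟨U, hU, hc', htop⟩ := exists_top_subset Dd σ m (not_lt.1 h)
      exact ⟨U, hU, htop, Finset.card_pos.1 (by omega), Or.inl hc'⟩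
  obtain ⟨U, hUD, hUtop, hUne, hUcard⟩ := hsel
  obtain ⟨j, hjU, hjmin⟩ := Finset.exists_min_image U σ hUne
  have hcCard : ((U.erase j).filter (fun l => σ l < 2 * σ j)).card
      + ((U.erase j).filter (fun l => ¬ σ l < 2 * σ j)).card + 1 = U.card := by
    have h1 := Finset.card_filter_add_card_filter_not (s := U.erase j) (fun l => σ l < 2 * σ j)
    have h2 := Finset.card_erase_of_mem hjU
    have h3 : 0 < U.card := Finset.card_pos.2 hUne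
    omega
  have hmem : ∀ l, l ∈ U.erase j → l ∈ U ∧ l ≠ j := fun l hl =>
    ⟨Finset.mem_of_mem_erase hl, Finset.ne_of_mem_erase hl⟩
  refine ⟨j, (U.erase j).filter (fun l => σ l < 2 * σ j),
    (U.erase j).filter (fun l => ¬ σ l < 2 * σ j), Dd \ U, hUD hjU, ?_, ?_, ?_, ?_, ?_,
    Finset.sdiff_subset, ?_, ?_, ?_, ?_, ?_, ?_, ?_, ?_, ?_⟩
  · intro h
    exact (hmem j (Finset.mem_filter.1 h).1).2 rfl
  · intro h
    exact (hmem j (Finset.mem_filter.1 h).1).2 rfl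
  · intro h
    exact (Finset.mem_sdiff.1 h).2 hjU
  · intro l h
    exact hUD (hmem l (Finset.mem_filter.1 h).1).1
  · intro l h
    exact hUD (hmem l (Finset.mem_filter.1 h).1).1
  · rw [Finset.disjoint_left]
    intro l h1 h2
    exact (Finset.mem_filter.1 h2).2 (Finset.mem_filter.1 h1).2
  · rw [Finset.disjoint_left]
    intro l h1 h2
    exact (Finset.mem_sdiff.1 h2).2 (hmem l (Finset.mem_filter.1 h1).1).1
  · rw [Finset.disjoint_left]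
    intro l h1 h2
    exact (Finset.mem_sdiff.1 h2).2 (hmem l (Finset.mem_filter.1 h1).1).1
  · intro l hl
    by_cases hlU : l ∈ U
    · by_cases h1 : l = j
      · exact Or.inl h1
      · by_cases h2 : σ l < 2 * σ j
        · exact Or.inr (Or.inl (Finset.mem_filter.2 ⟨Finset.mem_erase.2 ⟨h1, hlU⟩, h2⟩))
        · exact Or.inr (Or.inr (Or.inl (Finset.mem_filter.2 ⟨Finset.mem_erase.2 ⟨h1, hlU⟩, h2⟩)))
    · exact Or.inr (Or.inr (Or.inr (Finset.mem_sdiff.2 ⟨hl, hlU⟩)))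
  · intro l hl
    exact ⟨hjmin l (hmem l (Finset.mem_filter.1 hl).1).1, (Finset.mem_filter.1 hl).2⟩
  · intro l hl
    exact not_lt.1 (Finset.mem_filter.1 hl).2
  · intro l hl
    exact hUtop j hjU l hl
  · rw [hcCard, Finset.card_sdiff_of_subset hUD]
    have := Finset.card_le_card hUD
    omega
  · rcases hUcard with h | ⟨h1, h2⟩
    · left
      omega
    · right
      refine ⟨?_, by omega⟩
      rw [h1, Finset.sdiff_self]

/-! ### Pieces of the proof -/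

/-- Unpacking the rational inequalities. -/
theorem core_unpack {t0 c p : ℕ} {tail : Bool} {β : ℚ} {i v : ℕ} {U1 V1 U2 V2 : ℚ}
    (h : okCore t0 c p tail β i v U1 V1 U2 V2 = true) :
    0 < ((t0 + c + p : ℕ) : ℚ) ∧ 0 < δq t0 ∧ 0 ≤ ctq t0 ∧
    ((14 / 100) * ctq t0 * (2 / (31415 / 10000)) ≤ 36 * (31415 / 10000) ^ 2 * δq t0 * (35 / 100) ^ 4) ∧
    (β < bLq t0 c p ∨ β * (U1 + 4 * (c : ℚ) * V1) + Kq tail * ctq t0 * V1
      < 2 * (31415 / 10000) * rq t0 c p tail) ∧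
    (Sq t0 c p i v ≤ β ∨ Sq t0 c p i v * U2 + (14 / 100) * ctq t0 * V2 / (max β (bLq t0 c p) * δq t0)
        < 2 * (31415 / 10000) * rq t0 c p tail) ∧
    (tail = true → 8 / 10000 ≤ bLq t0 c p * δq t0) := by
  simp only [okCore, Bool.and_eq_true, Bool.or_eq_true, decide_eq_true_eq] at h
  obtain ⟨⟨⟨⟨⟨⟨h2, h3⟩, h4⟩, h5⟩, h6⟩, h7⟩, h8⟩ := h
  refine ⟨h2, h3, h4, h5, h6, h7, ?_⟩
  intro ht
  subst ht
  simpa using h8

/-- The contradiction from the rational inequalities. -/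
theorem final_close {t0 c p i v : ℕ} {tail : Bool} {β U1 V1 U2 V2 : ℚ}
    (h : okCore t0 c p tail β i v U1 V1 U2 V2 = true)
    (hV1 : (0 : ℝ) ≤ (V1 : ℝ)) (hV2 : (0 : ℝ) ≤ (V2 : ℝ)) (hU1 : (0 : ℝ) ≤ (U1 : ℝ))
    (hU2 : (0 : ℝ) ≤ (U2 : ℝ)) {Δ s M ρ : ℝ} (hρ : ((rq t0 c p tail : ℚ) : ℝ) ≤ ρ)
    (hδΔ : ((δq t0 : ℚ) : ℝ) ≤ Δ) (hs : 0 < s) (hM0 : 0 ≤ M) (hM : M ≤ ((ctq t0 : ℚ) : ℝ) * Δ)
    (hL : ((bLq t0 c p : ℚ) : ℝ) * Δ ≤ s) (hS : s ≤ ((Sq t0 c p i v : ℚ) : ℝ) * Δ)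
    (hbL0 : (0 : ℝ) < ((bLq t0 c p : ℚ) : ℝ)) (hK0 : (0 : ℝ) ≤ ((Kq tail : ℚ) : ℝ))
    (Q1 : 2 * Real.pi * ρ * Δ * s
      ≤ s ^ 2 * (U1 : ℝ) + (4 * (c : ℝ) * s ^ 2 + ((Kq tail : ℚ) : ℝ) * s * M) * (V1 : ℝ))
    (Q2 : 2 * Real.pi * ρ * Δ * s ≤ s ^ 2 * (U2 : ℝ) + (14 / 100 * M) * (V2 : ℝ)) : False := by
  obtain ⟨-, hδq, -, -, hc1, hc2, -⟩ := core_unpack h
  have hδ0 : (0 : ℝ) < ((δq t0 : ℚ) : ℝ) := by exact_mod_cast hδq
  have hΔ0 : 0 < Δ := lt_of_lt_of_le hδ0 hδΔ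
  have hpi := Real.pi_gt_d4
  have hrq0 : (0 : ℝ) ≤ ((rq t0 c p tail : ℚ) : ℝ) := by
    have h : (0 : ℚ) ≤ rq t0 c p tail := by
      cases tail <;> simp only [rq, cond_true, cond_false] <;> positivity
    exact_mod_cast h
  have hρ0 : 0 ≤ ρ := hrq0.trans hρ
  have hrhsle : 2 * (31415 / 10000) * ((rq t0 c p tail : ℚ) : ℝ) ≤ 2 * Real.pi * ρ := by
    apply mul_le_mul _ hρ hrq0 (by positivity)
    linarith
  have hsΔ : 0 ≤ Δ * s := by positivity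
  have hlift := mul_le_mul_of_nonneg_right hrhsle hsΔ
  have hQ1' : (2 * (31415 / 10000) * ((rq t0 c p tail : ℚ) : ℝ)) * Δ * s
      ≤ s ^ 2 * (U1 : ℝ) + (4 * (c : ℝ) * s ^ 2 + ((Kq tail : ℚ) : ℝ) * s * M) * (V1 : ℝ) := by
    refine le_trans ?_ Q1
    linarith
  have hQ2' : (2 * (31415 / 10000) * ((rq t0 c p tail : ℚ) : ℝ)) * Δ * s
      ≤ s ^ 2 * (U2 : ℝ) + (14 / 100 * M) * (V2 : ℝ) := by
    refine le_trans ?_ Q2
    linarith
  refine close_real (β := ((β : ℚ) : ℝ)) (c := 4 * (c : ℝ)) (ct := ((ctq t0 : ℚ) : ℝ))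
    (K := ((Kq tail : ℚ) : ℝ)) (ρ := 14 / 100) hδ0 hδΔ hs hM0 hM hK0 hV1 hV2
    (add_nonneg hU1 (mul_nonneg (by positivity) hV1)) hU2 (by norm_num) hbL0 hQ1' hQ2' hS hL ?_ ?_
  · rcases hc1 with h | h
    · exact Or.inl ((Rat.cast_lt (K := ℝ)).2 h)
    · refine Or.inr ?_
      have h2 := (Rat.cast_lt (K := ℝ)).2 h
      push_cast at h2
      exact h2
  · rcases hc2 with h | h
    · exact Or.inl ((Rat.cast_le (K := ℝ)).2 h)
    · refine Or.inr ?_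
      have h2 := (Rat.cast_lt (K := ℝ)).2 h
      push_cast at h2
      exact h2

/-- The numerical condition of Tool A in reals. -/
theorem xx_num {t0 : ℕ} {M Δ : ℝ}
    (hnum : (14 / 100) * ctq t0 * (2 / (31415 / 10000))
      ≤ 36 * (31415 / 10000) ^ 2 * δq t0 * (35 / 100) ^ 4)
    (hct0 : (0 : ℝ) ≤ ((ctq t0 : ℚ) : ℝ)) (hδ0 : (0 : ℝ) < ((δq t0 : ℚ) : ℝ)) (hΔ0 : 0 < Δ)
    (hM0 : 0 ≤ M) (hδΔ : ((δq t0 : ℚ) : ℝ) ≤ Δ) (hMΔ : M ≤ ((ctq t0 : ℚ) : ℝ) * Δ) :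
    (14 / 100 * M) * (2 / Real.pi) ≤ 36 * Real.pi ^ 2 * Δ ^ 2 * (35 / 100) ^ 4 := by
  have hpi := Real.pi_pos
  have hpi4 := Real.pi_gt_d4
  set δ : ℝ := ((δq t0 : ℚ) : ℝ) with hδ
  set ct : ℝ := ((ctq t0 : ℚ) : ℝ) with hct
  have hnumR : (14 / 100 : ℝ) * ct * (2 / (31415 / 10000))
      ≤ 36 * (31415 / 10000) ^ 2 * δ * (35 / 100) ^ 4 := by
    have h := (Rat.cast_le (K := ℝ)).2 hnum
    push_cast at h
    exact h
  have h1 : 14 / 100 * M ≤ 14 / 100 * (ct * Δ) := mul_le_mul_of_nonneg_left hMΔ (by norm_num)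
  have h2 : (2 : ℝ) / Real.pi ≤ 2 / (31415 / 10000) :=
    div_le_div_of_nonneg_left (by norm_num) (by norm_num) (by linarith)
  have h3 : (14 / 100 * M) * (2 / Real.pi) ≤ 14 / 100 * (ct * Δ) * (2 / (31415 / 10000)) := by
    apply mul_le_mul h1 h2 (by positivity) (by positivity)
  have h4 : 14 / 100 * (ct * Δ) * (2 / (31415 / 10000))
      = ((14 / 100 : ℝ) * ct * (2 / (31415 / 10000))) * Δ := by ring
  rw [h4] at h3
  have h5 := mul_le_mul_of_nonneg_right hnumR hΔ0.le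
  refine h3.trans (h5.trans ?_)
  have h6 : (31415 / 10000 : ℝ) ^ 2 ≤ Real.pi ^ 2 := pow_le_pow_left₀ (by norm_num) (by linarith) 2
  have h7 : δ * Δ ≤ Δ ^ 2 := by nlinarith
  have h8 : (0 : ℝ) ≤ (35 / 100) ^ 4 := by positivity
  have h9 : (31415 / 10000 : ℝ) ^ 2 * (δ * Δ) ≤ Real.pi ^ 2 * Δ ^ 2 :=
    mul_le_mul h6 h7 (by positivity) (by positivity)
  nlinarith

/-- The sum of the tangents over the selected nodes. -/
theorem tang_sum {ι : Type*} [DecidableEq ι] {j : ι} {Cs Cm : Finset ι} (hjs : j ∉ Cs) (hjm : j ∉ Cm)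
    (hd : Disjoint Cs Cm) {σ a : ι → ℝ} {ψ tt s M : ℝ} (htt0 : 0 ≤ tt)
    (hT : ∀ u, σ u ≤ ψ + tt * a u) (hj : σ j = s) (h1 : ∀ l ∈ Cs, s ≤ σ l)
    (h2 : ∀ l ∈ Cm, 2 * s ≤ σ l) (hM : a j + (∑ l ∈ Cs, a l + ∑ l ∈ Cm, a l) ≤ M) :
    ((Cs.card : ℝ) + 1 + 2 * Cm.card) * s ≤ ((Cs.card : ℝ) + 1 + Cm.card) * ψ + tt * M := by
  have h3 : (Cs.card : ℝ) * s ≤ ∑ l ∈ Cs, σ l := by
    have := Finset.card_nsmul_le_sum Cs σ s h1
    rwa [nsmul_eq_mul] at this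
  have h4 : (Cm.card : ℝ) * (2 * s) ≤ ∑ l ∈ Cm, σ l := by
    have := Finset.card_nsmul_le_sum Cm σ (2 * s) h2
    rwa [nsmul_eq_mul] at this
  have h5 : ∑ l ∈ Cs, σ l ≤ (Cs.card : ℝ) * ψ + tt * ∑ l ∈ Cs, a l := by
    have := Finset.sum_le_sum fun u (_ : u ∈ Cs) => hT u
    rwa [Finset.sum_add_distrib, Finset.sum_const, nsmul_eq_mul, ← Finset.mul_sum] at this
  have h6 : ∑ l ∈ Cm, σ l ≤ (Cm.card : ℝ) * ψ + tt * ∑ l ∈ Cm, a l := by
    have := Finset.sum_le_sum fun u (_ : u ∈ Cm) => hT u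
    rwa [Finset.sum_add_distrib, Finset.sum_const, nsmul_eq_mul, ← Finset.mul_sum] at this
  have h7 := hT j
  rw [hj] at h7
  have h8 := mul_le_mul_of_nonneg_left hM htt0
  nlinarith

/-- The upper bound of `s / Δ`. -/
theorem upper_bound {t0 c p i v : ℕ} {s M Δ : ℝ} (hc : (0 : ℝ) ≤ (c : ℝ)) (hp : (0 : ℝ) ≤ (p : ℝ))
    (hΔ0 : 0 < Δ) (hδ0 : (0 : ℝ) < ((δq t0 : ℚ) : ℝ)) (hδΔ : ((δq t0 : ℚ) : ℝ) ≤ Δ)
    (hMΔ : M ≤ ((ctq t0 : ℚ) : ℝ) * Δ)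
    (hsum : ((c : ℝ) + 1 + 2 * p) * s ≤ ((c : ℝ) + 1 + p) * ((v : ℝ) / 10000000) + ((i : ℝ) / 10) * M) :
    s ≤ ((Sq t0 c p i v : ℚ) : ℝ) * Δ := by
  have e : ((Sq t0 c p i v : ℚ) : ℝ)
      = (((ctq t0 : ℚ) : ℝ) * ((i : ℝ) / 10) + ((c : ℝ) + 1 + p) * ((v : ℝ) / 10000000) / ((δq t0 : ℚ) : ℝ))
        / ((c : ℝ) + 1 + 2 * p) := by
    unfold Sq
    push_cast
    rfl
  rw [e]
  set δ : ℝ := ((δq t0 : ℚ) : ℝ) with hδ
  set ct : ℝ := ((ctq t0 : ℚ) : ℝ) with hct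
  set ψ : ℝ := (v : ℝ) / 10000000 with hψ
  set tt : ℝ := (i : ℝ) / 10 with htt
  have htt0 : 0 ≤ tt := by rw [htt]; positivity
  have hψ0 : 0 ≤ ψ := by rw [hψ]; positivity
  have hpos : (0 : ℝ) < (c : ℝ) + 1 + 2 * p := by positivity
  have h1 : tt * M ≤ tt * (ct * Δ) := mul_le_mul_of_nonneg_left hMΔ htt0
  have h2 : ((c : ℝ) + 1 + p) * ψ ≤ ((c : ℝ) + 1 + p) * ψ / δ * Δ := by
    have h3 : 1 ≤ Δ / δ := (one_le_div hδ0).2 hδΔ
    have h4 : ((c : ℝ) + 1 + p) * ψ / δ * Δ = ((c : ℝ) + 1 + p) * ψ * (Δ / δ) := by ring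
    rw [h4]
    have h5 : 0 ≤ ((c : ℝ) + 1 + p) * ψ := by positivity
    nlinarith
  have h6 : (ct * tt + ((c : ℝ) + 1 + p) * ψ / δ) / ((c : ℝ) + 1 + 2 * p) * Δ
      = (ct * tt * Δ + ((c : ℝ) + 1 + p) * ψ / δ * Δ) / ((c : ℝ) + 1 + 2 * p) := by ring
  rw [h6, le_div_iff₀ hpos]
  nlinarith

/-- The energy of the `Q1` inequality. -/
theorem energy_Q1 {ι : Type*} [DecidableEq ι] {Cs Y Dd : Finset ι} {σ a : ι → ℝ} {s K M : ℝ}
    (hd : Disjoint Cs Y) (hCs : ∀ l ∈ Cs, 0 ≤ σ l ∧ σ l < 2 * s) (hY0 : ∀ l ∈ Y, σ l ^ 2 ≤ K * s * a l)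
    (hYD : Y ⊆ Dd) (ha : ∀ l, 0 ≤ a l) (hKs : 0 ≤ K * s) (hM : M = ∑ l ∈ Dd, a l) :
    ∑ l ∈ Cs ∪ ∅ ∪ Y, σ l ^ 2 ≤ 4 * (Cs.card : ℝ) * s ^ 2 + K * s * M := by
  rw [Finset.union_empty, Finset.sum_union hd]
  have h1 : ∑ l ∈ Cs, σ l ^ 2 ≤ 4 * (Cs.card : ℝ) * s ^ 2 := by
    have := Finset.sum_le_card_nsmul Cs (fun l => σ l ^ 2) (4 * s ^ 2) (fun l hl => by
      obtain ⟨h0, h2⟩ := hCs l hl
      have h3 : σ l ^ 2 ≤ (2 * s) ^ 2 := pow_le_pow_left₀ h0 h2.le 2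
      nlinarith)
    rw [nsmul_eq_mul] at this
    linarith
  refine add_le_add h1 ?_
  refine (Finset.sum_le_sum hY0).trans ?_
  rw [← Finset.mul_sum, hM]
  apply mul_le_mul_of_nonneg_left _ hKs
  exact Finset.sum_le_sum_of_subset_of_nonneg hYD fun _ _ _ => ha _

lemma cov1 {ι : Type*} [DecidableEq ι] (B Cm Cs Y : Finset ι) :
    (B ∪ Cm) ∪ (Cs ∪ ∅ ∪ Y) = B ∪ (Cs ∪ Cm ∪ Y) := by
  ext l
  simp only [Finset.mem_union, Finset.notMem_empty, or_false]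
  tauto

lemma sub1 {ι : Type*} [DecidableEq ι] (Cm Cs Y : Finset ι) : Cs ∪ ∅ ∪ Y ⊆ Cs ∪ Cm ∪ Y := by
  intro l hl
  simp only [Finset.mem_union, Finset.notMem_empty, or_false] at hl ⊢
  tauto

lemma disj1 {ι : Type*} [DecidableEq ι] {B Cs Cm Y : Finset ι} (h1 : Disjoint B Cs) (h2 : Disjoint B Y)
    (h3 : Disjoint Cm Cs) (h4 : Disjoint Cm Y) : Disjoint (B ∪ Cm) (Cs ∪ ∅ ∪ Y) := by
  rw [Finset.union_empty]
  exact Finset.disjoint_union_left.2 ⟨Finset.disjoint_union_right.2 ⟨h1, h2⟩,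
    Finset.disjoint_union_right.2 ⟨h3, h4⟩⟩

lemma disj2 {ι : Type*} [DecidableEq ι] {B Cs Cm Y : Finset ι} (h1 : Disjoint B Cs) (h2 : Disjoint B Cm)
    (h3 : Disjoint B Y) : Disjoint B (Cs ∪ Cm ∪ Y) :=
  Finset.disjoint_union_right.2 ⟨Finset.disjoint_union_right.2 ⟨h1, h2⟩, h3⟩

/-! ### The main step -/

/-- The step with the block, the dust and the determinant given. -/
theorem step_core (hk : K0 ≤ k) (hP : PF E (k - 1)) (hc : Critical z A) (hR : R < S z)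
    (B Dd : Finset (Fin k)) (hDisj : Disjoint B Dd) (hBorD : ∀ x, x ∉ B → x ∈ Dd)
    (a : Fin k → ℝ) (ha0 : ∀ i, 0 ≤ a i) (hT : ∀ i, Top.Tang ‖z i‖ (a i))
    (hdust : ∀ i ∈ Dd, ‖z i‖ ^ 2 ≤ 14 / 100 * a i)
    (ht3 : 3 ≤ B.card) (ht10 : B.card ≤ 10) {i1 i2 i3 : Fin k} (m1 : i1 ∈ B) (m2 : i2 ∈ B) (m3 : i3 ∈ B)
    (n12 : i1 ≠ i2) (n13 : i1 ≠ i3) (n23 : i2 ≠ i3) (l12 : ‖z i2‖ ≤ ‖z i1‖) {M Δ : ℝ}
    (hM : M = ∑ i ∈ Dd, a i) (hΔ0 : 0 < Δ)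
    (hD : Δ ^ 2 ≤ Crest.Agent.Propeller.D3 (‖z i2‖ ^ 2) (‖z i3‖ ^ 2) (14 / 100 * M))
    (hxxe3 : 14 / 100 * M ≤ ‖z i3‖ ^ 2) (hδΔ : ((δq B.card : ℚ) : ℝ) ≤ Δ)
    (hMΔ : M ≤ ((ctq B.card : ℚ) : ℝ) * Δ) : False := by
  classical
  have hk18 : 18 ≤ k := hk
  have hk2 : 2 ≤ k := by omega
  have hkr : (18 : ℝ) ≤ k := by exact_mod_cast hk18
  have hk1 : (0 : ℝ) < (k : ℝ) - 1 := by linarith
  have hMnn : 0 ≤ M := by
    rw [hM]
    exact Finset.sum_nonneg fun _ _ => ha0 _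
  have hcard : B.card + Dd.card = k := by
    have h1 := Finset.card_union_of_disjoint hDisj
    have h2 : B ∪ Dd = Finset.univ := by
      ext x
      simp only [Finset.mem_union, Finset.mem_univ, iff_true]
      by_cases h : x ∈ B
      · exact Or.inl h
      · exact Or.inr (hBorD x h)
    rw [h2, Finset.card_univ, Fintype.card_fin] at h1
    exact h1.symm
  have hdustsum : ∑ i ∈ Dd, ‖z i‖ ^ 2 ≤ 14 / 100 * M := by
    rw [hM, Finset.mul_sum]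
    exact Finset.sum_le_sum hdust
  have hSub : ∀ Z ⊆ Dd, ∑ l ∈ Z, ‖z l‖ ^ 2 ≤ 14 / 100 * M := fun Z hZ =>
    (Finset.sum_le_sum_of_subset_of_nonneg hZ fun _ _ _ => by positivity).trans hdustsum
  have hDdne : Dd.Nonempty := Finset.card_pos.1 (by omega)
  have hm14 : mRank = 14 := rfl
  obtain ⟨j, Cs, Cm, Y, hjD, hjs, hjm, hjY, hCsD, hCmD, hYD, hCsCm, hCsY, hCmY, hDsplit, hCs, hCm, hYle,
    hYcard, hcases⟩ := select_dust Dd (fun i => ‖z i‖) hDdne mRank (by norm_num [mRank])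
  replace hCs : ∀ l ∈ Cs, ‖z j‖ ≤ ‖z l‖ ∧ ‖z l‖ < 2 * ‖z j‖ := hCs
  replace hCm : ∀ l ∈ Cm, 2 * ‖z j‖ ≤ ‖z l‖ := hCm
  replace hYle : ∀ l ∈ Y, ‖z l‖ ≤ ‖z j‖ := hYle
  have hs : 0 < ‖z j‖ := hc.norm_pos hR hP hk2 j
  obtain ⟨s, hsdef⟩ : ∃ s, s = ‖z j‖ := ⟨_, rfl⟩
  rw [← hsdef] at hCs hCm hYle hs
  obtain ⟨t0, ht0⟩ : ∃ t0, t0 = B.card := ⟨_, rfl⟩
  obtain ⟨c, hcdef⟩ : ∃ c, c = Cs.card := ⟨_, rfl⟩
  obtain ⟨p, hpdef⟩ : ∃ p, p = Cm.card := ⟨_, rfl⟩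
  rw [← ht0] at ht3 ht10 hδΔ hMΔ hcard
  rw [← hcdef, ← hpdef] at hYcard hcases
  -- the entry
  have hentry : ∃ tail : Bool, okEntry t0 c p tail = true ∧ (tail = false → Y = ∅ ∧ k = t0 + c + p + 1) := by
    rcases hcases with h | ⟨h1, h2⟩
    · exact ⟨true, entry_tail ht3 ht10 h, fun h => absurd h (by simp)⟩
    · refine ⟨false, entry_full ht3 ht10 h2 ?_, fun _ => ⟨h1, ?_⟩⟩
      · have h3 : K0 = 18 := rfl
        rw [h1, Finset.card_empty] at hYcard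
        omega
      · rw [h1, Finset.card_empty] at hYcard
        omega
  obtain ⟨tail, hent, htail⟩ := hentry
  obtain ⟨βn, i, v, mo1, mo2, hf1, hf2, hfψ, hcore⟩ := okEntry_unpack hent
  obtain ⟨hτq, hδq, hctq, hnum, -, -, hc3⟩ := core_unpack hcore
  have hτcast : (0 : ℝ) < ((t0 + c + p : ℕ) : ℝ) := by exact_mod_cast hτq
  have hδ0 : (0 : ℝ) < ((δq t0 : ℚ) : ℝ) := by exact_mod_cast hδq
  have hct0 : (0 : ℝ) ≤ ((ctq t0 : ℚ) : ℝ) := by exact_mod_cast hctq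
  have hxxΔ := xx_num hnum hct0 hδ0 hΔ0 hMnn hδΔ hMΔ
  -- Tool A
  have hi1 : i1 ∉ Dd := Finset.disjoint_left.1 hDisj m1
  have hi2 : i2 ∉ Dd := Finset.disjoint_left.1 hDisj m2
  have hi3 : i3 ∉ Dd := Finset.disjoint_left.1 hDisj m3
  have he₁ : ‖z i2‖ ^ 2 ≤ ‖z i1‖ ^ 2 := pow_le_pow_left₀ (norm_nonneg _) l12 2
  have hXA : insert j Y ⊆ Dd := Finset.insert_subset hjD hYD
  have hXcard : ((insert j Y)ᶜ).card = t0 + c + p := by
    rw [Finset.card_compl, Finset.card_insert_of_notMem hjY, Fintype.card_fin]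
    omega
  have hbLe : ((bLq t0 c p : ℚ) : ℝ) = 998 / 100 / ((t0 + c + p : ℕ) : ℝ) ^ 2 := by
    unfold bLq
    push_cast
    rfl
  have hL : ((bLq t0 c p : ℚ) : ℝ) * Δ ≤ s := by
    have h := toolA hc hR hP (insert j Y) (j := j) (i1 := i1) (i2 := i2) (i3 := i3)
      (Finset.mem_insert_self _ _) (by rw [← hsdef]; exact hs)
      (by
        intro l hl
        rcases Finset.mem_insert.1 hl with rfl | h
        · exact le_rfl
        · rw [← hsdef]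
          exact hYle l h)
      (fun h => hi1 (hXA h)) (fun h => hi2 (hXA h)) (fun h => hi3 (hXA h)) n12 n13 n23
      he₁ le_rfl (hSub _ hXA) hxxe3 hΔ0 hD hxxΔ hτcast
      (by rw [hXcard])
    rw [hbLe, hsdef]
    exact h
  have hbL0 : (0 : ℝ) < ((bLq t0 c p : ℚ) : ℝ) := by
    rw [hbLe]
    exact div_pos (by norm_num) (pow_pos hτcast 2)
  -- the tangents
  have hψ := findPsi_le hfψ
  have htt0 : (0 : ℝ) ≤ (i : ℝ) / 10 := by positivity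
  have hTang : ∀ u, ‖z u‖ ≤ (v : ℝ) / 10000000 + (i : ℝ) / 10 * a u := fun u => by
    have := hT u _ htt0
    linarith
  have hsumU : ((c : ℝ) + 1 + 2 * p) * s ≤ ((c : ℝ) + 1 + p) * ((v : ℝ) / 10000000) + ((i : ℝ) / 10) * M := by
    have h := tang_sum hjs hjm hCsCm htt0 hTang hsdef.symm (fun l hl => (hCs l hl).1) hCm (M := M)
      (by
        rw [hM, ← Finset.sum_union hCsCm, ← Finset.sum_insert (by
          intro h
          rcases Finset.mem_union.1 h with h | h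
          · exact hjs h
          · exact hjm h)]
        apply Finset.sum_le_sum_of_subset_of_nonneg
        · exact Finset.insert_subset hjD (Finset.union_subset hCsD hCmD)
        · exact fun _ _ _ => ha0 _)
    rw [← hcdef, ← hpdef] at h
    exact h
  have hS : s ≤ ((Sq t0 c p i v : ℚ) : ℝ) * Δ :=
    upper_bound (by positivity) (by positivity) hΔ0 hδ0 hδΔ hMΔ hsumU
  -- the finsets
  have hBCs : Disjoint B Cs := Finset.disjoint_of_subset_right hCsD hDisj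
  have hBCm : Disjoint B Cm := Finset.disjoint_of_subset_right hCmD hDisj
  have hBY : Disjoint B Y := Finset.disjoint_of_subset_right hYD hDisj
  have hjB : j ∉ B := fun h => Finset.disjoint_left.1 hDisj h hjD
  have hcov2 : B ∪ (Cs ∪ Cm ∪ Y) = Finset.univ.erase j := by
    ext l
    simp only [Finset.mem_union, Finset.mem_erase, Finset.mem_univ, and_true]
    constructor
    · rintro (h | (h | h) | h) hl
      · exact hjB (hl ▸ h)
      · exact hjs (hl ▸ h)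
      · exact hjm (hl ▸ h)
      · exact hjY (hl ▸ h)
    · intro hl
      by_cases hlB : l ∈ B
      · exact Or.inl hlB
      · rcases hDsplit l (hBorD l hlB) with h | h | h | h
        · exact absurd h hl
        · exact Or.inr (Or.inl (Or.inl h))
        · exact Or.inr (Or.inl (Or.inr h))
        · exact Or.inr (Or.inr h)
  -- Q2
  have hjnot2 : j ∉ Cs ∪ Cm ∪ Y := by
    intro h
    rcases Finset.mem_union.1 h with h | h
    · rcases Finset.mem_union.1 h with h | h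
      · exact hjs h
      · exact hjm h
    · exact hjY h
  have hsj2 : ‖z j‖ ^ 2 + ∑ l ∈ Cs ∪ Cm ∪ Y, ‖z l‖ ^ 2 ≤ 14 / 100 * M := by
    have h1 := Finset.sum_insert (f := fun l => ‖z l‖ ^ 2) hjnot2
    have h2 := hSub (insert j (Cs ∪ Cm ∪ Y))
      (Finset.insert_subset hjD (Finset.union_subset (Finset.union_subset hCsD hCmD) hYD))
    rw [h1] at h2
    exact h2
  have hdisj3 : Disjoint (Cs ∪ Cm) Y := Finset.disjoint_union_left.2 ⟨hCsY, hCmY⟩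
  have hf2' : findMo Cs.card Cm.card = some mo2 := by
    rw [← hcdef, ← hpdef]
    exact hf2
  have hQ2 := Q_form hc hR hP hk j B Cs Cm Y (disj2 hBCs hBCm hBY) hCsCm hdisj3 hcov2 m1 m2 m3 n12 n13 n23
    he₁ le_rfl hsj2 hxxe3 hΔ0 hD (fun l hl => by rw [← hsdef]; exact (hCs l hl).1)
    (fun l hl => by rw [← hsdef]; exact hCm l hl)
    (V := 14 / 100 * M) ((le_add_of_nonneg_left (by positivity)).trans hsj2) hf2'
  -- Q1
  have hcov1 : (B ∪ Cm) ∪ (Cs ∪ ∅ ∪ Y) = Finset.univ.erase j := by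
    rw [cov1, hcov2]
  have hsj1 : ‖z j‖ ^ 2 + ∑ l ∈ Cs ∪ ∅ ∪ Y, ‖z l‖ ^ 2 ≤ 14 / 100 * M := by
    refine le_trans ?_ hsj2
    apply add_le_add le_rfl
    exact Finset.sum_le_sum_of_subset_of_nonneg (sub1 Cm Cs Y) fun _ _ _ => by positivity
  have hK0 : (0 : ℝ) ≤ ((Kq tail : ℚ) : ℝ) := Kq_nonneg tail
  have hY0 : ∀ l ∈ Y, ‖z l‖ ^ 2 ≤ ((Kq tail : ℚ) : ℝ) * s * a l := by
    cases tail with
    | false =>
      intro l hl
      rw [(htail rfl).1] at hl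
      exact absurd hl (Finset.notMem_empty l)
    | true =>
      have hc3' := hc3 rfl
      have h3 := (Rat.cast_le (K := ℝ)).2 hc3'
      push_cast at h3
      have h4 : ((bLq t0 c p : ℚ) : ℝ) * ((δq t0 : ℚ) : ℝ) ≤ s :=
        (mul_le_mul_of_nonneg_left hδΔ hbL0.le).trans hL
      have hs8 : 8 / 10000 ≤ s := h3.trans h4
      have hKv : ((Kq true : ℚ) : ℝ) = 42 / 10 := by
        simp only [Kq, cond_true]
        norm_num
      rw [hKv]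
      exact fun l hl => tail_sq_le (hT l) (norm_nonneg _) (ha0 l) (hYle l hl) hs8
  have hV1bound := energy_Q1 (σ := fun l => ‖z l‖) (s := s) (Dd := Dd) (a := a)
    (K := ((Kq tail : ℚ) : ℝ)) (M := M) hCsY (fun l hl => ⟨norm_nonneg _, (hCs l hl).2⟩) hY0 hYD ha0
    (mul_nonneg hK0 hs.le) hM
  have hGcard : (B ∪ Cm).card = t0 + p := by
    rw [Finset.card_union_of_disjoint hBCm, ht0, hpdef]
  have hf1' : findMo Cs.card (∅ : Finset (Fin k)).card = some mo1 := by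
    rw [← hcdef, Finset.card_empty]
    exact hf1
  have hQ1 := Q_form hc hR hP hk j (B ∪ Cm) Cs ∅ Y (disj1 hBCs hBY hCsCm.symm hCmY)
    (Finset.disjoint_empty_right _) (by rw [Finset.union_empty]; exact hCsY)
    hcov1 (Finset.mem_union_left _ m1) (Finset.mem_union_left _ m2) (Finset.mem_union_left _ m3)
    n12 n13 n23 he₁ le_rfl hsj1 hxxe3 hΔ0 hD (fun l hl => by rw [← hsdef]; exact (hCs l hl).1)
    (fun l hl => absurd hl (Finset.notMem_empty l)) hV1bound hf1'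
  rw [hGcard, ← hsdef, ← hcdef] at hQ1
  rw [← hsdef] at hQ2
  rw [← ht0] at hQ2
  -- `r`
  have hrq : ((rq t0 c p tail : ℚ) : ℝ) ≤ (k : ℝ) / ((k : ℝ) - 1) := by
    cases tail with
    | false =>
      have hke := (htail rfl).2
      simp only [rq, cond_false]
      push_cast
      have h1 : (k : ℝ) = (t0 : ℝ) + c + p + 1 := by
        rw [hke]
        push_cast
        ring
      rw [h1]
      apply le_of_eq
      congr 1
      ring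
    | true =>
      simp only [rq, cond_true]
      push_cast
      rw [le_div_iff₀ hk1]
      linarith
  exact final_close hcore (Vq_nonneg mo1) (Vq_nonneg mo2) (Uq_nonneg mo1 (t0 + p)) (Uq_nonneg mo2 t0)
    hrq hδΔ hs hMnn hMΔ hL hS hbL0 hK0 hQ1 hQ2

/-- The determinant. -/
lemma delta_facts {δ ct e2 e3 M : ℝ} (hδ0 : 0 < δ) (hct0 : 0 ≤ ct) (he : e3 ≤ e2) (he2 : 0 ≤ e2)
    (hG1 : δ ^ 2 ≤ Top.D3 e2 e3 (14 / 100 * M)) (hG2 : M ^ 2 ≤ ct ^ 2 * Top.D3 e2 e3 (14 / 100 * M)) :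
    ∃ Δ : ℝ, 0 < Δ ∧ Δ ^ 2 ≤ Crest.Agent.Propeller.D3 e2 e3 (14 / 100 * M) ∧ 14 / 100 * M ≤ e3 ∧ δ ≤ Δ ∧
      M ≤ ct * Δ := by
  have hD0pos : 0 < Top.D3 e2 e3 (14 / 100 * M) := lt_of_lt_of_le (by positivity) hG1
  have hΔ0 : 0 < Real.sqrt (Top.D3 e2 e3 (14 / 100 * M)) := Real.sqrt_pos.2 hD0pos
  have hΔ2 := Real.sq_sqrt hD0pos.le
  refine ⟨Real.sqrt (Top.D3 e2 e3 (14 / 100 * M)), hΔ0, ?_, ?_, Real.le_sqrt_of_sq_le hG1, ?_⟩
  · rw [hΔ2]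
    exact le_of_eq rfl
  · by_contra hcon
    push Not at hcon
    have h1 : Top.D3 e2 e3 (14 / 100 * M) ≤ (e3 - 14 / 100 * M) * (e2 - (e3 - 14 / 100 * M) / 4) :=
      min_le_right _ _
    have h2 : (e3 - 14 / 100 * M) * (e2 - (e3 - 14 / 100 * M) / 4) < 0 :=
      mul_neg_of_neg_of_pos (by linarith) (by linarith)
    linarith
  · have h1 : M ^ 2 ≤ (ct * Real.sqrt (Top.D3 e2 e3 (14 / 100 * M))) ^ 2 := by
      rw [mul_pow, hΔ2]
      exact hG2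
    exact (abs_le_of_sq_le_sq' h1 (by positivity)).2

/-- **The step at all levels `k ≥ K0`.** -/
theorem stepLarge (hk : K0 ≤ k) (hP : PF E (k - 1)) (hc : Critical z A) (hR : R < S z) : False := by
  classical
  have hTop := Top.topHyp_of_critical hc hR
  have hDisj : Disjoint (Finset.univ.filter fun i => 6 / 100 ≤ ‖z i‖)
      (Finset.univ.filter fun i => ¬ 6 / 100 ≤ ‖z i‖) := by
    rw [Finset.disjoint_left]
    intro x hx hx'
    exact (Finset.mem_filter.1 hx').2 (Finset.mem_filter.1 hx).2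
  have hBorD : ∀ x, x ∉ (Finset.univ.filter fun i => 6 / 100 ≤ ‖z i‖) →
      x ∈ (Finset.univ.filter fun i => ¬ 6 / 100 ≤ ‖z i‖) := by
    intro x hx
    exact Finset.mem_filter.2 ⟨Finset.mem_univ _, fun h => hx (Finset.mem_filter.2 ⟨Finset.mem_univ _, h⟩)⟩
  have hdust : ∀ i ∈ (Finset.univ.filter fun i => ¬ 6 / 100 ≤ ‖z i‖), ‖z i‖ ^ 2
      ≤ 14 / 100 * (stdGaussian E).real (A i) := by
    intro i hi
    exact Top.dust_of_critical hc (not_le.1 (Finset.mem_filter.1 hi).2)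
  generalize (Finset.univ.filter fun i => 6 / 100 ≤ ‖z i‖) = B at hTop hDisj hBorD
  generalize (Finset.univ.filter fun i => ¬ 6 / 100 ≤ ‖z i‖) = Dd at hTop hDisj hBorD hdust
  have ht3 : 3 ≤ B.card := hTop.le_card
  have ht10 : B.card ≤ 10 := hTop.card_le
  obtain ⟨i1, i2, i3, m1, m2, m3, n12, n13, n23, l12, l23, lrest⟩ :=
    exists_top3 B (fun i => ‖z i‖) ht3
  have hGoal := hTop.top m1 m2 m3 n12 n13 n23 l12 l23 lrest
  have hG1 := hGoal.1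
  have hG2 := hGoal.2
  replace l12 : ‖z i2‖ ≤ ‖z i1‖ := l12
  replace l23 : ‖z i3‖ ≤ ‖z i2‖ := l23
  have hδ0 : (0 : ℝ) < ((δq B.card : ℚ) : ℝ) := by
    have : 0 < Top.dTab B.card := dTab_pos ht3 ht10
    have h2 : (0 : ℝ) < (Top.dTab B.card : ℝ) := by exact_mod_cast this
    rw [cast_δq]
    positivity
  have hct0 : (0 : ℝ) ≤ ((ctq B.card : ℚ) : ℝ) := by
    rw [cast_ctq]
    positivity
  rw [← cast_δq] at hG1
  rw [← cast_ctq] at hG2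
  obtain ⟨Δ, hΔ0, hD, hxx, hδΔ, hMΔ⟩ := delta_facts hδ0 hct0
    (pow_le_pow_left₀ (norm_nonneg _) l23 2) (by positivity) hG1 hG2
  exact step_core hk hP hc hR B Dd hDisj hBorD (fun i => (stdGaussian E).real (A i))
    (fun _ => measureReal_nonneg) (Top.tang_of_critical hc) hdust ht3 ht10 m1 m2 m3 n12 n13 n23 l12 rfl
    hΔ0 hD hxx hδΔ hMΔ

end Crest.Agent.Propeller.HT
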