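import Crest.Agent.Lib.Propeller.DimRed

/-!
# Propeller: the cap bound in every dimension

* `lam_integral_gen`, `Wint`: the normalised cap measure as `∫_τ^1 (1-x²)^{(j-1)/2} dx`;
* `Wint_odd`, `Wint_four`: closed forms; `Dc_odd`, `Dc_even`: closed forms of the moments;
* `capGen_tangent`, `Critical.norm_le_capGen`: the tangent (Legendre) form in dimension `j + 2`;
* `cap6_tangent`, `cap7_tangent`, `cap11_tangent`, `cap17_tangent`: explicit cases;
* `PF_all_padded`: the induction frame with the critical configuration in `ℝ^{d k}`, `d k ≥ k - 1`.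
-/

set_option autoImplicit false
set_option linter.unusedSectionVars false
open MeasureTheory ProbabilityTheory Set
open scoped RealInnerProductSpace

namespace Crest.Agent.Propeller

/-- `W_j(τ) = ∫_τ^1 (1-x²)^{(j-1)/2} dx`; the surface measure of the cap in `ℝ^{j+2}`, up to a
normalising constant. -/
noncomputable def Wint (j : ℕ) (τ : ℝ) : ℝ := ∫ x in τ..1, (1 - x ^ 2) ^ (((j : ℝ) - 1) / 2)

lemma hasDerivAt_xOf (t : ℝ) :
    HasDerivAt (fun t : ℝ => (1 + t ^ 2) ^ (-(1 / 2) : ℝ)) (-(t * (1 + t ^ 2) ^ (-(3 / 2) : ℝ))) t := by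
  refine (hasDerivAt_one_add_sq_rpow _ t).congr_deriv ?_
  have e1 : (-(1 / 2) : ℝ) - 1 = -(3 / 2) := by norm_num
  rw [e1]
  ring

lemma lam_integrand_eq {j : ℕ} (hj : 1 ≤ j) {t : ℝ} (ht : 0 ≤ t) :
    t ^ j * (1 + t ^ 2) ^ (-((j : ℝ) + 2) / 2)
      = (1 - ((1 + t ^ 2) ^ (-(1 / 2) : ℝ)) ^ 2) ^ (((j : ℝ) - 1) / 2)
        * (t * (1 + t ^ 2) ^ (-(3 / 2) : ℝ)) := by
  have hp : 0 < 1 + t ^ 2 := by positivity
  have h1 : ((1 + t ^ 2) ^ (-(1 / 2) : ℝ)) ^ 2 = (1 + t ^ 2)⁻¹ := by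
    rw [← Real.rpow_natCast, ← Real.rpow_mul hp.le]
    norm_num
    exact Real.rpow_neg_one _
  have h2 : 1 - (1 + t ^ 2)⁻¹ = t ^ 2 * (1 + t ^ 2)⁻¹ := by
    field_simp
    ring
  rw [h1, h2, Real.mul_rpow (by positivity) (by positivity)]
  have h3 : (t ^ 2) ^ (((j : ℝ) - 1) / 2) = t ^ (j - 1) := by
    rw [← Real.rpow_natCast t 2, ← Real.rpow_mul ht, ← Real.rpow_natCast t (j - 1)]
    congr 1
    rw [Nat.cast_sub hj]
    push_cast
    ring
  have h4 : ((1 + t ^ 2)⁻¹) ^ (((j : ℝ) - 1) / 2) = (1 + t ^ 2) ^ (-(((j : ℝ) - 1) / 2)) := by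
    rw [Real.inv_rpow hp.le, Real.rpow_neg hp.le]
  rw [h3, h4]
  have h5 : (1 + t ^ 2) ^ (-((j : ℝ) + 2) / 2)
      = (1 + t ^ 2) ^ (-(((j : ℝ) - 1) / 2)) * (1 + t ^ 2) ^ (-(3 / 2) : ℝ) := by
    rw [← Real.rpow_add hp]
    congr 1
    ring
  rw [h5]
  have h6 : t ^ j = t ^ (j - 1) * t := by
    rw [← pow_succ]
    congr 1
    omega
  rw [h6]
  ring

/-- The substitution `x = (1+t²)^{-1/2}`. -/
theorem lam_integral_gen {j : ℕ} (hj : 1 ≤ j) {τ : ℝ} (h0 : 0 < τ) (h1 : τ < 1) :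
    ∫ t in (0 : ℝ)..(lamOf τ), t ^ j * (1 + t ^ 2) ^ (-((j : ℝ) + 2) / 2) = Wint j τ := by
  have hl := lamOf_pos h0 h1
  have hg : Continuous fun x : ℝ => (1 - x ^ 2) ^ (((j : ℝ) - 1) / 2) := by
    refine Continuous.rpow_const (by fun_prop) (fun x => Or.inr ?_)
    have : (1 : ℝ) ≤ j := by exact_mod_cast hj
    linarith
  have hf' : Continuous fun t : ℝ => -(t * (1 + t ^ 2) ^ (-(3 / 2) : ℝ)) := by
    refine Continuous.neg (Continuous.mul continuous_id ?_)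
    exact Continuous.rpow_const (by fun_prop) (fun t => Or.inl (by positivity))
  have key := intervalIntegral.integral_comp_mul_deriv (a := 0) (b := lamOf τ)
    (f := fun t : ℝ => (1 + t ^ 2) ^ (-(1 / 2) : ℝ))
    (f' := fun t : ℝ => -(t * (1 + t ^ 2) ^ (-(3 / 2) : ℝ)))
    (g := fun x : ℝ => (1 - x ^ 2) ^ (((j : ℝ) - 1) / 2))
    (fun t _ => hasDerivAt_xOf t) hf'.continuousOn hg
  have e0 : ((1 : ℝ) + 0 ^ 2) ^ (-(1 / 2) : ℝ) = 1 := by simp
  simp only [Function.comp] at key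
  rw [e0, one_add_lam_rpow h0 h1] at key
  unfold Wint
  rw [intervalIntegral.integral_symm 1 τ, ← key, ← intervalIntegral.integral_neg]
  refine intervalIntegral.integral_congr fun t ht => ?_
  have ht0 : 0 ≤ t := by
    rw [uIcc_of_le hl.le] at ht
    exact ht.1
  rw [lam_integrand_eq hj ht0]
  ring

/-! ### Closed forms of `Dc` -/

lemma Dc_odd (m : ℕ) : Dc (2 * m + 1) = 2 ^ m * (m.factorial : ℝ) := by
  induction m with
  | zero => simp [Dc_one]
  | succ m ih =>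
    have : 2 * (m + 1) + 1 = (2 * m + 1) + 2 := by ring
    rw [this, Dc_add_two, ih, Nat.factorial_succ]
    push_cast
    ring

lemma Dc_even (m : ℕ) : Dc (2 * m + 2) = ((2 * m + 1).doubleFactorial : ℝ) / (2 * phi0) := by
  induction m with
  | zero => simp [Dc_two]
  | succ m ih =>
    have : 2 * (m + 1) + 2 = (2 * m + 2) + 2 := by ring
    rw [this, Dc_add_two, ih]
    have h2 : 2 * (m + 1) + 1 = (2 * m + 1) + 2 := by ring
    rw [h2, Nat.doubleFactorial_add_two]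
    push_cast
    ring

/-! ### The general tangent bound -/

section gen

variable {E : Type*} [NormedAddCommGroup E] [InnerProductSpace ℝ E] [FiniteDimensional ℝ E]
  [MeasurableSpace E] [BorelSpace E] {u : E}

/-- **The tangent bound in dimension `n = j + 2`, `j ≥ 1`**, in Legendre form:
`∫_A ⟪u,g⟫ ≤ φ₀ ((1-τ²)^{(j+1)/2} - (j+1) τ W_j(τ)) + τ m_n γ(A)`, `m_n = E‖g‖ = D_{j+2}/D_{j+1}`. -/
theorem capGen_tangent {j : ℕ} (hj : 1 ≤ j) (hn : Module.finrank ℝ E = j + 2) (hu : ‖u‖ = 1) {τ : ℝ}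
    (h0 : 0 < τ) (h1 : τ < 1) {A : Set E} (hA : IsConeSet A) (hm : MeasurableSet A) :
    ∫ g in A, ⟪u, g⟫ ∂(stdGaussian E)
      ≤ phi0 * ((1 - τ ^ 2) ^ (((j : ℝ) + 1) / 2) - ((j : ℝ) + 1) * τ * Wint j τ)
        + τ * (Dc (j + 2) / Dc (j + 1)) * (stdGaussian E).real A := by
  have : Nontrivial E := nontrivial_of_eq (n := j + 1) hn
  have h := cone_cap_tangent u τ hA hm
  rw [integral_capCone hu h0 h1, mean_norm hn, real_capCone hu h0 h1 hn, hn,
    lam_integral_gen hj h0 h1] at h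
  have hE : (((j + 2 - 1 : ℕ) : ℝ) / 2) = ((j : ℝ) + 1) / 2 := by
    have : j + 2 - 1 = j + 1 := by omega
    rw [this]
    push_cast
    ring
  rw [hE] at h
  refine h.trans (le_of_eq ?_)
  have h2 := Dc_add_two j
  have h3 := (Dc_pos j).ne'
  have h4 := (Dc_pos (j + 1)).ne'
  rw [h2]
  field_simp
  ring

/-- The closed form of `W_j` for odd `j`. -/
theorem Wint_odd (m : ℕ) (τ : ℝ) :
    Wint (2 * m + 1) τ
      = ∑ i ∈ Finset.range (m + 1),
          (m.choose i : ℝ) * (-1) ^ i * ((1 - τ ^ (2 * i + 1)) / (2 * (i : ℝ) + 1)) := by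
  unfold Wint
  have hE : (((2 * m + 1 : ℕ) : ℝ) - 1) / 2 = (m : ℝ) := by
    push_cast
    ring
  rw [hE]
  simp_rw [Real.rpow_natCast]
  have h1 : ∀ x : ℝ, (1 - x ^ 2) ^ m
      = ∑ i ∈ Finset.range (m + 1), (m.choose i : ℝ) * (-1) ^ i * x ^ (2 * i) := by
    intro x
    have := add_pow (-x ^ 2) 1 m
    rw [show (1 - x ^ 2) = (-x ^ 2) + 1 by ring, this]
    refine Finset.sum_congr rfl fun i _ => ?_
    rw [one_pow, mul_one, neg_pow, pow_mul]
    ring
  simp_rw [h1]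
  rw [intervalIntegral.integral_finsetSum]
  · refine Finset.sum_congr rfl fun i _ => ?_
    rw [intervalIntegral.integral_const_mul, integral_pow]
    push_cast
    simp
  · intro i _
    exact Continuous.intervalIntegrable (by fun_prop) _ _

/-- `W_4` in closed form (dimension 6). -/
lemma Wint_four {τ : ℝ} (h0 : 0 < τ) (h1 : τ < 1) :
    Wint 4 τ = (3 * Real.arccos τ - τ * (5 - 2 * τ ^ 2) * Real.sqrt (1 - τ ^ 2)) / 8 := by
  have hs2 : 0 < 1 - τ ^ 2 := by nlinarith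
  have hfun : ∀ x : ℝ, x ∈ Ioo τ 1 → HasDerivAt
      (fun x : ℝ => (-3 * Real.arccos x + x * (5 - 2 * x ^ 2) * Real.sqrt (1 - x ^ 2)) / 8)
      ((1 - x ^ 2) ^ ((((4 : ℕ) : ℝ) - 1) / 2)) x := by
    rintro x ⟨hx0, hx1⟩
    have hxpos : 0 < x := h0.trans hx0
    have hs : 0 < 1 - x ^ 2 := by nlinarith
    have hr : Real.sqrt (1 - x ^ 2) ≠ 0 := (Real.sqrt_pos.2 hs).ne'
    have hrsq : Real.sqrt (1 - x ^ 2) ^ 2 = 1 - x ^ 2 := Real.sq_sqrt hs.le
    have h3 : HasDerivAt (fun x : ℝ => 1 - x ^ 2) (-(2 * x)) x := by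
      simpa using (hasDerivAt_pow 2 x).const_sub 1
    have h4 := h3.sqrt hs.ne'
    have h5 : HasDerivAt (fun x : ℝ => x * (5 - 2 * x ^ 2)) (5 - 6 * x ^ 2) x := by
      have h6 : HasDerivAt (fun x : ℝ => 5 - 2 * x ^ 2) (-(2 * (2 * x))) x := by
        simpa using ((hasDerivAt_pow 2 x).const_mul 2).const_sub 5
      refine ((hasDerivAt_id x).mul h6).congr_deriv ?_
      simp only [id_eq]
      ring
    have h7 := (((Real.hasDerivAt_arccos (by linarith) hx1.ne).const_mul (-3)).add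
      (h5.mul h4)).div_const 8
    refine h7.congr_deriv ?_
    have e : (((4 : ℕ) : ℝ) - 1) / 2 = 3 / 2 := by norm_num
    rw [e]
    have h8 : (1 - x ^ 2) ^ ((3 : ℝ) / 2) = (1 - x ^ 2) * Real.sqrt (1 - x ^ 2) := by
      rw [show (3 : ℝ) / 2 = 1 + 1 / 2 by norm_num, Real.rpow_add hs, Real.rpow_one,
        ← Real.sqrt_eq_rpow]
    rw [h8]
    have h9 : Real.sqrt (1 - x ^ 2) ^ 2 = 1 - x ^ 2 := hrsq
    field_simp
    rw [h9]
    ring
  unfold Wint
  have hcontG : ContinuousOn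
      (fun x : ℝ => (-3 * Real.arccos x + x * (5 - 2 * x ^ 2) * Real.sqrt (1 - x ^ 2)) / 8)
      (Icc τ 1) := by
    refine Continuous.continuousOn ?_
    have := Real.continuous_arccos
    fun_prop
  have hint : IntervalIntegrable (fun x : ℝ => (1 - x ^ 2) ^ ((((4 : ℕ) : ℝ) - 1) / 2)) volume τ 1 := by
    refine Continuous.intervalIntegrable ?_ _ _
    exact Continuous.rpow_const (by fun_prop) (fun x => Or.inr (by norm_num))
  rw [intervalIntegral.integral_eq_sub_of_hasDerivAt_of_le h1.le hcontG hfun hint]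
  simp only [Real.arccos_one]
  norm_num
  ring

/-- `n = 6`. -/
theorem cap6_tangent (hn : Module.finrank ℝ E = 6) (hu : ‖u‖ = 1) {τ : ℝ} (h0 : 0 < τ) (h1 : τ < 1)
    {A : Set E} (hA : IsConeSet A) (hm : MeasurableSet A) :
    ∫ g in A, ⟪u, g⟫ ∂(stdGaussian E)
      ≤ phi0 * ((1 - τ ^ 2) ^ ((5 : ℝ) / 2)
          - 5 * τ * ((3 * Real.arccos τ - τ * (5 - 2 * τ ^ 2) * Real.sqrt (1 - τ ^ 2)) / 8)
          + τ * (15 * Real.pi / 8) * (stdGaussian E).real A) := by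
  have h := capGen_tangent (j := 4) (by norm_num) hn hu h0 h1 hA hm
  rw [Wint_four h0 h1, show 4 + 2 = 2 * 2 + 2 by norm_num, Dc_even, show 4 + 1 = 2 * 2 + 1 by norm_num,
    Dc_odd] at h
  have e1 : (2 * 2 + 1 : ℕ).doubleFactorial = 15 := by decide
  have e2 : (2 : ℕ).factorial = 2 := by decide
  rw [e1, e2] at h
  have hp := phi0_pos
  have hsq := phi0_sq
  have hr : (15 : ℝ) / (2 * phi0) / (2 ^ 2 * ((2 : ℕ) : ℝ)) = phi0 * (15 * Real.pi / 8) := by
    have hpi := Real.pi_pos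
    have : (1 : ℝ) / phi0 = phi0 * (2 * Real.pi) := by
      have h2 : phi0 ^ 2 * (2 * Real.pi) = 1 := by rw [hsq]; field_simp
      field_simp
      nlinarith
    have h3 : (15 : ℝ) / (2 * phi0) / (2 ^ 2 * ((2 : ℕ) : ℝ)) = (15 / 16) * (1 / phi0) := by
      push_cast
      field_simp
      norm_num
    rw [h3, this]
    ring
  push_cast at h hr ⊢
  rw [hr] at h
  have e5 : ((4 : ℝ) + 1) / 2 = 5 / 2 := by norm_num
  rw [e5] at h
  refine h.trans (le_of_eq ?_)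
  ring

/-- `n = 7`. -/
theorem cap7_tangent (hn : Module.finrank ℝ E = 7) (hu : ‖u‖ = 1) {τ : ℝ} (h0 : 0 < τ) (h1 : τ < 1)
    {A : Set E} (hA : IsConeSet A) (hm : MeasurableSet A) :
    ∫ g in A, ⟪u, g⟫ ∂(stdGaussian E)
      ≤ phi0 * ((1 - τ ^ 2) ^ 3 - 6 * τ * (8 / 15 - τ + 2 * τ ^ 3 / 3 - τ ^ 5 / 5)
          + (32 / 5) * τ * (stdGaussian E).real A) := by
  have h := capGen_tangent (j := 5) (by norm_num) hn hu h0 h1 hA hm
  have hW : Wint 5 τ = 8 / 15 - τ + 2 * τ ^ 3 / 3 - τ ^ 5 / 5 := by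
    rw [show (5 : ℕ) = 2 * 2 + 1 by norm_num, Wint_odd]
    simp [Finset.sum_range_succ, Nat.choose]
    ring
  rw [hW, show 5 + 2 = 2 * 3 + 1 by norm_num, Dc_odd, show 5 + 1 = 2 * 2 + 2 by norm_num, Dc_even] at h
  have e1 : (2 * 2 + 1 : ℕ).doubleFactorial = 15 := by decide
  have e2 : (3 : ℕ).factorial = 6 := by decide
  rw [e1, e2] at h
  have e5 : (((5 : ℕ) : ℝ) + 1) / 2 = ((3 : ℕ) : ℝ) := by norm_num
  rw [e5, Real.rpow_natCast] at h
  have hp := phi0_pos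
  refine h.trans (le_of_eq ?_)
  push_cast
  field_simp
  ring

/-- `n = 11`. -/
theorem cap11_tangent (hn : Module.finrank ℝ E = 11) (hu : ‖u‖ = 1) {τ : ℝ} (h0 : 0 < τ) (h1 : τ < 1)
    {A : Set E} (hA : IsConeSet A) (hm : MeasurableSet A) :
    ∫ g in A, ⟪u, g⟫ ∂(stdGaussian E)
      ≤ phi0 * ((1 - τ ^ 2) ^ 5 - 10 * τ * (∑ i ∈ Finset.range 5,
            ((4 : ℕ).choose i : ℝ) * (-1) ^ i * ((1 - τ ^ (2 * i + 1)) / (2 * (i : ℝ) + 1)))
          + (512 / 63) * τ * (stdGaussian E).real A) := by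
  have h := capGen_tangent (j := 9) (by norm_num) hn hu h0 h1 hA hm
  rw [show (9 : ℕ) = 2 * 4 + 1 by norm_num, Wint_odd, show 2 * 4 + 1 + 2 = 2 * 5 + 1 by norm_num,
    Dc_odd, show 2 * 4 + 1 + 1 = 2 * 4 + 2 by norm_num, Dc_even] at h
  have e1 : (2 * 4 + 1 : ℕ).doubleFactorial = 945 := by decide
  have e2 : (5 : ℕ).factorial = 120 := by decide
  rw [e1, e2] at h
  have e5 : (((2 * 4 + 1 : ℕ) : ℝ) + 1) / 2 = ((5 : ℕ) : ℝ) := by norm_num
  rw [e5, Real.rpow_natCast] at h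
  have hp := phi0_pos
  refine h.trans (le_of_eq ?_)
  push_cast
  field_simp
  ring

/-- `n = 17`. -/
theorem cap17_tangent (hn : Module.finrank ℝ E = 17) (hu : ‖u‖ = 1) {τ : ℝ} (h0 : 0 < τ) (h1 : τ < 1)
    {A : Set E} (hA : IsConeSet A) (hm : MeasurableSet A) :
    ∫ g in A, ⟪u, g⟫ ∂(stdGaussian E)
      ≤ phi0 * ((1 - τ ^ 2) ^ 8 - 16 * τ * (∑ i ∈ Finset.range 8,
            ((7 : ℕ).choose i : ℝ) * (-1) ^ i * ((1 - τ ^ (2 * i + 1)) / (2 * (i : ℝ) + 1)))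
          + (65536 / 6435) * τ * (stdGaussian E).real A) := by
  have h := capGen_tangent (j := 15) (by norm_num) hn hu h0 h1 hA hm
  rw [show (15 : ℕ) = 2 * 7 + 1 by norm_num, Wint_odd, show 2 * 7 + 1 + 2 = 2 * 8 + 1 by norm_num,
    Dc_odd, show 2 * 7 + 1 + 1 = 2 * 7 + 2 by norm_num, Dc_even] at h
  have e1 : (2 * 7 + 1 : ℕ).doubleFactorial = 2027025 := by decide
  have e2 : (8 : ℕ).factorial = 40320 := by decide
  rw [e1, e2] at h
  have e5 : (((2 * 7 + 1 : ℕ) : ℝ) + 1) / 2 = ((8 : ℕ) : ℝ) := by norm_num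
  rw [e5, Real.rpow_natCast] at h
  have hp := phi0_pos
  refine h.trans (le_of_eq ?_)
  push_cast
  field_simp
  ring

end gen

section critical

variable {E : Type*} [NormedAddCommGroup E] [InnerProductSpace ℝ E] [FiniteDimensional ℝ E]
  [MeasurableSpace E] [BorelSpace E]

/-- The tangent bound for a cell of a critical configuration in dimension `j + 2`. -/
theorem Critical.norm_le_capGen {ι : Type*} [Fintype ι] {z : ι → E} {A : ι → Set E}
    (hc : Critical z A) {j : ℕ} (hj : 1 ≤ j) (hn : Module.finrank ℝ E = j + 2) (i : ι)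
    (hne : ∀ j, j ≠ i → z j ≠ z i) {τ : ℝ} (h0 : 0 < τ) (h1 : τ < 1) :
    ‖z i‖ ≤ phi0 * ((1 - τ ^ 2) ^ (((j : ℝ) + 1) / 2) - ((j : ℝ) + 1) * τ * Wint j τ)
        + τ * (Dc (j + 2) / Dc (j + 1)) * (stdGaussian E).real (A i) := by
  obtain ⟨C, hC1, hC2, hC3, hC4⟩ := hc.cone_data i hne
  have : Nontrivial E := nontrivial_of_eq (n := j + 1) hn
  rw [← hC3, ← hC4]
  exact norm_setIntegral_le' fun u hu => capGen_tangent hj hn hu h0 h1 hC1 hC2

/-- The tangent bound in dimension 6. -/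
theorem Critical.norm_le_cap6 {ι : Type*} [Fintype ι] {z : ι → E} {A : ι → Set E}
    (hc : Critical z A) (hn : Module.finrank ℝ E = 6) (i : ι) (hne : ∀ j, j ≠ i → z j ≠ z i)
    {τ : ℝ} (h0 : 0 < τ) (h1 : τ < 1) :
    ‖z i‖ ≤ phi0 * ((1 - τ ^ 2) ^ ((5 : ℝ) / 2)
          - 5 * τ * ((3 * Real.arccos τ - τ * (5 - 2 * τ ^ 2) * Real.sqrt (1 - τ ^ 2)) / 8)
          + τ * (15 * Real.pi / 8) * (stdGaussian E).real (A i)) := by
  obtain ⟨C, hC1, hC2, hC3, hC4⟩ := hc.cone_data i hne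
  have : Nontrivial E := nontrivial_of_eq (n := 5) hn
  rw [← hC3, ← hC4]
  exact norm_setIntegral_le' fun u hu => cap6_tangent hn hu h0 h1 hC1 hC2

/-- The tangent bound in dimension 7. -/
theorem Critical.norm_le_cap7 {ι : Type*} [Fintype ι] {z : ι → E} {A : ι → Set E}
    (hc : Critical z A) (hn : Module.finrank ℝ E = 7) (i : ι) (hne : ∀ j, j ≠ i → z j ≠ z i)
    {τ : ℝ} (h0 : 0 < τ) (h1 : τ < 1) :
    ‖z i‖ ≤ phi0 * ((1 - τ ^ 2) ^ 3 - 6 * τ * (8 / 15 - τ + 2 * τ ^ 3 / 3 - τ ^ 5 / 5)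
          + (32 / 5) * τ * (stdGaussian E).real (A i)) := by
  obtain ⟨C, hC1, hC2, hC3, hC4⟩ := hc.cone_data i hne
  have : Nontrivial E := nontrivial_of_eq (n := 6) hn
  rw [← hC3, ← hC4]
  exact norm_setIntegral_le' fun u hu => cap7_tangent hn hu h0 h1 hC1 hC2

/-- The tangent bound in dimension 11. -/
theorem Critical.norm_le_cap11 {ι : Type*} [Fintype ι] {z : ι → E} {A : ι → Set E}
    (hc : Critical z A) (hn : Module.finrank ℝ E = 11) (i : ι) (hne : ∀ j, j ≠ i → z j ≠ z i)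
    {τ : ℝ} (h0 : 0 < τ) (h1 : τ < 1) :
    ‖z i‖ ≤ phi0 * ((1 - τ ^ 2) ^ 5 - 10 * τ * (∑ i ∈ Finset.range 5,
            ((4 : ℕ).choose i : ℝ) * (-1) ^ i * ((1 - τ ^ (2 * i + 1)) / (2 * (i : ℝ) + 1)))
          + (512 / 63) * τ * (stdGaussian E).real (A i)) := by
  obtain ⟨C, hC1, hC2, hC3, hC4⟩ := hc.cone_data i hne
  have : Nontrivial E := nontrivial_of_eq (n := 10) hn
  rw [← hC3, ← hC4]
  exact norm_setIntegral_le' fun u hu => cap11_tangent hn hu h0 h1 hC1 hC2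

/-- The tangent bound in dimension 17. -/
theorem Critical.norm_le_cap17 {ι : Type*} [Fintype ι] {z : ι → E} {A : ι → Set E}
    (hc : Critical z A) (hn : Module.finrank ℝ E = 17) (i : ι) (hne : ∀ j, j ≠ i → z j ≠ z i)
    {τ : ℝ} (h0 : 0 < τ) (h1 : τ < 1) :
    ‖z i‖ ≤ phi0 * ((1 - τ ^ 2) ^ 8 - 16 * τ * (∑ i ∈ Finset.range 8,
            ((7 : ℕ).choose i : ℝ) * (-1) ^ i * ((1 - τ ^ (2 * i + 1)) / (2 * (i : ℝ) + 1)))
          + (65536 / 6435) * τ * (stdGaussian E).real (A i)) := by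
  obtain ⟨C, hC1, hC2, hC3, hC4⟩ := hc.cone_data i hne
  have : Nontrivial E := nontrivial_of_eq (n := 16) hn
  rw [← hC3, ← hC4]
  exact norm_setIntegral_le' fun u hu => cap17_tangent hn hu h0 h1 hC1 hC2

end critical

/-! ### The padded induction frame: the critical configuration in a space of any larger dimension -/

section frame

variable {E : Type*} [NormedAddCommGroup E] [InnerProductSpace ℝ E] [FiniteDimensional ℝ E]
  [MeasurableSpace E] [BorelSpace E]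

/-- `P k` in `ℝ^m`, `m ≥ k - 1`, gives `P k` in `ℝ^{k-1}`. -/
theorem PF_euclid_of_le {k m : ℕ} (hm : k - 1 ≤ m) (h : PF (EuclideanSpace ℝ (Fin m)) k) :
    PF (EuclideanSpace ℝ (Fin (k - 1))) k := by
  intro z
  obtain ⟨L⟩ := exists_isometry_euclid (W := EuclideanSpace ℝ (Fin (k - 1))) (m := m)
    (by simpa using hm)
  have h3 := h (fun i => L (z i))
  rwa [F_comp_isometry, S_comp_isometry] at h3

/-- The induction frame with the critical configuration at level `k` in `ℝ^{d k}`, for any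
`d k ≥ k - 1` of our choice. -/
theorem PF_all_padded (d : ℕ → ℕ) (hd : ∀ k, k - 1 ≤ d k)
    (step : ∀ k, 4 ≤ k → PF (EuclideanSpace ℝ (Fin (d k))) (k - 1) →
      ∀ (z : Fin k → EuclideanSpace ℝ (Fin (d k))) (A : Fin k → Set (EuclideanSpace ℝ (Fin (d k)))),
        Critical z A → R < S z → False) :
    ∀ n, PF E n := by
  have key : ∀ n, PF (EuclideanSpace ℝ (Fin (n - 1))) n := by
    intro n
    induction n using Nat.strong_induction_on with
    | _ n ih =>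
      by_cases hn : n ≤ 3
      · exact PF_of_le hn PF_three
      · push Not at hn
        refine PF_euclid_of_le (hd n) ?_
        intro z
        by_contra hlt
        push Not at hlt
        have : Nonempty (Fin n) := ⟨⟨0, by omega⟩⟩
        obtain ⟨z', A, hc, hR⟩ := exists_critical z R R_pos.le hlt
        exact step n (by omega) (PF_of_euclid (by omega) (ih _ (by omega))) z' A hc hR
  intro n
  by_cases hn : n = 0
  · subst hn
    exact PF_of_le (Nat.zero_le _) PF_three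
  · exact PF_of_euclid (by omega) (key n)

end frame

end Crest.Agent.Propeller
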