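/-
Generic certificate checker for the step at level `k`.

Norms in hat units `x = √(2π) ‖z‖`, sorted `y 0 ≥ y 1 ≥ … ≥ y (k-1)`, boxes in units `1/16384`.
A leaf is closed by the tail closure `NT_τ` or by a Lagrangian budget test with the tangents of the cap.
All checks are `Bool` functions on `ℕ`, evaluated by the kernel.
-/
import Mathlib

set_option autoImplicit false

namespace Crest.Agent.Propeller.Gen

/-- A binary tree of tangent lines `a ≥ (A/10⁹) x - B/10⁹`. -/
inductive PT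
  | leaf (T A B : ℕ)
  | node (m : ℕ) (l r : PT)

/-- All the lines hold at `(x, a)`. -/
def PT.Valid (x a : ℝ) : PT → Prop
  | .leaf _ A B => (A : ℝ) / 1000000000 * x - (B : ℝ) / 1000000000 ≤ a
  | .node _ l r => l.Valid x a ∧ r.Valid x a

/-- Minimum of two differences. -/
def pmin (a b : ℕ × ℕ) : ℕ × ℕ := bif Nat.ble (a.1 + b.2) (b.1 + a.2) then a else b

/-- The value of a pair. -/
noncomputable def pv (a : ℕ × ℕ) : ℝ := (a.1 : ℝ) - (a.2 : ℝ)

lemma pv_pmin_left (a b : ℕ × ℕ) : pv (pmin a b) ≤ pv a := by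
  unfold pmin
  cases h : Nat.ble (a.1 + b.2) (b.1 + a.2)
  · simp only [cond_false]
    have h1 : ¬ (a.1 + b.2 ≤ b.1 + a.2) := by
      intro h2
      rw [Nat.ble_eq_true_of_le h2] at h
      exact Bool.noConfusion h
    push Not at h1
    have h2 : ((b.1 + a.2 : ℕ) : ℝ) < ((a.1 + b.2 : ℕ) : ℝ) := by exact_mod_cast h1
    push_cast at h2
    unfold pv
    linarith
  · simp

lemma pv_pmin_right (a b : ℕ × ℕ) : pv (pmin a b) ≤ pv b := by
  unfold pmin
  cases h : Nat.ble (a.1 + b.2) (b.1 + a.2)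
  · simp
  · simp only [cond_true]
    have h1 := Nat.le_of_ble_eq_true h
    have h2 : ((a.1 + b.2 : ℕ) : ℝ) ≤ ((b.1 + a.2 : ℕ) : ℝ) := by exact_mod_cast h1
    push_cast at h2
    unfold pv
    linarith

/-- Sum of two differences. -/
def padd (a b : ℕ × ℕ) : ℕ × ℕ := (a.1 + b.1, a.2 + b.2)

lemma pv_padd (a b : ℕ × ℕ) : pv (padd a b) = pv a + pv b := by
  unfold pv padd
  push_cast
  ring

/-- Value of the cost at `x = n/16384`, for `λ = L/1024`. -/
def ev (L A B n : ℕ) : ℕ × ℕ :=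
  (L * 16384 * A * n, L * 268435456 * B + 1024000000000 * (n * n))

/-- Lower bound for the cost on `[lo, hi]`. -/
def cLB (L : ℕ) : PT → ℕ → ℕ → ℕ × ℕ
  | .leaf _ A B, lo, hi => pmin (ev L A B lo) (ev L A B hi)
  | .node m l r, lo, hi =>
      bif Nat.ble hi m then cLB L l lo hi
      else bif Nat.ble m lo then cLB L r lo hi
      else pmin (cLB L l lo m) (cLB L r m hi)

/-- The scale. -/
noncomputable def ZZ : ℝ := 1024000000000 * 268435456

lemma pv_ev (L A B n : ℕ) : pv (ev L A B n) = (L : ℝ) * 16384 * (A : ℝ) * n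
    - (L : ℝ) * 268435456 * B - 1024000000000 * ((n : ℝ) * n) := by
  unfold pv ev
  push_cast
  ring

/-- Concavity of a quadratic with negative leading coefficient. -/
lemma min_le_concave {al be ga lo hi y : ℝ} (hga : 0 ≤ ga) (h1 : lo ≤ y) (h2 : y ≤ hi) {V : ℝ}
    (hV' : V ≤ al * lo - be - ga * (lo * lo)) (hV'' : V ≤ al * hi - be - ga * (hi * hi)) :
    V ≤ al * y - be - ga * (y * y) := by
  rcases eq_or_lt_of_le (h1.trans h2) with h3 | h3
  · have : y = lo := le_antisymm (h3 ▸ h2) h1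
    rw [this]; exact hV'
  have hpos : 0 < hi - lo := by linarith
  have e : (al * y - be - ga * (y * y)) * (hi - lo)
      = (hi - y) * (al * lo - be - ga * (lo * lo)) + (y - lo) * (al * hi - be - ga * (hi * hi))
        + ga * ((y - lo) * (hi - y)) * (hi - lo) := by ring
  have h4 := mul_le_mul_of_nonneg_left hV' (sub_nonneg.2 h2)
  have h5 := mul_le_mul_of_nonneg_left hV'' (sub_nonneg.2 h1)
  have h6 : 0 ≤ ga * ((y - lo) * (hi - y)) * (hi - lo) := by
    have := mul_nonneg (sub_nonneg.2 h1) (sub_nonneg.2 h2)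
    positivity
  have h7 : V * (hi - lo) ≤ (al * y - be - ga * (y * y)) * (hi - lo) := by
    rw [e]
    have e2 : V * (hi - lo) = (hi - y) * V + (y - lo) * V := by ring
    rw [e2]
    linarith
  exact le_of_mul_le_mul_right h7 hpos

/-- The cost bound. -/
theorem cLB_sound (L : ℕ) {x a : ℝ} (t : PT) (hv : t.Valid x a) (lo hi : ℕ)
    (hlo : (lo : ℝ) ≤ 16384 * x) (hhi : 16384 * x ≤ (hi : ℝ)) :
    pv (cLB L t lo hi) ≤ ZZ * ((L : ℝ) / 1024 * a - x ^ 2) := by
  induction t generalizing lo hi with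
  | leaf T A B =>
    have hv' : (A : ℝ) / 1000000000 * x - (B : ℝ) / 1000000000 ≤ a := hv
    simp only [cLB]
    have h1 := pv_pmin_left (ev L A B lo) (ev L A B hi)
    have h2 := pv_pmin_right (ev L A B lo) (ev L A B hi)
    rw [pv_ev] at h1 h2
    have h3 := min_le_concave (al := (L : ℝ) * 16384 * (A : ℝ)) (be := (L : ℝ) * 268435456 * B)
      (ga := 1024000000000) (by norm_num) hlo hhi (by linarith) (by linarith)
    refine h3.trans ?_
    have hL : (0 : ℝ) ≤ (L : ℝ) := by positivity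
    have h4 : (L : ℝ) / 1024 * ((A : ℝ) / 1000000000 * x - (B : ℝ) / 1000000000) ≤ (L : ℝ) / 1024 * a :=
      mul_le_mul_of_nonneg_left hv' (by positivity)
    have e : (L : ℝ) * 16384 * (A : ℝ) * (16384 * x) - (L : ℝ) * 268435456 * B
        - 1024000000000 * ((16384 * x) * (16384 * x))
        = ZZ * ((L : ℝ) / 1024 * ((A : ℝ) / 1000000000 * x - (B : ℝ) / 1000000000) - x ^ 2) := by
      unfold ZZ; ring
    rw [e]
    apply mul_le_mul_of_nonneg_left _ (by unfold ZZ; norm_num)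
    linarith
  | node m l r ihl ihr =>
    obtain ⟨hvl, hvr⟩ := hv
    simp only [cLB]
    cases h1 : Nat.ble hi m
    · cases h2 : Nat.ble m lo
      · simp only [cond_false]
        rcases le_total (16384 * x) (m : ℝ) with h3 | h3
        · exact (pv_pmin_left _ _).trans (ihl hvl lo m hlo h3)
        · exact (pv_pmin_right _ _).trans (ihr hvr m hi h3 hhi)
      · simp only [cond_false, cond_true]
        exact ihr hvr lo hi hlo hhi
    · simp only [cond_true]
      exact ihl hvl lo hi hlo hhi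

/-! ### Boxes -/

/-- Membership in the box, starting at index `i`. -/
def Mem (y : ℕ → ℝ) : ℕ → List (ℕ × ℕ) → Prop
  | _, [] => True
  | i, p :: r => (p.1 : ℝ) ≤ 16384 * y i ∧ 16384 * y i ≤ (p.2 : ℝ) ∧ Mem y (i + 1) r

/-- Minimum of naturals by `Nat.ble`. -/
def nmin (a b : ℕ) : ℕ := bif Nat.ble a b then a else b
/-- Maximum of naturals by `Nat.ble`. -/
def nmax (a b : ℕ) : ℕ := bif Nat.ble a b then b else a

lemma le_nmin {a b : ℕ} {y : ℝ} (h1 : y ≤ a) (h2 : y ≤ b) : y ≤ (nmin a b : ℕ) := by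
  unfold nmin
  cases Nat.ble a b <;> simpa using by assumption

lemma nmax_le {a b : ℕ} {y : ℝ} (h1 : (a : ℝ) ≤ y) (h2 : (b : ℝ) ≤ y) : ((nmax a b : ℕ) : ℝ) ≤ y := by
  unfold nmax
  cases Nat.ble a b <;> simpa using by assumption

/-- Caps of the upper ends along the decreasing order. -/
def tH (cap : ℕ) : List (ℕ × ℕ) → List (ℕ × ℕ)
  | [] => []
  | p :: r => (p.1, nmin p.2 cap) :: tH (nmin p.2 cap) r

/-- The low end of the first box. -/
def hdLo (d : ℕ) : List (ℕ × ℕ) → ℕ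
  | [] => d
  | p :: _ => p.1

/-- Raises of the lower ends along the decreasing order. -/
def tL (d : ℕ) : List (ℕ × ℕ) → List (ℕ × ℕ)
  | [] => []
  | p :: r => (nmax p.1 (hdLo d (tL d r)), p.2) :: tL d r

/-- The smallest upper end. -/
def minH : ℕ → List (ℕ × ℕ) → ℕ
  | c, [] => c
  | c, p :: r => minH (nmin c p.2) r

/-- Change of an upper end. -/
def updH : ℕ → ℕ → List (ℕ × ℕ) → List (ℕ × ℕ)
  | _, _, [] => []
  | 0, m, p :: r => (p.1, m) :: r
  | i + 1, m, p :: r => p :: updH i m r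

/-- Change of a lower end. -/
def updL : ℕ → ℕ → List (ℕ × ℕ) → List (ℕ × ℕ)
  | _, _, [] => []
  | 0, m, p :: r => (m, p.2) :: r
  | i + 1, m, p :: r => p :: updL i m r

lemma length_tH (c : ℕ) (b : List (ℕ × ℕ)) : (tH c b).length = b.length := by
  induction b generalizing c with
  | nil => rfl
  | cons p r ih => simp [tH, ih]

lemma length_tL (c : ℕ) (b : List (ℕ × ℕ)) : (tL c b).length = b.length := by
  induction b with
  | nil => rfl
  | cons p r ih => simp [tL, ih]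

lemma length_updH (i m : ℕ) (b : List (ℕ × ℕ)) : (updH i m b).length = b.length := by
  induction b generalizing i with
  | nil => cases i <;> rfl
  | cons p r ih =>
    cases i with
    | zero => rfl
    | succ i => simp [updH, ih]

lemma length_updL (i m : ℕ) (b : List (ℕ × ℕ)) : (updL i m b).length = b.length := by
  induction b generalizing i with
  | nil => cases i <;> rfl
  | cons p r ih =>
    cases i with
    | zero => rfl
    | succ i => simp [updL, ih]

section mem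

variable {y : ℕ → ℝ}

lemma Mem.tH (hy : Antitone y) {i c : ℕ} {b : List (ℕ × ℕ)} (hm : Mem y i b)
    (hc : 16384 * y i ≤ (c : ℝ)) : Mem y i (tH c b) := by
  induction b generalizing i c with
  | nil => trivial
  | cons p r ih =>
    obtain ⟨h1, h2, h3⟩ := hm
    have h4 : 16384 * y i ≤ ((nmin p.2 c : ℕ) : ℝ) := le_nmin h2 hc
    refine ⟨h1, h4, ih h3 ?_⟩
    have := hy (Nat.le_succ i)
    simp only [Nat.succ_eq_add_one] at this
    linarith

lemma Mem.tL (hy : Antitone y) {i d : ℕ} {b : List (ℕ × ℕ)} (hm : Mem y i b)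
    (hd : (d : ℝ) ≤ 16384 * y (i + b.length)) :
    Mem y i (tL d b) ∧ ((hdLo d (tL d b) : ℕ) : ℝ) ≤ 16384 * y i := by
  induction b generalizing i with
  | nil =>
    refine ⟨trivial, ?_⟩
    simp only [Gen.tL, hdLo]
    simpa using hd
  | cons p r ih =>
    obtain ⟨h1, h2, h3⟩ := hm
    have hd' : (d : ℝ) ≤ 16384 * y (i + 1 + r.length) := by
      have e : i + 1 + r.length = i + (p :: r).length := by simp; omega
      rw [e]
      exact hd
    obtain ⟨h4, h5⟩ := ih h3 hd'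
    have h6 := hy (Nat.le_succ i)
    simp only [Nat.succ_eq_add_one] at h6
    have h7 : ((nmax p.1 (hdLo d (Gen.tL d r)) : ℕ) : ℝ) ≤ 16384 * y i :=
      nmax_le h1 (by linarith)
    exact ⟨⟨h7, h2, h4⟩, h7⟩

lemma Mem.minH (hy : Antitone y) {i c : ℕ} {b : List (ℕ × ℕ)} (hm : Mem y i b) {x : ℝ}
    (hx : x ≤ 16384 * y (i + b.length)) (hc : x ≤ (c : ℝ)) : x ≤ (minH c b : ℕ) := by
  induction b generalizing i c with
  | nil => exact hc
  | cons p r ih =>
    obtain ⟨_, h2, h3⟩ := hm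
    have e : i + 1 + r.length = i + (p :: r).length := by simp; omega
    have h4 : x ≤ 16384 * y i := by
      have h5 := hy (show i ≤ i + (p :: r).length by omega)
      linarith
    exact ih h3 (by rw [e]; exact hx) (le_nmin hc (h4.trans h2))

lemma Mem.updH {i : ℕ} {j m : ℕ} {b : List (ℕ × ℕ)} (hm : Mem y i b)
    (h : 16384 * y (i + j) ≤ (m : ℝ)) : Mem y i (updH j m b) := by
  induction b generalizing i j with
  | nil => cases j <;> trivial
  | cons p r ih =>
    obtain ⟨h1, h2, h3⟩ := hm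
    cases j with
    | zero => exact ⟨h1, h, h3⟩
    | succ j =>
      refine ⟨h1, h2, ih h3 ?_⟩
      have e : i + 1 + j = i + (j + 1) := by omega
      rw [e]
      exact h

lemma Mem.updL {i : ℕ} {j m : ℕ} {b : List (ℕ × ℕ)} (hm : Mem y i b)
    (h : (m : ℝ) ≤ 16384 * y (i + j)) : Mem y i (updL j m b) := by
  induction b generalizing i j with
  | nil => cases j <;> trivial
  | cons p r ih =>
    obtain ⟨h1, h2, h3⟩ := hm
    cases j with
    | zero => exact ⟨h, h2, h3⟩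
    | succ j =>
      refine ⟨h1, h2, ih h3 ?_⟩
      have e : i + 1 + j = i + (j + 1) := by omega
      rw [e]
      exact h

lemma Mem.drop {i : ℕ} {b : List (ℕ × ℕ)} (hm : Mem y i b) (t : ℕ) : Mem y (i + t) (b.drop t) := by
  induction t generalizing i b with
  | zero => simpa using hm
  | succ t ih =>
    cases b with
    | nil => simp [Mem]
    | cons p r =>
      have e : i + (t + 1) = i + 1 + t := by omega
      rw [e, List.drop_succ_cons]
      exact ih hm.2.2

end mem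

/-- Sum of the costs. -/
def sumC (L : ℕ) (t : PT) : List (ℕ × ℕ) → ℕ × ℕ
  | [] => (0, 0)
  | p :: r => padd (cLB L t p.1 p.2) (sumC L t r)

/-- Sum of the squared upper ends. -/
def sqH : List (ℕ × ℕ) → ℕ
  | [] => 0
  | p :: r => p.2 * p.2 + sqH r

/-- The low end of the third coordinate. -/
def third : List (ℕ × ℕ) → ℕ
  | _ :: _ :: p :: _ => p.1
  | _ => 0

/-- The low end of the fourth coordinate. -/
def fourth : List (ℕ × ℕ) → ℕ
  | _ :: _ :: _ :: p :: _ => p.1
  | _ => 0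

/-- Numerator of the coefficient of the tail closure. -/
def Kn (k τ : ℕ) : ℕ := 2 * ((τ + 1) ^ 3 * (k - 1) ^ 3 - (k - 1 - τ) ^ 3)
/-- Denominator of the coefficient of the tail closure. -/
def Kd (k τ : ℕ) : ℕ := 3 * τ * k * (k - 1) ^ 2

/-- Test of the closure at the point `n`: `(K n² + T)² < π² E n²`, with `E` the two last factors. -/
def ntTest (kn kd T E n : ℕ) : Bool :=
  Nat.ble (268435456 * ((kn * (n * n) + kd * T) * (kn * (n * n) + kd * T)) * 10000000 + 1)
    (98695877 * E * (n * n) * (kd * kd))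

/-- The closure test for `τ`, with the value of the pick `E/4`, and `T` the tail. -/
def ntAll (kn kd T E lo hi : ℕ) : Bool :=
  ntTest kn kd T E hi &&
    ((Nat.beq lo 0 && Nat.beq T 0) || ntTest kn kd T E lo)

/-- Leaf: triangle with `a` third, `Q` = the two first. -/
def ntOK (k τ : ℕ) (s : ℕ × ℕ) (b : List (ℕ × ℕ)) : Bool :=
  let T := sqH (b.drop τ)
  let Y := T + s.2 * s.2
  let l := third b * third b
  Nat.ble 3 τ && Nat.ble τ (k - 1) && Nat.ble (4 * Y) (3 * l) &&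
    ntAll (Kn k τ) (Kd k τ) T (l * (3 * l - 4 * Y)) s.1 s.2

/-- Leaf: rectangle at `τ = 4`. -/
def rtOK (k : ℕ) (s : ℕ × ℕ) (b : List (ℕ × ℕ)) : Bool :=
  let T := sqH (b.drop 4)
  let Y := T + s.2 * s.2
  let l3 := third b * third b
  let l4 := fourth b * fourth b
  Nat.ble 4 (k - 1) && Nat.ble Y l4 && Nat.ble l4 l3 &&
    ntAll (Kn k 4) (Kd k 4) T (16 * (l3 * (l4 - Y)) / 3) s.1 s.2

/-- Leaf: budget, `λ = L/1024`. -/
def lamOK (L : ℕ) (t : PT) (s : ℕ × ℕ) (b : List (ℕ × ℕ)) : Bool :=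
  let c := padd (cLB L t s.1 s.2) (sumC L t b)
  Nat.ble (c.2 + 268435456000000000 * L) (c.1 + 618475290624000000000)

/-- Tightening. -/
def tight (s : ℕ × ℕ) (b : List (ℕ × ℕ)) : (ℕ × ℕ) × List (ℕ × ℕ) :=
  let b1 := tH 100000000 b
  let h := minH s.2 b1
  ((s.1, h), tL s.1 b1)

/-- A box is empty. -/
def anyEmpty (s : ℕ × ℕ) (b : List (ℕ × ℕ)) : Bool :=
  Nat.blt s.2 s.1 || b.any fun p => Nat.blt p.2 p.1

/-- The certificate. -/
inductive Cert
  | L (n : ℕ)
  | N (τ : ℕ)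
  | R
  | E
  | sp (i m : ℕ) (p q : Cert)
  | ss (m : ℕ) (p q : Cert)

/-- The checker. -/
def chk (k : ℕ) (t : PT) (ur : Bool) : Cert → (ℕ × ℕ) → List (ℕ × ℕ) → Bool
  | .L n, s, b => lamOK n t s b
  | .N τ, s, b => ntOK k τ s b
  | .R, s, b => ur && rtOK k s b
  | .E, s, b => anyEmpty s b
  | .sp i m p q, s, b =>
    let c1 := tight s (updH i m b)
    let c2 := tight s (updL i m b)
    chk k t ur p c1.1 c1.2 && chk k t ur q c2.1 c2.2
  | .ss m p q, s, b =>
    let c1 := tight (s.1, m) b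
    let c2 := tight (m, s.2) b
    chk k t ur p c1.1 c1.2 && chk k t ur q c2.1 c2.2

/-! ### Soundness -/

/-- The data of a sorted configuration. -/
structure Feas (k : ℕ) (t : PT) (ur : Bool) (y a : ℕ → ℝ) : Prop where
  anti : Antitone y
  nn : ∀ i, 0 ≤ y i
  pos : 0 < y (k - 1)
  hk : 1 ≤ k
  val : ∀ i, i < k → t.Valid (y i) (a i)
  sum : ∑ i ∈ Finset.range k, a i = 1
  bud : 9 / 4 < ∑ i ∈ Finset.range k, y i ^ 2
  top : y 0 ≤ 100000000 / 16384
  nt : ∀ τ, 3 ≤ τ → τ ≤ k - 1 → ∀ D : ℝ, 0 < D →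
    D ^ 2 ≤ y 2 ^ 2 * (3 / 4 * y 2 ^ 2
      - (∑ l ∈ Finset.Ico τ (k - 1), y l ^ 2 + y (k - 1) ^ 2)) →
    ∑ l ∈ Finset.Ico τ (k - 1), y l ^ 2 + y (k - 1) ^ 2 ≤ y 2 ^ 2 →
    2 * Real.pi * D * y (k - 1)
      ≤ (Kn k τ : ℝ) / (Kd k τ : ℝ) * y (k - 1) ^ 2 + ∑ l ∈ Finset.Ico τ (k - 1), y l ^ 2
  rt : ur = true → 4 ≤ k - 1 → ∀ D : ℝ, 0 < D →
    D ^ 2 ≤ 4 / 3 * (y 2 ^ 2 * (y 3 ^ 2
      - (∑ l ∈ Finset.Ico 4 (k - 1), y l ^ 2 + y (k - 1) ^ 2))) →
    ∑ l ∈ Finset.Ico 4 (k - 1), y l ^ 2 + y (k - 1) ^ 2 ≤ y 3 ^ 2 →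
    2 * Real.pi * D * y (k - 1)
      ≤ (Kn k 4 : ℝ) / (Kd k 4 : ℝ) * y (k - 1) ^ 2 + ∑ l ∈ Finset.Ico 4 (k - 1), y l ^ 2

/-- The invariant of the boxes. -/
structure Inv (k : ℕ) (y : ℕ → ℝ) (s : ℕ × ℕ) (b : List (ℕ × ℕ)) : Prop where
  len : b.length + 1 = k
  mem : Mem y 0 b
  sl : (s.1 : ℝ) ≤ 16384 * y (k - 1)
  sh : 16384 * y (k - 1) ≤ (s.2 : ℝ)

/-- Tightening is sound. -/
lemma Inv.tight {k : ℕ} {t : PT} {ur : Bool} {y a : ℕ → ℝ} (hf : Feas k t ur y a) {s : ℕ × ℕ}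
    {b : List (ℕ × ℕ)} (h : Inv k y s b) : Inv k y (tight s b).1 (tight s b).2 := by
  have htop : 16384 * y 0 ≤ ((100000000 : ℕ) : ℝ) := by
    have := hf.top
    push_cast
    linarith
  have h1 : Mem y 0 (tH 100000000 b) := h.mem.tH hf.anti htop
  have hlen : (tH 100000000 b).length + 1 = k := by rw [length_tH]; exact h.len
  have hlast : (k - 1) = 0 + (tH 100000000 b).length := by omega
  refine ⟨?_, ?_, h.sl, ?_⟩
  · simp only [Gen.tight]
    rw [length_tL, length_tH]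
    exact h.len
  · simp only [Gen.tight]
    refine (Mem.tL hf.anti h1 ?_).1
    rw [← hlast]
    exact h.sl
  · simp only [Gen.tight]
    refine Mem.minH hf.anti h1 ?_ h.sh
    rw [← hlast]

lemma Mem.not_any {y : ℕ → ℝ} {i : ℕ} {b : List (ℕ × ℕ)} (hm : Mem y i b) :
    (b.any fun p => Nat.blt p.2 p.1) = false := by
  induction b generalizing i with
  | nil => rfl
  | cons p r ih =>
    obtain ⟨h1, h2, h3⟩ := hm
    have h4 : (p.1 : ℝ) ≤ (p.2 : ℝ) := h1.trans h2
    have h5 : p.1 ≤ p.2 := by exact_mod_cast h4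
    have h6 : Nat.blt p.2 p.1 = false := by
      rw [Bool.eq_false_iff]
      intro h7
      have h8 : p.2 < p.1 := by simpa [Nat.blt] using h7
      omega
    simp only [List.any_cons, h6, Bool.false_or]
    exact ih h3

/-- Costs of the whole box. -/
lemma sumC_sound (L : ℕ) (t : PT) {y a : ℕ → ℝ} {i : ℕ} {b : List (ℕ × ℕ)} (hm : Mem y i b)
    (hv : ∀ l, i ≤ l → l < i + b.length → t.Valid (y l) (a l)) :
    pv (sumC L t b) ≤ ZZ * ∑ l ∈ Finset.Ico i (i + b.length), ((L : ℝ) / 1024 * a l - y l ^ 2) := by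
  induction b generalizing i with
  | nil => simp [sumC, pv]
  | cons p r ih =>
    obtain ⟨h1, h2, h3⟩ := hm
    have e : i + (p :: r).length = i + 1 + r.length := by simp; omega
    rw [e, Finset.sum_eq_sum_Ico_succ_bot (by omega), mul_add]
    simp only [sumC]
    rw [pv_padd]
    have h4 := cLB_sound L t (hv i le_rfl (by simp)) p.1 p.2 h1 h2
    have h5 := ih h3 (fun l hl hl2 => hv l (by omega) (by simp; omega))
    linarith

lemma sqH_sound {y : ℕ → ℝ} {i : ℕ} {b : List (ℕ × ℕ)} (hm : Mem y i b) (hn : ∀ l, 0 ≤ y l) :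
    ∑ l ∈ Finset.Ico i (i + b.length), y l ^ 2 ≤ (sqH b : ℝ) / 268435456 := by
  induction b generalizing i with
  | nil => simp [sqH]
  | cons p r ih =>
    obtain ⟨_, h2, h3⟩ := hm
    have e : i + (p :: r).length = i + 1 + r.length := by simp; omega
    rw [e, Finset.sum_eq_sum_Ico_succ_bot (by omega)]
    simp only [sqH]
    have h5 := ih h3
    push_cast
    have h6 : y i ^ 2 ≤ (p.2 : ℝ) * p.2 / 268435456 := by
      rw [le_div_iff₀ (by norm_num)]
      have := hn i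
      nlinarith
    rw [add_div]
    linarith

lemma third_le {y : ℕ → ℝ} {b : List (ℕ × ℕ)} (hm : Mem y 0 b) (hn : ∀ l, 0 ≤ y l) :
    (third b : ℝ) ≤ 16384 * y 2 := by
  match b, hm with
  | [], _ =>
    simp only [third]
    have := hn 2
    push_cast
    linarith
  | [_], _ =>
    simp only [third]
    have := hn 2
    push_cast
    linarith
  | [_, _], _ =>
    simp only [third]
    have := hn 2
    push_cast
    linarith
  | _ :: _ :: _ :: _, hm =>
    simp only [third]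
    exact hm.2.2.2.2.1

lemma fourth_le {y : ℕ → ℝ} {b : List (ℕ × ℕ)} (hm : Mem y 0 b) (hn : ∀ l, 0 ≤ y l) :
    (fourth b : ℝ) ≤ 16384 * y 3 := by
  match b, hm with
  | [], _ =>
    simp only [fourth]
    have := hn 3
    push_cast
    linarith
  | [_], _ =>
    simp only [fourth]
    have := hn 3
    push_cast
    linarith
  | [_, _], _ =>
    simp only [fourth]
    have := hn 3
    push_cast
    linarith
  | [_, _, _], _ =>
    simp only [fourth]
    have := hn 3
    push_cast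
    linarith
  | _ :: _ :: _ :: _ :: _, hm =>
    simp only [fourth]
    exact hm.2.2.2.2.2.2.1

/-- Convexity of the closure in the smallest norm. -/
lemma convex_contra {K Th c x lo hi : ℝ} (hK : 0 ≤ K) (hlo : lo ≤ x) (hhi : x ≤ hi) (hx : 0 < x)
    (hNT : c * x ≤ K * x ^ 2 + Th) (hh : K * hi ^ 2 + Th < c * hi)
    (hl : K * lo ^ 2 + Th < c * lo ∨ (lo = 0 ∧ Th = 0)) : False := by
  rcases hl with hl | ⟨h0, h1⟩
  · rcases eq_or_lt_of_le hhi with e | hlt
    · rw [e] at hNT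
      linarith
    · have hlh : 0 < hi - x := by linarith
      have h0 : 0 ≤ x - lo := by linarith
      have h1 := mul_lt_mul_of_pos_left hl hlh
      have h2 := mul_le_mul_of_nonneg_left hh.le h0
      have h3 : 0 ≤ K * (x - lo) * (hi - x) := by positivity
      have hpos : 0 < hi - lo := by linarith
      have key : (K * x ^ 2 + Th - c * x) * (hi - lo)
          = (hi - x) * (K * lo ^ 2 + Th - c * lo) + (x - lo) * (K * hi ^ 2 + Th - c * hi)
            - K * (x - lo) * (hi - x) * (hi - lo) := by ring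
      have h4 : (K * x ^ 2 + Th - c * x) * (hi - lo) < 0 := by
        rw [key]
        have h5 : 0 ≤ K * (x - lo) * (hi - x) * (hi - lo) := by positivity
        nlinarith
      have h5 : 0 ≤ (K * x ^ 2 + Th - c * x) * (hi - lo) :=
        mul_nonneg (by linarith) hpos.le
      linarith
  · rw [h1] at hNT hh
    have h2 : c ≤ K * x := by
      have : x * c ≤ x * (K * x) := by nlinarith
      exact le_of_mul_le_mul_left this hx
    have hhi0 : 0 < hi := hx.trans_le hhi
    have h3 : K * hi < c := by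
      have : hi * (K * hi) < hi * c := by nlinarith
      exact lt_of_mul_lt_mul_left this hhi0.le
    have h4 : K * x ≤ K * hi := mul_le_mul_of_nonneg_left hhi hK
    linarith

/-- The real meaning of `ntTest`. -/
lemma ntTest_real {kn kd T E n : ℕ} (hkd : 0 < kd) (h : ntTest kn kd T E n = true) :
    ((kn : ℝ) / kd * ((n : ℝ) / 16384) ^ 2 + (T : ℝ) / 268435456) ^ 2
      < (2 * Real.pi * Real.sqrt ((E : ℝ) / (4 * 268435456 ^ 2)) * ((n : ℝ) / 16384)) ^ 2 := by
  unfold ntTest at h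
  have h' := Nat.le_of_ble_eq_true h
  have hr : ((268435456 * ((kn * (n * n) + kd * T) * (kn * (n * n) + kd * T)) * 10000000 + 1 : ℕ) : ℝ)
      ≤ ((98695877 * E * (n * n) * (kd * kd) : ℕ) : ℝ) := by exact_mod_cast h'
  push_cast at hr
  have hkd' : (0 : ℝ) < kd := by exact_mod_cast hkd
  have hpi : (9.8695877 : ℝ) < Real.pi ^ 2 := by
    have := Real.pi_gt_d6
    nlinarith
  have hE : (0 : ℝ) ≤ E := by positivity
  have hs : Real.sqrt ((E : ℝ) / (4 * 268435456 ^ 2)) ^ 2 = (E : ℝ) / (4 * 268435456 ^ 2) :=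
    Real.sq_sqrt (by positivity)
  rw [mul_pow, mul_pow, mul_pow, hs]
  set A : ℝ := (kn : ℝ) * (n * n) + kd * T with hA
  have e1 : (kn : ℝ) / kd * ((n : ℝ) / 16384) ^ 2 + (T : ℝ) / 268435456
      = A / (kd * 268435456) := by
    rw [hA]
    field_simp
    ring
  rw [e1, div_pow]
  have hB : (0 : ℝ) ≤ (E : ℝ) * (n * n) * (kd * kd) := by positivity
  have h3 : (9.8695877 : ℝ) * ((E : ℝ) * (n * n) * (kd * kd))
      ≤ Real.pi ^ 2 * ((E : ℝ) * (n * n) * (kd * kd)) :=
    mul_le_mul_of_nonneg_right hpi.le hB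
  have h4 : 268435456 * (A * A) < Real.pi ^ 2 * ((E : ℝ) * (n * n) * (kd * kd)) := by
    nlinarith
  rw [div_lt_iff₀ (by positivity)]
  have e2 : 2 ^ 2 * Real.pi ^ 2 * ((E : ℝ) / (4 * 268435456 ^ 2)) * ((n : ℝ) ^ 2 / 16384 ^ 2)
      * ((kd : ℝ) * 268435456) ^ 2
      = (Real.pi ^ 2 * ((E : ℝ) * (n * n) * (kd * kd))) / 268435456 := by
    norm_num
    field_simp
    ring
  have e3 : ((n : ℝ) / 16384) ^ 2 = (n : ℝ) ^ 2 / 16384 ^ 2 := by rw [div_pow]
  rw [e3, e2, lt_div_iff₀ (by norm_num)]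
  nlinarith

/-- A closure test is contradictory. -/
lemma ntAll_contra {kn kd T E lo hi : ℕ} {x T' : ℝ} (hkd : 0 < kd) (h : ntAll kn kd T E lo hi = true)
    (hx : 0 < x) (hlo : (lo : ℝ) ≤ 16384 * x) (hhi : 16384 * x ≤ (hi : ℝ))
    (hT : T' ≤ (T : ℝ) / 268435456)
    (hNT : ∀ D : ℝ, 0 < D → D ^ 2 ≤ (E : ℝ) / (4 * 268435456 ^ 2) →
      2 * Real.pi * D * x ≤ (kn : ℝ) / kd * x ^ 2 + T') : False := by
  unfold ntAll at h
  simp only [Bool.and_eq_true, Bool.or_eq_true] at h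
  obtain ⟨h1, h2⟩ := h
  have hpi := Real.pi_pos
  -- positivity of `E`
  have hE : 0 < E := by
    unfold ntTest at h1
    have h' := Nat.le_of_ble_eq_true h1
    rcases Nat.eq_zero_or_pos E with h0 | h0
    · rw [h0] at h'
      simp at h'
    · exact h0
  have hE' : (0 : ℝ) < E := by exact_mod_cast hE
  set D := Real.sqrt ((E : ℝ) / (4 * 268435456 ^ 2)) with hD
  have hD0 : 0 < D := Real.sqrt_pos.2 (by positivity)
  have hD2 : D ^ 2 ≤ (E : ℝ) / (4 * 268435456 ^ 2) := (Real.sq_sqrt (by positivity)).le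
  have hK : 0 ≤ (kn : ℝ) / kd := by positivity
  have hT0 : (0 : ℝ) ≤ (T : ℝ) / 268435456 := by positivity
  have hnt := hNT D hD0 hD2
  have key : ∀ n : ℕ, ntTest kn kd T E n = true →
      (kn : ℝ) / kd * ((n : ℝ) / 16384) ^ 2 + (T : ℝ) / 268435456
        < 2 * Real.pi * D * ((n : ℝ) / 16384) := by
    intro n hn
    have h3 := ntTest_real hkd hn
    exact lt_of_pow_lt_pow_left₀ 2 (by positivity) h3
  refine convex_contra (c := 2 * Real.pi * D) (K := (kn : ℝ) / kd) (Th := (T : ℝ) / 268435456)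
    (x := x) (lo := (lo : ℝ) / 16384) (hi := (hi : ℝ) / 16384) hK ?_ ?_ hx ?_ (key hi h1) ?_
  · rw [div_le_iff₀ (by norm_num)]
    linarith
  · rw [le_div_iff₀ (by norm_num)]
    linarith
  · linarith
  · rcases h2 with ⟨h3, h4⟩ | h3
    · right
      have h5 : lo = 0 := Nat.eq_of_beq_eq_true h3
      have h6 : T = 0 := Nat.eq_of_beq_eq_true h4
      simp [h5, h6]
    · left
      exact key lo h3

lemma Kd_pos {k τ : ℕ} (hτ : 1 ≤ τ) (hk : 2 ≤ k) : 0 < Kd k τ := by
  unfold Kd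
  have : 0 < k - 1 := by omega
  positivity

/-- The last element and the tail sums. -/
lemma tail_bound {k τ : ℕ} {y : ℕ → ℝ} {s : ℕ × ℕ} {b : List (ℕ × ℕ)} (h : Inv k y s b)
    (hn : ∀ l, 0 ≤ y l) (hτ : τ ≤ k - 1) :
    ∑ l ∈ Finset.Ico τ (k - 1), y l ^ 2 ≤ (sqH (b.drop τ) : ℝ) / 268435456 := by
  have hm := h.mem.drop τ
  have h2 := sqH_sound hm hn
  have hlen := h.len
  have e : 0 + τ + (b.drop τ).length = k - 1 := by
    rw [List.length_drop]
    omega
  rw [e, zero_add] at h2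
  exact h2

/-- Squares from below. -/
lemma sq_lo {l : ℕ} {x : ℝ} (hl : (l : ℝ) ≤ 16384 * x) :
    ((l * l : ℕ) : ℝ) / 268435456 ≤ x ^ 2 := by
  rw [div_le_iff₀ (by norm_num)]
  push_cast
  have hl0 : (0 : ℝ) ≤ l := by positivity
  nlinarith

/-- Squares from above. -/
lemma sq_hi {h : ℕ} {x : ℝ} (hh : 16384 * x ≤ (h : ℝ)) (hx : 0 ≤ x) :
    x ^ 2 ≤ ((h * h : ℕ) : ℝ) / 268435456 := by
  rw [le_div_iff₀ (by norm_num)]
  push_cast
  nlinarith

/-- A triangle leaf is contradictory. -/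
theorem ntOK_sound {k τ : ℕ} {t : PT} {ur : Bool} {y a : ℕ → ℝ} {s : ℕ × ℕ} {b : List (ℕ × ℕ)}
    (hf : Feas k t ur y a) (hI : Inv k y s b) (h : ntOK k τ s b = true) : False := by
  unfold ntOK at h
  simp only [Bool.and_eq_true] at h
  obtain ⟨⟨⟨h1, h2⟩, h3⟩, h4⟩ := h
  have h1' := Nat.le_of_ble_eq_true h1
  have h2' := Nat.le_of_ble_eq_true h2
  have h3' := Nat.le_of_ble_eq_true h3
  set T := sqH (b.drop τ) with hT
  set Y := T + s.2 * s.2 with hY
  set l := third b * third b with hl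
  have hk2 : 2 ≤ k := by omega
  refine ntAll_contra (Kd_pos (by omega) hk2) h4 hf.pos hI.sl hI.sh (tail_bound hI hf.nn h2') ?_
  intro D hD hD2
  have hT2 := tail_bound hI hf.nn h2' (τ := τ)
  rw [← hT] at hT2
  have hsq : y (k - 1) ^ 2 ≤ ((s.2 * s.2 : ℕ) : ℝ) / 268435456 := sq_hi hI.sh (hf.nn _)
  set Tr := ∑ l ∈ Finset.Ico τ (k - 1), y l ^ 2 with hTr
  set Yr := Tr + y (k - 1) ^ 2 with hYr
  have hYle : Yr ≤ (Y : ℝ) / 268435456 := by
    rw [hY]
    push_cast
    push_cast at hsq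
    rw [add_div]
    linarith
  have hle : (l : ℝ) / 268435456 ≤ y 2 ^ 2 := sq_lo (third_le hI.mem hf.nn)
  have h34 : (4 : ℝ) * Y ≤ 3 * l := by exact_mod_cast h3'
  have hl0 : (0 : ℝ) ≤ (l : ℝ) / 268435456 := by positivity
  have hY0 : (0 : ℝ) ≤ (Y : ℝ) / 268435456 := by positivity
  have h34' : (Y : ℝ) / 268435456 ≤ 3 / 4 * ((l : ℝ) / 268435456) := by
    rw [div_le_iff₀ (by norm_num)]
    have e : 3 / 4 * ((l : ℝ) / 268435456) * 268435456 = 3 / 4 * l := by ring
    rw [e]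
    linarith
  refine hf.nt τ h1' h2' D hD ?_ ?_
  · refine hD2.trans ?_
    have e : ((l * (3 * l - 4 * Y) : ℕ) : ℝ) / (4 * 268435456 ^ 2)
        = ((l : ℝ) / 268435456) * (3 / 4 * ((l : ℝ) / 268435456) - (Y : ℝ) / 268435456) := by
      rw [Nat.cast_mul, Nat.cast_sub h3']
      push_cast
      field_simp
    rw [e]
    have h5 : 0 ≤ 3 / 4 * ((l : ℝ) / 268435456) - (Y : ℝ) / 268435456 := by linarith
    have h6 := mul_le_mul_of_nonneg_right hle h5
    refine h6.trans ?_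
    apply mul_le_mul_of_nonneg_left _ (hl0.trans hle)
    linarith
  · calc Yr ≤ (Y : ℝ) / 268435456 := hYle
      _ ≤ 3 / 4 * ((l : ℝ) / 268435456) := h34'
      _ ≤ (l : ℝ) / 268435456 := by linarith
      _ ≤ y 2 ^ 2 := hle

/-- A rectangle leaf is contradictory. -/
theorem rtOK_sound {k : ℕ} {t : PT} {ur : Bool} {y a : ℕ → ℝ} {s : ℕ × ℕ} {b : List (ℕ × ℕ)}
    (hf : Feas k t ur y a) (hI : Inv k y s b) (hu : ur = true) (h : rtOK k s b = true) : False := by
  unfold rtOK at h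
  simp only [Bool.and_eq_true] at h
  obtain ⟨⟨⟨h1, h2⟩, h3⟩, h4⟩ := h
  have h1' := Nat.le_of_ble_eq_true h1
  have h2' := Nat.le_of_ble_eq_true h2
  have h3' := Nat.le_of_ble_eq_true h3
  set T := sqH (b.drop 4) with hT
  set Y := T + s.2 * s.2 with hY
  set l3 := third b * third b with hl3
  set l4 := fourth b * fourth b with hl4
  have hk2 : 2 ≤ k := by omega
  refine ntAll_contra (Kd_pos (by omega) hk2) h4 hf.pos hI.sl hI.sh (tail_bound hI hf.nn h1') ?_
  intro D hD hD2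
  have hT2 := tail_bound hI hf.nn h1' (τ := 4)
  rw [← hT] at hT2
  have hsq : y (k - 1) ^ 2 ≤ ((s.2 * s.2 : ℕ) : ℝ) / 268435456 := sq_hi hI.sh (hf.nn _)
  set Tr := ∑ l ∈ Finset.Ico 4 (k - 1), y l ^ 2 with hTr
  set Yr := Tr + y (k - 1) ^ 2 with hYr
  have hYle : Yr ≤ (Y : ℝ) / 268435456 := by
    rw [hY]
    push_cast
    push_cast at hsq
    rw [add_div]
    linarith
  have hle3 : (l3 : ℝ) / 268435456 ≤ y 2 ^ 2 := sq_lo (third_le hI.mem hf.nn)
  have hle4 : (l4 : ℝ) / 268435456 ≤ y 3 ^ 2 := sq_lo (fourth_le hI.mem hf.nn)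
  have h34 : (Y : ℝ) ≤ l4 := by exact_mod_cast h2'
  have h34' : (Y : ℝ) / 268435456 ≤ (l4 : ℝ) / 268435456 :=
    div_le_div_of_nonneg_right h34 (by norm_num)
  have hl30 : (0 : ℝ) ≤ (l3 : ℝ) / 268435456 := by positivity
  refine hf.rt hu h1' D hD ?_ ?_
  · refine hD2.trans ?_
    have e0 : ((16 * (l3 * (l4 - Y)) / 3 : ℕ) : ℝ) ≤ ((16 * (l3 * (l4 - Y)) : ℕ) : ℝ) / (3 : ℕ) :=
      Nat.cast_div_le
    have e1 : ((16 * (l3 * (l4 - Y)) : ℕ) : ℝ) / (3 : ℕ) / (4 * 268435456 ^ 2)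
        = 4 / 3 * (((l3 : ℝ) / 268435456) * ((l4 : ℝ) / 268435456 - (Y : ℝ) / 268435456)) := by
      rw [Nat.cast_mul, Nat.cast_mul, Nat.cast_sub h2']
      push_cast
      field_simp
      ring
    have e2 := div_le_div_of_nonneg_right e0
      (show (0 : ℝ) ≤ 4 * 268435456 ^ 2 by norm_num)
    refine e2.trans ?_
    rw [e1]
    apply mul_le_mul_of_nonneg_left _ (by norm_num)
    have h5 : 0 ≤ (l4 : ℝ) / 268435456 - (Y : ℝ) / 268435456 := by linarith
    have h6 := mul_le_mul_of_nonneg_right hle3 h5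
    refine h6.trans ?_
    apply mul_le_mul_of_nonneg_left _ (hl30.trans hle3)
    linarith
  · exact hYle.trans (h34'.trans hle4)

/-- A budget leaf is contradictory. -/
theorem lamOK_sound {k L : ℕ} {t : PT} {ur : Bool} {y a : ℕ → ℝ} {s : ℕ × ℕ} {b : List (ℕ × ℕ)}
    (hf : Feas k t ur y a) (hI : Inv k y s b) (h : lamOK L t s b = true) : False := by
  unfold lamOK at h
  have h' := Nat.le_of_ble_eq_true h
  set c := padd (cLB L t s.1 s.2) (sumC L t b) with hc
  have hr : ((c.2 + 268435456000000000 * L : ℕ) : ℝ) ≤ ((c.1 + 618475290624000000000 : ℕ) : ℝ) := by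
    exact_mod_cast h'
  push_cast at hr
  have hlen := hI.len
  have hk : k = (k - 1) + 1 := by omega
  have h1 := sumC_sound L t hI.mem (a := a) (fun l _ hl => hf.val l (by omega))
  have e0 : 0 + b.length = k - 1 := by omega
  rw [e0] at h1
  have h2 := cLB_sound L t (hf.val (k - 1) (by omega)) s.1 s.2 hI.sl hI.sh
  have hval : pv c ≤ ZZ * (∑ l ∈ Finset.range k, ((L : ℝ) / 1024 * a l - y l ^ 2)) := by
    rw [hc, pv_padd]
    have e : Finset.range k = Finset.range ((k - 1) + 1) := by rw [← hk]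
    rw [e, Finset.sum_range_succ, mul_add]
    rw [← Finset.range_eq_Ico] at h1
    linarith
  rw [Finset.sum_sub_distrib, ← Finset.mul_sum, hf.sum] at hval
  have hb := hf.bud
  have hZ : 0 < ZZ := by unfold ZZ; norm_num
  have hlt : ZZ * ((L : ℝ) / 1024 * 1 - ∑ l ∈ Finset.range k, y l ^ 2)
      < ZZ * ((L : ℝ) / 1024 * 1 - 9 / 4) := mul_lt_mul_of_pos_left (by linarith) hZ
  have e : ZZ * ((L : ℝ) / 1024 * 1 - 9 / 4)
      = 268435456000000000 * (L : ℝ) - 618475290624000000000 := by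
    unfold ZZ; ring
  rw [e] at hlt
  unfold pv at hval
  linarith

/-- **Soundness of the checker.** -/
theorem chk_sound {k : ℕ} {t : PT} {ur : Bool} {y a : ℕ → ℝ} (hf : Feas k t ur y a) (c : Cert) :
    ∀ (s : ℕ × ℕ) (b : List (ℕ × ℕ)), chk k t ur c s b = true → Inv k y s b → False := by
  induction c with
  | L n =>
    intro s b h hI
    exact lamOK_sound hf hI h
  | N τ =>
    intro s b h hI
    exact ntOK_sound hf hI h
  | R =>
    intro s b h hI
    simp only [chk, Bool.and_eq_true] at h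
    exact rtOK_sound hf hI h.1 h.2
  | E =>
    intro s b h hI
    simp only [chk, anyEmpty, Bool.or_eq_true] at h
    rcases h with h | h
    · have h1 : s.2 < s.1 := by simpa [Nat.blt] using h
      have h2 : (s.1 : ℝ) ≤ (s.2 : ℝ) := hI.sl.trans hI.sh
      have h3 : s.1 ≤ s.2 := by exact_mod_cast h2
      omega
    · rw [hI.mem.not_any] at h
      exact Bool.noConfusion h
  | sp i m p q ihp ihq =>
    intro s b h hI
    simp only [chk, Bool.and_eq_true] at h
    rcases le_total (16384 * y i) (m : ℝ) with h3 | h3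
    · refine ihp _ _ h.1 (Inv.tight hf ?_)
      exact ⟨by rw [length_updH]; exact hI.len, hI.mem.updH (by simpa using h3), hI.sl, hI.sh⟩
    · refine ihq _ _ h.2 (Inv.tight hf ?_)
      exact ⟨by rw [length_updL]; exact hI.len, hI.mem.updL (by simpa using h3), hI.sl, hI.sh⟩
  | ss m p q ihp ihq =>
    intro s b h hI
    simp only [chk, Bool.and_eq_true] at h
    rcases le_total (16384 * y (k - 1)) (m : ℝ) with h3 | h3
    · exact ihp _ _ h.1 (Inv.tight hf ⟨hI.len, hI.mem, hI.sl, h3⟩)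
    · exact ihq _ _ h.2 (Inv.tight hf ⟨hI.len, hI.mem, h3, hI.sh⟩)

end Crest.Agent.Propeller.Gen
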