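import Crest.Agent.Lib.Propeller.Split

/-!
# Propeller: negative association (Harris/Slepian for nonpositive covariances)

For vectors with pairwise nonpositive inner products, the events `{⟪v i, g⟫ < y i}` are negatively
associated.  The proof is by peeling one coordinate and Chebyshev's association inequality in `ℝ`.
-/

set_option autoImplicit false
set_option linter.unusedSectionVars false
open MeasureTheory ProbabilityTheory
open scoped RealInnerProductSpace ENNReal

namespace Crest.Agent.Propeller

universe u v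

variable {E : Type u} [NormedAddCommGroup E] [InnerProductSpace ℝ E] [FiniteDimensional ℝ E]
  [MeasurableSpace E] [BorelSpace E]
variable {ι : Type v}

/-- The event that all inner products are below the thresholds. -/
def below (T : Finset ι) (v : ι → E) (y : ι → ℝ) : Set E := {g | ∀ i ∈ T, ⟪v i, g⟫ < y i}

lemma measurableSet_below (T : Finset ι) (v : ι → E) (y : ι → ℝ) :
    MeasurableSet (below T v y) := by
  have : below T v y = ⋂ i ∈ T, {g | ⟪v i, g⟫ < y i} := by
    ext g; simp [below]
  rw [this]
  refine Finset.measurableSet_biInter _ fun i _ => ?_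
  exact measurableSet_lt (continuous_const.inner continuous_id).measurable measurable_const

lemma measurableSet_halfspace (w : E) (c : ℝ) : MeasurableSet {g : E | ⟪w, g⟫ < c} :=
  measurableSet_lt (continuous_const.inner continuous_id).measurable measurable_const

/-- Chebyshev's association inequality for a half-line and a monotone function. -/
lemma lintegral_Iio_le_of_monotone (N : Measure ℝ) [IsProbabilityMeasure N] {K : ℝ → ℝ≥0∞}
    (hK : Monotone K) (t : ℝ) :
    ∫⁻ n in Set.Iio t, K n ∂N ≤ N (Set.Iio t) * ∫⁻ n, K n ∂N := by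
  have hm : Measurable K := hK.measurable
  have hs : MeasurableSet (Set.Iio t) := measurableSet_Iio
  have hcompl : N (Set.Ici t) + N (Set.Iio t) = 1 := by
    have h := measure_add_measure_compl (μ := N) (measurableSet_Ici (a := t))
    rw [Set.compl_Ici, measure_univ] at h
    exact h
  have h1 : ∫⁻ n in Set.Iio t, K n ∂N ≤ K t * N (Set.Iio t) := by
    calc ∫⁻ n in Set.Iio t, K n ∂N ≤ ∫⁻ _ in Set.Iio t, K t ∂N :=
          setLIntegral_mono' hs fun n hn => hK (le_of_lt hn)
      _ = K t * N (Set.Iio t) := by simp [lintegral_const]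
  have h2 : K t * N (Set.Ici t) ≤ ∫⁻ n in Set.Ici t, K n ∂N := by
    calc K t * N (Set.Ici t) = ∫⁻ _ in Set.Ici t, K t ∂N := by simp [lintegral_const]
      _ ≤ ∫⁻ n in Set.Ici t, K n ∂N :=
          setLIntegral_mono' measurableSet_Ici fun n hn => hK hn
  have h3 : ∫⁻ n, K n ∂N = ∫⁻ n in Set.Iio t, K n ∂N + ∫⁻ n in Set.Ici t, K n ∂N := by
    rw [← lintegral_union measurableSet_Ici (by
      rw [Set.disjoint_left]; intro x hx hx'; exact absurd (Set.mem_Ici.1 hx') (not_le.2 (Set.mem_Iio.1 hx)))]
    rw [Set.Iio_union_Ici, Measure.restrict_univ]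
  calc ∫⁻ n in Set.Iio t, K n ∂N
      = (N (Set.Ici t) + N (Set.Iio t)) * ∫⁻ n in Set.Iio t, K n ∂N := by rw [hcompl, one_mul]
    _ = N (Set.Ici t) * ∫⁻ n in Set.Iio t, K n ∂N
        + N (Set.Iio t) * ∫⁻ n in Set.Iio t, K n ∂N := add_mul _ _ _
    _ ≤ N (Set.Ici t) * (K t * N (Set.Iio t)) + N (Set.Iio t) * ∫⁻ n in Set.Iio t, K n ∂N := by
        gcongr
    _ = N (Set.Iio t) * (K t * N (Set.Ici t)) + N (Set.Iio t) * ∫⁻ n in Set.Iio t, K n ∂N := by
        ring
    _ ≤ N (Set.Iio t) * (∫⁻ n in Set.Ici t, K n ∂N)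
        + N (Set.Iio t) * ∫⁻ n in Set.Iio t, K n ∂N := by
        gcongr
    _ = N (Set.Iio t) * ∫⁻ n, K n ∂N := by rw [h3, mul_add, add_comm]

/-- Peeling one coordinate. -/
theorem peel (T : Finset ι) (v : ι → E) (y : ι → ℝ) (v₀ : E) (y₀ : ℝ)
    (h : ∀ i ∈ T, ⟪v₀, v i⟫ ≤ 0) :
    stdGaussian E ({g | ⟪v₀, g⟫ < y₀} ∩ below T v y)
      ≤ stdGaussian E {g | ⟪v₀, g⟫ < y₀} * stdGaussian E (below T v y) := by
  by_cases hv : v₀ = 0
  · subst hv
    by_cases hy : (0 : ℝ) < y₀
    · have : {g : E | ⟪(0 : E), g⟫ < y₀} = Set.univ := by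
        ext g; simp [hy]
      rw [this]; simp
    · have : {g : E | ⟪(0 : E), g⟫ < y₀} = ∅ := by
        ext g; simp [hy]
      rw [this]; simp
  have hσ : 0 < ‖v₀‖ := norm_pos_iff.2 hv
  set σ := ‖v₀‖ with hσdef
  set e : E := σ⁻¹ • v₀ with he_def
  have he : ‖e‖ = 1 := by
    rw [he_def, norm_smul, norm_inv, Real.norm_eq_abs, abs_of_pos hσ, ← hσdef]
    exact inv_mul_cancel₀ hσ.ne'
  have hv₀e : v₀ = σ • e := by
    rw [he_def, smul_smul, mul_inv_cancel₀ hσ.ne', one_smul]
  have hprp : prp e v₀ = 0 := by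
    rw [hv₀e, prp, inner_smul_right, real_inner_self_eq_norm_sq, he]
    simp
  have hinner : ∀ (n : ℝ) (g' : E), ⟪v₀, n • e + prp e g'⟫ = n * σ := by
    intro n g'
    rw [inner_split, hprp, inner_zero_left, add_zero, hv₀e, inner_smul_left, real_inner_self_eq_norm_sq,
      he]
    simp
  -- the monotone function
  set K : ℝ → ℝ≥0∞ := fun n => stdGaussian E {g' | n • e + prp e g' ∈ below T v y} with hK_def
  have hK : Monotone K := by
    intro n n' hnn
    refine measure_mono fun g' hg' => ?_
    intro i hi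
    have h1 := hg' i hi
    rw [inner_split] at h1 ⊢
    have h2 : ⟪v i, e⟫ ≤ 0 := by
      have h3 := h i hi
      rw [he_def, inner_smul_right]
      rw [real_inner_comm] at h3
      exact mul_nonpos_of_nonneg_of_nonpos (by positivity) h3
    nlinarith
  set t := y₀ / σ with ht
  have hiff : ∀ n : ℝ, n * σ < y₀ ↔ n ∈ Set.Iio t := by
    intro n
    rw [Set.mem_Iio, ht, lt_div_iff₀ hσ]
  have hA : MeasurableSet ({g : E | ⟪v₀, g⟫ < y₀} ∩ below T v y) :=
    (measurableSet_halfspace _ _).inter (measurableSet_below _ _ _)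
  rw [measure_split e he hA, measure_split e he (measurableSet_halfspace v₀ y₀),
    measure_split e he (measurableSet_below T v y)]
  have h1 : ∀ n : ℝ, stdGaussian E {g' | n • e + prp e g' ∈ {g : E | ⟪v₀, g⟫ < y₀} ∩ below T v y}
      = (Set.Iio t).indicator K n := by
    intro n
    by_cases hn : n ∈ Set.Iio t
    · rw [Set.indicator_of_mem hn]
      congr 1
      ext g'
      simp only [Set.mem_ofPred_eq, Set.mem_inter_iff, hinner]
      exact ⟨fun h => h.2, fun h => ⟨(hiff n).2 hn, h⟩⟩
    · rw [Set.indicator_of_notMem hn]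
      have : {g' | n • e + prp e g' ∈ {g : E | ⟪v₀, g⟫ < y₀} ∩ below T v y} = ∅ := by
        ext g'
        simp only [Set.mem_ofPred_eq, Set.mem_inter_iff, hinner, Set.mem_empty_iff_false, iff_false,
          not_and]
        intro h
        exact absurd ((hiff n).1 h) hn
      rw [this]; simp
  have h2 : ∀ n : ℝ, stdGaussian E {g' | n • e + prp e g' ∈ {g : E | ⟪v₀, g⟫ < y₀}}
      = (Set.Iio t).indicator 1 n := by
    intro n
    by_cases hn : n ∈ Set.Iio t
    · rw [Set.indicator_of_mem hn]
      have : {g' | n • e + prp e g' ∈ {g : E | ⟪v₀, g⟫ < y₀}} = Set.univ := by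
        ext g'
        simp only [Set.mem_ofPred_eq, hinner, Set.mem_univ, iff_true]
        exact (hiff n).2 hn
      rw [this]; simp
    · rw [Set.indicator_of_notMem hn]
      have : {g' | n • e + prp e g' ∈ {g : E | ⟪v₀, g⟫ < y₀}} = ∅ := by
        ext g'
        simp only [Set.mem_ofPred_eq, hinner, Set.mem_empty_iff_false, iff_false]
        intro h
        exact hn ((hiff n).1 h)
      rw [this]; simp
  simp_rw [h1, h2]
  rw [lintegral_indicator measurableSet_Iio, lintegral_indicator measurableSet_Iio]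
  simp only [Pi.one_apply, lintegral_one, Measure.restrict_apply MeasurableSet.univ, Set.univ_inter]
  exact lintegral_Iio_le_of_monotone _ hK t

/-- Block form of negative association. -/
theorem harris_block [DecidableEq ι] (B C : Finset ι) (hBC : Disjoint B C) (v : ι → E) (y : ι → ℝ)
    (h : ∀ i ∈ C, ∀ j ∈ B ∪ C, i ≠ j → ⟪v i, v j⟫ ≤ 0) :
    stdGaussian E (below (B ∪ C) v y)
      ≤ stdGaussian E (below B v y) * ∏ i ∈ C, stdGaussian E {g | ⟪v i, g⟫ < y i} := by
  induction C using Finset.induction_on with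
  | empty => simp
  | insert c C hc ih =>
    have hBC' : Disjoint B C := Finset.disjoint_of_subset_right (Finset.subset_insert _ _) hBC
    have hcB : c ∉ B := fun hb => (Finset.disjoint_left.1 hBC hb) (Finset.mem_insert_self _ _)
    have hset : below (B ∪ insert c C) v y = {g | ⟪v c, g⟫ < y c} ∩ below (B ∪ C) v y := by
      ext g
      simp only [below, Set.mem_ofPred_eq, Set.mem_inter_iff, Finset.mem_union, Finset.mem_insert]
      constructor
      · intro hg
        refine ⟨hg c (Or.inr (Or.inl rfl)), fun i hi => hg i ?_⟩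
        rcases hi with hi | hi
        · exact Or.inl hi
        · exact Or.inr (Or.inr hi)
      · rintro ⟨h1, h2⟩ i hi
        rcases hi with hi | rfl | hi
        · exact h2 i (Or.inl hi)
        · exact h1
        · exact h2 i (Or.inr hi)
    rw [hset, Finset.prod_insert hc]
    have h1 := peel (B ∪ C) v y (v c) (y c) (fun i hi => by
      refine h c (Finset.mem_insert_self _ _) i ?_ ?_
      · rcases Finset.mem_union.1 hi with hi | hi
        · exact Finset.mem_union_left _ hi
        · exact Finset.mem_union_right _ (Finset.mem_insert_of_mem hi)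
      · rintro rfl
        rcases Finset.mem_union.1 hi with hi | hi
        · exact hcB hi
        · exact hc hi)
    refine h1.trans ?_
    have h2 := ih hBC' (fun i hi j hj hij => by
      refine h i (Finset.mem_insert_of_mem hi) j ?_ hij
      rcases Finset.mem_union.1 hj with hj | hj
      · exact Finset.mem_union_left _ hj
      · exact Finset.mem_union_right _ (Finset.mem_insert_of_mem hj))
    calc stdGaussian E {g | ⟪v c, g⟫ < y c} * stdGaussian E (below (B ∪ C) v y)
        ≤ stdGaussian E {g | ⟪v c, g⟫ < y c}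
          * (stdGaussian E (below B v y) * ∏ i ∈ C, stdGaussian E {g | ⟪v i, g⟫ < y i}) := by
          gcongr
      _ = _ := by ring

/-- Full product form. -/
theorem harris_prod [DecidableEq ι] (T : Finset ι) (v : ι → E) (y : ι → ℝ)
    (h : ∀ i ∈ T, ∀ j ∈ T, i ≠ j → ⟪v i, v j⟫ ≤ 0) :
    stdGaussian E (below T v y) ≤ ∏ i ∈ T, stdGaussian E {g | ⟪v i, g⟫ < y i} := by
  have := harris_block (∅ : Finset ι) T (Finset.disjoint_empty_left _) v y (by simpa using h)
  simpa [below] using this

/-- The standard normal distribution function. -/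
noncomputable def Phi (x : ℝ) : ℝ := (gaussianReal 0 1).real (Set.Iio x)

lemma Phi_nonneg (x : ℝ) : 0 ≤ Phi x := measureReal_nonneg

lemma Phi_le_one (x : ℝ) : Phi x ≤ 1 := measureReal_le_one

lemma Phi_mono : Monotone Phi := fun _ _ h =>
  measureReal_mono (Set.Iio_subset_Iio h) (measure_ne_top _ _)

/-- The law of a half-space. -/
lemma real_halfspace (w : E) (hw : w ≠ 0) (c : ℝ) :
    (stdGaussian E).real {g | ⟪w, g⟫ < c} = Phi (c / ‖w‖) := by
  have hσ : 0 < ‖w‖ := norm_pos_iff.2 hw
  have hm : Measurable (fun g : E => ⟪w, g⟫) := (continuous_const.inner continuous_id).measurable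
  have h1 : (stdGaussian E).real {g | ⟪w, g⟫ < c}
      = ((stdGaussian E).map (fun g => ⟪w, g⟫)).real (Set.Iio c) := by
    rw [map_measureReal_apply hm measurableSet_Iio]
    rfl
  rw [h1, map_inner_std]
  have h2 : gaussianReal 0 (Real.toNNReal (‖w‖ ^ 2))
      = (gaussianReal 0 1).map (fun x => ‖w‖ * x) := by
    rw [gaussianReal_map_const_mul]
    congr 1
    · simp
    · ext
      simp
  rw [h2, map_measureReal_apply (measurable_const_mul _) measurableSet_Iio]
  unfold Phi
  congr 1
  ext x
  simp only [Set.mem_preimage, Set.mem_Iio]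
  rw [lt_div_iff₀ hσ, mul_comm]

end Crest.Agent.Propeller
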