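import Crest.Agent.Lib.Propeller.Block
import Crest.Agent.Lib.Propeller.Harris

/-!
# Pair small ball on a block with tail closure, Harris on the rest

`block_tail`: for a pairwise obtuse family (only pairs meeting `C` are used), with `u = ∑_B z`, `W ∋ u`,
`P` the projection on `Wᗮ`, `Δ² ≤ det Gram (P z a, P z b)`, `a ≠ b ∈ B`, `B`, `C` disjoint:
`γ{∀ i ∈ B ∪ C, ⟪z i, g⟫ < y i} ≤ ((∑_B y)² + ‖u‖²) / (4πΔ) * ∏_C γ{⟪z l, g⟫ < y l}`.

This is `pair_tail` for `B` combined with `harris_block`.  Nothing else is needed: the deterministic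
closure is replaced by the Gaussian tail, and no zero-sum hypothesis is used.
-/

set_option autoImplicit false
set_option linter.unusedSectionVars false
open MeasureTheory ProbabilityTheory
open scoped RealInnerProductSpace

namespace Crest.Agent.Propeller

universe u v

variable {E : Type u} [NormedAddCommGroup E] [InnerProductSpace ℝ E] [FiniteDimensional ℝ E]
  [MeasurableSpace E] [BorelSpace E]
variable {ι : Type v} [DecidableEq ι]

/-- `pair_tail` with an inequality for `Δ`. -/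
theorem pair_tail_le (z : ι → E) (B : Finset ι) {a b : ι} (ha : a ∈ B) (hb : b ∈ B) (hab : a ≠ b)
    (W : Submodule ℝ E) (hW : ∑ i ∈ B, z i ∈ W) (Δ : ℝ) (hΔ : 0 < Δ)
    (hΔ2 : Δ ^ 2 ≤ ‖Wᗮ.starProjection (z a)‖ ^ 2 * ‖Wᗮ.starProjection (z b)‖ ^ 2
      - ⟪Wᗮ.starProjection (z a), Wᗮ.starProjection (z b)⟫ ^ 2) (y : ι → ℝ) :
    (stdGaussian E).real {g : E | ∀ i ∈ B, ⟪z i, g⟫ < y i}
      ≤ ((∑ i ∈ B, y i) ^ 2 + ‖∑ i ∈ B, z i‖ ^ 2) / (4 * Real.pi * Δ) := by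
  set D := ‖Wᗮ.starProjection (z a)‖ ^ 2 * ‖Wᗮ.starProjection (z b)‖ ^ 2
      - ⟪Wᗮ.starProjection (z a), Wᗮ.starProjection (z b)⟫ ^ 2 with hD
  have hDpos : 0 < D := lt_of_lt_of_le (by positivity) hΔ2
  have hs : 0 < Real.sqrt D := Real.sqrt_pos.2 hDpos
  have hle : Δ ≤ Real.sqrt D := Real.le_sqrt_of_sq_le hΔ2
  refine (pair_tail z B ha hb hab W hW (Real.sqrt D) hs (Real.sq_sqrt hDpos.le) y).trans ?_
  have hpi := Real.pi_pos
  exact div_le_div_of_nonneg_left (by positivity) (by positivity)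
    (mul_le_mul_of_nonneg_left hle (by positivity))

/-- **Block bound with tail closure.** -/
theorem block_tail (z : ι → E) (B C : Finset ι) (hBC : Disjoint B C)
    (hobt : ∀ i ∈ C, ∀ j ∈ B ∪ C, i ≠ j → ⟪z i, z j⟫ ≤ 0)
    {a b : ι} (ha : a ∈ B) (hb : b ∈ B) (hab : a ≠ b)
    (W : Submodule ℝ E) (hW : ∑ i ∈ B, z i ∈ W) (Δ : ℝ) (hΔ : 0 < Δ)
    (hΔ2 : Δ ^ 2 ≤ ‖Wᗮ.starProjection (z a)‖ ^ 2 * ‖Wᗮ.starProjection (z b)‖ ^ 2
      - ⟪Wᗮ.starProjection (z a), Wᗮ.starProjection (z b)⟫ ^ 2) (y : ι → ℝ) :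
    (stdGaussian E).real {g : E | ∀ i ∈ B ∪ C, ⟪z i, g⟫ < y i}
      ≤ ((∑ i ∈ B, y i) ^ 2 + ‖∑ i ∈ B, z i‖ ^ 2) / (4 * Real.pi * Δ)
        * ∏ l ∈ C, (stdGaussian E).real {g : E | ⟪z l, g⟫ < y l} := by
  have h1 := harris_block B C hBC z y hobt
  have h2 : (stdGaussian E).real (below (B ∪ C) z y)
      ≤ (stdGaussian E).real (below B z y)
        * ∏ l ∈ C, (stdGaussian E).real {g : E | ⟪z l, g⟫ < y l} := by
    have h3 := ENNReal.toReal_mono (by
      refine ENNReal.mul_ne_top (measure_ne_top _ _) ?_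
      exact ENNReal.prod_ne_top fun _ _ => measure_ne_top _ _) h1
    rw [ENNReal.toReal_mul, ENNReal.toReal_prod] at h3
    exact h3
  refine h2.trans ?_
  refine mul_le_mul_of_nonneg_right ?_ (Finset.prod_nonneg fun _ _ => measureReal_nonneg)
  exact pair_tail_le z B ha hb hab W hW Δ hΔ hΔ2 y

end Crest.Agent.Propeller
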