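/-
Certificate checker for the arithmetic of the step at level `k = 6`.

Norms in hat units `x = √(2π) ‖z‖`, sorted `x₁ ≥ … ≥ x₆`.  Boxes in units `1/4096`.
A leaf is closed by one of four inequalities `Good` or by a Lagrangian budget test:
`∑ xᵢ² = λ ∑ aᵢ - ∑ (λ aᵢ - xᵢ²) ≤ λ - ∑ cᵢ`, with `cᵢ` lower bounds from tangents of the cap.
All checks are `Bool` functions on `ℕ`/`ℤ`, evaluated by the kernel.
-/
import Mathlib

set_option autoImplicit false

namespace Crest.Agent.Propeller.K6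

/-- A binary tree of tangent lines: `a ≥ (A/10⁹) x - B/10⁹`, from `τ = T/256`. -/
inductive PT
  | leaf (T A B : ℕ)
  | node (m : ℕ) (l r : PT)

/-- Value (scale `Z = 64·10⁹·4096²`) at the point `n/4096` for `λ = L/64`. -/
def vl (L A B n : ℕ) : ℤ :=
  (L : ℤ) * 4096 * ((A : ℤ) * (n : ℤ) - (B : ℤ) * 4096) - 64000000000 * ((n : ℤ) * (n : ℤ))

/-- Minimum. -/
def imin (a b : ℤ) : ℤ := if a ≤ b then a else b

lemma imin_le_left (a b : ℤ) : imin a b ≤ a := by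
  unfold imin; split_ifs with h
  · exact le_rfl
  · omega

lemma imin_le_right (a b : ℤ) : imin a b ≤ b := by
  unfold imin; split_ifs with h
  · exact h
  · exact le_rfl

/-- Lower bound for the cost on `[lo, hi]`. -/
def cLB (L : ℕ) : PT → ℕ → ℕ → ℤ
  | .leaf _ A B, lo, hi => imin (vl L A B lo) (vl L A B hi)
  | .node m l r, lo, hi =>
      bif Nat.ble hi m then cLB L l lo hi
      else bif Nat.ble m lo then cLB L r lo hi
      else imin (cLB L l lo m) (cLB L r m hi)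

/-- All the lines hold at `(x, a)`. -/
def PT.Valid (x a : ℝ) : PT → Prop
  | .leaf _ A B => (A : ℝ) / 1000000000 * x - (B : ℝ) / 1000000000 ≤ a
  | .node _ l r => l.Valid x a ∧ r.Valid x a

/-- The scale. -/
noncomputable def ZZ : ℝ := 64000000000 * 16777216

lemma vl_cast (L A B n : ℕ) :
    ((vl L A B n : ℤ) : ℝ) = (L : ℝ) * 4096 * ((A : ℝ) * n - (B : ℝ) * 4096)
      - 64000000000 * ((n : ℝ) * n) := by
  unfold vl; push_cast; ring

/-- Concavity of a quadratic with negative leading coefficient. -/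
lemma min_le_concave {al be ga lo hi y : ℝ} (hga : 0 ≤ ga) (h1 : lo ≤ y) (h2 : y ≤ hi) {V : ℝ}
    (hV' : V ≤ al * lo - be - ga * (lo * lo)) (hV'' : V ≤ al * hi - be - ga * (hi * hi)) :
    V ≤ al * y - be - ga * (y * y) := by
  rcases eq_or_lt_of_le (h1.trans h2) with h3 | h3
  · have : y = lo := le_antisymm (h3 ▸ h2) h1
    rw [this]; exact hV'
  have hpos : 0 < hi - lo := by linarith
  have e : (al * y - be - ga * (y * y)) * (hi - lo)
      = (hi - y) * (al * lo - be - ga * (lo * lo)) + (y - lo) * (al * hi - be - ga * (hi * hi))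
        + ga * ((y - lo) * (hi - y)) * (hi - lo) := by ring
  have h4 := mul_le_mul_of_nonneg_left hV' (sub_nonneg.2 h2)
  have h5 := mul_le_mul_of_nonneg_left hV'' (sub_nonneg.2 h1)
  have h6 : 0 ≤ ga * ((y - lo) * (hi - y)) * (hi - lo) := by
    have := mul_nonneg (sub_nonneg.2 h1) (sub_nonneg.2 h2)
    positivity
  have h7 : V * (hi - lo) ≤ (al * y - be - ga * (y * y)) * (hi - lo) := by
    rw [e]
    have e2 : V * (hi - lo) = (hi - y) * V + (y - lo) * V := by ring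
    rw [e2]
    linarith
  exact le_of_mul_le_mul_right h7 hpos

/-- The cost bound. -/
theorem cLB_sound (L : ℕ) {x a : ℝ} (t : PT) (hv : t.Valid x a) (lo hi : ℕ)
    (hlo : (lo : ℝ) ≤ 4096 * x) (hhi : 4096 * x ≤ (hi : ℝ)) :
    ((cLB L t lo hi : ℤ) : ℝ) ≤ ZZ * ((L : ℝ) / 64 * a - x ^ 2) := by
  induction t generalizing lo hi with
  | leaf T A B =>
    have hv' : (A : ℝ) / 1000000000 * x - (B : ℝ) / 1000000000 ≤ a := hv
    simp only [cLB]
    have h1 : (((imin (vl L A B lo) (vl L A B hi) : ℤ) : ℝ)) ≤ ((vl L A B lo : ℤ) : ℝ) := by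
      exact_mod_cast imin_le_left _ _
    have h2 : (((imin (vl L A B lo) (vl L A B hi) : ℤ) : ℝ)) ≤ ((vl L A B hi : ℤ) : ℝ) := by
      exact_mod_cast imin_le_right _ _
    rw [vl_cast] at h1 h2
    have h3 := min_le_concave (al := (L : ℝ) * 4096 * (A : ℝ)) (be := (L : ℝ) * 4096 * ((B : ℝ) * 4096))
      (ga := 64000000000) (by norm_num) hlo hhi (by linarith) (by linarith)
    refine h3.trans ?_
    have hL : (0 : ℝ) ≤ (L : ℝ) := by positivity
    have h4 : (L : ℝ) / 64 * ((A : ℝ) / 1000000000 * x - (B : ℝ) / 1000000000) ≤ (L : ℝ) / 64 * a :=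
      mul_le_mul_of_nonneg_left hv' (by positivity)
    have e : (L : ℝ) * 4096 * (A : ℝ) * (4096 * x) - (L : ℝ) * 4096 * ((B : ℝ) * 4096)
        - 64000000000 * ((4096 * x) * (4096 * x))
        = ZZ * ((L : ℝ) / 64 * ((A : ℝ) / 1000000000 * x - (B : ℝ) / 1000000000) - x ^ 2) := by
      unfold ZZ; ring
    rw [e]
    apply mul_le_mul_of_nonneg_left _ (by unfold ZZ; norm_num)
    linarith
  | node m l r ihl ihr =>
    obtain ⟨hvl, hvr⟩ := hv
    simp only [cLB]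
    cases h1 : Nat.ble hi m
    · cases h2 : Nat.ble m lo
      · simp only [cond_false]
        rcases le_total (4096 * x) (m : ℝ) with h3 | h3
        · have h4 := ihl hvl lo m hlo h3
          have h5 : ((imin (cLB L l lo m) (cLB L r m hi) : ℤ) : ℝ) ≤ ((cLB L l lo m : ℤ) : ℝ) := by
            exact_mod_cast imin_le_left _ _
          exact h5.trans h4
        · have h4 := ihr hvr m hi h3 hhi
          have h5 : ((imin (cLB L l lo m) (cLB L r m hi) : ℤ) : ℝ) ≤ ((cLB L r m hi : ℤ) : ℝ) := by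
            exact_mod_cast imin_le_right _ _
          exact h5.trans h4
      · simp only [cond_false, cond_true]
        exact ihr hvr lo hi hlo hhi
    · simp only [cond_true]
      exact ihl hvl lo hi hlo hhi

/-- Check of a line against the tangent at `τ = T/256`. -/
def lineOK (T A B : ℕ) : Bool :=
  Nat.ble 1 T && Nat.ble T 255 && Nat.ble (A * T) 48000000000 &&
    Nat.ble (1000000000 * 48 * ((65536 - T * T) * (65536 - T * T))
        + 1000000000 * 64 * T * (3 * T * 65536))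
      (B * T * 4294967296 + 1000000000 * 64 * T * (33554432 + T * T * T))

/-- Check of all the lines. -/
def PT.allOK : PT → Bool
  | .leaf T A B => lineOK T A B
  | .node _ l r => l.allOK && r.allOK

/-- A line from the tangent bound. -/
lemma line_of_tangent {x a : ℝ} (hx0 : 0 ≤ x)
    (h : ∀ τ : ℝ, 0 < τ → τ < 1 →
      x ≤ (1 - τ ^ 2) ^ 2 + (16 / 3) * τ * (a - (2 - 3 * τ + τ ^ 3) / 4))
    {T A B : ℕ} (hok : lineOK T A B = true) :
    (A : ℝ) / 1000000000 * x - (B : ℝ) / 1000000000 ≤ a := by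
  unfold lineOK at hok
  simp only [Bool.and_eq_true] at hok
  obtain ⟨⟨⟨h1, h2⟩, h3⟩, h4⟩ := hok
  have h1' := Nat.le_of_ble_eq_true h1
  have h2' := Nat.le_of_ble_eq_true h2
  have h3' := Nat.le_of_ble_eq_true h3
  have h4' := Nat.le_of_ble_eq_true h4
  have hT0 : (0 : ℝ) < T := by exact_mod_cast h1'
  have hT1 : (T : ℝ) ≤ 255 := by exact_mod_cast h2'
  have hTT : T * T ≤ 65536 := by
    have := Nat.mul_le_mul h2' h2'
    omega
  have hTTr : (((65536 - T * T : ℕ)) : ℝ) = 65536 - (T : ℝ) * T := by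
    rw [Nat.cast_sub hTT]; push_cast; ring
  have h3r : (A : ℝ) * T ≤ 48000000000 := by exact_mod_cast h3'
  have h4r : (1000000000 * 48 * ((((65536 - T * T : ℕ)) : ℝ) * ((65536 - T * T : ℕ) : ℝ))
      + 1000000000 * 64 * T * (3 * T * 65536))
      ≤ (B : ℝ) * T * 4294967296 + 1000000000 * 64 * T * (33554432 + T * T * T) := by
    exact_mod_cast h4'
  rw [hTTr] at h4r
  have hτ := h ((T : ℝ) / 256) (by positivity) (by rw [div_lt_one (by norm_num)]; linarith)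
  -- multiply through
  have e1 : (1 - ((T : ℝ) / 256) ^ 2) ^ 2 + (16 / 3) * ((T : ℝ) / 256)
        * (a - (2 - 3 * ((T : ℝ) / 256) + ((T : ℝ) / 256) ^ 3) / 4)
      = (65536 - (T : ℝ) * T) * (65536 - (T : ℝ) * T) / 4294967296
        + (T : ℝ) / 48 * a
        - (T : ℝ) / 48 * ((33554432 - 3 * T * 65536 + T * T * T) / 67108864) := by
    ring
  rw [e1] at hτ
  -- a ≥ (48/T)(x - κ) + γ
  have hdiv : (A : ℝ) / 1000000000 ≤ 48 / T := by
    rw [div_le_div_iff₀ (by norm_num) hT0]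
    linarith
  have h5 : (A : ℝ) / 1000000000 * x ≤ 48 / T * x := mul_le_mul_of_nonneg_right hdiv hx0
  have h6 : 48 / (T : ℝ) * x ≤ 48 / T * ((65536 - (T : ℝ) * T) * (65536 - (T : ℝ) * T) / 4294967296
        + (T : ℝ) / 48 * a
        - (T : ℝ) / 48 * ((33554432 - 3 * T * 65536 + T * T * T) / 67108864)) :=
    mul_le_mul_of_nonneg_left hτ (by positivity)
  have e2 : 48 / (T : ℝ) * ((65536 - (T : ℝ) * T) * (65536 - (T : ℝ) * T) / 4294967296
        + (T : ℝ) / 48 * a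
        - (T : ℝ) / 48 * ((33554432 - 3 * T * 65536 + T * T * T) / 67108864))
      = a + (48 * ((65536 - (T : ℝ) * T) * (65536 - (T : ℝ) * T))
          - 64 * T * (33554432 - 3 * T * 65536 + T * T * T)) / (T * 4294967296) := by
    field_simp
    ring
  rw [e2] at h6
  have h7 : (48 * ((65536 - (T : ℝ) * T) * (65536 - (T : ℝ) * T))
        - 64 * T * (33554432 - 3 * T * 65536 + T * T * T)) / (T * 4294967296)
      ≤ (B : ℝ) / 1000000000 := by
    rw [div_le_div_iff₀ (by positivity) (by norm_num)]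
    nlinarith
  linarith

/-- All lines from the tangent bound. -/
theorem valid_of_tangent {x a : ℝ} (hx0 : 0 ≤ x)
    (h : ∀ τ : ℝ, 0 < τ → τ < 1 →
      x ≤ (1 - τ ^ 2) ^ 2 + (16 / 3) * τ * (a - (2 - 3 * τ + τ ^ 3) / 4))
    (t : PT) (hok : t.allOK = true) : t.Valid x a := by
  induction t with
  | leaf T A B => exact line_of_tangent hx0 h hok
  | node m l r ihl ihr =>
    simp only [PT.allOK, Bool.and_eq_true] at hok
    exact ⟨ihl hok.1, ihr hok.2⟩

/-! ### Boxes -/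

/-- A box. -/
structure Bx where
  l1 : ℕ
  h1 : ℕ
  l2 : ℕ
  h2 : ℕ
  l3 : ℕ
  h3 : ℕ
  l4 : ℕ
  h4 : ℕ
  l5 : ℕ
  h5 : ℕ
  l6 : ℕ
  h6 : ℕ

/-- Minimum of naturals by `Nat.ble`. -/
def nmin (a b : ℕ) : ℕ := bif Nat.ble a b then a else b
/-- Maximum of naturals by `Nat.ble`. -/
def nmax (a b : ℕ) : ℕ := bif Nat.ble a b then b else a

lemma le_nmin {a b : ℕ} {y : ℝ} (h1 : y ≤ a) (h2 : y ≤ b) : y ≤ (nmin a b : ℕ) := by
  unfold nmin
  cases Nat.ble a b <;> simpa using by assumption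

lemma nmax_le {a b : ℕ} {y : ℝ} (h1 : (a : ℝ) ≤ y) (h2 : (b : ℝ) ≤ y) : ((nmax a b : ℕ) : ℝ) ≤ y := by
  unfold nmax
  cases Nat.ble a b <;> simpa using by assumption

/-- Tighten a box using the order of the coordinates. -/
def tight (b : Bx) : Bx :=
  let h2 := nmin b.h2 b.h1
  let h3 := nmin b.h3 h2
  let h4 := nmin b.h4 h3
  let h5 := nmin b.h5 h4
  let h6 := nmin b.h6 h5
  let l5 := nmax b.l5 b.l6
  let l4 := nmax b.l4 l5
  let l3 := nmax b.l3 l4
  let l2 := nmax b.l2 l3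
  let l1 := nmax b.l1 l2
  ⟨l1, b.h1, l2, h2, l3, h3, l4, h4, l5, h5, b.l6, h6⟩

/-- Membership: `y i = 4096 x i` in the box. -/
structure Mem (b : Bx) (y1 y2 y3 y4 y5 y6 : ℝ) : Prop where
  l1 : (b.l1 : ℝ) ≤ y1
  h1 : y1 ≤ (b.h1 : ℝ)
  l2 : (b.l2 : ℝ) ≤ y2
  h2 : y2 ≤ (b.h2 : ℝ)
  l3 : (b.l3 : ℝ) ≤ y3
  h3 : y3 ≤ (b.h3 : ℝ)
  l4 : (b.l4 : ℝ) ≤ y4
  h4 : y4 ≤ (b.h4 : ℝ)
  l5 : (b.l5 : ℝ) ≤ y5
  h5 : y5 ≤ (b.h5 : ℝ)
  l6 : (b.l6 : ℝ) ≤ y6
  h6 : y6 ≤ (b.h6 : ℝ)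

lemma Mem.tight {b : Bx} {y1 y2 y3 y4 y5 y6 : ℝ} (hm : Mem b y1 y2 y3 y4 y5 y6)
    (h12 : y2 ≤ y1) (h23 : y3 ≤ y2) (h34 : y4 ≤ y3) (h45 : y5 ≤ y4) (h56 : y6 ≤ y5) :
    Mem (tight b) y1 y2 y3 y4 y5 y6 := by
  have eh2 := le_nmin hm.h2 (h12.trans hm.h1)
  have eh3 := le_nmin hm.h3 (h23.trans eh2)
  have eh4 := le_nmin hm.h4 (h34.trans eh3)
  have eh5 := le_nmin hm.h5 (h45.trans eh4)
  have eh6 := le_nmin hm.h6 (h56.trans eh5)
  have el5 := nmax_le hm.l5 (hm.l6.trans h56)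
  have el4 := nmax_le hm.l4 (el5.trans h45)
  have el3 := nmax_le hm.l3 (el4.trans h34)
  have el2 := nmax_le hm.l2 (el3.trans h23)
  have el1 := nmax_le hm.l1 (el2.trans h12)
  exact ⟨el1, hm.h1, el2, eh2, el3, eh3, el4, eh4, el5, eh5, hm.l6, eh6⟩

/-- The cubic term. -/
noncomputable def QQ (p q : ℝ) : ℝ := Real.sqrt (25 * p + q) ^ 3 + Real.sqrt (p + 25 * q) ^ 3

/-- Closure for the deletion of one vertex. -/
def G1 (M EA EB EC X : ℝ) : Prop := 145903 / 10000 * X < EA * (EB - X) - EC ^ 2 / M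

/-- Closure for the deletion of two vertices. -/
def G2 (M EA EB EC p q : ℝ) : Prop :=
  10 / 22206 * QQ p q ^ 2 < (p + q) ^ 2 * (EA * (EB - (p + q)) - EC ^ 2 / M)

/-- The closure holds at `x`. -/
def Good (x1 x2 x3 x4 x5 x6 : ℝ) : Prop :=
  G1 4 (x2 ^ 2) (x3 ^ 2) (x3 ^ 2) (x6 ^ 2) ∨ G1 9 (x1 ^ 2) (x4 ^ 2) (x1 ^ 2) (x6 ^ 2) ∨
    G2 4 (x2 ^ 2) (x3 ^ 2) (x3 ^ 2) (x5 ^ 2) (x6 ^ 2) ∨
    G2 9 (x1 ^ 2) (x4 ^ 2) (x1 ^ 2) (x5 ^ 2) (x6 ^ 2)

/-- Integer square root, from above, by Newton iterations. -/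
def nsq (n : ℕ) : ℕ :=
  let r0 := 2 ^ (Nat.log2 n / 2 + 1)
  let r1 := (r0 + n / r0) / 2
  let r2 := (r1 + n / r1) / 2
  let r3 := (r2 + n / r2) / 2
  let r4 := (r3 + n / r3) / 2
  let r5 := (r4 + n / r4) / 2
  let r6 := (r5 + n / r5) / 2
  r6 + 1

/-! ### Leaf checks -/

/-- Check of the `G1` family. -/
def g1chk (M la lb hc h6 : ℕ) : Bool :=
  Nat.ble (M * 145903 * 16777216 * h6 + 10000 * (hc * hc) + 10000 * M * (la * h6) + 1)
    (10000 * M * (la * lb))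

/-- Check of the `G2` family. -/
def g2chk (M la lb hc h5 h6 l5 l6 : ℕ) : Bool :=
  let X1 := 25 * h5 + h6
  let X2 := h5 + 25 * h6
  let U1 := nsq X1
  let U2 := nsq X2
  let Q := U1 * U1 * U1 + U2 * U2 * U2
  let Ls := l5 + l6
  Nat.ble X1 (U1 * U1) && Nat.ble X2 (U2 * U2) &&
    Nat.ble (M * (Q * Q) * 16777216 * 10 + 1)
      (22206 * (Ls * Ls) * (M * (la * lb) - (M * (la * (h5 + h6)) + hc * hc)))

/-- Check of the budget with `λ = L/64`. -/
def lamOK (t : PT) (L : ℕ) (b : Bx) : Bool :=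
  decide ((1000000000 : ℤ) * 16777216 * ((L : ℤ) - 144)
    ≤ cLB L t b.l1 b.h1 + cLB L t b.l2 b.h2 + cLB L t b.l3 b.h3 + cLB L t b.l4 b.h4
      + cLB L t b.l5 b.h5 + cLB L t b.l6 b.h6)

/-- The certificate. -/
inductive Cert
  | a | b | c | d
  | L (n : ℕ)
  | s1 (l r : Cert) | s2 (l r : Cert) | s3 (l r : Cert)
  | s4 (l r : Cert) | s5 (l r : Cert) | s6 (l r : Cert)

/-- The checker. -/
def chk (t : PT) : Cert → Bx → Bool
  | .a, b =>
    let c := tight b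
    g1chk 4 (c.l2 * c.l2) (c.l3 * c.l3) (c.h3 * c.h3) (c.h6 * c.h6)
  | .b, b =>
    let c := tight b
    g1chk 9 (c.l1 * c.l1) (c.l4 * c.l4) (c.h1 * c.h1) (c.h6 * c.h6)
  | .c, b =>
    let c := tight b
    g2chk 4 (c.l2 * c.l2) (c.l3 * c.l3) (c.h3 * c.h3) (c.h5 * c.h5) (c.h6 * c.h6)
      (c.l5 * c.l5) (c.l6 * c.l6)
  | .d, b =>
    let c := tight b
    g2chk 9 (c.l1 * c.l1) (c.l4 * c.l4) (c.h1 * c.h1) (c.h5 * c.h5) (c.h6 * c.h6)
      (c.l5 * c.l5) (c.l6 * c.l6)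
  | .L n, b => lamOK t n (tight b)
  | .s1 p q, b =>
    let c := tight b
    let m := (c.l1 + c.h1) / 2
    chk t p { c with h1 := m } && chk t q { c with l1 := m }
  | .s2 p q, b =>
    let c := tight b
    let m := (c.l2 + c.h2) / 2
    chk t p { c with h2 := m } && chk t q { c with l2 := m }
  | .s3 p q, b =>
    let c := tight b
    let m := (c.l3 + c.h3) / 2
    chk t p { c with h3 := m } && chk t q { c with l3 := m }
  | .s4 p q, b =>
    let c := tight b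
    let m := (c.l4 + c.h4) / 2
    chk t p { c with h4 := m } && chk t q { c with l4 := m }
  | .s5 p q, b =>
    let c := tight b
    let m := (c.l5 + c.h5) / 2
    chk t p { c with h5 := m } && chk t q { c with l5 := m }
  | .s6 p q, b =>
    let c := tight b
    let m := (c.l6 + c.h6) / 2
    chk t p { c with h6 := m } && chk t q { c with l6 := m }

/-! ### Soundness of the leaves -/

/-- The bracket. -/
lemma bracket {aA aB bC bX EA EB EC X M : ℝ} (hM : 0 < M) (h0 : 0 ≤ aA) (h1 : aA ≤ EA) (h2 : aB ≤ EB)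
    (h3 : X ≤ bX) (h4 : X ≤ EB) (h5 : 0 ≤ EC) (h6 : EC ≤ bC) :
    aA * (aB - bX) - bC ^ 2 / M ≤ EA * (EB - X) - EC ^ 2 / M := by
  have e1 : aA * (aB - bX) ≤ aA * (EB - X) := mul_le_mul_of_nonneg_left (by linarith) h0
  have e2 : aA * (EB - X) ≤ EA * (EB - X) := mul_le_mul_of_nonneg_right h1 (by linarith)
  have e3 : EC ^ 2 ≤ bC ^ 2 := by
    have := mul_self_le_mul_self h5 h6
    nlinarith
  have e4 : EC ^ 2 / M ≤ bC ^ 2 / M := div_le_div_of_nonneg_right e3 hM.le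
  linarith

/-- Squares of a scaled coordinate, from below. -/
lemma scaled_l {l : ℕ} {x : ℝ} (hl : (l : ℝ) ≤ 4096 * x) :
    ((l * l : ℕ) : ℝ) / 16777216 ≤ x ^ 2 := by
  rw [div_le_iff₀ (by norm_num)]
  push_cast
  have hl0 : (0 : ℝ) ≤ l := by positivity
  nlinarith

/-- Squares of a scaled coordinate, from above. -/
lemma scaled_h {h : ℕ} {x : ℝ} (hh : 4096 * x ≤ (h : ℝ)) (hx : 0 ≤ x) :
    x ^ 2 ≤ ((h * h : ℕ) : ℝ) / 16777216 := by
  rw [le_div_iff₀ (by norm_num)]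
  push_cast
  nlinarith

theorem g1chk_sound {M la lb hc h6 : ℕ} (hM : 0 < M) (h : g1chk M la lb hc h6 = true)
    {EA EB EC X : ℝ} (hla : (la : ℝ) / 16777216 ≤ EA) (hlb : (lb : ℝ) / 16777216 ≤ EB)
    (hhc : EC ≤ (hc : ℝ) / 16777216) (hEC : 0 ≤ EC) (hX : X ≤ (h6 : ℝ) / 16777216) (hXB : X ≤ EB) :
    G1 (M : ℝ) EA EB EC X := by
  unfold g1chk at h
  have h' := Nat.le_of_ble_eq_true h
  have hr : ((M * 145903 * 16777216 * h6 + 10000 * (hc * hc) + 10000 * M * (la * h6) + 1 : ℕ) : ℝ)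
      ≤ ((10000 * M * (la * lb) : ℕ) : ℝ) := by exact_mod_cast h'
  push_cast at hr
  have hM' : (0 : ℝ) < M := by exact_mod_cast hM
  have hbr := bracket hM' (aA := (la : ℝ) / 16777216) (aB := (lb : ℝ) / 16777216)
    (bC := (hc : ℝ) / 16777216) (bX := (h6 : ℝ) / 16777216) (by positivity) hla hlb hX hXB hEC hhc
  unfold G1
  refine lt_of_lt_of_le ?_ hbr
  have h1 : 145903 / 10000 * X ≤ 145903 / 10000 * ((h6 : ℝ) / 16777216) :=
    mul_le_mul_of_nonneg_left hX (by norm_num)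
  refine lt_of_le_of_lt h1 ?_
  have hF : (0 : ℝ) < 10000 * M * 16777216 ^ 2 := by positivity
  have key : (10000 * M * 16777216 ^ 2) * (145903 / 10000 * ((h6 : ℝ) / 16777216))
      < (10000 * M * 16777216 ^ 2) * ((la : ℝ) / 16777216 * ((lb : ℝ) / 16777216 - (h6 : ℝ) / 16777216)
        - ((hc : ℝ) / 16777216) ^ 2 / M) := by
    have e1 : (10000 * (M : ℝ) * 16777216 ^ 2) * (145903 / 10000 * ((h6 : ℝ) / 16777216))
        = M * 145903 * 16777216 * h6 := by ring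
    have e2 : (10000 * (M : ℝ) * 16777216 ^ 2) * ((la : ℝ) / 16777216 * ((lb : ℝ) / 16777216 - (h6 : ℝ) / 16777216)
        - ((hc : ℝ) / 16777216) ^ 2 / M)
        = 10000 * M * (la * lb) - 10000 * M * (la * h6) - 10000 * (hc * hc) := by
      field_simp
    rw [e1, e2]
    linarith
  exact lt_of_mul_lt_mul_left key hF.le

/-- Upper bound for the square root. -/
lemma sqrt_le_scaled {y : ℝ} {X U : ℕ} (hy : y ≤ (X : ℝ) / 16777216) (hU : X ≤ U * U) :
    Real.sqrt y ≤ (U : ℝ) / 4096 := by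
  apply Real.sqrt_le_iff.2
  refine ⟨by positivity, hy.trans ?_⟩
  have : (X : ℝ) ≤ (U : ℝ) * U := by exact_mod_cast hU
  rw [div_pow, div_le_div_iff₀ (by norm_num) (by norm_num)]
  nlinarith

theorem g2chk_sound {M la lb hc h5 h6 l5 l6 : ℕ} (hM : 0 < M)
    (h : g2chk M la lb hc h5 h6 l5 l6 = true)
    {EA EB EC p q : ℝ} (hla : (la : ℝ) / 16777216 ≤ EA) (hlb : (lb : ℝ) / 16777216 ≤ EB)
    (hhc : EC ≤ (hc : ℝ) / 16777216) (hEC : 0 ≤ EC) (hp : p ≤ (h5 : ℝ) / 16777216)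
    (hq : q ≤ (h6 : ℝ) / 16777216) (hpl : (l5 : ℝ) / 16777216 ≤ p) (hql : (l6 : ℝ) / 16777216 ≤ q) :
    G2 (M : ℝ) EA EB EC p q := by
  unfold g2chk at h
  simp only [Bool.and_eq_true] at h
  obtain ⟨⟨h1, h2⟩, h3⟩ := h
  have h1' := Nat.le_of_ble_eq_true h1
  have h2' := Nat.le_of_ble_eq_true h2
  have h3' := Nat.le_of_ble_eq_true h3
  set X1 := 25 * h5 + h6 with hX1
  set X2 := h5 + 25 * h6 with hX2
  set U1 := nsq X1 with hU1
  set U2 := nsq X2 with hU2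
  set Q := U1 * U1 * U1 + U2 * U2 * U2 with hQ
  set Ls := l5 + l6 with hLs
  set N := M * (la * lb) - (M * (la * (h5 + h6)) + hc * hc) with hN
  have hM' : (0 : ℝ) < M := by exact_mod_cast hM
  -- positivity of N
  have hNpos : 0 < N := by
    rcases Nat.eq_zero_or_pos N with h0 | h0
    · rw [h0] at h3'
      simp at h3'
    · exact h0
  have hNle : M * (la * (h5 + h6)) + hc * hc ≤ M * (la * lb) := by
    by_contra hcon
    push Not at hcon
    have : N = 0 := by rw [hN]; omega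
    omega
  have hNr : (N : ℝ) = M * (la * lb) - (M * (la * (h5 + h6)) + hc * hc) := by
    rw [hN, Nat.cast_sub hNle]
    push_cast
    ring
  have h3r : ((M * (Q * Q) * 16777216 * 10 + 1 : ℕ) : ℝ)
      ≤ ((22206 * (Ls * Ls) * N : ℕ) : ℝ) := by exact_mod_cast h3'
  push_cast at h3r
  -- the cubic term
  have hq0 : 0 ≤ QQ p q := by unfold QQ; positivity
  have hS1 : Real.sqrt (25 * p + q) ≤ (U1 : ℝ) / 4096 := by
    apply sqrt_le_scaled (X := X1) _ h1'
    rw [hX1]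
    push_cast
    linarith
  have hS2 : Real.sqrt (p + 25 * q) ≤ (U2 : ℝ) / 4096 := by
    apply sqrt_le_scaled (X := X2) _ h2'
    rw [hX2]
    push_cast
    linarith
  have hQQ : QQ p q ≤ (Q : ℝ) / 68719476736 := by
    unfold QQ
    have e1 : Real.sqrt (25 * p + q) ^ 3 ≤ ((U1 : ℝ) / 4096) ^ 3 :=
      pow_le_pow_left₀ (Real.sqrt_nonneg _) hS1 3
    have e2 : Real.sqrt (p + 25 * q) ^ 3 ≤ ((U2 : ℝ) / 4096) ^ 3 :=
      pow_le_pow_left₀ (Real.sqrt_nonneg _) hS2 3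
    have e3 : (Q : ℝ) / 68719476736 = ((U1 : ℝ) / 4096) ^ 3 + ((U2 : ℝ) / 4096) ^ 3 := by
      rw [hQ]
      push_cast
      ring
    rw [e3]
    linarith
  have hQQ2 : QQ p q ^ 2 ≤ ((Q : ℝ) / 68719476736) ^ 2 := pow_le_pow_left₀ hq0 hQQ 2
  -- the bracket
  have hXB : p + q ≤ EB := by
    have h4 : h5 + h6 ≤ lb := by
      by_contra hcon
      push Not at hcon
      have h5' : la * lb ≤ la * (h5 + h6) := Nat.mul_le_mul_left _ hcon.le
      have h6' : M * (la * lb) ≤ M * (la * (h5 + h6)) := Nat.mul_le_mul_left _ h5'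
      have : N = 0 := by rw [hN]; omega
      omega
    have h5' : ((h5 + h6 : ℕ) : ℝ) ≤ (lb : ℝ) := by exact_mod_cast h4
    push_cast at h5'
    have h6' : ((h5 : ℝ) + h6) / 16777216 ≤ (lb : ℝ) / 16777216 :=
      div_le_div_of_nonneg_right h5' (by norm_num)
    rw [add_div] at h6'
    linarith
  have hbr := bracket hM' (aA := (la : ℝ) / 16777216) (aB := (lb : ℝ) / 16777216)
    (bC := (hc : ℝ) / 16777216) (bX := ((h5 : ℝ) + h6) / 16777216) (X := p + q) (by positivity)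
    hla hlb (by rw [add_div]; linarith) hXB hEC hhc
  set Br := (la : ℝ) / 16777216 * ((lb : ℝ) / 16777216 - ((h5 : ℝ) + h6) / 16777216)
    - ((hc : ℝ) / 16777216) ^ 2 / M with hBr
  have hBrE : Br = (N : ℝ) / (M * 16777216 ^ 2) := by
    rw [hNr, hBr]
    field_simp
    push_cast
    ring
  have hNr0 : (0 : ℝ) < N := by exact_mod_cast hNpos
  have hBr0 : 0 < Br := by rw [hBrE]; positivity
  have hLs0 : (0 : ℝ) ≤ (Ls : ℝ) / 16777216 := by positivity
  have hpq : (Ls : ℝ) / 16777216 ≤ p + q := by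
    rw [hLs]
    push_cast
    rw [add_div]
    linarith
  have hpq2 : ((Ls : ℝ) / 16777216) ^ 2 ≤ (p + q) ^ 2 := pow_le_pow_left₀ hLs0 hpq 2
  unfold G2
  have hright : ((Ls : ℝ) / 16777216) ^ 2 * Br
      ≤ (p + q) ^ 2 * (EA * (EB - (p + q)) - EC ^ 2 / M) := by
    refine (mul_le_mul_of_nonneg_right hpq2 hBr0.le).trans ?_
    exact mul_le_mul_of_nonneg_left hbr (by positivity)
  refine lt_of_lt_of_le ?_ hright
  have hleft : 10 / 22206 * QQ p q ^ 2 ≤ 10 / 22206 * ((Q : ℝ) / 68719476736) ^ 2 :=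
    mul_le_mul_of_nonneg_left hQQ2 (by norm_num)
  refine lt_of_le_of_lt hleft ?_
  rw [hBrE]
  have hF : (0 : ℝ) < 22206 * M * 16777216 ^ 4 := by positivity
  have key : (22206 * M * 16777216 ^ 4) * (10 / 22206 * ((Q : ℝ) / 68719476736) ^ 2)
      < (22206 * M * 16777216 ^ 4) * (((Ls : ℝ) / 16777216) ^ 2 * ((N : ℝ) / (M * 16777216 ^ 2))) := by
    have e1 : (22206 * (M : ℝ) * 16777216 ^ 4) * (10 / 22206 * ((Q : ℝ) / 68719476736) ^ 2)
        = (M * ((Q : ℝ) * Q) * 16777216 * 10) := by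
      norm_num
      ring
    have e2 : (22206 * (M : ℝ) * 16777216 ^ 4) * (((Ls : ℝ) / 16777216) ^ 2 * ((N : ℝ) / (M * 16777216 ^ 2)))
        = 22206 * ((Ls : ℝ) * Ls) * N := by
      field_simp
    rw [e1, e2]
    linarith
  exact lt_of_mul_lt_mul_left key hF.le

/-! ### Soundness of the checker -/

/-- The data of a configuration. -/
structure Feas (t : PT) (x1 x2 x3 x4 x5 x6 a1 a2 a3 a4 a5 a6 : ℝ) : Prop where
  h12 : x2 ≤ x1
  h23 : x3 ≤ x2
  h34 : x4 ≤ x3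
  h45 : x5 ≤ x4
  h56 : x6 ≤ x5
  h6 : 0 ≤ x6
  v1 : t.Valid x1 a1
  v2 : t.Valid x2 a2
  v3 : t.Valid x3 a3
  v4 : t.Valid x4 a4
  v5 : t.Valid x5 a5
  v6 : t.Valid x6 a6
  sum : a1 + a2 + a3 + a4 + a5 + a6 = 1
  bud : 9 / 4 < x1 ^ 2 + x2 ^ 2 + x3 ^ 2 + x4 ^ 2 + x5 ^ 2 + x6 ^ 2

/-- A budget leaf is impossible. -/
theorem lamOK_sound {t : PT} {L : ℕ} {b : Bx} (h : lamOK t L b = true)
    {x1 x2 x3 x4 x5 x6 a1 a2 a3 a4 a5 a6 : ℝ}
    (hf : Feas t x1 x2 x3 x4 x5 x6 a1 a2 a3 a4 a5 a6)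
    (hm : Mem b (4096 * x1) (4096 * x2) (4096 * x3) (4096 * x4) (4096 * x5) (4096 * x6)) : False := by
  unfold lamOK at h
  have h' := of_decide_eq_true h
  have hr : (((1000000000 : ℤ) * 16777216 * ((L : ℤ) - 144) : ℤ) : ℝ)
      ≤ ((cLB L t b.l1 b.h1 + cLB L t b.l2 b.h2 + cLB L t b.l3 b.h3 + cLB L t b.l4 b.h4
      + cLB L t b.l5 b.h5 + cLB L t b.l6 b.h6 : ℤ) : ℝ) := by exact_mod_cast h'
  push_cast at hr
  have c1 := cLB_sound L t hf.v1 b.l1 b.h1 hm.l1 hm.h1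
  have c2 := cLB_sound L t hf.v2 b.l2 b.h2 hm.l2 hm.h2
  have c3 := cLB_sound L t hf.v3 b.l3 b.h3 hm.l3 hm.h3
  have c4 := cLB_sound L t hf.v4 b.l4 b.h4 hm.l4 hm.h4
  have c5 := cLB_sound L t hf.v5 b.l5 b.h5 hm.l5 hm.h5
  have c6 := cLB_sound L t hf.v6 b.l6 b.h6 hm.l6 hm.h6
  have hsum : ZZ * ((L : ℝ) / 64 * a1 - x1 ^ 2) + ZZ * ((L : ℝ) / 64 * a2 - x2 ^ 2)
      + ZZ * ((L : ℝ) / 64 * a3 - x3 ^ 2) + ZZ * ((L : ℝ) / 64 * a4 - x4 ^ 2)
      + ZZ * ((L : ℝ) / 64 * a5 - x5 ^ 2) + ZZ * ((L : ℝ) / 64 * a6 - x6 ^ 2)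
      = ZZ * ((L : ℝ) / 64 * (a1 + a2 + a3 + a4 + a5 + a6)
        - (x1 ^ 2 + x2 ^ 2 + x3 ^ 2 + x4 ^ 2 + x5 ^ 2 + x6 ^ 2)) := by ring
  rw [hf.sum] at hsum
  have hZ : 0 < ZZ := by unfold ZZ; norm_num
  have hb := hf.bud
  have hlt : ZZ * ((L : ℝ) / 64 * 1 - (x1 ^ 2 + x2 ^ 2 + x3 ^ 2 + x4 ^ 2 + x5 ^ 2 + x6 ^ 2))
      < ZZ * ((L : ℝ) / 64 * 1 - 9 / 4) := mul_lt_mul_of_pos_left (by linarith) hZ
  have e : ZZ * ((L : ℝ) / 64 * 1 - 9 / 4) = 1000000000 * 16777216 * ((L : ℝ) - 144) := by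
    unfold ZZ; ring
  rw [e] at hlt
  linarith

/-- **Soundness of the checker.** -/
theorem chk_sound (t : PT) (c : Cert) : ∀ (b : Bx), chk t c b = true →
    ∀ {x1 x2 x3 x4 x5 x6 a1 a2 a3 a4 a5 a6 : ℝ},
      Feas t x1 x2 x3 x4 x5 x6 a1 a2 a3 a4 a5 a6 →
      Mem b (4096 * x1) (4096 * x2) (4096 * x3) (4096 * x4) (4096 * x5) (4096 * x6) →
      Good x1 x2 x3 x4 x5 x6 := by
  induction c with
  | a =>
    intro b h x1 x2 x3 x4 x5 x6 a1 a2 a3 a4 a5 a6 hf hm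
    have hT := hm.tight (by linarith [hf.h12]) (by linarith [hf.h23]) (by linarith [hf.h34])
      (by linarith [hf.h45]) (by linarith [hf.h56])
    simp only [chk] at h
    have hx5 := hf.h6.trans hf.h56
    have hx4 := hx5.trans hf.h45
    have hx3 := hx4.trans hf.h34
    refine Or.inl ?_
    have := g1chk_sound (M := 4) (by norm_num) h (EA := x2 ^ 2) (EB := x3 ^ 2) (EC := x3 ^ 2)
      (X := x6 ^ 2) (scaled_l hT.l2) (scaled_l hT.l3) (scaled_h hT.h3 hx3) (by positivity)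
      (scaled_h hT.h6 hf.h6) (pow_le_pow_left₀ hf.h6 (by linarith [hf.h34, hf.h45, hf.h56]) 2)
    simpa using this
  | b =>
    intro b h x1 x2 x3 x4 x5 x6 a1 a2 a3 a4 a5 a6 hf hm
    have hT := hm.tight (by linarith [hf.h12]) (by linarith [hf.h23]) (by linarith [hf.h34])
      (by linarith [hf.h45]) (by linarith [hf.h56])
    simp only [chk] at h
    have hx5 := hf.h6.trans hf.h56
    have hx4 := hx5.trans hf.h45
    have hx3 := hx4.trans hf.h34
    have hx2 := hx3.trans hf.h23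
    have hx1 := hx2.trans hf.h12
    refine Or.inr (Or.inl ?_)
    have := g1chk_sound (M := 9) (by norm_num) h (EA := x1 ^ 2) (EB := x4 ^ 2) (EC := x1 ^ 2)
      (X := x6 ^ 2) (scaled_l hT.l1) (scaled_l hT.l4) (scaled_h hT.h1 hx1) (by positivity)
      (scaled_h hT.h6 hf.h6) (pow_le_pow_left₀ hf.h6 (by linarith [hf.h45, hf.h56]) 2)
    simpa using this
  | c =>
    intro b h x1 x2 x3 x4 x5 x6 a1 a2 a3 a4 a5 a6 hf hm
    have hT := hm.tight (by linarith [hf.h12]) (by linarith [hf.h23]) (by linarith [hf.h34])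
      (by linarith [hf.h45]) (by linarith [hf.h56])
    simp only [chk] at h
    have hx5 := hf.h6.trans hf.h56
    have hx4 := hx5.trans hf.h45
    have hx3 := hx4.trans hf.h34
    refine Or.inr (Or.inr (Or.inl ?_))
    have := g2chk_sound (M := 4) (by norm_num) h (EA := x2 ^ 2) (EB := x3 ^ 2) (EC := x3 ^ 2)
      (p := x5 ^ 2) (q := x6 ^ 2) (scaled_l hT.l2) (scaled_l hT.l3) (scaled_h hT.h3 hx3)
      (by positivity) (scaled_h hT.h5 hx5) (scaled_h hT.h6 hf.h6) (scaled_l hT.l5) (scaled_l hT.l6)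
    simpa using this
  | d =>
    intro b h x1 x2 x3 x4 x5 x6 a1 a2 a3 a4 a5 a6 hf hm
    have hT := hm.tight (by linarith [hf.h12]) (by linarith [hf.h23]) (by linarith [hf.h34])
      (by linarith [hf.h45]) (by linarith [hf.h56])
    simp only [chk] at h
    have hx5 := hf.h6.trans hf.h56
    have hx4 := hx5.trans hf.h45
    have hx3 := hx4.trans hf.h34
    have hx2 := hx3.trans hf.h23
    have hx1 := hx2.trans hf.h12
    refine Or.inr (Or.inr (Or.inr ?_))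
    have := g2chk_sound (M := 9) (by norm_num) h (EA := x1 ^ 2) (EB := x4 ^ 2) (EC := x1 ^ 2)
      (p := x5 ^ 2) (q := x6 ^ 2) (scaled_l hT.l1) (scaled_l hT.l4) (scaled_h hT.h1 hx1)
      (by positivity) (scaled_h hT.h5 hx5) (scaled_h hT.h6 hf.h6) (scaled_l hT.l5) (scaled_l hT.l6)
    simpa using this
  | L n =>
    intro b h x1 x2 x3 x4 x5 x6 a1 a2 a3 a4 a5 a6 hf hm
    have hT := hm.tight (by linarith [hf.h12]) (by linarith [hf.h23]) (by linarith [hf.h34])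
      (by linarith [hf.h45]) (by linarith [hf.h56])
    simp only [chk] at h
    exact (lamOK_sound h hf hT).elim
  | s1 p q ihp ihq =>
    intro b h x1 x2 x3 x4 x5 x6 a1 a2 a3 a4 a5 a6 hf hm
    have hT := hm.tight (by linarith [hf.h12]) (by linarith [hf.h23]) (by linarith [hf.h34])
      (by linarith [hf.h45]) (by linarith [hf.h56])
    simp only [chk, Bool.and_eq_true] at h
    rcases le_total (4096 * x1) (((tight b).l1 + (tight b).h1) / 2 : ℕ) with h3 | h3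
    · exact ihp _ h.1 hf { hT with h1 := h3 }
    · exact ihq _ h.2 hf { hT with l1 := h3 }
  | s2 p q ihp ihq =>
    intro b h x1 x2 x3 x4 x5 x6 a1 a2 a3 a4 a5 a6 hf hm
    have hT := hm.tight (by linarith [hf.h12]) (by linarith [hf.h23]) (by linarith [hf.h34])
      (by linarith [hf.h45]) (by linarith [hf.h56])
    simp only [chk, Bool.and_eq_true] at h
    rcases le_total (4096 * x2) (((tight b).l2 + (tight b).h2) / 2 : ℕ) with h3 | h3
    · exact ihp _ h.1 hf { hT with h2 := h3 }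
    · exact ihq _ h.2 hf { hT with l2 := h3 }
  | s3 p q ihp ihq =>
    intro b h x1 x2 x3 x4 x5 x6 a1 a2 a3 a4 a5 a6 hf hm
    have hT := hm.tight (by linarith [hf.h12]) (by linarith [hf.h23]) (by linarith [hf.h34])
      (by linarith [hf.h45]) (by linarith [hf.h56])
    simp only [chk, Bool.and_eq_true] at h
    rcases le_total (4096 * x3) (((tight b).l3 + (tight b).h3) / 2 : ℕ) with h3 | h3
    · exact ihp _ h.1 hf { hT with h3 := h3 }
    · exact ihq _ h.2 hf { hT with l3 := h3 }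
  | s4 p q ihp ihq =>
    intro b h x1 x2 x3 x4 x5 x6 a1 a2 a3 a4 a5 a6 hf hm
    have hT := hm.tight (by linarith [hf.h12]) (by linarith [hf.h23]) (by linarith [hf.h34])
      (by linarith [hf.h45]) (by linarith [hf.h56])
    simp only [chk, Bool.and_eq_true] at h
    rcases le_total (4096 * x4) (((tight b).l4 + (tight b).h4) / 2 : ℕ) with h3 | h3
    · exact ihp _ h.1 hf { hT with h4 := h3 }
    · exact ihq _ h.2 hf { hT with l4 := h3 }
  | s5 p q ihp ihq =>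
    intro b h x1 x2 x3 x4 x5 x6 a1 a2 a3 a4 a5 a6 hf hm
    have hT := hm.tight (by linarith [hf.h12]) (by linarith [hf.h23]) (by linarith [hf.h34])
      (by linarith [hf.h45]) (by linarith [hf.h56])
    simp only [chk, Bool.and_eq_true] at h
    rcases le_total (4096 * x5) (((tight b).l5 + (tight b).h5) / 2 : ℕ) with h3 | h3
    · exact ihp _ h.1 hf { hT with h5 := h3 }
    · exact ihq _ h.2 hf { hT with l5 := h3 }
  | s6 p q ihp ihq =>
    intro b h x1 x2 x3 x4 x5 x6 a1 a2 a3 a4 a5 a6 hf hm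
    have hT := hm.tight (by linarith [hf.h12]) (by linarith [hf.h23]) (by linarith [hf.h34])
      (by linarith [hf.h45]) (by linarith [hf.h56])
    simp only [chk, Bool.and_eq_true] at h
    rcases le_total (4096 * x6) (((tight b).l6 + (tight b).h6) / 2 : ℕ) with h3 | h3
    · exact ihp _ h.1 hf { hT with h6 := h3 }
    · exact ihq _ h.2 hf { hT with l6 := h3 }

end Crest.Agent.Propeller.K6
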