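import Crest.Agent.Lib.Propeller.Step4

/-!
# Propeller: general single deletion closure at level `k`

`36 π³ det ≤ 2 k⁴ s²` for the projected pair, the vertex pick, the coefficients `q`.
-/

set_option autoImplicit false
set_option linter.unusedSectionVars false
open MeasureTheory ProbabilityTheory
open scoped RealInnerProductSpace

namespace Crest.Agent.Propeller

universe u

variable {E : Type u} [NormedAddCommGroup E] [InnerProductSpace ℝ E] [FiniteDimensional ℝ E]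
  [MeasurableSpace E] [BorelSpace E]
variable {k : ℕ} {z : Fin k → E} {A : Fin k → Set E}

/-- The unit vector along `z j`. -/
noncomputable def uvec (z : Fin k → E) (j : Fin k) : E := ‖z j‖⁻¹ • z j

/-- Squared norm of the projected vector. -/
noncomputable def Kp (z : Fin k → E) (j i : Fin k) : ℝ := ‖prp (uvec z j) (z i)‖ ^ 2

/-- The coefficient `q i = -⟪z j, z i⟫ / ‖z j‖²`. -/
noncomputable def qc (z : Fin k → E) (j i : Fin k) : ℝ := -⟪z j, z i⟫ / ‖z j‖ ^ 2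

lemma norm_uvec {j : Fin k} (hs : 0 < ‖z j‖) : ‖uvec z j‖ = 1 := by
  unfold uvec
  rw [norm_smul, norm_inv, Real.norm_eq_abs, abs_of_pos hs]
  exact inv_mul_cancel₀ hs.ne'

lemma inner_uvec (j i : Fin k) (hs : 0 < ‖z j‖) : ⟪uvec z j, z i⟫ = - qc z j i * ‖z j‖ := by
  unfold uvec qc
  rw [real_inner_smul_left]
  field_simp

/-- `K i = σ i² - q i² s²`. -/
lemma Kp_eq (j i : Fin k) (hs : 0 < ‖z j‖) : Kp z j i = ‖z i‖ ^ 2 - qc z j i ^ 2 * ‖z j‖ ^ 2 := by
  unfold Kp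
  rw [norm_prp_sq _ _ (norm_uvec hs), inner_uvec j i hs]
  ring

lemma Kp_le (j i : Fin k) (hs : 0 < ‖z j‖) : Kp z j i ≤ ‖z i‖ ^ 2 := by
  rw [Kp_eq j i hs]
  have : 0 ≤ qc z j i ^ 2 * ‖z j‖ ^ 2 := by positivity
  linarith

lemma Kp_nonneg (j i : Fin k) : 0 ≤ Kp z j i := by
  unfold Kp; positivity

/-- Strict obtuseness. -/
lemma Critical.inner_neg (hc : Critical z A) (hR : R < S z) (hP : PF E (k - 1)) {a b : Fin k}
    (hab : a ≠ b) : ⟪z a, z b⟫ < 0 := by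
  have := hc.inner_le hP hab
  linarith

/-- Nonvanishing of the vectors. -/
lemma Critical.norm_pos (hc : Critical z A) (hR : R < S z) (hP : PF E (k - 1)) (hk : 2 ≤ k)
    (j : Fin k) : 0 < ‖z j‖ := by
  rw [norm_pos_iff]
  intro h0
  obtain ⟨a, haj⟩ : ∃ a : Fin k, a ≠ j := by
    have : 1 < (Finset.univ : Finset (Fin k)).card := by simpa using (by omega : 1 < k)
    obtain ⟨i, _, hij⟩ := Finset.exists_mem_ne this j
    exact ⟨i, hij⟩
  have := hc.inner_neg hR hP haj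
  rw [h0, inner_zero_right] at this
  exact lt_irrefl _ this

lemma Critical.qc_nonneg (hc : Critical z A) (hR : R < S z) (hP : PF E (k - 1)) (j : Fin k)
    {i : Fin k} (hi : i ≠ j) : 0 ≤ qc z j i := by
  unfold qc
  have := hc.inner_neg hR hP hi.symm
  apply div_nonneg (by linarith) (by positivity)

/-- The coefficients sum to one. -/
lemma qc_sum (hsum : ∑ i, z i = 0) (j : Fin k) (hs : 0 < ‖z j‖) :
    ∑ i ∈ Finset.univ.erase j, qc z j i = 1 := by
  have h1 : ∑ i ∈ Finset.univ.erase j, z i = - z j := by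
    have := Finset.add_sum_erase Finset.univ z (Finset.mem_univ j)
    rw [hsum] at this
    exact eq_neg_of_add_eq_zero_right this
  unfold qc
  rw [← Finset.sum_div, Finset.sum_neg_distrib, ← inner_sum, h1, inner_neg_right, neg_neg,
    real_inner_self_eq_norm_sq]
  field_simp

/-- Two of the coefficients: `q a + q b ≤ 1`. -/
lemma Critical.qc_add_le (hc : Critical z A) (hR : R < S z) (hP : PF E (k - 1)) (hk : 2 ≤ k)
    (j : Fin k) {a b : Fin k} (ha : a ≠ j) (hb : b ≠ j) (hab : a ≠ b) :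
    qc z j a + qc z j b ≤ 1 := by
  classical
  have hs := hc.norm_pos hR hP hk j
  have hsum := qc_sum hc.sum_zero j hs
  have hsub : ({a, b} : Finset (Fin k)) ⊆ Finset.univ.erase j := by
    intro i hi
    simp only [Finset.mem_insert, Finset.mem_singleton] at hi
    rcases hi with rfl | rfl <;> simp [ha, hb]
  have h1 := Finset.sum_le_sum_of_subset_of_nonneg (f := qc z j) hsub (fun i hi _ =>
    hc.qc_nonneg hR hP j (Finset.ne_of_mem_erase hi))
  rw [Finset.sum_pair hab, hsum] at h1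
  exact h1

/-- `q a ≤ 1`. -/
lemma Critical.qc_le_one (hc : Critical z A) (hR : R < S z) (hP : PF E (k - 1)) (hk : 2 ≤ k)
    (j : Fin k) {a : Fin k} (ha : a ≠ j) : qc z j a ≤ 1 := by
  have hs := hc.norm_pos hR hP hk j
  have hsum := qc_sum hc.sum_zero j hs
  have haE : a ∈ Finset.univ.erase j := Finset.mem_erase.2 ⟨ha, Finset.mem_univ _⟩
  have h1 := Finset.single_le_sum (f := qc z j) (fun i hi =>
    hc.qc_nonneg hR hP j (Finset.ne_of_mem_erase hi)) haE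
  rw [hsum] at h1
  exact h1

/-- The Kron bound `K a ≥ σ a² - s²`. -/
lemma Critical.Kp_ge (hc : Critical z A) (hR : R < S z) (hP : PF E (k - 1)) (hk : 2 ≤ k)
    (j : Fin k) {a : Fin k} (ha : a ≠ j) : ‖z a‖ ^ 2 - ‖z j‖ ^ 2 ≤ Kp z j a := by
  have hs := hc.norm_pos hR hP hk j
  rw [Kp_eq j a hs]
  have h0 := hc.qc_nonneg hR hP j ha
  have h1 := hc.qc_le_one hR hP hk j ha
  have h2 : qc z j a ^ 2 ≤ 1 := by nlinarith
  have h3 : qc z j a ^ 2 * ‖z j‖ ^ 2 ≤ 1 * ‖z j‖ ^ 2 :=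
    mul_le_mul_of_nonneg_right h2 (by positivity)
  linarith

/-- The projected family is obtuse. -/
lemma Critical.inner_prp_nonpos (hc : Critical z A) (hR : R < S z) (hP : PF E (k - 1)) (j : Fin k)
    (hs : 0 < ‖z j‖) {a b : Fin k} (ha : a ≠ j) (hb : b ≠ j) (hab : a ≠ b) :
    ⟪prp (uvec z j) (z a), prp (uvec z j) (z b)⟫ ≤ 0 := by
  rw [inner_prp_prp _ _ _ (norm_uvec hs), inner_uvec j a hs, inner_uvec j b hs]
  have h1 := hc.inner_neg hR hP hab
  have h2 := hc.qc_nonneg hR hP j ha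
  have h3 := hc.qc_nonneg hR hP j hb
  have : 0 ≤ qc z j a * ‖z j‖ * (qc z j b * ‖z j‖) := by positivity
  nlinarith

/-- **Single deletion closure.** For a critical configuration at level `k`, a deleted cell `j` and
a pair `a ≠ b` of other cells: `36 π³ det ≤ 2 k⁴ s²`; that is `Δ ≤ k² s √(2/π) / (6π)`. -/
theorem Critical.det_le (hc : Critical z A) (hR : R < S z) (hP : PF E (k - 1)) (hk : 2 ≤ k)
    (j : Fin k) {a b : Fin k} (ha : a ≠ j) (hb : b ≠ j) (hab : a ≠ b) :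
    36 * Real.pi ^ 3 * (Kp z j a * Kp z j b - ⟪prp (uvec z j) (z a), prp (uvec z j) (z b)⟫ ^ 2)
      ≤ 2 * (k : ℝ) ^ 4 * ‖z j‖ ^ 2 := by
  have hpi := Real.pi_pos
  have hs := hc.norm_pos hR hP hk j
  set s := ‖z j‖ with hsdef
  set D2 := Kp z j a * Kp z j b - ⟪prp (uvec z j) (z a), prp (uvec z j) (z b)⟫ ^ 2 with hD2
  rcases le_or_gt D2 0 with hD | hD2pos
  · have h1 : 36 * Real.pi ^ 3 * D2 ≤ 0 :=
      mul_nonpos_of_nonneg_of_nonpos (by positivity) hD
    have h2 : 0 ≤ 2 * (k : ℝ) ^ 4 * s ^ 2 := by positivity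
    linarith
  set Δ := Real.sqrt D2 with hΔ
  have hΔpos : 0 < Δ := Real.sqrt_pos.2 hD2pos
  have hΔsq : Δ ^ 2 = D2 := Real.sq_sqrt hD2pos.le
  have haE : a ∈ Finset.univ.erase j := Finset.mem_erase.2 ⟨ha, Finset.mem_univ _⟩
  have hbE : b ∈ Finset.univ.erase j := Finset.mem_erase.2 ⟨hb, Finset.mem_univ _⟩
  have hne : (Finset.univ.erase j).Nonempty := ⟨a, haE⟩
  have hgain := gain_le_pair z j hne hc.sum_zero hs hk haE hbE hab Δ hΔpos (by
    rw [hΔsq]
    exact le_of_eq rfl)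
  have hdel := hc.deletion_one hR hP j hk
  rw [← hsdef] at hgain hdel
  set L := F z - F (restr z (Finset.univ.erase j)) with hL
  have hSpos : 0 < S z := lt_trans R_pos hR
  have hk2 : (2 : ℝ) ≤ k := by exact_mod_cast hk
  have hk1 : (0 : ℝ) < (k : ℝ) - 1 := by linarith
  have hk0 : (0 : ℝ) < k := by linarith
  have hdel2 : s ^ 2 * ((k : ℝ) / ((k : ℝ) - 1)) ≤ 2 * L := by
    have h1 : 0 ≤ L ^ 2 / S z := by positivity
    linarith
  have hdenpos : 0 < 12 * Real.pi * ((k : ℝ) - 1) * Δ := by positivity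
  have hgain2 : L * (12 * Real.pi * ((k : ℝ) - 1) * Δ)
      ≤ ((k : ℝ) * s) ^ 3 * Real.sqrt (2 / Real.pi) := (le_div_iff₀ hdenpos).1 hgain
  have hΔle : 6 * Real.pi * Δ ≤ (k : ℝ) ^ 2 * s * Real.sqrt (2 / Real.pi) := by
    have h1 : s ^ 2 * ((k : ℝ) / ((k : ℝ) - 1)) * (12 * Real.pi * ((k : ℝ) - 1) * Δ)
        ≤ 2 * L * (12 * Real.pi * ((k : ℝ) - 1) * Δ) :=
      mul_le_mul_of_nonneg_right hdel2 hdenpos.le
    have e1 : s ^ 2 * ((k : ℝ) / ((k : ℝ) - 1)) * (12 * Real.pi * ((k : ℝ) - 1) * Δ)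
        = ((k : ℝ) * s ^ 2) * (2 * (6 * Real.pi * Δ)) := by
      field_simp
      ring
    have e2 : 2 * L * (12 * Real.pi * ((k : ℝ) - 1) * Δ)
        = 2 * (L * (12 * Real.pi * ((k : ℝ) - 1) * Δ)) := by ring
    rw [e1, e2] at h1
    have h3 : ((k : ℝ) * s ^ 2) * (2 * (6 * Real.pi * Δ))
        ≤ ((k : ℝ) * s ^ 2) * (2 * ((k : ℝ) ^ 2 * s * Real.sqrt (2 / Real.pi))) := by
      refine h1.trans ?_
      have e3 : ((k : ℝ) * s ^ 2) * (2 * ((k : ℝ) ^ 2 * s * Real.sqrt (2 / Real.pi)))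
          = 2 * (((k : ℝ) * s) ^ 3 * Real.sqrt (2 / Real.pi)) := by ring
      rw [e3]
      linarith
    have h4 := le_of_mul_le_mul_left h3 (by positivity)
    linarith
  have h1 : (6 * Real.pi * Δ) ^ 2 ≤ ((k : ℝ) ^ 2 * s * Real.sqrt (2 / Real.pi)) ^ 2 :=
    pow_le_pow_left₀ (by positivity) hΔle 2
  have h2 : ((k : ℝ) ^ 2 * s * Real.sqrt (2 / Real.pi)) ^ 2 = (k : ℝ) ^ 4 * s ^ 2 * (2 / Real.pi) := by
    rw [mul_pow, mul_pow, Real.sq_sqrt (by positivity)]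
    ring
  rw [h2, mul_pow, mul_pow, hΔsq] at h1
  have h3 : Real.pi * ((6 : ℝ) ^ 2 * Real.pi ^ 2 * D2) ≤ Real.pi * ((k : ℝ) ^ 4 * s ^ 2 * (2 / Real.pi)) :=
    mul_le_mul_of_nonneg_left h1 hpi.le
  have h4 : Real.pi * ((k : ℝ) ^ 4 * s ^ 2 * (2 / Real.pi)) = 2 * (k : ℝ) ^ 4 * s ^ 2 := by
    field_simp
  rw [h4] at h3
  nlinarith

/-- **Vertex pick.** For a vertex `a` and a nonempty set `Q` of other vertices of `T = {i ≠ j}`
there is `b ∈ Q` with `36 π³ (K a K b - (K a / |Q|)²) ≤ 2 k⁴ s²`. -/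
theorem Critical.vertex_pick (hc : Critical z A) (hR : R < S z) (hP : PF E (k - 1)) (hk : 2 ≤ k)
    (j a : Fin k) (ha : a ≠ j) (Q : Finset (Fin k)) (hQ : Q ⊆ (Finset.univ.erase j).erase a)
    (hQne : Q.Nonempty) :
    ∃ b ∈ Q, 36 * Real.pi ^ 3 * (Kp z j a * Kp z j b - (Kp z j a / Q.card) ^ 2)
      ≤ 2 * (k : ℝ) ^ 4 * ‖z j‖ ^ 2 := by
  classical
  have hs := hc.norm_pos hR hP hk j
  have hpi := Real.pi_pos
  have haE : a ∈ Finset.univ.erase j := Finset.mem_erase.2 ⟨ha, Finset.mem_univ _⟩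
  obtain ⟨b, hb, hsmall⟩ := exists_small_weight (Finset.univ.erase j)
    (fun i => prp (uvec z j) (z i)) (sum_prp_erase z j hc.sum_zero hs)
    (fun i hi i' hi' hne => hc.inner_prp_nonpos hR hP j hs (Finset.ne_of_mem_erase hi)
      (Finset.ne_of_mem_erase hi') hne) haE Q hQ hQne
  refine ⟨b, hb, ?_⟩
  have hbE := hQ hb
  have hba : b ≠ a := Finset.ne_of_mem_erase hbE
  have hbj : b ≠ j := Finset.ne_of_mem_erase (Finset.mem_of_mem_erase hbE)
  have hdet := hc.det_le hR hP hk j ha hbj hba.symm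
  have hn0 := hc.inner_prp_nonpos hR hP j hs ha hbj hba.symm
  have hsq : ⟪prp (uvec z j) (z a), prp (uvec z j) (z b)⟫ ^ 2 ≤ (Kp z j a / Q.card) ^ 2 := by
    rw [← neg_sq]
    exact pow_le_pow_left₀ (by linarith) hsmall 2
  have h36 : 0 < 36 * Real.pi ^ 3 := by positivity
  have := mul_le_mul_of_nonneg_left hsq h36.le
  nlinarith

end Crest.Agent.Propeller
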