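/-
The closure lemmas of the step at level `k = 6`: the pick with the Kron loss, deletion of one and of
two vertices.
-/
import Crest.Agent.Lib.Propeller.SingleClosure
import Crest.Agent.Lib.Propeller.K6Tree

set_option autoImplicit false
set_option linter.unusedSectionVars false
open MeasureTheory ProbabilityTheory
open scoped RealInnerProductSpace

namespace Crest.Agent.Propeller

universe u

variable {E : Type u} [NormedAddCommGroup E] [InnerProductSpace ℝ E] [FiniteDimensional ℝ E]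
  [MeasurableSpace E] [BorelSpace E]

/-- The real inequality behind the pick. -/
lemma pick_real {Ea Eb Ka Kb fa fb x2 w q : ℝ} (hEa : 0 ≤ Ea) (hEb : 0 ≤ Eb)
    (hKa0 : 0 ≤ Ka) (hKaE : Ka ≤ Ea) (hKb0 : 0 ≤ Kb) (h1 : Ea - fa ≤ Ka) (h2 : Eb - fb ≤ Kb)
    (hfa : 0 ≤ fa) (hfb : 0 ≤ fb) (hf : fa + fb ≤ x2) (hw0 : 0 ≤ w) (hw : w ≤ Ka / q) (hq : 0 < q) :
    Ea * Eb - max Ea Eb * x2 - (Ea / q) ^ 2 ≤ Ka * Kb - w ^ 2 := by
  have hw2 : w ^ 2 ≤ (Ea / q) ^ 2 := by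
    apply pow_le_pow_left₀ hw0
    exact hw.trans (div_le_div_of_nonneg_right hKaE hq.le)
  have hx2 : 0 ≤ x2 := by linarith
  have hMa : Ea ≤ max Ea Eb := le_max_left _ _
  have hMb : Eb ≤ max Ea Eb := le_max_right _ _
  have hK : Ea * Eb - max Ea Eb * x2 ≤ Ka * Kb := by
    rcases lt_or_ge Ea fa with h3 | h3
    · have h4 : Eb * Ea ≤ Eb * fa := mul_le_mul_of_nonneg_left h3.le hEb
      have h5 : Eb * fa ≤ max Ea Eb * x2 := by
        apply mul_le_mul hMb (by linarith) hfa (le_trans hEb hMb)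
      have h6 : 0 ≤ Ka * Kb := mul_nonneg hKa0 hKb0
      linarith
    rcases lt_or_ge Eb fb with h3' | h3'
    · have h4 : Ea * Eb ≤ Ea * fb := mul_le_mul_of_nonneg_left h3'.le hEa
      have h5 : Ea * fb ≤ max Ea Eb * x2 := by
        apply mul_le_mul hMa (by linarith) hfb (le_trans hEa hMa)
      have h6 : 0 ≤ Ka * Kb := mul_nonneg hKa0 hKb0
      linarith
    have h4 : (Ea - fa) * (Eb - fb) ≤ Ka * Kb :=
      mul_le_mul h1 h2 (by linarith) hKa0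
    have h5 : Ea * fb + Eb * fa ≤ max Ea Eb * (fa + fb) := by
      have e1 := mul_le_mul_of_nonneg_right hMa hfb
      have e2 := mul_le_mul_of_nonneg_right hMb hfa
      linarith
    have h6 : max Ea Eb * (fa + fb) ≤ max Ea Eb * x2 :=
      mul_le_mul_of_nonneg_left hf (le_trans hEa hMa)
    have h7 : 0 ≤ fa * fb := mul_nonneg hfa hfb
    nlinarith
  linarith

section general

variable {k : ℕ} (z : Fin k → E) (X : Finset (Fin k))

/-- **The pick with the Kron loss**, for an arbitrary deleted set `X`. -/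
theorem pick_det (hsum : ∑ i, z i = 0) (hobt : ∀ i j, i ≠ j → ⟪z i, z j⟫ ≤ 0)
    {V : Submodule ℝ E} (hV : V = Submodule.span ℝ (z '' (X : Set (Fin k)))) {a : Fin k} (ha : a ∉ X)
    (Q : Finset (Fin k)) (hQ : Q ⊆ Xᶜ.erase a) (hQne : Q.Nonempty) :
    ∃ b ∈ Q, ‖z a‖ ^ 2 * ‖z b‖ ^ 2 - max (‖z a‖ ^ 2) (‖z b‖ ^ 2) * ‖∑ l ∈ X, z l‖ ^ 2
        - (‖z a‖ ^ 2 / Q.card) ^ 2
      ≤ ‖Vᗮ.starProjection (z a)‖ ^ 2 * ‖Vᗮ.starProjection (z b)‖ ^ 2
        - ⟪Vᗮ.starProjection (z a), Vᗮ.starProjection (z b)⟫ ^ 2 := by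
  set v : Fin k → E := fun i => Vᗮ.starProjection (z i) with hv
  have hsumv : ∑ i ∈ Xᶜ, v i = 0 := sum_proj_eq_zero z X hsum hV
  have hneg : ∀ i ∈ Xᶜ, ∀ j ∈ Xᶜ, i ≠ j → ⟪v i, v j⟫ ≤ 0 := by
    intro i hi j hj hij
    exact (inner_proj_le z X hsum hobt hV (Finset.mem_compl.1 hi) (Finset.mem_compl.1 hj)).trans
      (hobt i j hij)
  obtain ⟨b, hb, hsmall⟩ := exists_small_weight Xᶜ v hsumv hneg (Finset.mem_compl.2 ha) Q hQ hQne
  refine ⟨b, hb, ?_⟩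
  have hbE := hQ hb
  have hba : b ≠ a := Finset.ne_of_mem_erase hbE
  have hbX : b ∉ X := Finset.mem_compl.1 (Finset.mem_of_mem_erase hbE)
  have hqpos : (0 : ℝ) < Q.card := by exact_mod_cast hQne.card_pos
  -- flows
  set f : Fin k → ℝ := fun c => - ∑ l ∈ X, ⟪z l, z c⟫ with hf
  have hf0 : ∀ c ∈ Xᶜ, 0 ≤ f c := by
    intro c hc
    have : ∑ l ∈ X, ⟪z l, z c⟫ ≤ 0 := Finset.sum_nonpos fun l hl => hobt l c (by
      rintro rfl
      exact (Finset.mem_compl.1 hc) hl)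
    simp only [hf]
    linarith
  have hfsum : ∑ c ∈ Xᶜ, f c = ‖∑ l ∈ X, z l‖ ^ 2 := by
    simp only [hf, Finset.sum_neg_distrib]
    rw [sum_flow_eq z hsum X]
    ring
  have hfab : f a + f b ≤ ‖∑ l ∈ X, z l‖ ^ 2 := by
    rw [← hfsum]
    have hsub : ({a, b} : Finset (Fin k)) ⊆ Xᶜ := by
      intro c hc
      simp only [Finset.mem_insert, Finset.mem_singleton] at hc
      rcases hc with rfl | rfl
      · exact Finset.mem_compl.2 ha
      · exact Finset.mem_compl.2 hbX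
    have := Finset.sum_le_sum_of_subset_of_nonneg (f := f) hsub fun c hc _ => hf0 c hc
    rwa [Finset.sum_pair hba.symm] at this
  have h1 := norm_proj_sq_ge z X hsum hobt hV ha
  have h2 := norm_proj_sq_ge z X hsum hobt hV hbX
  have hKa : ‖v a‖ ≤ ‖z a‖ := Submodule.norm_starProjection_apply_le _ _
  have hKa2 : ‖v a‖ ^ 2 ≤ ‖z a‖ ^ 2 := pow_le_pow_left₀ (norm_nonneg _) hKa 2
  have hw0 : 0 ≤ -⟪v a, v b⟫ := by
    have := hneg a (Finset.mem_compl.2 ha) b (Finset.mem_compl.2 hbX) hba.symm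
    linarith
  have key := pick_real (Ea := ‖z a‖ ^ 2) (Eb := ‖z b‖ ^ 2) (Ka := ‖v a‖ ^ 2) (Kb := ‖v b‖ ^ 2)
    (fa := f a) (fb := f b) (x2 := ‖∑ l ∈ X, z l‖ ^ 2) (w := -⟪v a, v b⟫) (q := Q.card)
    (by positivity) (by positivity) (by positivity) hKa2 (by positivity)
    (by simp only [hf]; simp only [hv]; linarith) (by simp only [hf]; simp only [hv]; linarith)
    (hf0 a (Finset.mem_compl.2 ha)) (hf0 b (Finset.mem_compl.2 hbX)) hfab hw0 hsmall hqpos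
  rw [neg_sq] at key
  exact key

end general

/-- Cubes under a multiplicative bound of the squares. -/
lemma cube_le_of_sq_le {c U ρ : ℝ} (hc : 0 ≤ c) (hU : 0 ≤ U) (hρ0 : 0 ≤ ρ) (hρ1 : ρ ≤ 1)
    (h : c ^ 2 ≤ ρ * U ^ 2) : c ^ 3 ≤ ρ * U ^ 3 := by
  have h1 : c ^ 2 ≤ U ^ 2 := h.trans (by nlinarith [sq_nonneg U])
  have h2 : c ≤ U := abs_le_of_sq_le_sq' h1 hU |>.2
  have e : c ^ 3 = c * c ^ 2 := by ring
  have e2 : ρ * U ^ 3 = U * (ρ * U ^ 2) := by ring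
  rw [e, e2]
  exact mul_le_mul h2 h (by positivity) hU

section six

variable {z : Fin 6 → E} {A : Fin 6 → Set E}

/-- Deletion of one vertex, level 6. -/
theorem close_one (hc : Critical z A) (hR : R < S z) (hP : PF E 5) {j a b : Fin 6} (hab : a ≠ b)
    (haj : a ≠ j) (hbj : b ≠ j) {V : Submodule ℝ E}
    (hV : V = Submodule.span ℝ (z '' ((({j} : Finset (Fin 6))) : Set (Fin 6)))) :
    ‖Vᗮ.starProjection (z a)‖ ^ 2 * ‖Vᗮ.starProjection (z b)‖ ^ 2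
        - ⟪Vᗮ.starProjection (z a), Vᗮ.starProjection (z b)⟫ ^ 2
      ≤ 72 * ‖z j‖ ^ 2 / Real.pi ^ 3 := by
  have hpi := Real.pi_pos
  set d := ‖Vᗮ.starProjection (z a)‖ ^ 2 * ‖Vᗮ.starProjection (z b)‖ ^ 2
        - ⟪Vᗮ.starProjection (z a), Vᗮ.starProjection (z b)⟫ ^ 2 with hd
  rcases le_or_gt d 0 with hd0 | hd0
  · exact hd0.trans (by positivity)
  set Δ := Real.sqrt d with hΔ
  have hΔ0 : 0 < Δ := Real.sqrt_pos.2 hd0
  have hΔ2 : Δ ^ 2 = d := Real.sq_sqrt hd0.le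
  set T : Finset (Fin 6) := ({j} : Finset (Fin 6))ᶜ with hT
  have hTc : Tᶜ = {j} := by rw [hT, compl_compl]
  have hcard : T.card = 5 := by
    rw [hT, Finset.card_compl]
    simp
  have hS : 0 < S z := R_pos.trans hR
  have hs : 0 < ‖z j‖ := hc.norm_pos hR (k := 6) hP (by norm_num) j
  have haT : a ∈ T := by simp [hT, haj]
  have hbT : b ∈ T := by simp [hT, hbj]
  have hW : ∀ l ∈ Tᶜ, z l ∈ V := by
    intro l hl
    rw [hTc] at hl
    rw [hV]
    exact Submodule.subset_span ⟨l, by simpa using hl, rfl⟩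
  have hX : Tᶜ.Nonempty := by rw [hTc]; exact Finset.singleton_nonempty j
  have h1 := F_sub_F_restr_le z hc.sum_zero T haT hbT hab hX V hW Δ hΔ0 hΔ2
  rw [hTc, hcard, Finset.sum_singleton, Finset.sum_singleton] at h1
  have hnorm : ‖((5 : ℕ) : ℝ) • z j + z j‖ = 6 * ‖z j‖ := by
    have : ((5 : ℕ) : ℝ) • z j + z j = (6 : ℝ) • z j := by
      push_cast
      rw [show (6 : ℝ) = 5 + 1 by norm_num, add_smul, one_smul]
    rw [this, norm_smul]
    norm_num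
  rw [hnorm] at h1
  have hTne : T.Nonempty := ⟨a, haT⟩
  have h2 := hc.deletion' (k := 6) hR hP T hTne (by omega)
  rw [hTc, hcard, Finset.sum_singleton, Finset.sum_singleton] at h2
  have hL : Lam z T = F z - F (restr z T) := by
    unfold Lam
    rw [hc.F_eq]
  rw [hL] at h2
  set L := F z - F (restr z T) with hLdef
  set s := ‖z j‖ with hsdef
  set c := Real.sqrt (2 / Real.pi) with hcdef
  have hc0 : 0 < c := Real.sqrt_pos.2 (by positivity)
  have hc2 : c ^ 2 = 2 / Real.pi := Real.sq_sqrt (by positivity)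
  have h3 : 0 ≤ L ^ 2 / S z := by positivity
  have h4 : (6 / 5) * s ^ 2 ≤ 2 * L := by
    have : s ^ 2 + s ^ 2 / ((5 : ℕ) : ℝ) ≤ 2 * L - L ^ 2 / S z := h2
    norm_num at this
    linarith
  have h5 : L ≤ (6 * s) ^ 3 * c / (12 * Real.pi * ((5 : ℕ) : ℝ) * Δ) := h1
  have h6 : (6 / 5) * s ^ 2 * (Real.pi * Δ) ≤ (36 / 5) * s ^ 3 * c := by
    have h7 : L * (12 * Real.pi * ((5 : ℕ) : ℝ) * Δ) ≤ (6 * s) ^ 3 * c := by
      rwa [le_div_iff₀ (by positivity)] at h5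
    push_cast at h7
    have h8 := mul_le_mul_of_nonneg_right h4 (show 0 ≤ Real.pi * Δ by positivity)
    nlinarith
  have h9 : Real.pi * Δ ≤ 6 * s * c := by
    have hs2 : 0 < (6 / 5) * s ^ 2 := by positivity
    have : (6 / 5) * s ^ 2 * (Real.pi * Δ) ≤ (6 / 5) * s ^ 2 * (6 * s * c) := by
      refine h6.trans (le_of_eq ?_)
      ring
    exact le_of_mul_le_mul_left this hs2
  have h10 : (Real.pi * Δ) ^ 2 ≤ (6 * s * c) ^ 2 := pow_le_pow_left₀ (by positivity) h9 2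
  rw [mul_pow, mul_pow, hΔ2, mul_pow, hc2] at h10
  rw [le_div_iff₀ (by positivity)]
  have h11 : d * Real.pi ^ 3 = Real.pi * (Real.pi ^ 2 * d) := by ring
  rw [h11]
  have h12 := mul_le_mul_of_nonneg_left h10 hpi.le
  refine h12.trans (le_of_eq ?_)
  field_simp
  norm_num

/-- Norm of the deleted terms. -/
lemma norm_four_add (u w : E) :
    ‖((4 : ℕ) : ℝ) • u + (u + w)‖ ^ 2 = 25 * ‖u‖ ^ 2 + ‖w‖ ^ 2 + 10 * ⟪u, w⟫ := by
  have : ((4 : ℕ) : ℝ) • u + (u + w) = (5 : ℝ) • u + w := by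
    push_cast
    rw [show (5 : ℝ) = 4 + 1 by norm_num, add_smul, one_smul]
    abel
  rw [this, norm_add_sq_real, norm_smul, inner_smul_left]
  simp only [conj_trivial, Real.norm_ofNat]
  ring

/-- Deletion of two vertices, level 6. -/
theorem close_two (hc : Critical z A) (hR : R < S z) (hP : PF E 5) {i j a b : Fin 6} (hij : i ≠ j)
    (hab : a ≠ b) (hai : a ≠ i) (haj : a ≠ j) (hbi : b ≠ i) (hbj : b ≠ j) {V : Submodule ℝ E}
    (hV : V = Submodule.span ℝ (z '' ((({i, j} : Finset (Fin 6))) : Set (Fin 6)))) :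
    (‖Vᗮ.starProjection (z a)‖ ^ 2 * ‖Vᗮ.starProjection (z b)‖ ^ 2
        - ⟪Vᗮ.starProjection (z a), Vᗮ.starProjection (z b)⟫ ^ 2) * (‖z i‖ ^ 2 + ‖z j‖ ^ 2) ^ 2
      ≤ (Real.sqrt (25 * ‖z i‖ ^ 2 + ‖z j‖ ^ 2) ^ 3 + Real.sqrt (‖z i‖ ^ 2 + 25 * ‖z j‖ ^ 2) ^ 3) ^ 2
        / (450 * Real.pi ^ 3) := by
  have hpi := Real.pi_pos
  set d := ‖Vᗮ.starProjection (z a)‖ ^ 2 * ‖Vᗮ.starProjection (z b)‖ ^ 2
        - ⟪Vᗮ.starProjection (z a), Vᗮ.starProjection (z b)⟫ ^ 2 with hd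
  set Ei := ‖z i‖ ^ 2 with hEi
  set Ej := ‖z j‖ ^ 2 with hEj
  set U1 := Real.sqrt (25 * Ei + Ej) with hU1
  set U2 := Real.sqrt (Ei + 25 * Ej) with hU2
  rcases le_or_gt d 0 with hd0 | hd0
  · have h0 : d * (Ei + Ej) ^ 2 ≤ 0 := mul_nonpos_of_nonpos_of_nonneg hd0 (by positivity)
    exact h0.trans (by positivity)
  set Δ := Real.sqrt d with hΔ
  have hΔ0 : 0 < Δ := Real.sqrt_pos.2 hd0
  have hΔ2 : Δ ^ 2 = d := Real.sq_sqrt hd0.le
  set T : Finset (Fin 6) := ({i, j} : Finset (Fin 6))ᶜ with hT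
  have hTc : Tᶜ = {i, j} := by rw [hT, compl_compl]
  have hcard : T.card = 4 := by
    rw [hT, Finset.card_compl, Finset.card_pair hij]
    simp
  have hS : 0 < S z := R_pos.trans hR
  have hsi : 0 < ‖z i‖ := hc.norm_pos hR (k := 6) hP (by norm_num) i
  have hsj : 0 < ‖z j‖ := hc.norm_pos hR (k := 6) hP (by norm_num) j
  have haT : a ∈ T := by simp [hT, hai, haj]
  have hbT : b ∈ T := by simp [hT, hbi, hbj]
  have hW : ∀ l ∈ Tᶜ, z l ∈ V := by
    intro l hl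
    rw [hTc] at hl
    rw [hV]
    exact Submodule.subset_span ⟨l, by simpa using hl, rfl⟩
  have hX : Tᶜ.Nonempty := by rw [hTc]; exact Finset.insert_nonempty _ _
  have h1 := F_sub_F_restr_le z hc.sum_zero T haT hbT hab hX V hW Δ hΔ0 hΔ2
  rw [hTc, hcard, Finset.sum_pair hij, Finset.sum_pair hij] at h1
  have hTne : T.Nonempty := ⟨a, haT⟩
  have h2 := hc.deletion' (k := 6) hR hP T hTne (by omega)
  rw [hTc, hcard, Finset.sum_pair hij, Finset.sum_pair hij] at h2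
  have hL : Lam z T = F z - F (restr z T) := by
    unfold Lam
    rw [hc.F_eq]
  rw [hL] at h2
  set L := F z - F (restr z T) with hLdef
  set c := Real.sqrt (2 / Real.pi) with hcdef
  have hc0 : 0 < c := Real.sqrt_pos.2 (by positivity)
  have hc2 : c ^ 2 = 2 / Real.pi := Real.sq_sqrt (by positivity)
  set W := -⟪z i, z j⟫ with hWdef
  have hW0 : 0 < W := by
    have := hc.inner_neg hR (k := 6) hP hij
    simp only [hWdef]
    linarith
  have hEi0 : 0 < Ei := by positivity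
  have hEj0 : 0 < Ej := by positivity
  have hWle : 2 * W ≤ Ei + Ej := by
    have h3 : 0 ≤ ‖z i + z j‖ ^ 2 := by positivity
    rw [norm_add_sq_real] at h3
    simp only [hWdef, hEi, hEj]
    linarith
  -- the two norms
  set c1 := ‖((4 : ℕ) : ℝ) • z i + (z i + z j)‖ with hc1
  set c2 := ‖((4 : ℕ) : ℝ) • z j + (z i + z j)‖ with hc2'
  have hc1sq : c1 ^ 2 = 25 * Ei + Ej - 10 * W := by
    rw [hc1, norm_four_add]
    simp only [hEi, hEj, hWdef]
    ring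
  have hc2sq : c2 ^ 2 = Ei + 25 * Ej - 10 * W := by
    rw [hc2', add_comm (z i) (z j), norm_four_add, real_inner_comm]
    simp only [hEi, hEj, hWdef]
    ring
  -- the factor
  set ρ := 1 - 2 * W / (5 * (Ei + Ej)) with hρ
  have hE : 0 < Ei + Ej := by positivity
  have hρ1 : ρ ≤ 1 := by
    have : 0 ≤ 2 * W / (5 * (Ei + Ej)) := by positivity
    simp only [hρ]
    linarith
  have hρ0 : 0 < ρ := by
    have : 2 * W / (5 * (Ei + Ej)) < 1 := by
      rw [div_lt_one (by positivity)]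
      linarith
    simp only [hρ]
    linarith
  have hU1sq : U1 ^ 2 = 25 * Ei + Ej := Real.sq_sqrt (by positivity)
  have hU2sq : U2 ^ 2 = Ei + 25 * Ej := Real.sq_sqrt (by positivity)
  have hρE : ρ * (Ei + Ej) = Ei + Ej - 2 * W / 5 := by
    simp only [hρ]
    field_simp
  have hc1le : c1 ^ 2 ≤ ρ * U1 ^ 2 := by
    rw [hc1sq, hU1sq]
    have h3 : W * (25 * Ei + Ej) ≤ W * (25 * (Ei + Ej)) :=
      mul_le_mul_of_nonneg_left (by linarith) hW0.le
    have e : ρ * (25 * Ei + Ej) = 25 * Ei + Ej - 2 * W * (25 * Ei + Ej) / (5 * (Ei + Ej)) := by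
      simp only [hρ]
      ring
    rw [e]
    have h4 : 2 * W * (25 * Ei + Ej) / (5 * (Ei + Ej)) ≤ 10 * W := by
      rw [div_le_iff₀ (by positivity)]
      nlinarith
    linarith
  have hc2le : c2 ^ 2 ≤ ρ * U2 ^ 2 := by
    rw [hc2sq, hU2sq]
    have h3 : W * (Ei + 25 * Ej) ≤ W * (25 * (Ei + Ej)) :=
      mul_le_mul_of_nonneg_left (by linarith) hW0.le
    have e : ρ * (Ei + 25 * Ej) = Ei + 25 * Ej - 2 * W * (Ei + 25 * Ej) / (5 * (Ei + Ej)) := by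
      simp only [hρ]
      ring
    rw [e]
    have h4 : 2 * W * (Ei + 25 * Ej) / (5 * (Ei + Ej)) ≤ 10 * W := by
      rw [div_le_iff₀ (by positivity)]
      nlinarith
    linarith
  have hcube1 := cube_le_of_sq_le (norm_nonneg _) (Real.sqrt_nonneg _) hρ0.le hρ1 hc1le
  have hcube2 := cube_le_of_sq_le (norm_nonneg _) (Real.sqrt_nonneg _) hρ0.le hρ1 hc2le
  -- the deletion inequality
  have h3 : 0 ≤ L ^ 2 / S z := by positivity
  have hnu : ‖z i + z j‖ ^ 2 = Ei + Ej - 2 * W := by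
    rw [norm_add_sq_real]
    simp only [hEi, hEj, hWdef]
    ring
  have h4 : (5 / 4) * (ρ * (Ei + Ej)) ≤ 2 * L := by
    have h5 : Ei + Ej + ‖z i + z j‖ ^ 2 / ((4 : ℕ) : ℝ) ≤ 2 * L - L ^ 2 / S z := h2
    rw [hnu] at h5
    rw [hρE]
    norm_num at h5
    linarith
  have h5 : L ≤ (c1 ^ 3 + c2 ^ 3) * c / (12 * Real.pi * ((4 : ℕ) : ℝ) * Δ) := h1
  have h6 : L * (48 * Real.pi * Δ) ≤ ρ * ((U1 ^ 3 + U2 ^ 3) * c) := by
    have h7 : L * (12 * Real.pi * ((4 : ℕ) : ℝ) * Δ) ≤ (c1 ^ 3 + c2 ^ 3) * c := by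
      rwa [le_div_iff₀ (by positivity)] at h5
    push_cast at h7
    have h8 : (c1 ^ 3 + c2 ^ 3) * c ≤ (ρ * U1 ^ 3 + ρ * U2 ^ 3) * c :=
      mul_le_mul_of_nonneg_right (by linarith) hc0.le
    nlinarith
  have h7 : ρ * (30 * Real.pi * (Ei + Ej) * Δ) ≤ ρ * ((U1 ^ 3 + U2 ^ 3) * c) := by
    have h8 := mul_le_mul_of_nonneg_right h4 (show 0 ≤ 24 * Real.pi * Δ by positivity)
    nlinarith
  have h8 : 30 * Real.pi * (Ei + Ej) * Δ ≤ (U1 ^ 3 + U2 ^ 3) * c := le_of_mul_le_mul_left h7 hρ0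
  have h9 := pow_le_pow_left₀ (by positivity) h8 2
  rw [mul_pow, mul_pow, mul_pow, hΔ2, mul_pow, hc2] at h9
  rw [le_div_iff₀ (by positivity)]
  have h10 : (30 : ℝ) ^ 2 * Real.pi ^ 2 * (Ei + Ej) ^ 2 * d ≤ (U1 ^ 3 + U2 ^ 3) ^ 2 * (2 / Real.pi) := h9
  have h11 := mul_le_mul_of_nonneg_left h10 (show 0 ≤ Real.pi / 2 by positivity)
  have e1 : Real.pi / 2 * ((30 : ℝ) ^ 2 * Real.pi ^ 2 * (Ei + Ej) ^ 2 * d)
      = d * (Ei + Ej) ^ 2 * (450 * Real.pi ^ 3) := by ring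
  have e2 : Real.pi / 2 * ((U1 ^ 3 + U2 ^ 3) ^ 2 * (2 / Real.pi)) = (U1 ^ 3 + U2 ^ 3) ^ 2 := by
    field_simp
  rw [e1, e2] at h11
  exact h11

end six

end Crest.Agent.Propeller
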