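/-
Deletion of the node `j` with a small ball on a block `B` with a tail: the closure `NT_τ`.

`gain_le_ball`: a bound `γ{∀ i ∈ B, ⟪v i, g⟫ < y i} ≤ ((∑_B y)₊² + X) / D` on the block of the projected
family `v = prp e z` gives a bound for the gain; `Critical.nt_ball` is the resulting inequality.
-/
import Crest.Agent.Lib.Propeller.SingleClosure
import Crest.Agent.Lib.Propeller.BlockTail
import Crest.Agent.Lib.Propeller.K6Close

set_option autoImplicit false
set_option linter.unusedSectionVars false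
open MeasureTheory ProbabilityTheory
open scoped RealInnerProductSpace ENNReal

namespace Crest.Agent.Propeller

universe u

variable {E : Type u} [NormedAddCommGroup E] [InnerProductSpace ℝ E] [FiniteDimensional ℝ E]
  [MeasurableSpace E] [BorelSpace E]

/-- `pair_tail_le` with the positive part of the sum of the thresholds. -/
theorem pair_tail_pos {ι : Type*} [DecidableEq ι] (z : ι → E) (B : Finset ι) {a b : ι} (ha : a ∈ B)
    (hb : b ∈ B) (hab : a ≠ b) (W : Submodule ℝ E) (hW : ∑ i ∈ B, z i ∈ W) (Δ : ℝ) (hΔ : 0 < Δ)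
    (hΔ2 : Δ ^ 2 ≤ ‖Wᗮ.starProjection (z a)‖ ^ 2 * ‖Wᗮ.starProjection (z b)‖ ^ 2
      - ⟪Wᗮ.starProjection (z a), Wᗮ.starProjection (z b)⟫ ^ 2) (y : ι → ℝ) :
    (stdGaussian E).real {g : E | ∀ i ∈ B, ⟪z i, g⟫ < y i}
      ≤ ((max 0 (∑ i ∈ B, y i)) ^ 2 + ‖∑ i ∈ B, z i‖ ^ 2) / (4 * Real.pi * Δ) := by
  rcases le_total 0 (∑ i ∈ B, y i) with h | h
  · rw [max_eq_right h]
    exact pair_tail_le z B ha hb hab W hW Δ hΔ hΔ2 y
  · rw [max_eq_left h]
    set L := ∑ i ∈ B, y i with hL
    set y' : ι → ℝ := Function.update y a (y a - L) with hy'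
    have hsum : ∑ i ∈ B, y' i = 0 := by
      have h1 := Finset.add_sum_erase B y ha
      have h2 := Finset.add_sum_erase B y' ha
      have h3 : ∑ i ∈ B.erase a, y' i = ∑ i ∈ B.erase a, y i := by
        refine Finset.sum_congr rfl fun i hi => ?_
        simp only [hy']
        rw [Function.update_of_ne (Finset.ne_of_mem_erase hi)]
      have h4 : y' a = y a - L := by simp [hy']
      rw [← h2, h3, h4]
      linarith
    have hsub : {g : E | ∀ i ∈ B, ⟪z i, g⟫ < y i} ⊆ {g : E | ∀ i ∈ B, ⟪z i, g⟫ < y' i} := by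
      intro g hg i hi
      by_cases hia : i = a
      · subst hia
        have h4 : y' i = y i - L := by simp [hy']
        rw [h4]
        have := hg i hi
        linarith
      · have h4 : y' i = y i := by
          simp only [hy']
          rw [Function.update_of_ne hia]
        rw [h4]
        exact hg i hi
    refine (measureReal_mono hsub (by simp)).trans ?_
    have := pair_tail_le z B ha hb hab W hW Δ hΔ hΔ2 y'
    rw [hsum] at this
    simpa using this

/-- `E n₊ = 1/√(2π)`. -/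
lemma lintegral_first_gaussian (C : ℝ) (hC : 0 ≤ C) :
    ∫⁻ n in Set.Ioi (0 : ℝ), ENNReal.ofReal (C * n) ∂(gaussianReal 0 1)
      = ENNReal.ofReal (C * (Real.sqrt (2 * Real.pi))⁻¹) := by
  have hv : (1 : NNReal) ≠ 0 := one_ne_zero
  have hpi := Real.pi_pos
  have hform : ∀ x : ℝ, 0 < x → gaussianPDFReal 0 1 x * (C * x)
      = (C * (Real.sqrt (2 * Real.pi))⁻¹) * (x ^ (1 : ℝ) * Real.exp (-(1 / 2) * x ^ (2 : ℝ))) := by
    intro x _
    simp only [gaussianPDFReal, NNReal.coe_one, mul_one, sub_zero]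
    rw [Real.rpow_two, Real.rpow_one]
    have : -x ^ 2 / 2 = -(1 / 2) * x ^ 2 := by ring
    rw [this]
    ring
  have hint : IntegrableOn (fun x : ℝ => gaussianPDFReal 0 1 x * (C * x)) (Set.Ioi 0) := by
    have h := integrableOn_rpow_mul_exp_neg_mul_rpow (s := 1) (p := 2) (b := 1 / 2)
      (by norm_num) (by norm_num) (by norm_num)
    have h2 : IntegrableOn (fun x : ℝ => (C * (Real.sqrt (2 * Real.pi))⁻¹)
        * (x ^ (1 : ℝ) * Real.exp (-(1 / 2) * x ^ (2 : ℝ)))) (Set.Ioi 0) :=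
      h.const_mul (C * (Real.sqrt (2 * Real.pi))⁻¹)
    exact h2.congr_fun (fun x hx => (hform x hx).symm) measurableSet_Ioi
  have hval : ∫ x in Set.Ioi (0 : ℝ), gaussianPDFReal 0 1 x * (C * x)
      = C * (Real.sqrt (2 * Real.pi))⁻¹ := by
    rw [setIntegral_congr_fun measurableSet_Ioi (fun x hx => hform x hx), integral_const_mul]
    have h := integral_rpow_mul_exp_neg_mul_rpow (p := 2) (q := 1) (b := 1 / 2)
      (by norm_num) (by norm_num) (by norm_num)
    rw [h]
    have h3 : (1 + 1 : ℝ) / 2 = 1 := by norm_num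
    have h3' : (-(1 + 1) / 2 : ℝ) = -1 := by norm_num
    rw [h3, h3', Real.Gamma_one]
    have h4 : ((1 : ℝ) / 2) ^ (-(1 : ℝ)) = 2 := by
      rw [Real.rpow_neg_one]
      norm_num
    rw [h4]
    ring
  rw [gaussianReal_of_var_ne_zero _ hv, restrict_withDensity measurableSet_Ioi,
    lintegral_withDensity_eq_lintegral_mul _ (measurable_gaussianPDF _ _)
      (by
        apply ENNReal.measurable_ofReal.comp
        fun_prop), ← hval,
    ofReal_integral_eq_lintegral_ofReal hint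
      (by
        rw [Filter.EventuallyLE, ae_restrict_iff' measurableSet_Ioi]
        refine Filter.Eventually.of_forall fun x hx => ?_
        have := gaussianPDFReal_nonneg 0 1 x
        have hx' : 0 < x := hx
        simp only [Pi.zero_apply]
        positivity)]
  refine setLIntegral_congr_fun measurableSet_Ioi fun x hx => ?_
  simp only [Pi.mul_apply, gaussianPDF]
  rw [ENNReal.ofReal_mul (gaussianPDFReal_nonneg _ _ _)]

/-- The inner integral with a constant term. -/
lemma lintegral_ramp_const (A τ X D W₀ : ℝ) (hτ : 0 < τ) (hD : 0 < D) (hX : 0 ≤ X) (hW : 0 ≤ W₀) :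
    ∫⁻ w in Set.Ioo (0 : ℝ) W₀, ENNReal.ofReal (((A - τ * w) ^ 2 + X) / D)
      = ENNReal.ofReal ((A ^ 3 - (A - τ * W₀) ^ 3) / (3 * τ * D) + X * W₀ / D) := by
  rw [← ofReal_integral_eq_lintegral_ofReal]
  · congr 1
    rw [← integral_Ioc_eq_integral_Ioo, ← intervalIntegral.integral_of_le hW]
    have h1 : ∀ w : ℝ, ((A - τ * w) ^ 2 + X) / D
        = ((A ^ 2 + X) / D) - (2 * A * τ / D) * w + (τ ^ 2 / D) * w ^ 2 := by
      intro w; ring
    simp_rw [h1]
    rw [intervalIntegral.integral_add (by apply Continuous.intervalIntegrable; fun_prop)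
        (by apply Continuous.intervalIntegrable; fun_prop),
      intervalIntegral.integral_sub (by apply Continuous.intervalIntegrable; fun_prop)
        (by apply Continuous.intervalIntegrable; fun_prop),
      intervalIntegral.integral_const_mul, intervalIntegral.integral_const_mul, integral_id,
      integral_pow, intervalIntegral.integral_const, smul_eq_mul]
    norm_num
    field_simp
    ring
  · apply IntegrableOn.mono_set (t := Set.Icc (0 : ℝ) W₀) _ Set.Ioo_subset_Icc_self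
    apply Continuous.integrableOn_Icc
    fun_prop
  · refine Filter.Eventually.of_forall fun w => ?_
    simp only [Pi.zero_apply]
    positivity

variable {k : ℕ}

/-- The coefficient of the tail closure: `((τ+1)³ - (1 - τ/m)³)/(3τ)`, `m = k - 1`. -/
noncomputable def cT (k : ℕ) (τ : ℝ) : ℝ := ((τ + 1) ^ 3 - (1 - τ / ((k : ℝ) - 1)) ^ 3) / (3 * τ)

/-- **The gain under a small ball with tail on a block `B`.** -/
theorem gain_le_ball (z : Fin k → E) (j : Fin k) (hT : (Finset.univ.erase j).Nonempty)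
    (hsum : ∑ i, z i = 0) (hs : 0 < ‖z j‖) (hk2 : 2 ≤ k)
    (hq : ∀ i, i ≠ j → ⟪z i, z j⟫ ≤ 0) (B : Finset (Fin k)) (hB : B ⊆ Finset.univ.erase j)
    (hB0 : B.Nonempty) (X D : ℝ) (hX : 0 ≤ X) (hD : 0 < D)
    (hball : ∀ y : Fin k → ℝ,
      (stdGaussian E).real {g : E | ∀ i ∈ B, ⟪prp (‖z j‖⁻¹ • z j) (z i), g⟫ < y i}
        ≤ ((max 0 (∑ i ∈ B, y i)) ^ 2 + X) / D) :
    F z - F (restr z (Finset.univ.erase j))
      ≤ (‖z j‖ ^ 3 * cT k (B.card : ℝ) * Real.sqrt (2 / Real.pi)
          + ‖z j‖ * ((k : ℝ) / ((k : ℝ) - 1)) * X * (Real.sqrt (2 * Real.pi))⁻¹) / D := by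
  set s := ‖z j‖ with hsdef
  set e : E := s⁻¹ • z j with he_def
  set τ : ℝ := (B.card : ℝ) with hτdef
  have hpi := Real.pi_pos
  have hk1 : (0 : ℝ) < (k : ℝ) - 1 := by
    have : (2 : ℝ) ≤ k := by exact_mod_cast hk2
    linarith
  have hk0 : (0 : ℝ) < k := by linarith
  have hτ0 : 0 < τ := by
    simp only [hτdef]
    exact_mod_cast hB0.card_pos
  have hτm : τ ≤ (k : ℝ) - 1 := by
    have h1 : B.card ≤ (Finset.univ.erase j).card := Finset.card_le_card hB
    rw [Finset.card_erase_of_mem (Finset.mem_univ j), Finset.card_univ, Fintype.card_fin] at h1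
    have h2 : ((B.card : ℕ) : ℝ) ≤ ((k - 1 : ℕ) : ℝ) := by exact_mod_cast h1
    rw [Nat.cast_sub (by omega)] at h2
    simpa [hτdef] using h2
  have hρ : 0 ≤ 1 - τ / ((k : ℝ) - 1) := by
    have : τ / ((k : ℝ) - 1) ≤ 1 := (div_le_one hk1).2 hτm
    linarith
  -- the sum of the thresholds
  have hze : z j = s • e := by
    rw [he_def, smul_smul, mul_inv_cancel₀ hs.ne', one_smul]
  have he : ‖e‖ = 1 := by
    rw [he_def, norm_smul, norm_inv, Real.norm_eq_abs, abs_of_pos hs, ← hsdef]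
    exact inv_mul_cancel₀ hs.ne'
  have hinnq : ∀ i, i ≠ j → ⟪z i, e⟫ ≤ 0 := by
    intro i hi
    have := hq i hi
    rw [hze, inner_smul_right] at this
    exact nonpos_of_mul_nonpos_right (by linarith) hs
  have hsumq : ∑ i ∈ Finset.univ.erase j, ⟪z i, e⟫ = -s := by
    have h1 : ∑ i ∈ Finset.univ.erase j, z i = - z j := by
      have := Finset.add_sum_erase Finset.univ z (Finset.mem_univ j)
      rw [hsum] at this
      exact eq_neg_of_add_eq_zero_right this
    rw [← sum_inner, h1, inner_neg_left, hze, inner_smul_left, real_inner_self_eq_norm_sq, he]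
    simp
  have hsumB : ∑ i ∈ B, (-⟪z i, e⟫) ≤ s := by
    have h1 : ∑ i ∈ B, (-⟪z i, e⟫) ≤ ∑ i ∈ Finset.univ.erase j, (-⟪z i, e⟫) := by
      refine Finset.sum_le_sum_of_subset_of_nonneg hB fun i hi _ => ?_
      have := hinnq i (Finset.ne_of_mem_erase hi)
      linarith
    rw [Finset.sum_neg_distrib (s := Finset.univ.erase j), hsumq] at h1
    linarith
  have hbound := gain_le_of_bound z j hT hsum hs hk2
    (fun n w => ENNReal.ofReal ((((τ + 1) * n * s - τ * w) ^ 2 + X) / D))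
    (by
      intro n hn w hw
      have hsub : below (Finset.univ.erase j) (fun i => prp e (z i)) (yy z e s n w)
          ⊆ {g : E | ∀ i ∈ B, ⟪prp e (z i), g⟫ < yy z e s n w i} := by
        intro g hg i hi
        exact hg i (hB hi)
      refine (measure_mono hsub).trans ?_
      have hm : MeasurableSet {g : E | ∀ i ∈ B, ⟪prp e (z i), g⟫ < yy z e s n w i} := by
        have : {g : E | ∀ i ∈ B, ⟪prp e (z i), g⟫ < yy z e s n w i}
            = ⋂ i ∈ B, {g : E | ⟪prp e (z i), g⟫ < yy z e s n w i} := by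
          ext g; simp
        rw [this]
        refine Finset.measurableSet_biInter _ fun i _ => ?_
        exact measurableSet_lt (continuous_const.inner continuous_id).measurable measurable_const
      rw [← ofReal_measureReal (μ := stdGaussian E)]
      apply ENNReal.ofReal_le_ofReal
      refine (hball (yy z e s n w)).trans ?_
      refine div_le_div_of_nonneg_right ?_ hD.le
      have hY : ∑ i ∈ B, yy z e s n w i ≤ (τ + 1) * n * s - τ * w := by
        unfold yy
        have h1 : ∑ i ∈ B, (n * (s - ⟪z i, e⟫) - w) = τ * (n * s) - τ * w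
            + n * ∑ i ∈ B, (-⟪z i, e⟫) := by
          rw [Finset.sum_sub_distrib, Finset.sum_const, nsmul_eq_mul, ← Finset.mul_sum,
            Finset.sum_sub_distrib, Finset.sum_const, nsmul_eq_mul, Finset.sum_neg_distrib]
          simp only [hτdef]
          ring
        rw [h1]
        have h2 : n * ∑ i ∈ B, (-⟪z i, e⟫) ≤ n * s := mul_le_mul_of_nonneg_left hsumB (le_of_lt hn)
        nlinarith
      have hU : 0 ≤ (τ + 1) * n * s - τ * w := by
        have h1 := hw.2
        rw [lt_div_iff₀ hk1] at h1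
        have hns : 0 < n * s := mul_pos hn hs
        have hk : (k : ℝ) = ((k : ℝ) - 1) + 1 := by ring
        have h2 : τ * (w * ((k : ℝ) - 1)) ≤ ((k : ℝ) - 1) * (τ * n * s) + τ * (n * s) := by
          have h3 : τ * (w * ((k : ℝ) - 1)) ≤ τ * ((k : ℝ) * n * s) :=
            mul_le_mul_of_nonneg_left h1.le hτ0.le
          nlinarith
        have h4 : τ * (n * s) ≤ ((k : ℝ) - 1) * (n * s) :=
          mul_le_mul_of_nonneg_right hτm hns.le
        have h5 : ((k : ℝ) - 1) * (τ * w) ≤ ((k : ℝ) - 1) * ((τ + 1) * n * s) := by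
          nlinarith
        exact sub_nonneg.2 (le_of_mul_le_mul_left h5 hk1)
      have h3 : max 0 (∑ i ∈ B, yy z e s n w i) ≤ (τ + 1) * n * s - τ * w := max_le hU hY
      have h4 := pow_le_pow_left₀ (le_max_left _ _) h3 2
      linarith)
  set c3 := cT k τ with hc3
  have hc3' : c3 = ((τ + 1) ^ 3 - (1 - τ / ((k : ℝ) - 1)) ^ 3) / (3 * τ) := rfl
  have hc30 : 0 ≤ c3 := by
    rw [hc3']
    apply div_nonneg _ (by linarith)
    have h1 : 1 - τ / ((k : ℝ) - 1) ≤ τ + 1 := by
      have : 0 ≤ τ / ((k : ℝ) - 1) := div_nonneg hτ0.le hk1.le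
      linarith
    have := pow_le_pow_left₀ hρ h1 3
    linarith
  have hinner : ∀ n ∈ Set.Ioi (0 : ℝ),
      ∫⁻ w in Set.Ioo (0 : ℝ) ((k : ℝ) * n * s / ((k : ℝ) - 1)),
        ENNReal.ofReal ((((τ + 1) * n * s - τ * w) ^ 2 + X) / D)
      = ENNReal.ofReal ((s ^ 3 * c3 / D) * n ^ 3)
        + ENNReal.ofReal ((X * ((k : ℝ) / ((k : ℝ) - 1)) * s / D) * n) := by
    intro n hn
    have hn' : 0 < n := hn
    rw [lintegral_ramp_const _ _ _ _ _ hτ0 hD hX (by positivity),
      ← ENNReal.ofReal_add (by positivity) (by positivity)]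
    congr 1
    rw [hc3']
    have e1 : (τ + 1) * n * s - τ * ((k : ℝ) * n * s / ((k : ℝ) - 1))
        = n * s * (1 - τ / ((k : ℝ) - 1)) := by
      field_simp
      ring
    rw [e1]
    field_simp
  rw [setLIntegral_congr_fun measurableSet_Ioi hinner,
    lintegral_add_left (by
      apply ENNReal.measurable_ofReal.comp
      fun_prop),
    lintegral_cube_gaussian _ (by positivity),
    lintegral_first_gaussian _ (by positivity),
    ← ENNReal.ofReal_add (by positivity) (by positivity)] at hbound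
  have h2 := (ENNReal.ofReal_le_ofReal_iff (by positivity)).1 hbound
  refine h2.trans (le_of_eq ?_)
  field_simp

/-- **Closure from a small ball with a tail.** -/
theorem critical_nt_ball {z : Fin k → E} {A : Fin k → Set E} (hc : Critical z A) (hR : R < S z)
    (hP : PF E (k - 1)) (hk2 : 3 ≤ k) (j : Fin k) (B : Finset (Fin k))
    (hB : B ⊆ Finset.univ.erase j) (hB0 : B.Nonempty) (X D : ℝ) (hX : 0 ≤ X) (hD : 0 < D)
    (hball : ∀ y : Fin k → ℝ,
      (stdGaussian E).real {g : E | ∀ i ∈ B, ⟪prp (‖z j‖⁻¹ • z j) (z i), g⟫ < y i}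
        ≤ ((max 0 (∑ i ∈ B, y i)) ^ 2 + X) / D) :
    D * (Real.sqrt (2 * Real.pi) * ‖z j‖)
      ≤ 4 * cT k (B.card : ℝ) * (((k : ℝ) - 1) / (k : ℝ)) * ‖z j‖ ^ 2 + 2 * X := by
  have hk2' : 2 ≤ k := by omega
  have hs := hc.norm_pos hR hP hk2' j
  have hne : (Finset.univ.erase j).Nonempty := hB0.mono hB
  have hobt : ∀ i, i ≠ j → ⟪z i, z j⟫ ≤ 0 := fun i hi => (hc.inner_neg hR hP hi).le
  have h1 := gain_le_ball z j hne hc.sum_zero hs hk2' hobt B hB hB0 X D hX hD hball
  have h2 := hc.deletion_one hR hP j hk2'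
  set L := F z - F (restr z (Finset.univ.erase j)) with hL
  set s := ‖z j‖ with hsdef
  set c3 := cT k (B.card : ℝ) with hc3
  have hk1 : (0 : ℝ) < (k : ℝ) - 1 := by
    have : (2 : ℝ) ≤ k := by exact_mod_cast hk2'
    linarith
  have hk0 : (0 : ℝ) < k := by linarith
  have hpi := Real.pi_pos
  set r := Real.sqrt (2 * Real.pi) with hr
  have hr0 : 0 < r := Real.sqrt_pos.2 (by positivity)
  have h5 : Real.sqrt (2 / Real.pi) = 2 * r⁻¹ := by
    rw [hr, Real.sqrt_div (by norm_num), Real.sqrt_mul (by norm_num)]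
    have h2' : Real.sqrt 2 * Real.sqrt 2 = 2 := Real.mul_self_sqrt (by norm_num)
    have h3 : 0 < Real.sqrt Real.pi := by positivity
    have h6 : 0 < Real.sqrt 2 := by positivity
    field_simp
    nlinarith
  rw [h5] at h1
  have hS : 0 < S z := R_pos.trans hR
  have h3 : 0 ≤ L ^ 2 / S z := by positivity
  have h4 : s ^ 2 * ((k : ℝ) / ((k : ℝ) - 1)) ≤ 2 * L := by linarith
  have h6 : L * (D * r) ≤ 2 * s ^ 3 * c3 + s * ((k : ℝ) / ((k : ℝ) - 1)) * X := by
    have h7 : L * D ≤ s ^ 3 * c3 * (2 * r⁻¹) + s * ((k : ℝ) / ((k : ℝ) - 1)) * X * r⁻¹ := by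
      rwa [le_div_iff₀ hD] at h1
    have h8 := mul_le_mul_of_nonneg_right h7 hr0.le
    have e : (s ^ 3 * c3 * (2 * r⁻¹) + s * ((k : ℝ) / ((k : ℝ) - 1)) * X * r⁻¹) * r
        = 2 * s ^ 3 * c3 + s * ((k : ℝ) / ((k : ℝ) - 1)) * X := by
      field_simp
    rw [e] at h8
    linarith
  have h7 : s ^ 2 * ((k : ℝ) / ((k : ℝ) - 1)) * (D * r)
      ≤ 2 * (2 * s ^ 3 * c3 + s * ((k : ℝ) / ((k : ℝ) - 1)) * X) := by
    have := mul_le_mul_of_nonneg_right h4 (show 0 ≤ D * r by positivity)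
    nlinarith
  have hfac : 0 < s * ((k : ℝ) / ((k : ℝ) - 1)) := by positivity
  have key : (s * ((k : ℝ) / ((k : ℝ) - 1))) * (D * (r * s))
      ≤ (s * ((k : ℝ) / ((k : ℝ) - 1)))
        * (4 * c3 * (((k : ℝ) - 1) / (k : ℝ)) * s ^ 2 + 2 * X) := by
    have e1 : (s * ((k : ℝ) / ((k : ℝ) - 1))) * (D * (r * s))
        = s ^ 2 * ((k : ℝ) / ((k : ℝ) - 1)) * (D * r) := by ring
    have e2 : (s * ((k : ℝ) / ((k : ℝ) - 1)))
        * (4 * c3 * (((k : ℝ) - 1) / (k : ℝ)) * s ^ 2 + 2 * X)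
        = 2 * (2 * s ^ 3 * c3 + s * ((k : ℝ) / ((k : ℝ) - 1)) * X) := by
      field_simp
      ring
    rw [e1, e2]
    exact h7
  exact le_of_mul_le_mul_left key hfac

/-- An obtuse family: the square of the norm of the sum is at most the sum of the squares. -/
lemma norm_sum_sq_le_of_obtuse {ι : Type*} [DecidableEq ι] (C : Finset ι) (v : ι → E)
    (hneg : ∀ i ∈ C, ∀ j ∈ C, i ≠ j → ⟪v i, v j⟫ ≤ 0) :
    ‖∑ i ∈ C, v i‖ ^ 2 ≤ ∑ i ∈ C, ‖v i‖ ^ 2 := by
  induction C using Finset.induction_on with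
  | empty => simp
  | insert a s ha ih =>
    rw [Finset.sum_insert ha, Finset.sum_insert ha, norm_add_sq_real]
    have h1 : ⟪v a, ∑ i ∈ s, v i⟫ ≤ 0 := by
      rw [inner_sum]
      refine Finset.sum_nonpos fun i hi => ?_
      refine hneg a (Finset.mem_insert_self _ _) i (Finset.mem_insert_of_mem hi) ?_
      rintro rfl
      exact ha hi
    have h2 := ih fun i hi j hj => hneg i (Finset.mem_insert_of_mem hi) j (Finset.mem_insert_of_mem hj)
    linarith

/-- **The closure `NT_τ` with the pick.** `B` is the block, `a ∈ B`, `Q ⊆ B \ a`, and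
`W = ‖∑_{Bᶜ} z‖²`. -/
theorem critical_nt_pick {z : Fin k → E} {A : Fin k → Set E} (hc : Critical z A) (hR : R < S z)
    (hP : PF E (k - 1)) (hk : 3 ≤ k) (j a : Fin k) (B Q : Finset (Fin k)) (hjB : j ∉ B) (ha : a ∈ B)
    (hQ : Q ⊆ B.erase a) (hQne : Q.Nonempty) :
    ∃ b ∈ Q, ∀ Δ : ℝ, 0 < Δ →
      Δ ^ 2 ≤ ‖z a‖ ^ 2 * ‖z b‖ ^ 2 - max (‖z a‖ ^ 2) (‖z b‖ ^ 2) * ‖∑ l ∈ Bᶜ, z l‖ ^ 2
        - (‖z a‖ ^ 2 / Q.card) ^ 2 →
      4 * Real.pi * Δ * (Real.sqrt (2 * Real.pi) * ‖z j‖)
        ≤ 4 * cT k (B.card : ℝ) * (((k : ℝ) - 1) / (k : ℝ)) * ‖z j‖ ^ 2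
          + 2 * ∑ l ∈ Bᶜ.erase j, ‖z l‖ ^ 2 := by
  classical
  have hk2 : 2 ≤ k := by omega
  have hsum := hc.sum_zero
  have hobt : ∀ i l : Fin k, i ≠ l → ⟪z i, z l⟫ ≤ 0 := fun i l h => (hc.inner_neg hR hP h).le
  have hs := hc.norm_pos hR hP hk2 j
  set X : Finset (Fin k) := Bᶜ with hX
  have hXc : Xᶜ = B := by rw [hX, compl_compl]
  set V : Submodule ℝ E := Submodule.span ℝ (z '' (X : Set (Fin k))) with hV
  have haX : a ∉ X := by simp [hX, ha]
  have hQ' : Q ⊆ Xᶜ.erase a := by rw [hXc]; exact hQ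
  obtain ⟨b, hb, hle⟩ := pick_det z X hsum hobt (V := V) rfl haX Q hQ' hQne
  refine ⟨b, hb, ?_⟩
  intro Δ hΔ hΔ2
  have hbE := hQ hb
  have hba : b ≠ a := Finset.ne_of_mem_erase hbE
  have hbB : b ∈ B := Finset.mem_of_mem_erase hbE
  set e : E := ‖z j‖⁻¹ • z j with he
  have hjX : j ∈ X := by simp [hX, hjB]
  have hzjV : z j ∈ V := Submodule.subset_span ⟨j, by simpa using hjX, rfl⟩
  have heV : e ∈ V := V.smul_mem _ hzjV
  have hPe : Vᗮ.starProjection e = 0 := by
    have h1 := Submodule.starProjection_add_starProjection_orthogonal (K := V) e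
    rw [Submodule.starProjection_eq_self_iff.2 heV] at h1
    simpa using h1
  have hPv : ∀ i, Vᗮ.starProjection (prp e (z i)) = Vᗮ.starProjection (z i) := by
    intro i
    unfold prp
    rw [map_sub, map_smul, hPe, smul_zero, sub_zero]
  have hne : (Finset.univ.erase j).Nonempty := ⟨a, by
    refine Finset.mem_erase.2 ⟨?_, Finset.mem_univ _⟩
    rintro rfl
    exact hjB ha⟩
  have hW : ∑ i ∈ B, prp e (z i) ∈ V := by
    rw [sum_prp]
    unfold prp
    refine V.sub_mem ?_ (V.smul_mem _ heV)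
    have h1 : ∑ i ∈ B, z i = - ∑ i ∈ X, z i := by
      have := Finset.sum_add_sum_compl B z
      rw [hsum] at this
      exact eq_neg_of_add_eq_zero_left this
    rw [h1]
    refine V.neg_mem (V.sum_mem fun i hi => ?_)
    exact Submodule.subset_span ⟨i, by simpa using hi, rfl⟩
  have hdet : Δ ^ 2 ≤ ‖Vᗮ.starProjection (prp e (z a))‖ ^ 2 * ‖Vᗮ.starProjection (prp e (z b))‖ ^ 2
      - ⟪Vᗮ.starProjection (prp e (z a)), Vᗮ.starProjection (prp e (z b))⟫ ^ 2 := by
    rw [hPv, hPv]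
    exact hΔ2.trans hle
  -- the tail
  have hT : ‖∑ i ∈ B, prp e (z i)‖ ^ 2 ≤ ∑ l ∈ X.erase j, ‖z l‖ ^ 2 := by
    have hvj : prp e (z j) = 0 := by
      have hu := norm_uvec (z := z) hs
      have hze : z j = ‖z j‖ • uvec z j := by
        unfold uvec
        rw [smul_smul, mul_inv_cancel₀ hs.ne', one_smul]
      change prp (uvec z j) (z j) = 0
      unfold prp
      conv_lhs => rw [hze]
      rw [inner_smul_right, real_inner_self_eq_norm_sq, hu]
      simp
    have h1 : ∑ i ∈ B, prp e (z i) = - ∑ i ∈ X.erase j, prp e (z i) := by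
      have h2 := Finset.sum_add_sum_compl B (fun i => prp e (z i))
      rw [sum_prp (Finset.univ) e z, hsum] at h2
      have h3 : prp e (0 : E) = 0 := by simp [prp]
      rw [h3] at h2
      rw [← hX, ← Finset.add_sum_erase X _ hjX, hvj, zero_add] at h2
      exact eq_neg_of_add_eq_zero_left h2
    rw [h1, norm_neg]
    refine (norm_sum_sq_le_of_obtuse _ _ ?_).trans ?_
    · intro i hi l hl hil
      exact hc.inner_prp_nonpos hR hP j hs (Finset.ne_of_mem_erase hi) (Finset.ne_of_mem_erase hl) hil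
    · refine Finset.sum_le_sum fun i _ => ?_
      exact Kp_le (z := z) j i hs
  have hpi := Real.pi_pos
  have hD : 0 < 4 * Real.pi * Δ := by positivity
  have hT0 : 0 ≤ ∑ l ∈ X.erase j, ‖z l‖ ^ 2 := Finset.sum_nonneg fun _ _ => by positivity
  have hB : B ⊆ Finset.univ.erase j := by
    intro i hi
    refine Finset.mem_erase.2 ⟨?_, Finset.mem_univ _⟩
    rintro rfl
    exact hjB hi
  have h1 := critical_nt_ball hc hR hP hk j B hB ⟨a, ha⟩ (∑ l ∈ X.erase j, ‖z l‖ ^ 2) (4 * Real.pi * Δ)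
    hT0 hD (by
      intro y
      refine (pair_tail_pos (fun i => prp e (z i)) B ha hbB hba.symm V hW Δ hΔ hdet y).trans ?_
      refine div_le_div_of_nonneg_right ?_ hD.le
      linarith)
  exact h1

end Crest.Agent.Propeller
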