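/-
The bridge from a critical configuration at level `k` to the generic certificate checker.
-/
import Crest.Agent.Lib.Propeller.TailGain
import Crest.Agent.Lib.Propeller.GenTree

set_option autoImplicit false
set_option linter.unusedSectionVars false
open MeasureTheory ProbabilityTheory
open scoped RealInnerProductSpace

namespace Crest.Agent.Propeller

open Gen

universe u

variable {E : Type u} [NormedAddCommGroup E] [InnerProductSpace ℝ E] [FiniteDimensional ℝ E]
  [MeasurableSpace E] [BorelSpace E]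
variable {k : ℕ}

/-- The coefficient in exact form. -/
lemma Kn_div_Kd {τ : ℕ} (hτ : 1 ≤ τ) (hτk : τ ≤ k - 1) :
    (Kn k τ : ℝ) / (Kd k τ : ℝ) = 2 * cT k (τ : ℝ) * (((k : ℝ) - 1) / (k : ℝ)) := by
  have hk : 2 ≤ k := by omega
  have hk1 : ((k - 1 : ℕ) : ℝ) = (k : ℝ) - 1 := by
    rw [Nat.cast_sub (by omega)]
    simp
  have hm : (0 : ℝ) < (k : ℝ) - 1 := by
    have : (2 : ℝ) ≤ k := by exact_mod_cast hk
    linarith
  have hk0 : (0 : ℝ) < k := by linarith
  have hτ0 : (0 : ℝ) < τ := by exact_mod_cast hτ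
  have hsub : ((k - 1 - τ : ℕ) : ℝ) = (k : ℝ) - 1 - τ := by
    rw [Nat.cast_sub hτk, hk1]
  have hle : (k - 1 - τ) ^ 3 ≤ (τ + 1) ^ 3 * (k - 1) ^ 3 := by
    have h1 : k - 1 - τ ≤ (τ + 1) * (k - 1) := by
      calc k - 1 - τ ≤ k - 1 := Nat.sub_le _ _
        _ = 1 * (k - 1) := (one_mul _).symm
        _ ≤ (τ + 1) * (k - 1) := Nat.mul_le_mul_right _ (by omega)
    calc (k - 1 - τ) ^ 3 ≤ ((τ + 1) * (k - 1)) ^ 3 := Nat.pow_le_pow_left h1 3
      _ = _ := by ring
  unfold Kn Kd cT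
  rw [Nat.cast_mul, Nat.cast_sub hle]
  push_cast
  rw [hk1, hsub]
  field_simp

section sorted

variable (σ : Equiv.Perm (Fin k)) (x : Fin k → ℝ)

/-- The sorted values. -/
noncomputable def yOf (i : ℕ) : ℝ := if h : i < k then x (σ ⟨i, h⟩) else 0

lemma yOf_val (i : Fin k) : yOf σ x i = x (σ i) := by
  simp [yOf, i.2]

lemma yOf_of_lt {i : ℕ} (h : i < k) : yOf σ x i = x (σ ⟨i, h⟩) := by
  simp [yOf, h]

lemma sum_range_yOf (f : ℝ → ℝ) :
    ∑ i ∈ Finset.range k, f (yOf σ x i) = ∑ i, f (x i) := by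
  rw [← Fin.sum_univ_eq_sum_range (fun i => f (yOf σ x i)) k]
  simp only [yOf_val]
  exact Equiv.sum_comp σ (fun i => f (x i))

/-- The block of the first `τ` positions. -/
def blk (τ : ℕ) : Finset (Fin k) := (Finset.univ.filter fun i : Fin k => i.val < τ).map σ.toEmbedding

lemma mem_blk {τ : ℕ} {l : Fin k} : l ∈ blk σ τ ↔ (σ.symm l).val < τ := by
  unfold blk
  simp only [Finset.mem_map, Finset.mem_filter, Finset.mem_univ, true_and,
    Equiv.coe_toEmbedding]
  constructor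
  · rintro ⟨i, hi, rfl⟩
    simpa using hi
  · intro h
    exact ⟨σ.symm l, h, by simp⟩

lemma compl_blk_eq (τ : ℕ) :
    (blk σ τ)ᶜ = (Finset.univ.filter fun i : Fin k => τ ≤ i.val).map σ.toEmbedding := by
  ext l
  simp only [Finset.mem_compl, mem_blk, not_lt, Finset.mem_map, Finset.mem_filter, Finset.mem_univ,
    true_and, Equiv.coe_toEmbedding]
  constructor
  · intro h
    exact ⟨σ.symm l, h, by simp⟩
  · rintro ⟨i, hi, rfl⟩
    simpa using hi

/-- A sum over a range of positions. -/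
lemma sum_filter_fin (f : ℕ → ℝ) (a b : ℕ) (hb : b ≤ k) :
    ∑ i ∈ (Finset.univ.filter fun i : Fin k => a ≤ i.val ∧ i.val < b), f i.val
      = ∑ n ∈ Finset.Ico a b, f n := by
  rw [Finset.sum_filter, Fin.sum_univ_eq_sum_range (fun n => if a ≤ n ∧ n < b then f n else 0) k,
    ← Finset.sum_filter]
  refine Finset.sum_congr ?_ fun _ _ => rfl
  ext n
  simp only [Finset.mem_filter, Finset.mem_range, Finset.mem_Ico]
  omega

lemma card_blk {τ : ℕ} (h : τ ≤ k) : (blk σ τ).card = τ := by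
  unfold blk
  rw [Finset.card_map, Finset.card_eq_sum_ones]
  have h1 := sum_filter_fin (k := k) (fun _ => (1 : ℝ)) 0 τ h
  simp only [Nat.zero_le, true_and, Finset.sum_const, smul_eq_mul, mul_one, nsmul_eq_mul] at h1
  simp only [Finset.sum_const, smul_eq_mul, mul_one]
  have h2 : (((Finset.univ.filter fun i : Fin k => i.val < τ).card : ℕ) : ℝ) = τ := by
    rw [h1]
    simp
  exact_mod_cast h2

/-- The sum over the complement of a block. -/
lemma sum_compl_blk (g : Fin k → ℝ) (τ : ℕ) (f : ℕ → ℝ)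
    (hf : ∀ i : Fin k, g (σ i) = f i.val) :
    ∑ l ∈ (blk σ τ)ᶜ, g l = ∑ n ∈ Finset.Ico τ k, f n := by
  rw [compl_blk_eq, Finset.sum_map]
  simp only [Equiv.coe_toEmbedding, hf]
  have h := sum_filter_fin (k := k) f τ k le_rfl
  rw [← h]
  refine Finset.sum_congr ?_ fun _ _ => rfl
  ext i
  simp [i.2]

end sorted

/-- Existence of a decreasing rearrangement. -/
lemma exists_sorted (x : Fin k → ℝ) : ∃ σ : Equiv.Perm (Fin k), ∀ i j : Fin k, i ≤ j → x (σ j) ≤ x (σ i) := by
  refine ⟨(Fin.revPerm).trans (Tuple.sort x), ?_⟩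
  intro i j hij
  have hmono : Monotone (x ∘ Tuple.sort x) := Tuple.monotone_sort x
  have h2 : Fin.rev j ≤ Fin.rev i := Fin.rev_le_rev.2 hij
  have := hmono h2
  simpa using this

/-- The box at the start. -/
lemma mem_replicate {y : ℕ → ℝ} (hn : ∀ l, 0 ≤ y l) {X0 : ℕ} (hy : ∀ l, 16384 * y l ≤ (X0 : ℝ)) (m i : ℕ) :
    Mem y i (List.replicate m (0, X0)) := by
  induction m generalizing i with
  | zero => trivial
  | succ m ih =>
    rw [List.replicate_succ]
    refine ⟨?_, hy i, ih _⟩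
    have := hn i
    push_cast
    linarith

/-- **The generic step, with the rectangle as a hypothesis.** -/
theorem step_of_chk_aux (hk : 4 ≤ k) (hP : PF E (k - 1)) {z : Fin k → E} {A : Fin k → Set E}
    (hc : Critical z A) (hR : R < S z) (t : PT) (ur : Bool)
    (hval : ∀ i, t.Valid (Real.sqrt (2 * Real.pi) * ‖z i‖) ((stdGaussian E).real (A i)))
    (X0 : ℕ) (hX0 : ∀ i, 16384 * (Real.sqrt (2 * Real.pi) * ‖z i‖) ≤ (X0 : ℝ)) (hX1 : X0 ≤ 100000000)
    (hrt : ∀ σ : Equiv.Perm (Fin k), (∀ i j : Fin k, i ≤ j →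
        ‖z (σ j)‖ ≤ ‖z (σ i)‖) → ur = true → 4 ≤ k - 1 → ∀ D : ℝ, 0 < D →
      let y := yOf σ (fun i => Real.sqrt (2 * Real.pi) * ‖z i‖)
      D ^ 2 ≤ 4 / 3 * (y 2 ^ 2 * (y 3 ^ 2
        - (∑ l ∈ Finset.Ico 4 (k - 1), y l ^ 2 + y (k - 1) ^ 2))) →
      ∑ l ∈ Finset.Ico 4 (k - 1), y l ^ 2 + y (k - 1) ^ 2 ≤ y 3 ^ 2 →
      2 * Real.pi * D * y (k - 1)
        ≤ (Kn k 4 : ℝ) / (Kd k 4 : ℝ) * y (k - 1) ^ 2 + ∑ l ∈ Finset.Ico 4 (k - 1), y l ^ 2)
    (c : Cert) (hchk : chk k t ur c (0, X0) (List.replicate (k - 1) (0, X0)) = true) : False := by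
  classical
  have hpi := Real.pi_pos
  have hk2 : 2 ≤ k := by omega
  have hk3 : 3 ≤ k := by omega
  set r := Real.sqrt (2 * Real.pi) with hr
  have hr0 : 0 < r := Real.sqrt_pos.2 (by positivity)
  have hr2 : r ^ 2 = 2 * Real.pi := Real.sq_sqrt (by positivity)
  set x : Fin k → ℝ := fun i => r * ‖z i‖ with hx
  set m : Fin k → ℝ := fun i => (stdGaussian E).real (A i) with hm
  obtain ⟨σ, hσ⟩ := exists_sorted x
  have hσn : ∀ i j : Fin k, i ≤ j → ‖z (σ j)‖ ≤ ‖z (σ i)‖ := by
    intro i j hij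
    have := hσ i j hij
    simp only [hx] at this
    exact le_of_mul_le_mul_left this hr0
  set y : ℕ → ℝ := yOf σ x with hy
  set a : ℕ → ℝ := yOf σ m with ha
  have hx0 : ∀ i, 0 ≤ x i := fun i => by simp only [hx]; positivity
  have hxsq : ∀ i, x i ^ 2 = 2 * Real.pi * ‖z i‖ ^ 2 := fun i => by
    simp only [hx]
    rw [mul_pow, hr2]
  have hnn : ∀ i, 0 ≤ y i := by
    intro i
    simp only [hy, yOf]
    split_ifs
    · exact hx0 _
    · exact le_rfl
  have hanti : Antitone y := by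
    intro i j hij
    by_cases hj : j < k
    · have hi : i < k := by omega
      simp only [hy]
      rw [yOf_of_lt σ x hi, yOf_of_lt σ x hj]
      exact hσ ⟨i, hi⟩ ⟨j, hj⟩ hij
    · have : y j = 0 := by simp [hy, yOf, hj]
      rw [this]
      exact hnn i
  have hypos : ∀ i : Fin k, y i = r * ‖z (σ i)‖ := fun i => by
    simp only [hy]
    rw [yOf_val]
  have hne : ∀ i, 0 < ‖z i‖ := fun i => hc.norm_pos hR hP hk2 i
  -- positions
  let pos (n : ℕ) (h : n < k) : Fin k := σ ⟨n, h⟩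
  have hyp : ∀ (n : ℕ) (h : n < k), y n = r * ‖z (pos n h)‖ := fun n h => hypos ⟨n, h⟩
  have hyp2 : ∀ (n : ℕ) (h : n < k), y n ^ 2 = 2 * Real.pi * ‖z (pos n h)‖ ^ 2 := by
    intro n h
    rw [hyp n h, mul_pow, hr2]
  -- the structure
  have hF : Feas k t ur y a := by
    refine ⟨hanti, hnn, ?_, by omega, ?_, ?_, ?_, ?_, ?_, ?_⟩
    · rw [hyp (k - 1) (by omega)]
      exact mul_pos hr0 (hne _)
    · intro i hi
      have h1 : y i = x (σ ⟨i, hi⟩) := yOf_of_lt σ x hi
      have h2 : a i = m (σ ⟨i, hi⟩) := yOf_of_lt σ m hi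
      rw [h1, h2]
      exact hval _
    · have := sum_range_yOf σ m (fun u => u)
      rw [show ∑ i ∈ Finset.range k, a i = ∑ i ∈ Finset.range k, yOf σ m i from rfl, this]
      exact sum_real_cells hc.part
    · have h1 := sum_range_yOf σ x (fun u => u ^ 2)
      rw [show ∑ i ∈ Finset.range k, y i ^ 2 = ∑ i ∈ Finset.range k, (yOf σ x i) ^ 2 from rfl, h1]
      simp only [hxsq]
      rw [← Finset.mul_sum]
      have h2 : 2 * Real.pi * R = 9 / 4 := by
        unfold R
        field_simp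
        norm_num
      have h3 : 2 * Real.pi * R < 2 * Real.pi * S z := mul_lt_mul_of_pos_left hR (by positivity)
      rw [h2] at h3
      exact h3
    · have h1 : y 0 = x (σ ⟨0, by omega⟩) := yOf_of_lt σ x (by omega)
      have h2 := hX0 (σ ⟨0, by omega⟩)
      have h3 : (X0 : ℝ) ≤ 100000000 := by exact_mod_cast hX1
      rw [h1, le_div_iff₀ (by norm_num)]
      simp only [hx]
      linarith
    · -- the closure
      intro τ hτ3 hτk D hD hD2 hYle
      set B := blk σ τ with hB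
      set j := pos (k - 1) (by omega) with hj
      set a3 := pos 2 (by omega) with ha3
      set b0 := pos 0 (by omega) with hb0
      set b1 := pos 1 (by omega) with hb1
      have hmemB : ∀ (n : ℕ) (h : n < k), pos n h ∈ B ↔ n < τ := by
        intro n h
        rw [hB, mem_blk]
        simp [pos]
      have hinj : ∀ (n l : ℕ) (h1 : n < k) (h2 : l < k), pos n h1 = pos l h2 → n = l := by
        intro n l h1 h2 h
        have := σ.injective h
        simpa using this
      have hjB : j ∉ B := by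
        rw [hj, hmemB]
        omega
      have ha3B : a3 ∈ B := by
        rw [ha3, hmemB]
        omega
      have hb0B : b0 ∈ B := by
        rw [hb0, hmemB]
        omega
      have hb1B : b1 ∈ B := by
        rw [hb1, hmemB]
        omega
      have hb0a : b0 ≠ a3 := fun h => absurd (hinj _ _ _ _ h) (by norm_num)
      have hb1a : b1 ≠ a3 := fun h => absurd (hinj _ _ _ _ h) (by norm_num)
      have hb01 : b0 ≠ b1 := fun h => absurd (hinj _ _ _ _ h) (by norm_num)
      set Q : Finset (Fin k) := {b0, b1} with hQ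
      have hQsub : Q ⊆ B.erase a3 := by
        intro c hc'
        simp only [hQ, Finset.mem_insert, Finset.mem_singleton] at hc'
        rcases hc' with rfl | rfl
        · exact Finset.mem_erase.2 ⟨hb0a, hb0B⟩
        · exact Finset.mem_erase.2 ⟨hb1a, hb1B⟩
      have hQne : Q.Nonempty := Finset.insert_nonempty _ _
      obtain ⟨b, hb, hnt⟩ := critical_nt_pick hc hR hP hk3 j a3 B Q hjB ha3B hQsub hQne
      have hQcard : (Q.card : ℝ) = 2 := by
        rw [hQ, Finset.card_pair hb01]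
        norm_num
      have hBcard : (B.card : ℝ) = τ := by
        rw [hB, card_blk σ (by omega)]
      -- norms
      have he_a : y 2 ^ 2 = 2 * Real.pi * ‖z a3‖ ^ 2 := hyp2 2 (by omega)
      have he_j : y (k - 1) ^ 2 = 2 * Real.pi * ‖z j‖ ^ 2 := hyp2 (k - 1) (by omega)
      have hea_b : ‖z a3‖ ^ 2 ≤ ‖z b‖ ^ 2 := by
        have hb' : b = b0 ∨ b = b1 := by simpa [hQ] using hb
        have h2 : ‖z a3‖ ≤ ‖z b‖ := by
          rcases hb' with rfl | rfl
          · exact hσn ⟨0, by omega⟩ ⟨2, by omega⟩ (by simp [Fin.le_def])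
          · exact hσn ⟨1, by omega⟩ ⟨2, by omega⟩ (by simp [Fin.le_def])
        exact pow_le_pow_left₀ (norm_nonneg _) h2 2
      -- the sums
      have hsumY : ∑ l ∈ Bᶜ, ‖z l‖ ^ 2
          = (∑ l ∈ Finset.Ico τ (k - 1), y l ^ 2 + y (k - 1) ^ 2) / (2 * Real.pi) := by
        have hf : ∀ i : Fin k, ‖z (σ i)‖ ^ 2 = (fun n => y n ^ 2 / (2 * Real.pi)) i.val := by
          intro i
          simp only
          rw [hypos i, mul_pow, hr2]
          field_simp
        rw [hB, sum_compl_blk σ (fun l => ‖z l‖ ^ 2) τ (fun n => y n ^ 2 / (2 * Real.pi)) hf]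
        have hkk : k = (k - 1) + 1 := by omega
        have e1 : Finset.Ico τ k = Finset.Ico τ ((k - 1) + 1) := by rw [← hkk]
        rw [e1, Finset.sum_Ico_succ_top hτk, add_div, Finset.sum_div]
      have hjX : j ∈ Bᶜ := Finset.mem_compl.2 hjB
      have hsumT : ∑ l ∈ Bᶜ.erase j, ‖z l‖ ^ 2
          = (∑ l ∈ Finset.Ico τ (k - 1), y l ^ 2) / (2 * Real.pi) := by
        have h1 := Finset.add_sum_erase Bᶜ (fun l => ‖z l‖ ^ 2) hjX
        rw [hsumY, add_div, he_j] at h1
        have h2 : 2 * Real.pi * ‖z j‖ ^ 2 / (2 * Real.pi) = ‖z j‖ ^ 2 := by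
          field_simp
        rw [h2] at h1
        linarith
      have hW : ‖∑ l ∈ Bᶜ, z l‖ ^ 2 ≤ ∑ l ∈ Bᶜ, ‖z l‖ ^ 2 :=
        norm_sum_sq_le_of_obtuse _ _ fun i _ l _ hil => (hc.inner_neg hR hP hil).le
      set Tr := ∑ l ∈ Finset.Ico τ (k - 1), y l ^ 2 with hTr
      set Yr := Tr + y (k - 1) ^ 2 with hYr
      set Ea := ‖z a3‖ ^ 2 with hEa
      set Eb := ‖z b‖ ^ 2 with hEb
      set W := ‖∑ l ∈ Bᶜ, z l‖ ^ 2 with hWdef
      have h2pi : 0 < 2 * Real.pi := by positivity
      have hYEa : Yr / (2 * Real.pi) ≤ Ea := by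
        rw [div_le_iff₀ h2pi, mul_comm Ea, ← he_a]
        exact hYle
      have hWY : W ≤ Yr / (2 * Real.pi) := by
        rw [← hsumY]
        exact hW
      have hWEa : W ≤ Ea := hWY.trans hYEa
      set Δ := D / (2 * Real.pi) with hΔ
      have hΔ0 : 0 < Δ := by positivity
      have hPV : Δ ^ 2 ≤ Ea * Eb - max Ea Eb * W - (Ea / (Q.card : ℝ)) ^ 2 := by
        rw [max_eq_right hea_b, hQcard]
        have h1 : Δ ^ 2 = D ^ 2 / (2 * Real.pi) ^ 2 := by
          rw [hΔ, div_pow]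
        have h2 : D ^ 2 / (2 * Real.pi) ^ 2 ≤ Ea * (3 / 4 * Ea - Yr / (2 * Real.pi)) := by
          rw [div_le_iff₀ (by positivity)]
          refine hD2.trans (le_of_eq ?_)
          rw [he_a]
          field_simp
        have h3 : Ea * (3 / 4 * Ea - Yr / (2 * Real.pi)) ≤ Ea * (3 / 4 * Ea - W) :=
          mul_le_mul_of_nonneg_left (by linarith) (by positivity)
        have h4 : Ea * (Ea - W) ≤ Eb * (Ea - W) :=
          mul_le_mul_of_nonneg_right hea_b (by linarith)
        rw [h1]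
        nlinarith
      have hfin := hnt Δ hΔ0 hPV
      rw [hBcard, hsumT] at hfin
      -- scale by `π`
      rw [Kn_div_Kd (by omega) hτk, hyp (k - 1) (by omega)]
      have hs2 : (r * ‖z j‖) ^ 2 = 2 * Real.pi * ‖z j‖ ^ 2 := by
        rw [mul_pow, hr2]
      rw [hs2]
      have h5 := mul_le_mul_of_nonneg_left hfin hpi.le
      have e1 : 2 * Real.pi * D * (r * ‖z j‖) = Real.pi * (4 * Real.pi * Δ * (r * ‖z j‖)) := by
        rw [hΔ]
        field_simp
        ring
      have e2 : Real.pi * (4 * cT k (τ : ℝ) * (((k : ℝ) - 1) / (k : ℝ)) * ‖z j‖ ^ 2 + 2 * (Tr / (2 * Real.pi)))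
          = 2 * cT k (τ : ℝ) * (((k : ℝ) - 1) / (k : ℝ)) * (2 * Real.pi * ‖z j‖ ^ 2) + Tr := by
        field_simp
        ring
      rw [e1]
      rw [e2] at h5
      exact h5
    · intro hu h4 D hD hD2 hYle
      exact hrt σ hσn hu h4 D hD hD2 hYle
  refine chk_sound hF c (0, X0) (List.replicate (k - 1) (0, X0)) hchk ?_
  have hbd : ∀ l, 16384 * y l ≤ (X0 : ℝ) := by
    intro l
    by_cases hl : l < k
    · have h1 : y l = x (σ ⟨l, hl⟩) := yOf_of_lt σ x hl
      rw [h1]
      exact hX0 _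
    · have : y l = 0 := by simp [hy, yOf, hl]
      rw [this]
      simp
  refine ⟨?_, mem_replicate hnn hbd _ _, ?_, hbd _⟩
  · rw [List.length_replicate]
    omega
  · have := hnn (k - 1)
    push_cast
    linarith

/-- **The generic step, without the rectangle.** -/
theorem step_of_chk (hk : 4 ≤ k) (hP : PF E (k - 1)) {z : Fin k → E} {A : Fin k → Set E}
    (hc : Critical z A) (hR : R < S z) (t : PT)
    (hval : ∀ i, t.Valid (Real.sqrt (2 * Real.pi) * ‖z i‖) ((stdGaussian E).real (A i)))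
    (X0 : ℕ) (hX0 : ∀ i, 16384 * (Real.sqrt (2 * Real.pi) * ‖z i‖) ≤ (X0 : ℝ)) (hX1 : X0 ≤ 100000000)
    (c : Cert) (hchk : chk k t false c (0, X0) (List.replicate (k - 1) (0, X0)) = true) : False :=
  step_of_chk_aux hk hP hc hR t false hval X0 hX0 hX1 (fun _ _ h => Bool.noConfusion h) c hchk

end Crest.Agent.Propeller
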