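/-
The tangent lines of the caps `J_7`, `J_9`, `J_11` in the generic checker.
-/
import Crest.Agent.Lib.Propeller.GenStep
import Crest.Agent.Lib.Propeller.ConeCapGen

set_option autoImplicit false
set_option linter.unusedSectionVars false
open MeasureTheory ProbabilityTheory
open scoped RealInnerProductSpace

namespace Crest.Agent.Propeller

open Gen

universe u

variable {E : Type u} [NormedAddCommGroup E] [InnerProductSpace ℝ E] [FiniteDimensional ℝ E]
  [MeasurableSpace E] [BorelSpace E]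

namespace Gen

/-- Check of a line against the tangent at `τ = T/1024`. -/
def lineOK (Q CQ Dn : ℕ) (f : ℕ → ℕ × ℕ) (T A B : ℕ) : Bool :=
  Nat.ble 1 T && Nat.ble T 1023 && Nat.ble (A * CQ * T) (1000000000 * Q * 1024) &&
    Nat.ble (1000000000 * 1024 * (f T).1) (B * CQ * T * Dn + 1000000000 * 1024 * (f T).2)

/-- Check of all the lines. -/
def PT.allOK (Q CQ Dn : ℕ) (f : ℕ → ℕ × ℕ) : PT → Bool
  | .leaf T A B => lineOK Q CQ Dn f T A B
  | .node _ l r => PT.allOK Q CQ Dn f l && PT.allOK Q CQ Dn f r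

/-- A line from a tangent inequality. -/
lemma line_generic {x a P : ℝ} {Q CQ T A B Dn pos neg : ℕ} (hx0 : 0 ≤ x) (hT : 0 < T) (hCQ : 0 < CQ)
    (htan : (Q : ℝ) * x ≤ P + (CQ : ℝ) * ((T : ℝ) / 1024) * a) (hP : (pos : ℝ) - neg = P * Dn)
    (hDn : 0 < Dn) (h1 : A * CQ * T ≤ 1000000000 * Q * 1024)
    (h2 : 1000000000 * 1024 * pos ≤ B * CQ * T * Dn + 1000000000 * 1024 * neg) :
    (A : ℝ) / 1000000000 * x - (B : ℝ) / 1000000000 ≤ a := by
  have hT' : (0 : ℝ) < T := by exact_mod_cast hT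
  have hCQ' : (0 : ℝ) < CQ := by exact_mod_cast hCQ
  have hDn' : (0 : ℝ) < Dn := by exact_mod_cast hDn
  have h1r : (A : ℝ) * CQ * T ≤ 1000000000 * Q * 1024 := by exact_mod_cast h1
  have h2r : (1000000000 : ℝ) * 1024 * pos ≤ B * CQ * T * Dn + 1000000000 * 1024 * neg := by
    exact_mod_cast h2
  set c : ℝ := (CQ : ℝ) * ((T : ℝ) / 1024) with hc
  have hc0 : 0 < c := by positivity
  have h3 : (A : ℝ) / 1000000000 * c ≤ Q := by
    rw [hc]
    have e : (A : ℝ) / 1000000000 * ((CQ : ℝ) * ((T : ℝ) / 1024))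
        = ((A : ℝ) * CQ * T) / (1000000000 * 1024) := by
      field_simp
    rw [e, div_le_iff₀ (by norm_num)]
    linarith
  have h4 : P ≤ (B : ℝ) / 1000000000 * c := by
    have h5 : (1000000000 : ℝ) * 1024 * (P * Dn) ≤ B * CQ * T * Dn := by
      rw [← hP]
      linarith
    have h6 : (1000000000 : ℝ) * 1024 * P ≤ B * CQ * T := by
      have : ((1000000000 : ℝ) * 1024 * P) * Dn ≤ (B * CQ * T) * Dn := by linarith
      exact le_of_mul_le_mul_right this hDn'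
    rw [hc]
    have e : (B : ℝ) / 1000000000 * ((CQ : ℝ) * ((T : ℝ) / 1024))
        = ((B : ℝ) * CQ * T) / (1000000000 * 1024) := by
      field_simp
    rw [e, le_div_iff₀ (by norm_num)]
    linarith
  have h7 : ((A : ℝ) / 1000000000 * x - (B : ℝ) / 1000000000) * c ≤ a * c := by
    have h8 : (A : ℝ) / 1000000000 * c * x ≤ Q * x := mul_le_mul_of_nonneg_right h3 hx0
    have e : ((A : ℝ) / 1000000000 * x - (B : ℝ) / 1000000000) * c
        = (A : ℝ) / 1000000000 * c * x - (B : ℝ) / 1000000000 * c := by ring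
    rw [e]
    nlinarith
  exact le_of_mul_le_mul_right h7 hc0

/-- The table is valid from the tangents. -/
theorem valid_of_tangent {x a : ℝ} (hx0 : 0 ≤ x) {Q CQ Dn : ℕ} {f : ℕ → ℕ × ℕ} {P : ℝ → ℝ}
    (hCQ : 0 < CQ) (hDn : 0 < Dn)
    (hP : ∀ T : ℕ, (((f T).1 : ℕ) : ℝ) - ((f T).2 : ℕ) = P ((T : ℝ) / 1024) * Dn)
    (h : ∀ τ : ℝ, 0 < τ → τ < 1 → (Q : ℝ) * x ≤ P τ + (CQ : ℝ) * τ * a)
    (t : PT) (hok : PT.allOK Q CQ Dn f t = true) : t.Valid x a := by
  induction t with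
  | leaf T A B =>
    simp only [PT.allOK, lineOK, Bool.and_eq_true] at hok
    obtain ⟨⟨⟨h1, h2⟩, h3⟩, h4⟩ := hok
    have h1' := Nat.le_of_ble_eq_true h1
    have h2' := Nat.le_of_ble_eq_true h2
    have h3' := Nat.le_of_ble_eq_true h3
    have h4' := Nat.le_of_ble_eq_true h4
    have hT : (0 : ℝ) < (T : ℝ) := by exact_mod_cast h1'
    have hT1 : (T : ℝ) ≤ 1023 := by exact_mod_cast h2'
    have hτ := h ((T : ℝ) / 1024) (by positivity) (by rw [div_lt_one (by norm_num)]; linarith)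
    exact line_generic hx0 h1' hCQ hτ (hP T) hDn h3' h4'
  | node m l r ihl ihr =>
    simp only [PT.allOK, Bool.and_eq_true] at hok
    exact ⟨ihl hok.1, ihr hok.2⟩

/-! ### The three caps -/

/-- `5 P₇`, at `T`, homogeneous of degree `6` in `1024`. -/
def f7 (T : ℕ) : ℕ × ℕ :=
  (5 * 1152921504606846976 + 15 * (T * T) * 1099511627776 + T * T * (T * T) * (T * T),
    16 * T * 1125899906842624 + 5 * (T * T) * (T * T) * 1048576)

/-- The polynomial of `J_7`. -/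
noncomputable def P7 (τ : ℝ) : ℝ := 5 - 16 * τ + 15 * τ ^ 2 - 5 * τ ^ 4 + τ ^ 6

lemma f7_eq (T : ℕ) : (((f7 T).1 : ℕ) : ℝ) - ((f7 T).2 : ℕ)
    = P7 ((T : ℝ) / 1024) * ((1152921504606846976 : ℕ) : ℝ) := by
  unfold f7 P7
  push_cast
  ring

/-- `35 P₉`, degree `8`. -/
def f9 (T : ℕ) : ℕ × ℕ :=
  (35 * 1208925819614629174706176 + 140 * (T * T) * 1152921504606846976
      + 28 * ((T * T) * (T * T) * (T * T)) * 1048576,
    128 * T * 1180591620717411303424 + 70 * ((T * T) * (T * T)) * 1099511627776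
      + 5 * ((T * T) * (T * T) * (T * T) * (T * T)))

/-- The polynomial of `J_9`. -/
noncomputable def P9 (τ : ℝ) : ℝ := 35 - 128 * τ + 140 * τ ^ 2 - 70 * τ ^ 4 + 28 * τ ^ 6 - 5 * τ ^ 8

lemma f9_eq (T : ℕ) : (((f9 T).1 : ℕ) : ℝ) - ((f9 T).2 : ℕ)
    = P9 ((T : ℝ) / 1024) * ((1208925819614629174706176 : ℕ) : ℝ) := by
  unfold f9 P9
  push_cast
  ring

/-- `315 P₁₁`, degree `10`. -/
def f11 (T : ℕ) : ℕ × ℕ :=
  (315 * 1267650600228229401496703205376 + 1575 * (T * T) * 1208925819614629174706176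
      + 630 * ((T * T) * (T * T) * (T * T)) * 1099511627776
      + 35 * ((T * T) * (T * T) * (T * T) * (T * T) * (T * T)),
    1280 * T * 1237940039285380274899124224 + 1050 * ((T * T) * (T * T)) * 1152921504606846976
      + 225 * ((T * T) * (T * T) * (T * T) * (T * T)) * 1048576)

/-- The polynomial of `J_11`. -/
noncomputable def P11 (τ : ℝ) : ℝ :=
  315 - 1280 * τ + 1575 * τ ^ 2 - 1050 * τ ^ 4 + 630 * τ ^ 6 - 225 * τ ^ 8 + 35 * τ ^ 10

lemma f11_eq (T : ℕ) : (((f11 T).1 : ℕ) : ℝ) - ((f11 T).2 : ℕ)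
    = P11 ((T : ℝ) / 1024) * ((1267650600228229401496703205376 : ℕ) : ℝ) := by
  unfold f11 P11
  push_cast
  ring

end Gen

section critical

variable {k : ℕ} {z : Fin k → E} {A : Fin k → Set E}

/-- Hat form. -/
lemma hat_of_phi {n v : ℝ} (h : n ≤ phi0 * v) : Real.sqrt (2 * Real.pi) * n ≤ v := by
  have hr0 : 0 < Real.sqrt (2 * Real.pi) := Real.sqrt_pos.2 (by positivity)
  have h2 := mul_le_mul_of_nonneg_left h hr0.le
  have h3 : Real.sqrt (2 * Real.pi) * phi0 = 1 := by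
    unfold phi0
    exact mul_inv_cancel₀ hr0.ne'
  rw [← mul_assoc, h3, one_mul] at h2
  exact h2

/-- Tangents of `J_7` in the form of the checker. -/
lemma Critical.tangent7 (hc : Critical z A) (hn : Module.finrank ℝ E = 7) (i : Fin k)
    (hne : ∀ j, j ≠ i → z j ≠ z i) {τ : ℝ} (h0 : 0 < τ) (h1 : τ < 1) :
    ((5 : ℕ) : ℝ) * (Real.sqrt (2 * Real.pi) * ‖z i‖)
      ≤ P7 τ + ((32 : ℕ) : ℝ) * τ * (stdGaussian E).real (A i) := by
  have h := hat_of_phi (hc.norm_le_cap7 hn i hne h0 h1)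
  unfold P7
  push_cast
  nlinarith

/-- Tangents of `J_11` in the form of the checker. -/
lemma Critical.tangent11 (hc : Critical z A) (hn : Module.finrank ℝ E = 11) (i : Fin k)
    (hne : ∀ j, j ≠ i → z j ≠ z i) {τ : ℝ} (h0 : 0 < τ) (h1 : τ < 1) :
    ((315 : ℕ) : ℝ) * (Real.sqrt (2 * Real.pi) * ‖z i‖)
      ≤ P11 τ + ((2560 : ℕ) : ℝ) * τ * (stdGaussian E).real (A i) := by
  have h := hat_of_phi (hc.norm_le_cap11 hn i hne h0 h1)
  have e : ∑ i ∈ Finset.range 5, ((4 : ℕ).choose i : ℝ) * (-1) ^ i * ((1 - τ ^ (2 * i + 1)) / (2 * (i : ℝ) + 1))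
      = 128 / 315 - τ + 4 / 3 * τ ^ 3 - 6 / 5 * τ ^ 5 + 4 / 7 * τ ^ 7 - 1 / 9 * τ ^ 9 := by
    simp only [Finset.sum_range_succ, Finset.sum_range_zero]
    norm_num [Nat.choose]
    ring
  rw [e] at h
  unfold P11
  push_cast
  nlinarith

end critical

end Crest.Agent.Propeller
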