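/-
Generated data: the tangent table and the certificate tree of the level 8 step.
-/
import Crest.Agent.Lib.Propeller.GenTree

set_option autoImplicit false

namespace Crest.Agent.Propeller.Gen.K8

open Crest.Agent.Propeller.Gen

/-- The tangent lines. -/
def tab : PT := (PT.node 5834 (PT.node 2062 (PT.node 729 (PT.node 258 (PT.node 91 (PT.node 32 (PT.leaf 972 164609053 2124) (PT.leaf 941 170031880 13975)) (PT.node 167 (PT.leaf 916 174672489 40540) (PT.leaf 896 178571428 80790))) (PT.node 474 (PT.node 360 (PT.leaf 877 182440136 141933) (PT.leaf 860 186046511 221913)) (PT.node 597 (PT.leaf 845 189349112 317590) (PT.leaf 830 192771084 442007)))) (PT.node 1340 (PT.node 1019 (PT.node 870 (PT.leaf 816 196078431 588987) (PT.leaf 802 199501246 770918)) (PT.node 1176 (PT.leaf 789 202788339 976000) (PT.leaf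 776 206185567 1220880))) (PT.node 1688 (PT.node 1511 (PT.leaf 764 209424083 1486828) (PT.leaf 752 212765957 1795727)) (PT.node 1872 (PT.leaf 740 216216216 2152462) (PT.leaf 729 219478737 2525981))))) (PT.node 3789 (PT.node 2882 (PT.node 2461 (PT.node 2259 (PT.leaf 718 222841225 2948475) (PT.leaf 706 226628895 3470727)) (PT.node 2669 (PT.leaf 695 230215827 4011095) (PT.leaf 684 233918128 4615958))) (PT.node 3325 (PT.node 3101 (PT.leaf 674 237388724 5226646) (PT.leaf 663 241327300 5970991)) (PT.node 3555 (PT.leaf 652 245398773 6797768) (PT.leaf 642 249221183 7626833)))) (PT.node 4775 (PT.node 4272 (PT.node 4028 (PT.leaf 631 253565768 8630970) (PT.leaf 621 257648953 9634174)) (PT.node 4521 (PT.leaf 610 262295081 10845065) (PT.leaf 600 266666666 12051007))) (PT.node 5295 (PT.node 5033 (PT.leaf 589 271646859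 13502347) (PT.leaf 579 276338514 14943858)) (PT.node 5562 (PT.leaf 568 281690140 16674396) (PT.leaf 558 286738351 18389307)))))) (PT.node 10717 (PT.node 8153 (PT.node 6961 (PT.node 6389 (PT.node 6109 (PT.leaf 547 292504570 20443780) (PT.leaf 537 297951582 22475859)) (PT.node 6673 (PT.leaf 526 304182509 24906151) (PT.leaf 516 310077519 27306285))) (PT.node 7549 (PT.node 7253 (PT.leaf 505 316831683 30172878) (PT.leaf 494 323886639 33295564)) (PT.node 7849 (PT.leaf 483 331262939 36695503) (PT.leaf 472 338983050 40395796)))) (PT.node 9406 (PT.node 8772 (PT.node 8460 (PT.leaf 461 347071583 44421711) (PT.leaf 450 355555555 48800944)) (PT.node 9087 (PT.leaf 438 365296803 54017082) (PT.leaf 427 374707259 59237024))) (PT.node 10054 (PT.node 9728 (PT.leaf 415 385542168 65455005) (PT.leaf 403 397022332 72271780))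 (PT.node 10384 (PT.leaf 391 409207161 79747785) (PT.leaf 378 423280423 88669775))))) (PT.node 13505 (PT.node 12084 (PT.node 11394 (PT.node 11054 (PT.leaf 366 437158469 97747763) (PT.leaf 352 454545454 109481555)) (PT.node 11737 (PT.leaf 339 471976401 121613384) (PT.leaf 325 492307692 136186126))) (PT.node 12788 (PT.node 12434 (PT.leaf 311 514469453 152537458) (PT.leaf 296 540540540 172327713)) (PT.node 13145 (PT.leaf 280 571428571 196455732) (PT.leaf 264 606060606 224268294)))) (PT.node 14978 (PT.node 14235 (PT.node 13868 (PT.leaf 247 647773279 258673564) (PT.leaf 229 698689956 301787779)) (PT.node 14605 (PT.leaf 209 765550239 359905423) (PT.leaf 187 855614973 440271548))) (PT.node 15733 (PT.node 15354 (PT.leaf 163 981595092 555583558) (PT.leaf 135 1185185185 746626494)) (PT.node 16115 (PT.leaf 100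 1600000000 1145631126) (PT.leaf 40 4000000000 3518301237)))))))

def c0 : Cert := (.sp 2 10312 (.sp 2 9281 (.sp 3 4898 (.L 1889) (.sp 3 7089 (.L 1889) (.sp 6 1030 (.sp 4 2061 (.sp 4 1030 (.sp 4 772 (.N 4) (.sp 5 772 (.N 4) (.sp 6 772 (.N 4) (.ss 772 (.N 4) (.sp 4 901 (.N 4) (.sp 2 8765 (.L 2211) (.N 4))))))) (.sp 3 8185 (.ss 772 (.sp 2 8765 (.L 1889) (.sp 5 1030 (.N 5) (.sp 4 1545 (.N 4) (.L 2211)))) (.L 2211)) (.sp 2 8765 (.ss 772 (.sp 5 1030 (.ss 643 (.N 5) (.sp 2 8507 (.L 1889) (.N 5))) (.sp 5 1545 (.ss 643 (.N 5) (.L 2211)) (.L 2211))) (.L 2211)) (.ss 772 (.sp 5 1030 (.N 5) (.sp 5 1545 (.N 5) (.ss 643 (.N 6) (.L 2211)))) (.sp 5 1416 (.sp 4 1545 (.sp 6 901 (.N 4) (.ss 901 (.N 4) (.sp 2 9023 (.L 2211) (.N 4)))) (.sp 2 9023 (.L 2211) (.ss 901 (.N 4) (.L 2211)))) (.L 2211)))))) (.sp 4 4123 (.sp 3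 8185 (.L 2211) (.sp 2 8765 (.L 2211) (.ss 772 (.sp 5 1030 (.N 5) (.sp 5 1546 (.N 5) (.L 2211))) (.L 2211)))) (.L 2597))) (.sp 6 1546 (.sp 4 2915 (.sp 3 8185 (.L 2211) (.sp 2 8765 (.L 2211) (.sp 5 1546 (.sp 4 1972 (.sp 6 1288 (.ss 773 (.ss 644 (.N 5) (.sp 2 9023 (.L 2211) (.N 5))) (.sp 3 8733 (.L 2211) (.sp 2 9023 (.L 2211) (.sp 4 1501 (.N 4) (.L 2211))))) (.L 2211)) (.L 2211)) (.L 2211)))) (.L 2468)) (.L 2404))))) (.sp 6 1030 (.sp 6 772 (.N 6) (.ss 772 (.N 6) (.sp 5 1417 (.sp 6 901 (.N 5) (.sp 2 9796 (.sp 3 5348 (.L 1889) (.ss 901 (.N 5) (.sp 3 7572 (.L 2211) (.sp 6 965 (.N 5) (.sp 4 2821 (.sp 4 1893 (.N 4) (.sp 2 9538 (.L 2404) (.N 5))) (.L 2468)))))) (.N 5))) (.sp 3 5864 (.L 1889) (.sp 4 3419 (.sp 3 8088 (.L 2211) (.sp 2 9796 (.sp 4 2418 (.sp 4 1917 (.sp 4 1667 (.N 4) (.sp 2 9538 (.ss 901 (.N 4)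 (.L 2404)) (.N 4))) (.sp 3 8942 (.L 2404) (.sp 2 9538 (.L 2404) (.ss 901 (.N 5) (.L 2468))))) (.L 2468)) (.sp 6 901 (.N 5) (.ss 901 (.N 5) (.sp 2 10054 (.sp 5 1739 (.N 5) (.sp 5 1900 (.N 5) (.L 2532))) (.N 5)))))) (.L 2597)))))) (.sp 3 5671 (.L 1889) (.sp 5 1546 (.ss 773 (.N 5) (.sp 2 9796 (.sp 3 7733 (.L 2211) (.sp 4 2915 (.sp 4 1972 (.sp 4 1501 (.N 4) (.sp 6 1288 (.N 4) (.sp 2 9538 (.L 2404) (.N 4)))) (.sp 3 8764 (.L 2211) (.sp 6 1288 (.ss 902 (.N 5) (.sp 2 9538 (.L 2404) (.sp 5 1288 (.N 5) (.L 2468)))) (.L 2468)))) (.L 2532))) (.ss 902 (.N 5) (.sp 5 1288 (.N 5) (.sp 2 10054 (.sp 3 7862 (.L 2211) (.sp 4 3259 (.ss 966 (.N 5) (.sp 4 2273 (.N 4) (.L 2532))) (.L 2532))) (.N 5)))))) (.sp 3 7991 (.L 2211) (.sp 4 3571 (.sp 4 2558 (.sp 3 9151 (.sp 6 1546 (.sp 5 1804 (.ss 773 (.N 5) (.sp 4 2052 (.sp 2 9796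 (.L 2404) (.N 4)) (.L 2404))) (.L 2404)) (.L 2404)) (.sp 2 9796 (.sp 6 1546 (.ss 773 (.sp 5 1804 (.N 5) (.ss 644 (.N 6) (.L 2468))) (.sp 5 1804 (.sp 4 2052 (.sp 2 9538 (.L 2404) (.sp 4 1799 (.N 4) (.L 2468))) (.L 2468)) (.L 2468))) (.L 2468)) (.ss 773 (.ss 644 (.N 7) (.sp 5 1804 (.N 5) (.sp 6 1546 (.N 6) (.sp 2 10054 (.L 2532) (.N 6))))) (.sp 5 1804 (.ss 902 (.N 5) (.sp 4 2052 (.sp 2 10054 (.sp 6 1417 (.N 4) (.sp 6 1610 (.N 4) (.L 2532))) (.N 4)) (.sp 2 10054 (.L 2532) (.sp 6 1417 (.N 5) (.L 2597))))) (.sp 6 1546 (.ss 902 (.N 5) (.sp 2 10054 (.L 2532) (.sp 4 2181 (.N 4) (.L 2597)))) (.L 2597)))))) (.sp 3 9151 (.L 2468) (.sp 2 9796 (.L 2468) (.sp 6 1546 (.ss 773 (.N 6) (.ss 902 (.N 5) (.L 2597))) (.L 2597))))) (.L 2597))))))) (.sp 5 1030 (.N 5) (.sp 2 11343 (.sp 5 1546 (.N 5) (.ss 773 (.N 6) (.sp 2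 10827 (.sp 6 1417 (.N 5) (.sp 3 6186 (.L 1889) (.sp 4 3571 (.sp 5 1804 (.N 5) (.sp 3 8506 (.L 2404) (.sp 6 1739 (.N 5) (.sp 2 10569 (.L 2725) (.N 5))))) (.L 2725)))) (.N 5)))) (.N 5))))

def c1 : Cert := (.sp 3 8507 (.ss 1288 (.sp 5 1546 (.sp 4 1973 (.sp 2 9796 (.L 2211) (.ss 1159 (.N 4) (.L 2404))) (.L 2404)) (.L 2404)) (.L 2404)) (.ss 1288 (.sp 5 1546 (.sp 4 1973 (.sp 2 9796 (.sp 6 1288 (.sp 6 1159 (.sp 4 1502 (.N 4) (.sp 2 9538 (.sp 3 9022 (.L 2211) (.sp 5 1288 (.sp 4 1737 (.N 4) (.L 2404)) (.L 2404))) (.N 4))) (.sp 3 9151 (.sp 4 1566 (.ss 1159 (.N 4) (.L 2404)) (.L 2404)) (.sp 2 9538 (.sp 4 1566 (.ss 1159 (.N 4) (.sp 5 1352 (.ss 1223 (.sp 2 9409 (.L 2404) (.N 4)) (.L 2404)) (.L 2404))) (.L 2404)) (.ss 1159 (.N 4) (.sp 4 1566 (.sp 4 1362 (.N 4) (.ss 1223 (.N 4) (.sp 2 9667 (.L 2404) (.N 4)))) (.sp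 3 9473 (.L 2404) (.sp 2 9667 (.L 2404) (.sp 6 1223 (.N 4) (.L 2468))))))))) (.sp 3 9151 (.L 2404) (.sp 2 9538 (.L 2404) (.sp 6 1417 (.sp 4 1630 (.sp 2 9667 (.L 2404) (.N 4)) (.L 2468)) (.L 2468))))) (.sp 4 1502 (.N 4) (.ss 1159 (.N 4) (.sp 2 10054 (.sp 5 1352 (.N 4) (.sp 4 1737 (.N 4) (.sp 2 9925 (.L 2532) (.N 4)))) (.N 4))))) (.sp 2 9796 (.sp 6 1288 (.sp 3 9151 (.L 2404) (.sp 2 9538 (.L 2404) (.ss 1159 (.sp 4 2444 (.sp 6 1159 (.sp 5 1288 (.sp 4 2208 (.N 4) (.L 2468)) (.L 2468)) (.L 2468)) (.L 2468)) (.L 2468)))) (.L 2468)) (.sp 3 9409 (.sp 6 1288 (.ss 1159 (.sp 2 10054 (.L 2404) (.sp 4 2444 (.N 4) (.L 2532))) (.L 2468)) (.L 2532)) (.sp 6 1288 (.sp 6 1159 (.sp 2 10054 (.sp 4 2444 (.sp 4 2208 (.N 4) (.sp 5 1288 (.N 4) (.L 2532))) (.sp 5 1288 (.ss 1095 (.N 5) (.L 2532)) (.L 2532))) (.N 5)) (.sp 4 2444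 (.sp 2 10054 (.sp 3 9731 (.L 2532) (.sp 4 2208 (.ss 1159 (.N 4) (.sp 6 1223 (.N 4) (.L 2532))) (.L 2532))) (.ss 1159 (.N 4) (.sp 4 2208 (.N 4) (.ss 1223 (.N 4) (.L 2597))))) (.sp 2 10054 (.L 2532) (.sp 3 9860 (.L 2532) (.sp 5 1352 (.ss 1159 (.N 5) (.L 2597)) (.L 2597)))))) (.sp 4 2444 (.sp 2 10054 (.L 2532) (.sp 4 2208 (.N 4) (.ss 1159 (.N 4) (.L 2597)))) (.L 2597)))))) (.sp 2 9796 (.L 2468) (.sp 4 2231 (.sp 3 9409 (.sp 5 1804 (.sp 3 8958 (.L 2404) (.sp 4 1888 (.ss 1159 (.N 4) (.L 2468)) (.L 2468))) (.L 2532)) (.sp 5 1804 (.sp 2 10054 (.sp 4 1888 (.ss 1159 (.N 4) (.sp 5 1675 (.sp 2 9925 (.L 2532) (.N 4)) (.L 2532))) (.L 2532)) (.sp 4 1888 (.N 4) (.ss 1159 (.N 4) (.sp 3 9860 (.L 2532) (.sp 6 1352 (.sp 2 10183 (.L 2532) (.N 4)) (.L 2597)))))) (.sp 2 10054 (.L 2532) (.sp 3 9860 (.L 2532) (.ss 1159 (.sp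 6 1288 (.N 4) (.L 2597)) (.L 2597)))))) (.sp 3 9409 (.L 2532) (.sp 2 10054 (.L 2532) (.sp 3 9860 (.L 2532) (.ss 1159 (.sp 4 2573 (.sp 6 1288 (.sp 5 1804 (.sp 2 10183 (.L 2532) (.N 4)) (.L 2597)) (.L 2597)) (.L 2597)) (.L 2597)))))))) (.sp 4 2102 (.sp 5 1675 (.sp 2 9796 (.L 2404) (.sp 3 9409 (.ss 1417 (.sp 4 1695 (.sp 6 1417 (.sp 2 10054 (.L 2404) (.N 4)) (.L 2468)) (.L 2468)) (.L 2468)) (.ss 1417 (.sp 4 1695 (.sp 2 10054 (.sp 6 1417 (.sp 5 1481 (.sp 6 1352 (.N 4) (.sp 3 9731 (.L 2468) (.sp 2 9925 (.L 2532) (.sp 4 1523 (.N 4) (.L 2532))))) (.L 2532)) (.L 2532)) (.sp 4 1491 (.N 4) (.ss 1352 (.N 4) (.sp 2 10183 (.sp 5 1513 (.N 4) (.L 2532)) (.N 4))))) (.sp 2 10054 (.L 2532) (.sp 3 9860 (.L 2532) (.sp 6 1417 (.sp 6 1352 (.sp 4 1898 (.N 4) (.sp 2 10183 (.L 2532) (.N 4))) (.sp 4 1898 (.sp 2 10183 (.L 2532)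 (.N 4)) (.L 2597))) (.L 2597))))) (.sp 2 10054 (.L 2532) (.sp 4 1759 (.sp 3 9860 (.L 2532) (.sp 5 1546 (.ss 1481 (.sp 2 10183 (.L 2532) (.sp 4 1588 (.N 4) (.L 2597))) (.L 2597)) (.L 2597))) (.L 2597)))))) (.L 2597)) (.L 2597))))

def c2 : Cert := (.ss 1288 (.sp 2 11343 (.sp 6 1546 (.sp 2 10827 (.sp 5 1546 (.ss 1159 (.N 5) (.sp 4 3092 (.sp 4 2125 (.N 4) (.sp 3 8765 (.L 2468) (.sp 4 2608 (.sp 2 10569 (.sp 4 2366 (.N 4) (.sp 6 1352 (.N 4) (.L 2725))) (.N 4)) (.sp 3 9796 (.L 2597) (.sp 6 1352 (.sp 2 10569 (.ss 1223 (.sp 5 1352 (.N 5) (.L 2725)) (.L 2725)) (.N 5)) (.L 2725)))))) (.L 2725))) (.sp 4 3571 (.sp 4 2558 (.sp 4 2052 (.N 4) (.sp 3 8765 (.L 2468) (.sp 2 10569 (.sp 3 9667 (.L 2532) (.ss 1159 (.sp 4 2305 (.N 4) (.sp 5 1804 (.N 4) (.L 2725))) (.sp 3 10118 (.L 2597) (.sp 5 1804 (.sp 4 2305 (.N 4) (.L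 2725)) (.L 2725))))) (.ss 1159 (.N 4) (.sp 4 2305 (.N 4) (.sp 5 1804 (.N 4) (.L 2725))))))) (.sp 3 8765 (.L 2532) (.sp 3 9796 (.L 2597) (.sp 4 3064 (.ss 1159 (.sp 2 10569 (.sp 6 1288 (.sp 5 1804 (.N 5) (.L 2725)) (.L 2725)) (.N 5)) (.L 2725)) (.L 2725))))) (.L 2725))) (.ss 1159 (.N 5) (.sp 2 11085 (.sp 5 1610 (.N 5) (.sp 4 3644 (.sp 4 2627 (.N 4) (.sp 5 1836 (.N 5) (.L 2725))) (.L 2725))) (.N 5)))) (.sp 4 3571 (.sp 2 10827 (.sp 3 8765 (.L 2468) (.sp 4 2558 (.sp 6 1804 (.sp 4 2052 (.sp 4 1799 (.N 4) (.sp 2 10569 (.sp 5 1799 (.N 4) (.L 2725)) (.N 4))) (.sp 3 9796 (.L 2597) (.sp 6 1675 (.sp 5 1804 (.sp 2 10569 (.L 2725) (.N 4)) (.L 2725)) (.L 2725)))) (.L 2725)) (.L 2725))) (.ss 1159 (.N 5) (.sp 3 9023 (.L 2532) (.sp 4 2558 (.sp 4 2052 (.N 4) (.sp 6 1804 (.N 4) (.L 2725))) (.sp 3 10183 (.L 2725) (.sp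 6 1804 (.sp 2 11085 (.L 2725) (.N 5)) (.L 2725))))))) (.L 2725))) (.N 5)) (.sp 2 11343 (.sp 4 3259 (.sp 6 1675 (.sp 4 2273 (.sp 2 10827 (.sp 4 1780 (.sp 4 1534 (.N 4) (.sp 3 8765 (.L 2468) (.ss 1417 (.N 4) (.sp 2 10569 (.sp 3 9667 (.L 2532) (.sp 6 1546 (.sp 6 1481 (.N 4) (.sp 2 10440 (.L 2597) (.sp 5 1630 (.N 4) (.L 2725)))) (.L 2725))) (.N 4))))) (.sp 3 8765 (.L 2468) (.sp 3 9796 (.ss 1417 (.sp 6 1481 (.sp 2 10569 (.L 2532) (.sp 5 1675 (.N 4) (.L 2597))) (.L 2597)) (.L 2597)) (.ss 1417 (.sp 5 1675 (.sp 2 10569 (.sp 5 1481 (.N 4) (.sp 4 2026 (.ss 1352 (.N 4) (.sp 6 1513 (.N 4) (.L 2725))) (.L 2725))) (.N 4)) (.sp 5 1868 (.sp 2 10569 (.sp 4 2026 (.sp 2 10440 (.L 2597) (.N 4)) (.L 2725)) (.N 4)) (.L 2725))) (.sp 5 1739 (.sp 6 1546 (.sp 4 2026 (.sp 2 10569 (.sp 3 10182 (.L 2597) (.ss 1481 (.sp 2 10440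 (.L 2597) (.N 4)) (.L 2725))) (.N 4)) (.sp 2 10569 (.L 2725) (.sp 6 1481 (.N 4) (.L 2725)))) (.L 2725)) (.L 2725)))))) (.sp 4 1780 (.N 4) (.sp 2 11085 (.ss 1417 (.N 4) (.sp 3 8894 (.L 2532) (.sp 5 1739 (.N 4) (.sp 4 2026 (.N 4) (.L 2725))))) (.N 4)))) (.sp 3 9023 (.L 2597) (.sp 3 10183 (.ss 1417 (.sp 4 2766 (.sp 6 1481 (.sp 5 1675 (.sp 2 10827 (.L 2597) (.N 4)) (.L 2725)) (.L 2725)) (.L 2725)) (.L 2725)) (.sp 2 10827 (.ss 1417 (.sp 4 2766 (.sp 6 1481 (.sp 5 1675 (.sp 2 10569 (.L 2725) (.sp 4 2519 (.N 4) (.sp 6 1384 (.sp 2 10698 (.L 2725) (.N 4)) (.L 2725)))) (.L 2725)) (.L 2725)) (.L 2725)) (.L 2725)) (.ss 1417 (.sp 4 2766 (.sp 5 1675 (.N 4) (.sp 2 11085 (.sp 4 2519 (.N 4) (.L 2725)) (.N 4))) (.sp 6 1481 (.sp 5 1675 (.sp 2 11085 (.sp 3 10634 (.L 2725) (.sp 6 1384 (.ss 1336 (.N 5) (.L 2725)) (.L 2725)))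 (.ss 1352 (.N 5) (.sp 4 3012 (.N 4) (.L 2725)))) (.L 2725)) (.L 2725))) (.sp 4 2766 (.sp 5 1739 (.sp 2 11085 (.sp 6 1546 (.sp 4 2519 (.ss 1481 (.N 4) (.L 2725)) (.L 2725)) (.L 2725)) (.N 4)) (.L 2725)) (.L 2725))))))) (.sp 3 9023 (.L 2597) (.sp 4 2467 (.sp 6 1868 (.sp 3 10183 (.L 2725) (.sp 2 10827 (.L 2725) (.sp 4 2071 (.sp 2 11085 (.sp 5 1868 (.N 4) (.L 2725)) (.N 4)) (.sp 2 11085 (.L 2725) (.ss 1417 (.N 4) (.L 2725)))))) (.L 2725)) (.L 2725)))) (.L 2725)) (.sp 4 3259 (.sp 4 2273 (.N 4) (.sp 2 11859 (.sp 6 1675 (.sp 4 2766 (.N 4) (.sp 3 9281 (.L 2725) (.sp 2 11601 (.sp 3 10441 (.L 2725) (.ss 1417 (.ss 1352 (.N 5) (.sp 5 1707 (.N 5) (.L 2725))) (.sp 5 1739 (.sp 4 3012 (.N 4) (.L 2725)) (.L 2725)))) (.N 4)))) (.sp 4 2766 (.sp 6 1868 (.N 4) (.L 2725)) (.L 2725))) (.N 4))) (.sp 3 9539 (.L 2725) (.sp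 4 5754 (.sp 4 4506 (.sp 6 1675 (.sp 2 11859 (.ss 1417 (.sp 5 1675 (.N 5) (.L 2725)) (.L 2725)) (.N 5)) (.L 3176)) (.L 3176)) (.L 3176))))))

def c3 : Cert := (.ss 1031 (.ss 515 (.N 7) (.sp 2 12375 (.sp 2 10312 (.sp 3 6187 (.L 1889) (.sp 5 3093 (.sp 2 9281 (.L 2404) (.sp 4 4124 (.sp 3 8249 (.L 2404) (.sp 5 2577 (.sp 4 3093 (.sp 2 9796 (.sp 3 9022 (.L 2404) (.ss 773 (.sp 6 1030 (.N 6) (.L 2468)) (.L 2468))) (.ss 773 (.sp 6 1030 (.N 6) (.sp 6 1546 (.N 6) (.L 2597))) (.sp 6 1417 (.sp 3 9280 (.L 2468) (.sp 5 2319 (.sp 4 2577 (.sp 6 1095 (.ss 902 (.N 5) (.L 2597)) (.L 2597)) (.L 2597)) (.L 2597))) (.L 2597)))) (.sp 2 9796 (.L 2532) (.sp 3 9280 (.L 2532) (.ss 773 (.sp 6 1030 (.N 6) (.L 2597)) (.L 2597))))) (.sp 2 9796 (.L 2532) (.sp 3 9280 (.L 2532) (.ss 773 (.sp 6 1030 (.N 6) (.L 2597)) (.L 2597)))))) (.L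 2725))) (.L 2725))) (.ss 773 (.N 6) (.sp 2 11343 (.sp 3 6702 (.L 2211) (.sp 5 3093 (.sp 4 4124 (.sp 6 1417 (.ss 902 (.N 6) (.sp 2 10827 (.sp 2 10569 (.sp 3 8635 (.L 2404) (.sp 5 2577 (.sp 5 2319 (.N 5) (.L 2725)) (.L 2725))) (.N 6)) (.N 6))) (.sp 3 9022 (.L 2597) (.sp 5 2577 (.sp 4 3093 (.sp 2 10827 (.sp 5 2319 (.sp 4 2577 (.sp 3 9924 (.L 2597) (.sp 6 1739 (.sp 2 10569 (.L 2725) (.N 5)) (.L 2725))) (.L 2725)) (.L 2725)) (.ss 902 (.N 6) (.sp 5 2319 (.N 5) (.L 2725)))) (.L 2725)) (.L 2725)))) (.L 2725)) (.L 2725))) (.N 6)))) (.N 6))) (.sp 5 3093 (.sp 4 4124 (.ss 1546 (.sp 2 12375 (.sp 2 10312 (.L 2532) (.sp 3 7218 (.sp 2 11343 (.L 2211) (.sp 4 3093 (.sp 5 2577 (.sp 2 11859 (.L 2211) (.sp 4 2577 (.N 4) (.L 2404))) (.L 2404)) (.L 2404))) (.sp 3 9796 (.sp 5 2577 (.sp 4 3093 (.ss 1288 (.sp 2 11343 (.L 2725)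 (.sp 6 1546 (.N 5) (.L 2725))) (.L 2725)) (.L 2725)) (.L 2725)) (.sp 2 11343 (.sp 5 2577 (.sp 4 3093 (.ss 1288 (.sp 6 1546 (.sp 2 10827 (.sp 5 2319 (.sp 4 2577 (.ss 1159 (.sp 2 10569 (.L 2725) (.sp 4 2319 (.N 4) (.L 2725))) (.L 2725)) (.L 2725)) (.L 2725)) (.sp 4 2577 (.sp 4 2319 (.N 4) (.sp 2 11085 (.ss 1159 (.N 4) (.L 2725)) (.N 4))) (.ss 1159 (.sp 2 11085 (.L 2725) (.N 5)) (.L 2725)))) (.sp 2 10827 (.L 2725) (.sp 5 2319 (.sp 4 2577 (.sp 2 11085 (.L 2725) (.N 4)) (.L 2725)) (.L 2725)))) (.sp 2 10827 (.L 2725) (.sp 5 2319 (.sp 4 2577 (.sp 6 1675 (.sp 3 10569 (.L 2725) (.ss 1417 (.sp 2 11085 (.L 2725) (.N 4)) (.L 2725))) (.L 2725)) (.L 2725)) (.L 2725)))) (.L 2725)) (.L 2725)) (.ss 1288 (.sp 5 2577 (.sp 2 11859 (.ss 1159 (.N 5) (.sp 2 11601 (.sp 6 1610 (.N 5) (.sp 5 2319 (.N 5) (.L 2725))) (.N 5)))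 (.N 5)) (.sp 4 3350 (.sp 6 1546 (.ss 1159 (.N 6) (.sp 2 11859 (.L 2725) (.N 5))) (.L 3176)) (.L 3176))) (.sp 5 2577 (.sp 4 3093 (.sp 2 11859 (.sp 4 2577 (.sp 4 2319 (.N 4) (.sp 6 1675 (.sp 2 11601 (.ss 1417 (.N 4) (.L 2725)) (.N 4)) (.L 2725))) (.sp 3 10827 (.L 2725) (.sp 6 1675 (.ss 1417 (.sp 2 11601 (.L 2725) (.N 4)) (.L 2725)) (.L 2725)))) (.sp 4 2577 (.N 4) (.sp 6 1675 (.N 4) (.L 3176)))) (.L 3176)) (.L 3176))))))) (.sp 2 14437 (.sp 2 13406 (.ss 1288 (.N 5) (.sp 2 12890 (.sp 5 2577 (.N 5) (.sp 3 7733 (.L 2404) (.L 3176))) (.N 5))) (.N 5)) (.L 1048576))) (.sp 5 2577 (.sp 4 3093 (.sp 3 9281 (.sp 3 5671 (.sp 3 3866 (.sp 2 12375 (.L 2211) (.sp 3 2964 (.N 3) (.L 2532))) (.L 2597)) (.L 2725)) (.sp 3 12890 (.sp 2 12890 (.sp 2 11085 (.L 2725) (.sp 2 11987 (.sp 3 10634 (.L 2725) (.ss 1804 (.sp 5 2319 (.sp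 4 2577 (.sp 2 11536 (.L 2725) (.sp 3 11310 (.L 2725) (.sp 2 11761 (.L 2725) (.L 3176)))) (.L 2725)) (.L 2725)) (.L 2725))) (.L 3176))) (.L 3176)) (.L 1048576))) (.L 2725)) (.L 2725))) (.sp 3 10312 (.L 2725) (.L 3176))) (.sp 3 9796 (.L 2725) (.L 3176))))

def c4 : Cert := (.sp 4 8250 (.sp 5 2062 (.ss 1031 (.ss 515 (.N 7) (.sp 2 12375 c0 (.N 5))) (.sp 2 12375 (.sp 3 6703 (.sp 2 10312 (.L 1889) (.sp 4 2628 (.sp 5 1546 (.sp 2 11343 (.sp 6 1288 (.N 4) (.sp 2 10827 (.L 1889) (.sp 4 1958 (.N 4) (.L 2211)))) (.N 4)) (.sp 2 11343 (.sp 3 4124 (.L 1889) (.L 2211)) (.ss 1546 (.N 4) (.sp 3 4124 (.sp 3 2835 (.ss 1804 (.N 3) (.L 2211)) (.L 2211)) (.L 2404))))) (.sp 4 4665 (.ss 1546 (.sp 2 11343 (.L 2211) (.ss 1288 (.N 5) (.L 2211))) (.L 2211)) (.L 2532)))) (.ss 1546 (.sp 2 10312 (.sp 4 2916 (.sp 2 9281 (.sp 6 1546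 (.sp 3 7992 (.L 2211) (.sp 2 8765 (.L 2211) (.ss 1288 (.sp 5 1546 (.sp 4 1973 (.sp 6 1288 (.sp 3 8636 (.L 2211) (.sp 2 9023 (.L 2211) (.ss 1159 (.sp 5 1288 (.sp 4 1502 (.ss 1095 (.N 4) (.L 2211)) (.L 2211)) (.L 2211)) (.L 2211)))) (.L 2211)) (.L 2211)) (.L 2211)) (.L 2211)))) (.L 2211)) (.sp 6 1546 c1 (.sp 3 8507 (.L 2404) (.sp 6 1804 (.sp 2 9796 (.L 2468) (.sp 4 2231 (.sp 3 9409 (.L 2532) (.sp 5 1804 (.sp 6 1675 (.sp 2 10054 (.L 2532) (.sp 4 1888 (.ss 1288 (.N 4) (.L 2597)) (.L 2597))) (.L 2597)) (.L 2597))) (.L 2597))) (.L 2597))))) (.sp 2 9281 (.L 2468) (.sp 3 8507 (.L 2468) (.sp 4 5583 (.sp 6 1546 (.ss 1288 (.sp 4 4249 (.sp 2 9796 (.L 2532) (.sp 3 9409 (.L 2532) (.sp 6 1288 (.sp 5 1546 (.ss 1159 (.sp 4 3582 (.sp 2 10054 (.L 2532) (.ss 1095 (.N 5) (.L 2597))) (.L 2597)) (.L 2597)) (.L 2597)) (.L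 2597)))) (.L 2725)) (.L 2597)) (.L 2597)) (.L 2725))))) c2) (.sp 2 10312 (.L 2597) (.sp 4 3571 (.sp 3 9539 (.ss 1804 (.sp 4 2558 (.sp 6 1804 (.ss 1675 (.sp 2 11343 (.L 2597) (.sp 4 2052 (.N 4) (.L 2725))) (.L 2725)) (.L 2725)) (.L 2725)) (.L 2725)) (.ss 1804 (.sp 2 11343 (.sp 4 2558 (.sp 6 1804 (.ss 1675 (.sp 5 1804 (.sp 4 2052 (.sp 2 10827 (.sp 6 1675 (.sp 3 10183 (.L 2597) (.ss 1610 (.sp 5 1675 (.sp 4 1799 (.sp 2 10569 (.L 2725) (.sp 2 10698 (.L 2725) (.N 4))) (.L 2725)) (.L 2725)) (.L 2725))) (.L 2725)) (.sp 2 11085 (.sp 6 1675 (.ss 1610 (.N 4) (.sp 2 10956 (.L 2725) (.N 4))) (.L 2725)) (.N 4))) (.sp 2 10827 (.L 2725) (.sp 3 10441 (.L 2725) (.sp 6 1675 (.sp 4 2305 (.sp 2 11085 (.L 2725) (.N 4)) (.L 2725)) (.L 2725))))) (.sp 2 10827 (.L 2725) (.sp 3 10441 (.L 2725) (.sp 4 2181 (.sp 5 1933 (.sp 2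 11085 (.L 2725) (.sp 4 1992 (.N 4) (.L 2725))) (.L 2725)) (.L 2725))))) (.sp 2 10827 (.L 2725) (.sp 4 2116 (.sp 3 10441 (.L 2725) (.sp 5 1868 (.ss 1739 (.sp 2 11085 (.L 2725) (.sp 2 11214 (.L 2725) (.N 4))) (.L 2725)) (.L 2725))) (.L 2725)))) (.L 2725)) (.L 2725)) (.sp 4 2558 (.sp 2 11859 (.ss 1675 (.sp 4 2052 (.N 4) (.sp 6 1804 (.sp 2 11601 (.sp 4 2305 (.N 4) (.sp 5 1804 (.N 4) (.L 2725))) (.N 4)) (.L 2725))) (.sp 6 1868 (.sp 3 10699 (.L 2725) (.sp 4 2116 (.sp 2 11601 (.sp 5 1868 (.N 4) (.L 2725)) (.N 4)) (.sp 3 11279 (.L 2725) (.sp 2 11601 (.L 2725) (.ss 1739 (.N 4) (.L 2725)))))) (.L 2725))) (.N 4)) (.sp 3 10957 (.L 2725) (.sp 6 1804 (.sp 4 3064 (.ss 1675 (.sp 2 11859 (.sp 6 1675 (.sp 2 11601 (.L 2725) (.sp 5 1804 (.N 4) (.L 2725))) (.L 2725)) (.N 4)) (.L 3176)) (.L 3176)) (.L 3176))))) (.sp 2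 11343 (.L 2725) (.sp 2 11859 (.L 2725) (.sp 3 10957 (.L 2725) (.L 3176)))))) (.L 2725))))) (.sp 2 14437 (.sp 5 1546 (.N 5) (.sp 6 1546 (.N 5) (.ss 1546 (.N 5) (.sp 2 13406 (.sp 4 3571 (.sp 5 1804 (.N 4) (.sp 4 2687 (.N 4) (.sp 3 8046 (.L 2468) (.L 3176)))) (.sp 3 8488 (.L 2564) (.L 3176))) (.N 5))))) (.N 5)))) c3) (.sp 4 12375 (.sp 3 12375 (.ss 1031 (.ss 515 (.N 7) (.sp 2 12375 (.sp 2 10312 (.sp 2 9281 (.sp 6 1030 (.sp 5 1457 (.ss 772 (.sp 2 8765 (.L 2597) (.N 5)) (.L 2725)) (.L 2725)) (.L 2725)) (.sp 5 1457 (.ss 773 (.N 5) (.sp 2 9796 (.L 2725) (.N 5))) (.sp 5 2791 (.sp 3 9281 (.L 2725) (.sp 2 9796 (.L 2725) (.sp 5 2124 (.ss 773 (.sp 6 1030 (.N 6) (.L 3176)) (.L 3176)) (.L 3176)))) (.L 3176)))) (.sp 5 1457 (.N 5) (.ss 773 (.N 6) (.L 3176)))) (.N 6))) (.ss 1546 (.sp 2 12375 (.sp 2 10312 (.L 2725)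 (.L 3176)) (.L 3176)) (.L 3176))) (.L 1048576)) (.L 1048576)))

/-- The certificate. -/
def tree : Cert := (.ss 8250 (.sp 6 8250 (.ss 4125 (.sp 5 8250 (.sp 6 4125 (.ss 2062 (.sp 6 2062 (.sp 5 4125 (.sp 2 8250 (.sp 2 4125 (.L 1246) (.sp 3 4125 (.L 1246) (.sp 2 6187 (.L 1889) (.ss 1031 (.sp 5 2062 (.sp 6 1031 (.sp 2 7218 (.L 1889) (.sp 3 6187 (.L 1889) (.sp 4 4125 (.ss 515 (.ss 257 (.N 7) (.sp 5 727 (.N 5) (.L 1889))) (.L 1889)) (.ss 515 (.ss 257 (.N 7) (.L 2532)) (.L 2532))))) (.L 2211)) (.L 2211)) (.L 2211))))) c4) (.sp 4 8250 (.ss 1031 (.sp 2 10312 (.L 2725) (.ss 515 (.N 7) (.sp 3 10312 (.L 2725) (.L 3176)))) (.L 2725)) (.L 3176))) (.sp 2 9281 (.L 2404) (.sp 4 5832 (.sp 5 3947 (.sp 6 3004 (.sp 5 3004 (.sp 4 3947 (.sp 6 2533 (.ss 1031 (.ss 515 (.N 7) (.sp 2 12890 (.sp 2 11085 (.sp 3 6573 (.L 2211)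 (.L 2725)) (.ss 773 (.N 7) (.sp 2 11987 (.sp 5 2533 (.sp 6 2297 (.N 5) (.sp 3 7142 (.L 2211) (.L 2725))) (.L 2725)) (.N 6)))) (.N 6))) (.sp 3 9281 (.sp 4 3004 (.sp 3 5671 (.sp 3 3866 (.sp 5 2533 (.sp 2 12890 (.sp 2 11085 (.L 1889) (.sp 2 11987 (.L 2211) (.sp 6 2297 (.ss 1546 (.N 4) (.L 2404)) (.L 2404)))) (.N 4)) (.L 2532)) (.L 2597)) (.L 2725)) (.L 2597)) (.sp 3 12890 (.sp 2 12890 (.sp 2 11085 (.L 2725) (.sp 5 2533 (.sp 4 3004 (.sp 6 2297 (.ss 1546 (.sp 2 11987 (.sp 3 10634 (.L 2725) (.sp 5 2297 (.sp 4 2533 (.sp 2 11536 (.L 2725) (.N 4)) (.L 2725)) (.L 2725))) (.N 4)) (.L 3176)) (.L 3176)) (.L 3176)) (.L 3176))) (.L 3176)) (.L 1048576)))) (.ss 1031 (.ss 515 (.N 7) (.sp 3 9516 (.L 2532) (.L 3176))) (.L 2725))) (.sp 3 10223 (.L 2725) (.sp 3 13361 (.sp 2 13361 (.sp 2 11792 (.L 2725) (.L 3176)) (.L 1048576))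 (.L 1048576)))) (.sp 3 9752 (.L 2597) (.sp 3 13126 (.sp 3 11439 (.L 2725) (.L 3176)) (.L 1048576)))) (.L 2725)) (.L 2725)) (.sp 4 11166 (.sp 6 3093 (.sp 5 4124 (.sp 4 8499 (.sp 3 11166 (.L 2725) (.L 3176)) (.L 3176)) (.L 3176)) (.L 3176)) (.L 1048576))))) (.sp 2 9281 (.L 2404) (.L 2725))) (.L 2725)) (.L 3176)) (.L 2725)) (.L 3176)) (.L 3176))

/-- The check of the tree. -/
theorem tree_ok : chk 8 tab false tree (0, 16500) (List.replicate 7 (0, 16500)) = true := by decide +kernel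

end Crest.Agent.Propeller.Gen.K8
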