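/-
The induction step of the Propeller bound at level `k = 8`, in dimension 7.
-/
import Crest.Agent.Lib.Propeller.GenCap
import Crest.Agent.Lib.Propeller.K8Data

set_option autoImplicit false
set_option linter.unusedSectionVars false
open MeasureTheory ProbabilityTheory
open scoped RealInnerProductSpace

namespace Crest.Agent.Propeller

open Gen

universe u

variable {E : Type u} [NormedAddCommGroup E] [InnerProductSpace ℝ E] [FiniteDimensional ℝ E]
  [MeasurableSpace E] [BorelSpace E]

/-- The table of tangents of level `8` is correct. -/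
theorem K8.tab_ok : PT.allOK 5 32 1152921504606846976 f7 K8.tab = true := by decide +kernel

/-- **The step `k = 8`.** -/
theorem step8 (hn : Module.finrank ℝ E = 7) (hP : PF E 7) (z : Fin 8 → E) (A : Fin 8 → Set E)
    (hc : Critical z A) (hR : R < S z) : False := by
  classical
  have hpi := Real.pi_pos
  have hP' : PF E (8 - 1) := hP
  have hneg : ∀ a b : Fin 8, a ≠ b → ⟪z a, z b⟫ < 0 := fun a b hab => hc.inner_neg hR hP' hab
  have hne : ∀ i j : Fin 8, j ≠ i → z j ≠ z i := fun i =>
    ne_of_inner_neg (fun j hj => hneg j i hj)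
  have hr0 : 0 < Real.sqrt (2 * Real.pi) := Real.sqrt_pos.2 (by positivity)
  have hx0 : ∀ i, 0 ≤ Real.sqrt (2 * Real.pi) * ‖z i‖ := fun i => by positivity
  have hval : ∀ i, K8.tab.Valid (Real.sqrt (2 * Real.pi) * ‖z i‖) ((stdGaussian E).real (A i)) :=
    fun i => valid_of_tangent (hx0 i) (by norm_num) (by norm_num) f7_eq
      (fun τ h0 h1 => hc.tangent7 hn i (hne i) h0 h1) K8.tab K8.tab_ok
  have hle1 : ∀ i, (stdGaussian E).real (A i) ≤ 1 := by
    intro i
    have h1 : ∑ i, (stdGaussian E).real (A i) = 1 := sum_real_cells hc.part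
    have h2 := Finset.single_le_sum (f := fun i => (stdGaussian E).real (A i))
      (fun i _ => measureReal_nonneg) (Finset.mem_univ i)
    linarith
  have hX0 : ∀ i, 16384 * (Real.sqrt (2 * Real.pi) * ‖z i‖) ≤ ((16500 : ℕ) : ℝ) := by
    intro i
    have h1 := hc.tangent7 hn i (hne i) (τ := 1 / 1024) (by norm_num) (by norm_num)
    have h2 := hle1 i
    unfold P7 at h1
    generalize Real.sqrt (2 * Real.pi) * ‖z i‖ = x at h1 ⊢
    generalize (stdGaussian E).real (A i) = a at h1 h2
    push_cast at h1 ⊢
    norm_num at h1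
    linarith
  exact step_of_chk (by norm_num) hP' hc hR K8.tab hval 16500 hX0 (by norm_num) K8.tree K8.tree_ok

end Crest.Agent.Propeller
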