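import Crest.Agent.Lib.Propeller.PhiNum
import Mathlib.Analysis.Real.Pi.Bounds

/-!
# A rigorous fixed point table of `Phi`

* `gIq`, `gIq_cast`: `gI` computed in `ℚ`;
* `phi0Hi`, `phi0Lo`: rational bounds for `phi0` (18 digits);
* `hiQ`, `loQ`, `Phi_le_hiQ`, `loQ_le_Phi`: `ℚ`-computable bounds for `Phi c`, `c ≥ 0` rational,
  with any number of Taylor terms (`m`);
* `chkTab`, `chkTab_spec`: the generic check of a table of pairs `(lo, hi)` on `a₀/H, (a₀+1)/H, ...`
  with denominator `D`, to be run with `decide +kernel`;
* `tab20`, `tab20_ok`: the table on `a/20`, `a ≤ 160`, `D = 10^12`;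
* `hi20 a`, `lo20 a`, `Phi_le_hi20`, `lo20_le_Phi`, `Phi_le_hi20_of_le`, `lo20_le_Phi_of_le`:
  the table as total functions on `ℕ` (above the table `hi20 = D`, `lo20` = last entry).
-/

set_option autoImplicit false

namespace Crest.Agent.Propeller.PhiTab

open Crest.Agent.Propeller

/-- Returns `(u_n, ∑_{k ≤ n} u_k/(2k+1))`, `u_k = (-1)^k c^(2k+1)/(2^k k!)`. -/
def gIqAux (c : ℚ) : ℕ → ℚ × ℚ
  | 0 => (c, c)
  | n + 1 =>
    let p := gIqAux c n
    let u := -(p.1 * (c * c)) / (2 * ((n : ℚ) + 1))
    (u, p.2 + u / (2 * (n : ℚ) + 3))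

/-- `gI` computed in `ℚ`. -/
def gIq (n : ℕ) (c : ℚ) : ℚ := (gIqAux c n).2

lemma gIqAux_fst_cast (c : ℚ) (n : ℕ) :
    (((gIqAux c n).1 : ℚ) : ℝ)
      = (-1 : ℝ) ^ n * (c : ℝ) ^ (2 * n + 1) / ((2 : ℝ) ^ n * (n.factorial : ℝ)) := by
  induction n with
  | zero => simp [gIqAux]
  | succ n ih =>
    simp only [gIqAux]
    push_cast
    rw [ih, Nat.factorial_succ]
    have h1 : (n.factorial : ℝ) ≠ 0 := by positivity
    have h2 : ((n : ℝ) + 1) ≠ 0 := by positivity
    push_cast
    field_simp
    ring

lemma gIq_cast (n : ℕ) (c : ℚ) : ((gIq n c : ℚ) : ℝ) = gI n (c : ℝ) := by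
  induction n with
  | zero => simp [gIq, gIqAux, gI]
  | succ n ih =>
    have h : gIq (n + 1) c = gIq n c + (gIqAux c (n + 1)).1 / (2 * (n : ℚ) + 3) := by
      simp [gIq, gIqAux]
    rw [h]
    push_cast
    rw [ih, gIqAux_fst_cast]
    unfold gI
    rw [Finset.sum_range_succ _ (n + 1)]
    congr 1
    have h3 : ((2 * (n + 1) + 1 : ℕ) : ℝ) = 2 * (n : ℝ) + 3 := by push_cast; ring
    rw [h3, div_div]

/-- Upper bound for `phi0`. -/
def phi0Hi : ℚ := 398942280401432678 / 10 ^ 18

/-- Lower bound for `phi0`. -/
def phi0Lo : ℚ := 398942280401432677 / 10 ^ 18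

lemma phi0_lt_hi : phi0 < (phi0Hi : ℝ) := by
  have h1 : phi0 ^ 2 < ((phi0Hi : ℚ) : ℝ) ^ 2 := by
    rw [phi0_sq]
    have := Real.pi_gt_d20
    simp only [phi0Hi]
    push_cast
    rw [div_lt_iff₀ (by positivity)]
    nlinarith
  have h0 : (0 : ℝ) ≤ ((phi0Hi : ℚ) : ℝ) := by
    simp only [phi0Hi]
    push_cast
    positivity
  exact lt_of_pow_lt_pow_left₀ 2 h0 h1

lemma lo_lt_phi0 : ((phi0Lo : ℚ) : ℝ) < phi0 := by
  have h1 : ((phi0Lo : ℚ) : ℝ) ^ 2 < phi0 ^ 2 := by
    rw [phi0_sq]
    have := Real.pi_lt_d20
    simp only [phi0Lo]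
    push_cast
    rw [lt_div_iff₀ (by positivity)]
    nlinarith
  exact lt_of_pow_lt_pow_left₀ 2 phi0_pos.le h1

lemma phi0Hi_pos : (0 : ℝ) < ((phi0Hi : ℚ) : ℝ) := lt_trans phi0_pos phi0_lt_hi

lemma phi0Lo_pos : (0 : ℝ) < ((phi0Lo : ℚ) : ℝ) := by
  simp only [phi0Lo]
  push_cast
  positivity

/-- Computable upper bound for `Phi c`, `c ≥ 0`. -/
def hiQ (m : ℕ) (c : ℚ) : ℚ := 1 / 2 + phi0Hi * gIq (2 * m) c

/-- Computable lower bound for `Phi c`, `c ≥ 0`. -/
def loQ (m : ℕ) (c : ℚ) : ℚ := 1 / 2 + phi0Lo * gIq (2 * m + 1) c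

theorem Phi_le_hiQ (m : ℕ) {c : ℚ} (hc : 0 ≤ c) : Phi (c : ℝ) ≤ ((hiQ m c : ℚ) : ℝ) := by
  have hc' : (0 : ℝ) ≤ (c : ℝ) := by exact_mod_cast hc
  have h1 := Phi_le m hc'
  have h2 : 0 ≤ gI (2 * m) (c : ℝ) := by
    refine le_trans ?_ (le_gI_even m hc')
    exact intervalIntegral.integral_nonneg hc' fun x _ => (Real.exp_pos _).le
  have h3 := mul_le_mul_of_nonneg_right phi0_lt_hi.le h2
  unfold hiQ
  push_cast
  rw [gIq_cast]
  linarith

theorem loQ_le_Phi (m : ℕ) {c : ℚ} (hc : 0 ≤ c) : ((loQ m c : ℚ) : ℝ) ≤ Phi (c : ℝ) := by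
  have hc' : (0 : ℝ) ≤ (c : ℝ) := by exact_mod_cast hc
  have h1 := le_Phi m hc'
  unfold loQ
  push_cast
  rw [gIq_cast]
  rcases le_total 0 (gI (2 * m + 1) (c : ℝ)) with h2 | h2
  · have h3 := mul_le_mul_of_nonneg_right lo_lt_phi0.le h2
    linarith
  · have h3 : Phi 0 ≤ Phi (c : ℝ) := Phi_mono hc'
    rw [Phi_zero] at h3
    have h4 := mul_nonpos_of_nonneg_of_nonpos phi0Lo_pos.le h2
    linarith

/-- Check of a table of `(lo, hi)` on the points `a/H`, `a = a₀, a₀+1, ...`, denominator `D`. -/
def chkTab (H D m : ℕ) : List (ℕ × ℕ) → ℕ → Bool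
  | [], _ => true
  | p :: t, a =>
    decide (((p.1 : ℚ) / D) ≤ loQ m ((a : ℚ) / H)) &&
    decide (hiQ m ((a : ℚ) / H) ≤ ((p.2 : ℚ) / D)) && chkTab H D m t (a + 1)

theorem chkTab_spec {H D m : ℕ} {T : List (ℕ × ℕ)} {a₀ : ℕ} (h : chkTab H D m T a₀ = true)
    (i : ℕ) (hi : i < T.length) :
    ((T[i]).1 : ℝ) / D ≤ Phi (((a₀ + i : ℕ) : ℝ) / H) ∧
      Phi (((a₀ + i : ℕ) : ℝ) / H) ≤ ((T[i]).2 : ℝ) / D := by
  induction T generalizing a₀ i with
  | nil => simp at hi
  | cons p t ih =>
    simp only [chkTab, Bool.and_eq_true, decide_eq_true_eq] at h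
    rcases i with _ | i
    · have hc : (0 : ℚ) ≤ (a₀ : ℚ) / H := by positivity
      have h1 := loQ_le_Phi m hc
      have h2 := Phi_le_hiQ m hc
      have h3 : (((p.1 : ℚ) / D : ℚ) : ℝ) ≤ ((loQ m ((a₀ : ℚ) / H) : ℚ) : ℝ) := by
        exact_mod_cast h.1.1
      have h4 : ((hiQ m ((a₀ : ℚ) / H) : ℚ) : ℝ) ≤ (((p.2 : ℚ) / D : ℚ) : ℝ) := by
        exact_mod_cast h.1.2
      push_cast at h1 h2 h3 h4
      simp only [List.getElem_cons_zero, Nat.add_zero]
      exact ⟨h3.trans h1, h2.trans h4⟩
    · have hi' : i < t.length := by simpa using hi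
      have := ih h.2 i hi'
      simp only [List.getElem_cons_succ]
      rw [show a₀ + (i + 1) = a₀ + 1 + i by ring]
      exact this

/-- The table on `a/20`, `a ≤ 160`, denominator `10^12`, pairs `(lo, hi)`. -/
def tab20 : List (ℕ × ℕ) := [
  (500000000000, 500000000000),
  (519938805838, 519938805839),
  (539827837277, 539827837278),
  (559617692370, 559617692371),
  (579259709439, 579259709440),
  (598706325682, 598706325683),
  (617911422188, 617911422189),
  (636830651175, 636830651176),
  (655421741610, 655421741611),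
  (673644779712, 673644779713),
  (691462461274, 691462461275),
  (708840313211, 708840313212),
  (725746882249, 725746882250),
  (742153889194, 742153889195),
  (758036347776, 758036347777),
  (773372647623, 773372647624),
  (788144601416, 788144601417),
  (802337456877, 802337456878),
  (815939874653, 815939874654),
  (828943873691, 828943873692),
  (841344746068, 841344746069),
  (853140943624, 853140943625),
  (864333939053, 864333939054),
  (874928064362, 874928064363),
  (884930329778, 884930329779),
  (894350226333, 894350226334),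
  (903199515414, 903199515415),
  (911492008562, 911492008563),
  (919243340766, 919243340767),
  (926470740390, 926470740391),
  (933192798731, 933192798732),
  (939429241997, 939429241998),
  (945200708300, 945200708301),
  (950528531966, 950528531967),
  (955434537241, 955434537242),
  (959940843136, 959940843137),
  (964069680887, 964069680888),
  (967843225204, 967843225205),
  (971283440183, 971283440184),
  (974411940478, 974411940479),
  (977249868051, 977249868052),
  (979817784594, 979817784595),
  (982135579437, 982135579438),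
  (984222392608, 984222392609),
  (986096552486, 986096552487),
  (987775527344, 987775527345),
  (989275889978, 989275889979),
  (990613294465, 990613294466),
  (991802464075, 991802464076),
  (992857189264, 992857189265),
  (993790334674, 993790334675),
  (994613854045, 994613854046),
  (995338811976, 995338811977),
  (995975411457, 995975411458),
  (996533026196, 996533026197),
  (997020236764, 997020236765),
  (997444869669, 997444869670),
  (997814038545, 997814038546),
  (998134186699, 998134186700),
  (998411130352, 998411130353),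
  (998650101968, 998650101969),
  (998855793168, 998855793169),
  (999032396786, 999032396787),
  (999183647687, 999183647688),
  (999312862062, 999312862063),
  (999422974957, 999422974958),
  (999516575857, 999516575858),
  (999595942198, 999595942199),
  (999663070734, 999663070735),
  (999719706723, 999719706724),
  (999767370920, 999767370921),
  (999807384424, 999807384425),
  (999840891409, 999840891410),
  (999868879845, 999868879846),
  (999892200266, 999892200267),
  (999911582714, 999911582715),
  (999927651956, 999927651957),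
  (999940941087, 999940941088),
  (999951903655, 999951903656),
  (999960924403, 999960924404),
  (999968328758, 999968328759),
  (999974391183, 999974391184),
  (999979342493, 999979342494),
  (999983376236, 999983376237),
  (999986654250, 999986654251),
  (999989311474, 999989311475),
  (999991460094, 999991460095),
  (999993193123, 999993193124),
  (999994587456, 999994587457),
  (999995706485, 999995706486),
  (999996602326, 999996602327),
  (999997317704, 999997317705),
  (999997887545, 999997887546),
  (999998340324, 999998340325),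
  (999998699192, 999998699193),
  (999998982916, 999998982917),
  (999999206671, 999999206672),
  (999999382692, 999999382693),
  (999999520816, 999999520817),
  (999999628932, 999999628933),
  (999999713348, 999999713349),
  (999999779094, 999999779095),
  (999999830173, 999999830174),
  (999999869756, 999999869757),
  (999999900355, 999999900356),
  (999999923950, 999999923951),
  (999999942098, 999999942099),
  (999999956022, 999999956023),
  (999999966679, 999999966680),
  (999999974815, 999999974816),
  (999999981010, 999999981011),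
  (999999985716, 999999985717),
  (999999989282, 999999989283),
  (999999991977, 999999991978),
  (999999994009, 999999994010),
  (999999995537, 999999995538),
  (999999996684, 999999996685),
  (999999997542, 999999997543),
  (999999998182, 999999998183),
  (999999998659, 999999998660),
  (999999999013, 999999999014),
  (999999999275, 999999999276),
  (999999999469, 999999999470),
  (999999999612, 999999999613),
  (999999999717, 999999999718),
  (999999999794, 999999999795),
  (999999999851, 999999999852),
  (999999999892, 999999999893),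
  (999999999922, 999999999923),
  (999999999944, 999999999945),
  (999999999959, 999999999960),
  (999999999971, 999999999972),
  (999999999979, 999999999980),
  (999999999985, 999999999986),
  (999999999989, 999999999990),
  (999999999992, 999999999993),
  (999999999994, 999999999995),
  (999999999996, 999999999997),
  (999999999997, 999999999998),
  (999999999998, 999999999999),
  (999999999998, 999999999999),
  (999999999999, 1000000000000),
  (999999999999, 1000000000000),
  (999999999999, 1000000000000),
  (999999999999, 1000000000000),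
  (999999999999, 1000000000000),
  (999999999999, 1000000000000),
  (999999999999, 1000000000000),
  (999999999999, 1000000000000),
  (999999999999, 1000000000000),
  (999999999999, 1000000000000),
  (999999999999, 1000000000000),
  (999999999999, 1000000000000),
  (999999999999, 1000000000000),
  (999999999999, 1000000000000),
  (999999999999, 1000000000000),
  (999999999999, 1000000000000),
  (999999999999, 1000000000000),
  (999999999999, 1000000000000),
  (999999999999, 1000000000000),
  (999999999999, 1000000000000)
]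

/-- The table is correct: 40 Taylor terms are not enough above `x = 5`, `m = 70` is. -/
theorem tab20_ok : chkTab 20 (10 ^ 12) 70 tab20 0 = true := by
  decide +kernel

lemma tab20_length : tab20.length = 161 := by
  decide +kernel

/-- Fixed point upper value at `a/20` (units `10^-12`); `10^12` above the table. -/
def hi20 (a : ℕ) : ℕ := (tab20.getD a (0, 10 ^ 12)).2

/-- Fixed point lower value at `a/20` (units `10^-12`); the last entry above the table. -/
def lo20 (a : ℕ) : ℕ := (tab20.getD a (999999999999, 0)).1

lemma tab20_spec (i : ℕ) (hi : i < tab20.length) :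
    ((tab20[i]).1 : ℝ) / 10 ^ 12 ≤ Phi ((i : ℝ) / 20) ∧
      Phi ((i : ℝ) / 20) ≤ ((tab20[i]).2 : ℝ) / 10 ^ 12 := by
  have h := chkTab_spec tab20_ok i hi
  simp only [Nat.zero_add, Nat.cast_pow, Nat.cast_ofNat] at h
  exact h

theorem Phi_le_hi20 (a : ℕ) : Phi ((a : ℝ) / 20) ≤ (hi20 a : ℝ) / 10 ^ 12 := by
  by_cases ha : a < tab20.length
  · have h := (tab20_spec a ha).2
    have h2 : tab20.getD a (0, 10 ^ 12) = tab20[a] := by simp [List.getD, ha]
    unfold hi20
    rw [h2]
    exact h
  · have h2 : tab20.getD a (0, 10 ^ 12) = (0, 10 ^ 12) := by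
      simp [List.getD, not_lt.1 ha]
    unfold hi20
    rw [h2]
    have h3 : (((10 ^ 12 : ℕ) : ℝ)) / 10 ^ 12 = 1 := by norm_num
    simp only
    rw [h3]
    exact Phi_le_one _

theorem lo20_le_Phi (a : ℕ) : (lo20 a : ℝ) / 10 ^ 12 ≤ Phi ((a : ℝ) / 20) := by
  by_cases ha : a < tab20.length
  · have h := (tab20_spec a ha).1
    have h2 : tab20.getD a (999999999999, 0) = tab20[a] := by simp [List.getD, ha]
    unfold lo20
    rw [h2]
    exact h
  · have h2 : tab20.getD a (999999999999, 0) = (999999999999, 0) := by
      simp [List.getD, not_lt.1 ha]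
    unfold lo20
    rw [h2]
    have h160 : (160 : ℕ) < tab20.length := by rw [tab20_length]; norm_num
    have h3 := (tab20_spec 160 h160).1
    have h4 : ∀ h : (160 : ℕ) < tab20.length, (tab20[160]'h).1 = 999999999999 := by
      decide +kernel
    rw [h4 h160] at h3
    have hm : (((160 : ℕ) : ℝ)) / 20 ≤ (a : ℝ) / 20 := by
      have : (161 : ℝ) ≤ a := by
        rw [tab20_length] at ha
        exact_mod_cast not_lt.1 ha
      push_cast
      linarith
    exact h3.trans (Phi_mono hm)

/-- Upper bound at any real point below a grid point. -/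
theorem Phi_le_hi20_of_le {x : ℝ} {a : ℕ} (h : x ≤ (a : ℝ) / 20) :
    Phi x ≤ (hi20 a : ℝ) / 10 ^ 12 :=
  (Phi_mono h).trans (Phi_le_hi20 a)

/-- Lower bound at any real point above a grid point. -/
theorem lo20_le_Phi_of_le {x : ℝ} {a : ℕ} (h : (a : ℝ) / 20 ≤ x) :
    (lo20 a : ℝ) / 10 ^ 12 ≤ Phi x :=
  (lo20_le_Phi a).trans (Phi_mono h)

/-- The mass of a grid cell. -/
theorem Phi_sub_le_tab {a b : ℕ} {x y : ℝ} (hx : (a : ℝ) / 20 ≤ x) (hy : y ≤ (b : ℝ) / 20) :
    Phi y - Phi x ≤ ((hi20 b : ℝ) - lo20 a) / 10 ^ 12 := by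
  have h1 := lo20_le_Phi_of_le hx
  have h2 := Phi_le_hi20_of_le hy
  rw [sub_div]
  linarith

end Crest.Agent.Propeller.PhiTab
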