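import Crest.Agent.Lib.Propeller.GainGrid

/-!
# Step-function bounds for the first and third Gaussian moments (row 215)

`∫⁻_{n>0} n^p h(n) dγ ≤ φ₀ (∑_{j<20} Hv(j+1) (A(j/4) - A((j+1)/4)) + A(5))`
for a monotone `0 ≤ h ≤ 1` with `h(j/4) ≤ Hv j` (`1 ≤ j ≤ 20`).
-/

set_option autoImplicit false
open MeasureTheory ProbabilityTheory Set Filter
open scoped ENNReal

namespace Crest.Agent.Propeller.AB

open Crest.Agent.Propeller

noncomputable def ee (j : ℕ) : ℝ := Real.exp (-(((j : ℝ) / 4) ^ 2) / 2)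
noncomputable def dd1 (j : ℕ) : ℝ := ee j - ee (j + 1)
noncomputable def dd3 (j : ℕ) : ℝ :=
  (((j : ℝ) / 4) ^ 2 + 2) * ee j - ((((j : ℝ) + 1) / 4) ^ 2 + 2) * ee (j + 1)

/-- The generic step bound. -/
lemma step_gen (u A : ℝ → ℝ) (hu : Integrable u (gaussianReal 0 1))
    (hum : Measurable u)
    (hu0 : ∀ n, 0 < n → 0 ≤ u n)
    (hA : ∀ c, ∫ x in Ioi c, u x ∂(gaussianReal 0 1) = phi0 * A c)
    (h : ℝ → ℝ) (hm : Monotone h) (h0 : ∀ n, 0 ≤ h n) (h1 : ∀ n, h n ≤ 1) (Hv : ℕ → ℝ)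
    (hHv : ∀ j : ℕ, 1 ≤ j → j ≤ 20 → h ((j : ℝ) / 4) ≤ Hv j) :
    ∫⁻ n in Ioi (0 : ℝ), ENNReal.ofReal (u n * h n) ∂(gaussianReal 0 1)
      ≤ ENNReal.ofReal (phi0 * (∑ j ∈ Finset.range 20,
          Hv (j + 1) * (A ((j : ℝ) / 4) - A (((j : ℝ) + 1) / 4)) + A 5)) := by
  classical
  set γ : Measure ℝ := gaussianReal 0 1 with hγ
  have hHv0 : ∀ j, j < 20 → 0 ≤ Hv (j + 1) := fun j hj =>
    (h0 _).trans (hHv (j + 1) (by omega) (by omega))
  let S : ℕ → Set ℝ := fun j => Ioc ((j : ℝ) / 4) (((j : ℝ) + 1) / 4)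
  have hSm : ∀ j, MeasurableSet (S j) := fun j => measurableSet_Ioc
  let G : ℝ → ℝ≥0∞ := fun n =>
    ∑ j ∈ Finset.range 20, (S j).indicator (fun n => ENNReal.ofReal (Hv (j + 1) * u n)) n
      + (Ioi (5 : ℝ)).indicator (fun n => ENNReal.ofReal (u n)) n
  have hle : ∀ n ∈ Ioi (0 : ℝ), ENNReal.ofReal (u n * h n) ≤ G n := by
    intro n hn
    have hn0 : (0 : ℝ) < n := hn
    have hun := hu0 n hn0
    by_cases h5 : 5 < n
    · refine le_trans ?_ (le_add_self)
      rw [indicator_of_mem (show n ∈ Ioi (5 : ℝ) from h5)]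
      refine ENNReal.ofReal_le_ofReal ?_
      nlinarith [h1 n]
    · push Not at h5
      refine le_trans ?_ (le_self_add)
      have hc1 : 1 ≤ ⌈4 * n⌉₊ := Nat.one_le_iff_ne_zero.mpr
        (Nat.ceil_pos.mpr (by positivity)).ne'
      have hc20 : ⌈4 * n⌉₊ ≤ 20 := Nat.ceil_le.mpr (by push_cast; linarith)
      have hcle : 4 * n ≤ (⌈4 * n⌉₊ : ℝ) := Nat.le_ceil _
      have hclt : (⌈4 * n⌉₊ : ℝ) < 4 * n + 1 := Nat.ceil_lt_add_one (by positivity)
      generalize ⌈4 * n⌉₊ = c at hc1 hc20 hcle hclt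
      obtain ⟨j, rfl⟩ : ∃ j, c = j + 1 := ⟨c - 1, by omega⟩
      have hj : j < 20 := by omega
      have hjmem : j ∈ Finset.range 20 := Finset.mem_range.mpr hj
      have hcast : ((j + 1 : ℕ) : ℝ) = (j : ℝ) + 1 := by push_cast; ring
      rw [hcast] at hcle hclt
      have hnS : n ∈ S j := by
        constructor
        · show (j : ℝ) / 4 < n
          linarith
        · show n ≤ ((j : ℝ) + 1) / 4
          linarith
      refine le_trans ?_ (Finset.single_le_sum (f := fun j =>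
        (S j).indicator (fun n => ENNReal.ofReal (Hv (j + 1) * u n)) n)
        (fun _ _ => zero_le) hjmem)
      show ENNReal.ofReal (u n * h n) ≤ (S j).indicator _ n
      rw [indicator_of_mem hnS]
      refine ENNReal.ofReal_le_ofReal ?_
      have h2 : h n ≤ h (((j + 1 : ℕ) : ℝ) / 4) := hm (by rw [hcast]; linarith)
      have h3 := hHv (j + 1) (by omega) (by omega)
      have h4 : h n ≤ Hv (j + 1) := h2.trans h3
      nlinarith
  have hcell : ∀ j, j < 20 → ∫⁻ n, (S j).indicator (fun n => ENNReal.ofReal (Hv (j + 1) * u n)) n ∂γ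
      = ENNReal.ofReal (phi0 * (Hv (j + 1) * (A ((j : ℝ) / 4) - A (((j : ℝ) + 1) / 4)))) := by
    intro j hj
    rw [lintegral_indicator (hSm j)]
    have hint : IntegrableOn (fun n => Hv (j + 1) * u n) (S j) γ :=
      (hu.const_mul _).integrableOn
    rw [← ofReal_integral_eq_lintegral_ofReal hint]
    · congr 1
      rw [integral_const_mul]
      have hsub : Ioi (((j : ℝ) + 1) / 4) ⊆ Ioi ((j : ℝ) / 4) := fun x hx => by
        have : ((j : ℝ) + 1) / 4 < x := hx
        show (j : ℝ) / 4 < x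
        linarith
      have hdiff : S j = Ioi ((j : ℝ) / 4) \ Ioi (((j : ℝ) + 1) / 4) := by
        ext x
        simp only [S, mem_Ioc, Set.mem_sdiff, mem_Ioi, not_lt]
      have h6 : ∫ x in S j, u x ∂γ = phi0 * A ((j : ℝ) / 4) - phi0 * A (((j : ℝ) + 1) / 4) := by
        rw [hdiff, setIntegral_sdiff measurableSet_Ioi hu.integrableOn hsub, hA, hA]
      rw [h6]
      ring
    · filter_upwards [ae_restrict_mem (hSm j)] with n hn
      have hn0 : 0 < n := by
        have h7 : (j : ℝ) / 4 < n := hn.1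
        have h8 : (0 : ℝ) ≤ (j : ℝ) / 4 := by positivity
        linarith
      simp only [Pi.zero_apply]
      exact mul_nonneg (hHv0 j hj) (hu0 n hn0)
  have htail : ∫⁻ n, (Ioi (5 : ℝ)).indicator (fun n => ENNReal.ofReal (u n)) n ∂γ
      = ENNReal.ofReal (phi0 * A 5) := by
    rw [lintegral_indicator measurableSet_Ioi]
    rw [← ofReal_integral_eq_lintegral_ofReal hu.integrableOn]
    · rw [hA]
    · filter_upwards [ae_restrict_mem (measurableSet_Ioi (a := (5 : ℝ)))] with n hn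
      have hn0 : (0 : ℝ) < n := by
        have : (5 : ℝ) < n := hn
        linarith
      simpa using hu0 n hn0
  have hcellm : ∀ j ∈ Finset.range 20, Measurable fun n =>
      (S j).indicator (fun n => ENNReal.ofReal (Hv (j + 1) * u n)) n := fun j _ =>
    ((hum.const_mul _).ennreal_ofReal).indicator (hSm j)
  have htailm : Measurable fun n => (Ioi (5 : ℝ)).indicator (fun n => ENNReal.ofReal (u n)) n :=
    (hum.ennreal_ofReal).indicator measurableSet_Ioi
  calc ∫⁻ n in Ioi (0 : ℝ), ENNReal.ofReal (u n * h n) ∂γ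
      ≤ ∫⁻ n in Ioi (0 : ℝ), G n ∂γ := by
        refine setLIntegral_mono' measurableSet_Ioi hle
    _ ≤ ∫⁻ n, G n ∂γ := setLIntegral_le_lintegral _ _
    _ = ∑ j ∈ Finset.range 20, ENNReal.ofReal (phi0 * (Hv (j + 1) * (A ((j : ℝ) / 4) - A (((j : ℝ) + 1) / 4))))
          + ENNReal.ofReal (phi0 * A 5) := by
        show ∫⁻ n, (∑ j ∈ Finset.range 20, (S j).indicator (fun n => ENNReal.ofReal (Hv (j + 1) * u n)) n
            + (Ioi (5 : ℝ)).indicator (fun n => ENNReal.ofReal (u n)) n) ∂γ = _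
        rw [lintegral_add_right _ htailm, lintegral_finsetSum _ hcellm, htail]
        congr 1
        refine Finset.sum_congr rfl fun j hj => hcell j (Finset.mem_range.mp hj)
    _ ≤ _ := by
        by_cases hnn : ∀ j ∈ Finset.range 20, 0 ≤ phi0 * (Hv (j + 1) * (A ((j : ℝ) / 4) - A (((j : ℝ) + 1) / 4)))
        · have htailnn : 0 ≤ phi0 * A 5 ∨ True := Or.inr trivial
          by_cases hA5 : 0 ≤ phi0 * A 5
          · rw [← ENNReal.ofReal_sum_of_nonneg hnn, ← ENNReal.ofReal_add (Finset.sum_nonneg hnn) hA5]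
            refine ENNReal.ofReal_le_ofReal (le_of_eq ?_)
            rw [mul_add, Finset.mul_sum]
          · exfalso
            apply hA5
            rw [← hA]
            refine setIntegral_nonneg measurableSet_Ioi fun x hx => hu0 x ?_
            have : (5 : ℝ) < x := hx
            linarith
        · exfalso
          apply hnn
          intro j hj
          have hj' := Finset.mem_range.mp hj
          have : phi0 * (Hv (j + 1) * (A ((j : ℝ) / 4) - A (((j : ℝ) + 1) / 4)))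
              = Hv (j + 1) * (phi0 * A ((j : ℝ) / 4) - phi0 * A (((j : ℝ) + 1) / 4)) := by ring
          rw [this]
          refine mul_nonneg (hHv0 j hj') ?_
          rw [← hA, ← hA, ← setIntegral_sdiff measurableSet_Ioi hu.integrableOn]
          · refine setIntegral_nonneg (measurableSet_Ioi.diff measurableSet_Ioi) fun x hx => hu0 x ?_
            have h7 : (j : ℝ) / 4 < x := hx.1
            have h8 : (0 : ℝ) ≤ (j : ℝ) / 4 := by positivity
            linarith
          · intro x hx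
            have : ((j : ℝ) + 1) / 4 < x := hx
            show (j : ℝ) / 4 < x
            linarith

theorem step_int1 (h : ℝ → ℝ) (hm : Monotone h) (h0 : ∀ n, 0 ≤ h n) (h1 : ∀ n, h n ≤ 1)
    (Hv : ℕ → ℝ) (hHv : ∀ j : ℕ, 1 ≤ j → j ≤ 20 → h ((j : ℝ) / 4) ≤ Hv j) :
    ∫⁻ n in Ioi (0 : ℝ), ENNReal.ofReal (n * h n) ∂(gaussianReal 0 1)
      ≤ ENNReal.ofReal (phi0 * (∑ j ∈ Finset.range 20, Hv (j + 1) * dd1 j + ee 20)) := by
  have := step_gen (fun x => x) (fun c => Real.exp (-c ^ 2 / 2)) IsGaussian.integrable_id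
    measurable_id (fun n hn => hn.le) integral_gaussian_Ioi_id h hm h0 h1 Hv hHv
  refine this.trans (le_of_eq ?_)
  congr 2
  congr 1
  · refine Finset.sum_congr rfl fun j _ => ?_
    unfold dd1 ee
    push_cast
    rfl
  · unfold ee
    norm_num

theorem step_int3 (h : ℝ → ℝ) (hm : Monotone h) (h0 : ∀ n, 0 ≤ h n) (h1 : ∀ n, h n ≤ 1)
    (Hv : ℕ → ℝ) (hHv : ∀ j : ℕ, 1 ≤ j → j ≤ 20 → h ((j : ℝ) / 4) ≤ Hv j) :
    ∫⁻ n in Ioi (0 : ℝ), ENNReal.ofReal (n ^ 3 * h n) ∂(gaussianReal 0 1)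
      ≤ ENNReal.ofReal (phi0 * (∑ j ∈ Finset.range 20, Hv (j + 1) * dd3 j + 27 * ee 20)) := by
  have := step_gen (fun x => x ^ 3) (fun c => (c ^ 2 + 2) * Real.exp (-c ^ 2 / 2))
    integrable_cube_gaussian (by fun_prop) (fun n hn => by positivity)
    integral_gaussian_Ioi_cube h hm h0 h1 Hv hHv
  refine this.trans (le_of_eq ?_)
  congr 2
  congr 1
  · refine Finset.sum_congr rfl fun j _ => ?_
    unfold dd3 ee
    push_cast
    rfl
  · unfold ee
    norm_num


/-! ### Numeric tables -/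

/-- Decimal bounds for `exp (-1/32)`. -/
def eLo : ℕ := 9692332344763440818481090
def eHi : ℕ := 9692332344763440818481093

/-- `ee j ≤ uT[j] / 10^30`. -/
def uT : List ℕ := [1000000000000000000000000000000, 969233234476344081848109300000, 882496902584595402864892532031, 754839601989007337327347844176, 606530659712633423603800603867, 457833361771614260902148101326, 324652467358349729797069424761, 216265166829887294387596738655, 135335283236612691894000448967, 79559508718227682233870943385, 43936933623407417326748165634, 22794180883612345366098986087, 11108996538242306496143310482, 5086069231012700368741784538, 2187491118182885123279510992, 883826306935049925224233329, 335462627902511838821398585, 119612883581024365899985697, 40065297392951067531628524, 12607105177048522794931138, 3726653172078670992925016]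
/-- `lT[j] / 10^30 ≤ ee j`. -/
def lT : List ℕ := [1000000000000000000000000000000, 969233234476344081848109000000, 882496902584595402864891439417, 754839601989007337327345741413, 606530659712633423603797600103, 457833361771614260902144558576, 324652467358349729797065807213, 216265166829887294387593458640, 135335283236612691893997768045, 79559508718227682233868948719, 43936933623407417326746805684, 22794180883612345366098132392, 11108996538242306496142815338, 5086069231012700368741518488, 2187491118182885123279378284, 883826306935049925224171776, 335462627902511838821372003, 119612883581024365899974996, 40065297392951067531624505, 12607105177048522794929729, 3726653172078670992924554]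

/-- Upper bounds for `dd1`, units `10^-12`. -/
def d1q : List ℕ := [30766765524, 86736331892, 127657300596, 148308942277, 148697297942, 133180894414, 108387300529, 80929883594, 55775774519, 35622575095, 21142752740, 11685184346, 6022927308, 2898578113, 1303664812, 548363680, 215849745, 79547587, 27458193, 8880453]
/-- Upper bounds for `dd3`, units `10^-12`. -/
def d3q : List ℕ := [956453893, 13425515293, 51341550719, 114684500959, 188560627827, 251258365039, 284930579197, 282830707657, 250122669098, 199409327930, 144510347694, 95770392779, 58305217207, 32721996281, 16975288379, 8158132753, 3638593826, 1508280610, 581790847, 209042386]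
/-- `ee 20 ≤ t1q / 10^12`. -/
def t1q : ℕ := 3726654
/-- `27 * ee 20 ≤ t3q / 10^12`. -/
def t3q : ℕ := 100619636

/-- The table as one list, to fold over: `(j, d1 j, d3 j)`. -/
def gridQ : List (ℕ × ℕ × ℕ) := [(0, 30766765524, 956453893), (1, 86736331892, 13425515293), (2, 127657300596, 51341550719), (3, 148308942277, 114684500959), (4, 148697297942, 188560627827), (5, 133180894414, 251258365039), (6, 108387300529, 284930579197), (7, 80929883594, 282830707657), (8, 55775774519, 250122669098), (9, 35622575095, 199409327930), (10, 21142752740, 144510347694), (11, 11685184346, 95770392779), (12, 6022927308, 58305217207), (13, 2898578113, 32721996281), (14, 1303664812, 16975288379), (15, 548363680, 8158132753), (16, 215849745, 3638593826), (17, 79547587, 1508280610), (18, 27458193, 581790847), (19, 8880453, 209042386)]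

/-! ### Table soundness -/

lemma exp_bd : (eLo : ℝ) / 10 ^ 25 ≤ Real.exp (-1 / 32) ∧
    Real.exp (-1 / 32) ≤ (eHi : ℝ) / 10 ^ 25 := by
  have hx : |(-1 / 32 : ℝ)| ≤ 1 := by rw [abs_le]; constructor <;> norm_num
  have h := Real.exp_bound (x := (-1 / 32 : ℝ)) hx (n := 14) (by norm_num)
  rw [abs_le] at h
  have h1 := h.1
  have h2 := h.2
  simp only [Finset.sum_range_succ, Finset.sum_range_zero, Nat.factorial] at h1 h2
  norm_num [eLo, eHi, abs_of_pos] at h1 h2 ⊢
  constructor <;> linarith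

lemma ee_eq (j : ℕ) : ee j = Real.exp (-1 / 32) ^ (j ^ 2) := by
  rw [ee, ← Real.exp_nat_mul]
  congr 1
  push_cast
  ring

lemma ee_nonneg (j : ℕ) : 0 ≤ ee j := (Real.exp_pos _).le

lemma uT_check : ∀ j : Fin 21, eHi ^ ((j : ℕ) ^ 2) * 10 ^ 30 ≤
    uT.getD j 0 * (10 ^ 25) ^ ((j : ℕ) ^ 2) := by decide +kernel

lemma lT_check : ∀ j : Fin 21, lT.getD j 0 * (10 ^ 25) ^ ((j : ℕ) ^ 2) ≤
    eLo ^ ((j : ℕ) ^ 2) * 10 ^ 30 := by decide +kernel

lemma ee_le_uT (j : ℕ) (hj : j < 21) : ee j ≤ (uT.getD j 0 : ℝ) / 10 ^ 30 := by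
  rw [ee_eq]
  have h1 : Real.exp (-1 / 32) ^ (j ^ 2) ≤ ((eHi : ℝ) / 10 ^ 25) ^ (j ^ 2) :=
    pow_le_pow_left₀ (Real.exp_pos _).le exp_bd.2 _
  refine h1.trans ?_
  have h2 := uT_check ⟨j, hj⟩
  simp only at h2
  have h3 : ((eHi : ℝ)) ^ (j ^ 2) * 10 ^ 30 ≤
      (uT.getD j 0 : ℝ) * (10 ^ 25) ^ (j ^ 2) := by exact_mod_cast h2
  rw [div_pow, div_le_div_iff₀ (by positivity) (by positivity)]
  exact h3

lemma lT_le_ee (j : ℕ) (hj : j < 21) : (lT.getD j 0 : ℝ) / 10 ^ 30 ≤ ee j := by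
  rw [ee_eq]
  have h1 : ((eLo : ℝ) / 10 ^ 25) ^ (j ^ 2) ≤ Real.exp (-1 / 32) ^ (j ^ 2) :=
    pow_le_pow_left₀ (by unfold eLo; positivity) exp_bd.1 _
  refine le_trans ?_ h1
  have h2 := lT_check ⟨j, hj⟩
  simp only at h2
  have h3 : (lT.getD j 0 : ℝ) * (10 ^ 25) ^ (j ^ 2) ≤
      (eLo : ℝ) ^ (j ^ 2) * 10 ^ 30 := by exact_mod_cast h2
  rw [div_pow, div_le_div_iff₀ (by positivity) (by positivity)]
  exact h3

lemma d1_check : ∀ j : Fin 20, uT.getD j 0 ≤
    d1q.getD j 0 * 10 ^ 18 + lT.getD (j + 1) 0 := by decide +kernel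

lemma d3_check : ∀ j : Fin 20, ((j : ℕ) ^ 2 + 32) * uT.getD j 0 * 10 ^ 12 ≤
    d3q.getD j 0 * 16 * 10 ^ 30 + (((j : ℕ) + 1) ^ 2 + 32) * lT.getD (j + 1) 0 * 10 ^ 12 := by
  decide +kernel

lemma dd1_le (j : ℕ) (hj : j < 20) : dd1 j ≤ (d1q.getD j 0 : ℝ) / 10 ^ 12 := by
  have hu := ee_le_uT j (by omega)
  have hl := lT_le_ee (j + 1) (by omega)
  have h := d1_check ⟨j, hj⟩
  simp only at h
  have h3 : (uT.getD j 0 : ℝ) ≤ (d1q.getD j 0 : ℝ) * 10 ^ 18 + (lT.getD (j + 1) 0 : ℝ) := by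
    exact_mod_cast h
  unfold dd1
  have h4 : (uT.getD j 0 : ℝ) / 10 ^ 30 ≤
      (d1q.getD j 0 : ℝ) / 10 ^ 12 + (lT.getD (j + 1) 0 : ℝ) / 10 ^ 30 := by
    rw [div_add_div _ _ (by positivity) (by positivity), div_le_div_iff₀ (by positivity) (by positivity)]
    nlinarith
  linarith

lemma dd3_le (j : ℕ) (hj : j < 20) : dd3 j ≤ (d3q.getD j 0 : ℝ) / 10 ^ 12 := by
  have hu := ee_le_uT j (by omega)
  have hl := lT_le_ee (j + 1) (by omega)
  have h := d3_check ⟨j, hj⟩
  simp only at h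
  have h3 : ((j : ℝ) ^ 2 + 32) * (uT.getD j 0 : ℝ) * 10 ^ 12 ≤
      (d3q.getD j 0 : ℝ) * 16 * 10 ^ 30 +
        (((j : ℝ) + 1) ^ 2 + 32) * (lT.getD (j + 1) 0 : ℝ) * 10 ^ 12 := by
    exact_mod_cast h
  have hj1 : (((j : ℝ) / 4) ^ 2 + 2) = ((j : ℝ) ^ 2 + 32) / 16 := by ring
  have hj2 : ((((j : ℝ) + 1) / 4) ^ 2 + 2) = (((j : ℝ) + 1) ^ 2 + 32) / 16 := by ring
  unfold dd3
  rw [hj1, hj2]
  have hA : (0 : ℝ) ≤ ((j : ℝ) ^ 2 + 32) / 16 := by positivity
  have hB : (0 : ℝ) ≤ (((j : ℝ) + 1) ^ 2 + 32) / 16 := by positivity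
  have h5 : ((j : ℝ) ^ 2 + 32) / 16 * ee j ≤
      ((j : ℝ) ^ 2 + 32) / 16 * ((uT.getD j 0 : ℝ) / 10 ^ 30) :=
    mul_le_mul_of_nonneg_left hu hA
  have h6 : (((j : ℝ) + 1) ^ 2 + 32) / 16 * ((lT.getD (j + 1) 0 : ℝ) / 10 ^ 30) ≤
      (((j : ℝ) + 1) ^ 2 + 32) / 16 * ee (j + 1) :=
    mul_le_mul_of_nonneg_left hl hB
  have h7 : ((j : ℝ) ^ 2 + 32) / 16 * ((uT.getD j 0 : ℝ) / 10 ^ 30) ≤
      (d3q.getD j 0 : ℝ) / 10 ^ 12 +
        (((j : ℝ) + 1) ^ 2 + 32) / 16 * ((lT.getD (j + 1) 0 : ℝ) / 10 ^ 30) := by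
    have : (d3q.getD j 0 : ℝ) / 10 ^ 12 = (d3q.getD j 0 : ℝ) * 16 * 10 ^ 30 / (16 * 10 ^ 30 * 10 ^ 12) := by
      field_simp
    rw [this]
    have e1 : ((j : ℝ) ^ 2 + 32) / 16 * ((uT.getD j 0 : ℝ) / 10 ^ 30) =
        ((j : ℝ) ^ 2 + 32) * (uT.getD j 0 : ℝ) * 10 ^ 12 / (16 * 10 ^ 30 * 10 ^ 12) := by
      field_simp
    have e2 : (((j : ℝ) + 1) ^ 2 + 32) / 16 * ((lT.getD (j + 1) 0 : ℝ) / 10 ^ 30) =
        (((j : ℝ) + 1) ^ 2 + 32) * (lT.getD (j + 1) 0 : ℝ) * 10 ^ 12 / (16 * 10 ^ 30 * 10 ^ 12) := by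
      field_simp
    rw [e1, e2, ← add_div]
    exact div_le_div_of_nonneg_right h3 (by positivity)
  linarith

lemma ee20_le : ee 20 ≤ (t1q : ℝ) / 10 ^ 12 := by
  have hu := ee_le_uT 20 (by omega)
  have h : uT.getD 20 0 ≤ t1q * 10 ^ 18 := by decide +kernel
  have h3 : (uT.getD 20 0 : ℝ) ≤ (t1q : ℝ) * 10 ^ 18 := by exact_mod_cast h
  refine hu.trans ?_
  rw [div_le_div_iff₀ (by positivity) (by positivity)]
  nlinarith

lemma ee20_27_le : 27 * ee 20 ≤ (t3q : ℝ) / 10 ^ 12 := by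
  have hu := ee_le_uT 20 (by omega)
  have h : 27 * uT.getD 20 0 ≤ t3q * 10 ^ 18 := by decide +kernel
  have h3 : 27 * (uT.getD 20 0 : ℝ) ≤ (t3q : ℝ) * 10 ^ 18 := by exact_mod_cast h
  have : 27 * ee 20 ≤ 27 * ((uT.getD 20 0 : ℝ) / 10 ^ 30) := by linarith
  refine this.trans ?_
  rw [← mul_div_assoc, div_le_div_iff₀ (by positivity) (by positivity)]
  nlinarith

lemma gridQ_spec : ∀ j : Fin 20, gridQ.getD j (0, 0, 0) =
    ((j : ℕ), d1q.getD j 0, d3q.getD j 0) := by decide +kernel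

end Crest.Agent.Propeller.AB
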