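/-
Certificate checker with the leaves of Tool A (`Critical.no_deletion_tri`), Tool B (`Critical.toolB`)
and the budget, for a fixed level `k`.

Norms in hat units `y = √(2π) ‖z‖`, sorted `y 0 ≥ y 1 ≥ … ≥ y (k-1)`, boxes in units `1/16384`,
the same machinery as `GenTree`, but the list of boxes has all the `k` cells.
The tail energies `∑_{i ≥ t} y i ^ 2` may be bounded by the budget (`tailB`).
All checks are `Bool` functions on `ℕ`, evaluated by the kernel.
-/
import Crest.Agent.Lib.Propeller.GenTree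
import Crest.Agent.Lib.Propeller.PhiTab
import Crest.Agent.Lib.Propeller.StepInt

set_option autoImplicit false

namespace Crest.Agent.Propeller.AB

open Crest.Agent.Propeller Crest.Agent.Propeller.Gen Crest.Agent.Propeller.PhiTab

/-- Lookup of a box. -/
def gb : ℕ → List (ℕ × ℕ) → ℕ × ℕ
  | _, [] => (0, 0)
  | 0, p :: _ => p
  | i + 1, _ :: r => gb i r

lemma Mem_gb {y : ℕ → ℝ} {s : ℕ} {b : List (ℕ × ℕ)} (hm : Mem y s b) (i : ℕ) (hi : i < b.length) :
    ((gb i b).1 : ℝ) ≤ 16384 * y (s + i) ∧ 16384 * y (s + i) ≤ ((gb i b).2 : ℝ) := by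
  induction b generalizing s i with
  | nil => simp at hi
  | cons p r ih =>
    obtain ⟨h1, h2, h3⟩ := hm
    cases i with
    | zero => exact ⟨h1, h2⟩
    | succ i =>
      have := ih h3 i (by simpa using hi)
      simp only [gb]
      rwa [show s + (i + 1) = s + 1 + i by ring]

lemma Mem_take {y : ℕ → ℝ} {s : ℕ} {b : List (ℕ × ℕ)} (hm : Mem y s b) (t : ℕ) :
    Mem y s (b.take t) := by
  induction t generalizing s b with
  | zero => simp [Mem]
  | succ t ih =>
    cases b with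
    | nil => simp [Mem]
    | cons p r =>
      rw [List.take_succ_cons]
      exact ⟨hm.1, hm.2.1, ih hm.2.2⟩

/-! ### Tail energies -/

/-- The budget bound for `∑_{i ≥ tt} y i ^ 2`, units `2^-28`, with `λ = L/1024`, `λ₂ = L2/1024`. -/
def tailB (t : PT) (tt L L2 : ℕ) (b : List (ℕ × ℕ)) : ℕ :=
  let c1 := sumC L t (b.take tt)
  let c2 := sumC L2 t (b.drop tt)
  (L2 * (268435456000000000 * L + c1.2) + L * c2.2
      - (L2 * (618475290624000000000 + c1.1) + L * c2.1)) / (1024000000000 * (L - L2)) + 1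

/-- The bound for `∑_{i ≥ τ} y i ^ 2`, units `2^-28`. -/
def xxOf (t : PT) (τ tt L L2 : ℕ) (b : List (ℕ × ℕ)) : ℕ :=
  bif Nat.beq L2 0 then sqH (b.drop τ) else sqH ((b.take tt).drop τ) + tailB t tt L L2 b

/-- Conditions of the tail bound. -/
def tailOK (k τ tt L L2 : ℕ) : Bool :=
  Nat.beq L2 0 || (Nat.ble τ tt && Nat.ble tt k && Nat.blt L2 L)

/-! ### The picks -/

/-- The lower bounds for `Δ²` (hat units). -/
def PickOK (y : ℕ → ℝ) (τ p : ℕ) (XX D : ℝ) : Prop :=
  (p = 3 ∧ XX ≤ y 2 ^ 2 ∧ D ^ 2 ≤ y 1 ^ 2 * (y 2 ^ 2 - XX) - (y 2 ^ 2) ^ 2 / 4) ∨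
  (p = 4 ∧ 4 ≤ τ ∧ XX ≤ y 3 ^ 2 ∧ D ^ 2 ≤ y 2 ^ 2 * (y 3 ^ 2 - XX) - (y 2 ^ 2) ^ 2 / 9)

/-- The value of the pick from the boxes, units `2^-58`. -/
def pickE (p τ xx : ℕ) (b : List (ℕ × ℕ)) : ℕ :=
  bif Nat.beq p 3 then
    let e1 := (gb 1 b).1 * (gb 1 b).1
    let e2 := (gb 2 b).1 * (gb 2 b).1
    bif Nat.ble xx e2 then 4 * e1 * (e2 - xx) - e2 * e2 else 0
  else bif Nat.beq p 4 && Nat.ble 4 τ then
    let e2l := (gb 2 b).1 * (gb 2 b).1
    let e2h := (gb 2 b).2 * (gb 2 b).2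
    let e3 := (gb 3 b).1 * (gb 3 b).1
    bif Nat.ble xx e3 then
      nmin ((36 * e2l * (e3 - xx) - 4 * (e2l * e2l)) / 9)
        ((36 * e2h * (e3 - xx) - 4 * (e2h * e2h)) / 9)
    else 0
  else 0

/-! ### Tool A leaf -/

/-- The Tool A leaf. -/
def aOK (k : ℕ) (t : PT) (τ p M tt L L2 : ℕ) (b : List (ℕ × ℕ)) : Bool :=
  let xx := xxOf t τ tt L L2 b
  let E := pickE p τ xx b
  let h := (gb τ b).2
  Nat.ble 3 τ && Nat.blt τ k && tailOK k τ tt L L2 && Nat.blt 0 M && Nat.blt M 1024 &&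
    Nat.ble (τ ^ 4 * (h * h) * 1180591620717411303424 * 10000000 + 1)
      (9 * 98695877 * E * M ^ 4) &&
    Nat.ble (xx * 1180591620717411303424 * 10000000) (9 * 98695877 * E * (1024 - M) ^ 4)

/-! ### Tool B leaf -/

/-- The product of the values of `Φ`, units `10^-12`, `j` the index of the grid (`n = j/4`), `hl` the
upper end of the box of the deleted cell, over the boxes of the cells. -/
def Hprod (j hl : ℕ) : List (ℕ × ℕ) → ℕ
  | [] => 1000000000000
  | p :: cs =>
    bif Nat.beq p.1 0 then Hprod j hl cs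
    else Hprod j hl cs * hi20 (86605 * j * hl / (10000 * p.1) + 1) / 1000000000000 + 1

/-- The moments, units `10^-24`. -/
def mom (hl : ℕ) (cs : List (ℕ × ℕ)) : ℕ → ℕ × ℕ
  | 0 => (t1q * 1000000000000, t3q * 1000000000000)
  | n + 1 =>
    let H := Hprod (n + 1) hl cs
    let q := mom hl cs n
    (H * d1q.getD n 0 + q.1, H * d3q.getD n 0 + q.2)

/-- The Tool B leaf. -/
def bOK (k : ℕ) (t : PT) (l m p tt L L2 : ℕ) (b : List (ℕ × ℕ)) : Bool :=
  let xx := xxOf t m tt L L2 b
  let E := pickE p m xx b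
  let sl := (gb l b).1
  let sh := (gb l b).2
  let q := mom sh ((b.take l).drop (m + 1)) 20
  let V := xx - sl * sl
  Nat.ble 3 m && Nat.blt m l && Nat.blt l k && tailOK k m tt L L2 &&
    ntAll ((m + 1) ^ 3 * q.2) (3 * m * 1000000000000000000000000)
      (V * q.1 / 1000000000000000000000000 + 1) E sl sh

/-! ### The budget leaf and the tree -/

/-- Leaf: budget, `λ = L/1024`. -/
def lamOK' (L : ℕ) (t : PT) (b : List (ℕ × ℕ)) : Bool :=
  let c := sumC L t b
  Nat.ble (c.2 + 268435456000000000 * L) (c.1 + 618475290624000000000)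

/-- Tightening. -/
def tight (b : List (ℕ × ℕ)) : List (ℕ × ℕ) := tL 0 (tH 16384 b)

/-- The certificate. -/
inductive Cert
  | L (n : ℕ)
  | A (τ p M tt L L2 : ℕ)
  | B (l m p tt L L2 : ℕ)
  | E
  | sp (i m : ℕ) (p q : Cert)

/-- The checker. -/
def chk (k : ℕ) (t : PT) : Cert → List (ℕ × ℕ) → Bool
  | .L n, b => lamOK' n t b
  | .A τ p M tt L L2, b => aOK k t τ p M tt L L2 b
  | .B l m p tt L L2, b => bOK k t l m p tt L L2 b
  | .E, b => b.any fun p => Nat.blt p.2 p.1
  | .sp i m p q, b => chk k t p (tight (updH i m b)) && chk k t q (tight (updL i m b))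

/-! ### Soundness -/

/-- The `n`-th factor. -/
noncomputable def Hh (y : ℕ → ℝ) (l m : ℕ) (n : ℝ) : ℝ :=
  ∏ c ∈ Finset.Ico (m + 1) l, Phi (Real.sqrt 3 * (n * y l / y c))

/-- The data of a sorted configuration. -/
structure Feas (k : ℕ) (t : PT) (y a : ℕ → ℝ) : Prop where
  anti : Antitone y
  nn : ∀ i, 0 ≤ y i
  pos : 0 < y (k - 1)
  hk : 1 ≤ k
  top : y 0 ≤ 1
  val : ∀ i, i < k → t.Valid (y i) (a i)
  sum : ∑ i ∈ Finset.range k, a i = 1
  bud : 9 / 4 < ∑ i ∈ Finset.range k, y i ^ 2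
  ta : ∀ τ, 3 ≤ τ → τ < k → ∀ (p : ℕ) (XX D μ : ℝ), 0 < D → PickOK y τ p XX D →
    ∑ i ∈ Finset.Ico τ k, y i ^ 2 ≤ XX → 0 < μ → μ < 1 →
    (τ : ℝ) ^ 2 * y τ < 3 * Real.pi * D * μ ^ 2 → XX ≤ (3 * Real.pi * D * (1 - μ) ^ 2) ^ 2 → False
  tb : ∀ l m, 3 ≤ m → m < l → l < k → ∀ (p : ℕ) (XX D : ℝ), 0 < D → PickOK y m p XX D →
    ∑ i ∈ Finset.Ico m k, y i ^ 2 ≤ XX → ∀ Hv : ℕ → ℝ,
    (∀ j : ℕ, 1 ≤ j → j ≤ 20 → Hh y l m ((j : ℝ) / 4) ≤ Hv j) →
    2 * Real.pi * D * y l ≤ ((m : ℝ) + 1) ^ 3 / (3 * (m : ℝ)) * y l ^ 2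
        * (∑ j ∈ Finset.range 20, Hv (j + 1) * dd3 j + 27 * ee 20)
      + (XX - y l ^ 2) * (∑ j ∈ Finset.range 20, Hv (j + 1) * dd1 j + ee 20)

/-- The invariant of the boxes. -/
structure Inv (k : ℕ) (y : ℕ → ℝ) (b : List (ℕ × ℕ)) : Prop where
  len : b.length = k
  mem : Mem y 0 b

variable {k : ℕ} {t : PT} {y a : ℕ → ℝ}

lemma Inv.tight (hf : Feas k t y a) {b : List (ℕ × ℕ)} (h : Inv k y b) : Inv k y (tight b) := by
  have htop : 16384 * y 0 ≤ ((16384 : ℕ) : ℝ) := by
    have := hf.top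
    push_cast
    linarith
  have h1 : Mem y 0 (tH 16384 b) := h.mem.tH hf.anti htop
  refine ⟨?_, ?_⟩
  · unfold AB.tight
    rw [length_tL, length_tH]
    exact h.len
  · unfold AB.tight
    refine (Mem.tL hf.anti h1 ?_).1
    have := hf.nn (0 + (tH 16384 b).length)
    push_cast
    linarith

lemma cast_sub_ge (p n : ℕ) : (p : ℝ) - (n : ℝ) ≤ ((p - n : ℕ) : ℝ) := by
  rcases le_total n p with h | h
  · rw [Nat.cast_sub h]
  · rw [Nat.sub_eq_zero_of_le h]
    have : (p : ℝ) ≤ n := by exact_mod_cast h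
    push_cast
    linarith

/-- The real form of the budget bound. -/
lemma tailB_sound (hf : Feas k t y a) {b : List (ℕ × ℕ)} (h : Inv k y b) {tt L L2 : ℕ}
    (htt : tt ≤ k) (hL : L2 < L) (hL2 : 0 < L2) :
    ∑ i ∈ Finset.Ico tt k, y i ^ 2 ≤ (tailB t tt L L2 b : ℝ) / 268435456 := by
  have hlen := h.len
  have h1 := sumC_sound L t (Mem_take h.mem tt) (a := a)
    (fun l _ hl => hf.val l (by simp at hl; omega))
  have h2 := sumC_sound L2 t (h.mem.drop tt) (a := a)
    (fun l _ hl => hf.val l (by simp at hl; omega))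
  have e1 : 0 + (b.take tt).length = tt := by simp; omega
  have e2 : 0 + tt + (b.drop tt).length = k := by simp; omega
  rw [e1] at h1
  rw [e2, zero_add] at h2
  set c1 := sumC L t (b.take tt) with hc1
  set c2 := sumC L2 t (b.drop tt) with hc2
  set T := ∑ i ∈ Finset.Ico tt k, y i ^ 2 with hT
  -- decomposition of the sums
  have hsp : ∀ f : ℕ → ℝ, ∑ i ∈ Finset.range k, f i
      = ∑ i ∈ Finset.Ico 0 tt, f i + ∑ i ∈ Finset.Ico tt k, f i := by
    intro f
    rw [Finset.range_eq_Ico, Finset.sum_Ico_consecutive _ (Nat.zero_le _) htt]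
  set A1 := ∑ i ∈ Finset.Ico 0 tt, a i with hA1
  set A2 := ∑ i ∈ Finset.Ico tt k, a i with hA2
  set Y1 := ∑ i ∈ Finset.Ico 0 tt, y i ^ 2 with hY1
  have hsum : A1 + A2 = 1 := by rw [← hsp]; exact hf.sum
  have hbud : 9 / 4 < Y1 + T := by rw [hY1, hT, ← hsp]; exact hf.bud
  have h1' : pv c1 ≤ ZZ * ((L : ℝ) / 1024 * A1 - Y1) := by
    refine h1.trans (le_of_eq ?_)
    rw [Finset.sum_sub_distrib, ← Finset.mul_sum]
  have h2' : pv c2 ≤ ZZ * ((L2 : ℝ) / 1024 * A2 - T) := by
    refine h2.trans (le_of_eq ?_)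
    rw [Finset.sum_sub_distrib, ← Finset.mul_sum]
  have hLr : (L2 : ℝ) < L := by exact_mod_cast hL
  have hL2r : (0 : ℝ) < L2 := by exact_mod_cast hL2
  have hLr0 : (0 : ℝ) < L := hL2r.trans hLr
  have hZ : (0 : ℝ) < ZZ := by unfold ZZ; norm_num
  -- the main inequality
  have h3 : (L2 : ℝ) * pv c1 + L * pv c2 + ((L : ℝ) - L2) * ZZ * T
      < ZZ * ((L2 : ℝ) * ((L : ℝ) / 1024) - (L2 : ℝ) * (9 / 4)) := by
    have h4 := mul_le_mul_of_nonneg_left h1' hL2r.le
    have h5 := mul_le_mul_of_nonneg_left h2' hLr0.le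
    have h6 : (L2 : ℝ) * (ZZ * ((L : ℝ) / 1024 * A1 - Y1)) + L * (ZZ * ((L2 : ℝ) / 1024 * A2 - T))
        + ((L : ℝ) - L2) * ZZ * T
        = ZZ * ((L2 : ℝ) * ((L : ℝ) / 1024) * (A1 + A2) - (L2 : ℝ) * (Y1 + T)) := by ring
    rw [hsum] at h6
    have h7 : (L2 : ℝ) * (9 / 4) < (L2 : ℝ) * (Y1 + T) := mul_lt_mul_of_pos_left hbud hL2r
    have h8 : ZZ * ((L2 : ℝ) * ((L : ℝ) / 1024) * 1 - (L2 : ℝ) * (Y1 + T))
        < ZZ * ((L2 : ℝ) * ((L : ℝ) / 1024) - (L2 : ℝ) * (9 / 4)) :=
      mul_lt_mul_of_pos_left (by linarith) hZ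
    linarith
  -- the natural numbers
  set pos := L2 * (268435456000000000 * L + c1.2) + L * c2.2 with hpos
  set neg := L2 * (618475290624000000000 + c1.1) + L * c2.1 with hneg
  have h9 : ((L : ℝ) - L2) * 1024000000000 * (268435456 * T) < ((pos - neg : ℕ) : ℝ) := by
    have h10 : (pos : ℝ) - (neg : ℝ) ≤ ((pos - neg : ℕ) : ℝ) := cast_sub_ge pos neg
    refine lt_of_lt_of_le ?_ h10
    rw [hpos, hneg]
    push_cast
    unfold pv at h3
    unfold ZZ at h3
    nlinarith
  have hd : (0 : ℝ) < ((1024000000000 * (L - L2) : ℕ) : ℝ) := by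
    have : 0 < 1024000000000 * (L - L2) := by
      have : 0 < L - L2 := by omega
      positivity
    exact_mod_cast this
  have h11 : ((pos - neg : ℕ) : ℝ) / ((1024000000000 * (L - L2) : ℕ) : ℝ)
      < (((pos - neg) / (1024000000000 * (L - L2)) : ℕ) : ℝ) + 1 := by
    have := Nat.lt_floor_add_one (((pos - neg : ℕ) : ℝ) / ((1024000000000 * (L - L2) : ℕ) : ℝ))
    rwa [Nat.floor_div_eq_div] at this
  have h12 : ((1024000000000 * (L - L2) : ℕ) : ℝ) = ((L : ℝ) - L2) * 1024000000000 := by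
    rw [Nat.cast_mul, Nat.cast_sub hL.le]
    push_cast
    ring
  unfold tailB
  simp only
  rw [← hc1, ← hc2, le_div_iff₀ (by norm_num)]
  rw [div_lt_iff₀ hd] at h11
  push_cast
  have h13 : 268435456 * T * (((L : ℝ) - L2) * 1024000000000)
      < ((((pos - neg) / (1024000000000 * (L - L2)) : ℕ) : ℝ) + 1)
        * ((1024000000000 * (L - L2) : ℕ) : ℝ) := by
    refine lt_trans ?_ h11
    rw [show 268435456 * T * (((L : ℝ) - L2) * 1024000000000)
      = ((L : ℝ) - L2) * 1024000000000 * (268435456 * T) by ring]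
    exact h9
  rw [h12] at h13
  have hp : (0 : ℝ) < ((L : ℝ) - L2) * 1024000000000 := by
    have : (0 : ℝ) < (L : ℝ) - L2 := by linarith
    positivity
  have h14 := lt_of_mul_lt_mul_right h13 hp.le
  nlinarith

/-- The real form of `xxOf`. -/
lemma xxOf_sound (hf : Feas k t y a) {b : List (ℕ × ℕ)} (h : Inv k y b) {τ tt L L2 : ℕ}
    (hτ : τ ≤ k) (hok : tailOK k τ tt L L2 = true) :
    ∑ i ∈ Finset.Ico τ k, y i ^ 2 ≤ (xxOf t τ tt L L2 b : ℝ) / 268435456 := by
  have hlen := h.len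
  unfold tailOK at hok
  simp only [Bool.or_eq_true, Bool.and_eq_true] at hok
  unfold xxOf
  cases hb : Nat.beq L2 0
  · rcases hok with h0 | ⟨⟨h1, h2⟩, h3⟩
    · rw [hb] at h0
      exact Bool.noConfusion h0
    · have h1' := Nat.le_of_ble_eq_true h1
      have h2' := Nat.le_of_ble_eq_true h2
      have h3' : L2 < L := by simpa [Nat.blt] using h3
      have hL20 : 0 < L2 := by
        rcases Nat.eq_zero_or_pos L2 with e | e
        · rw [e] at hb
          simp at hb
        · exact e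
      simp only [cond_false]
      have h4 := tailB_sound hf h h2' h3' hL20
      have h5 := sqH_sound ((Mem_take h.mem tt).drop τ) hf.nn
      have e : 0 + τ + ((b.take tt).drop τ).length = tt := by simp; omega
      rw [e, zero_add] at h5
      rw [← Finset.sum_Ico_consecutive _ h1' h2']
      push_cast
      rw [add_div]
      linarith
  · simp only [cond_true]
    have h5 := sqH_sound (h.mem.drop τ) hf.nn
    have e : 0 + τ + (b.drop τ).length = k := by simp; omega
    rw [e, zero_add] at h5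
    exact h5

lemma nn_of_mem_lo {l : ℕ} {x : ℝ} (hl : (l : ℝ) ≤ 16384 * x) :
    ((l * l : ℕ) : ℝ) / 268435456 ≤ x ^ 2 := sq_lo hl

/-- The real form of the picks. -/
lemma pickE_sound (hf : Feas k t y a) {b : List (ℕ × ℕ)} (h : Inv k y b) (hk4 : 4 ≤ k) {p τ xx : ℕ}
    (hE : 0 < pickE p τ xx b) {D : ℝ}
    (hD : D ^ 2 ≤ (pickE p τ xx b : ℝ) / (4 * 268435456 ^ 2)) :
    PickOK y τ p ((xx : ℝ) / 268435456) D := by
  have hlen := h.len
  have hb1 := Mem_gb h.mem 1 (by omega)
  have hb2 := Mem_gb h.mem 2 (by omega)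
  have hb3 := Mem_gb h.mem 3 (by omega)
  simp only [zero_add] at hb1 hb2 hb3
  have hn1 := hf.nn 1
  have hn2 := hf.nn 2
  have hn3 := hf.nn 3
  have h12 : y 2 ≤ y 1 := hf.anti (by norm_num)
  have h23 : y 3 ≤ y 2 := hf.anti (by norm_num)
  unfold pickE at hE hD
  cases hp3 : Nat.beq p 3
  · rw [hp3] at hE hD
    simp only [cond_false] at hE hD
    cases hp4 : (Nat.beq p 4 && Nat.ble 4 τ)
    · rw [hp4] at hE
      simp at hE
    · rw [hp4] at hE hD
      simp only [cond_true, Bool.and_eq_true] at hE hD hp4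
      obtain ⟨hp4a, hp4b⟩ := hp4
      have hp4a' : p = 4 := Nat.eq_of_beq_eq_true hp4a
      have hp4b' := Nat.le_of_ble_eq_true hp4b
      right
      cases hx : Nat.ble xx ((gb 3 b).1 * (gb 3 b).1)
      · rw [hx] at hE
        simp at hE
      · rw [hx] at hE hD
        simp only [cond_true] at hE hD
        have hx' := Nat.le_of_ble_eq_true hx
        set e2l := (gb 2 b).1 * (gb 2 b).1 with he2l
        set e2h := (gb 2 b).2 * (gb 2 b).2 with he2h
        set e3 := (gb 3 b).1 * (gb 3 b).1 with he3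
        have hxr : (xx : ℝ) / 268435456 ≤ (e3 : ℝ) / 268435456 :=
          div_le_div_of_nonneg_right (by exact_mod_cast hx') (by norm_num)
        have he3y : (e3 : ℝ) / 268435456 ≤ y 3 ^ 2 := sq_lo hb3.1
        have helo : (e2l : ℝ) / 268435456 ≤ y 2 ^ 2 := sq_lo hb2.1
        have hehi : y 2 ^ 2 ≤ (e2h : ℝ) / 268435456 := sq_hi hb2.2 hn2
        refine ⟨hp4a', hp4b', hxr.trans he3y, ?_⟩
        -- the two end values
        have key : ∀ e : ℕ, 0 < (36 * e * (e3 - xx) - 4 * (e * e)) / 9 →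
            (((36 * e * (e3 - xx) - 4 * (e * e)) / 9 : ℕ) : ℝ) / (4 * 268435456 ^ 2)
              ≤ ((e : ℝ) / 268435456) * ((e3 : ℝ) / 268435456 - (xx : ℝ) / 268435456)
                - ((e : ℝ) / 268435456) ^ 2 / 9 := by
          intro e he
          have h1 : 4 * (e * e) ≤ 36 * e * (e3 - xx) := by
            by_contra hlt
            push Not at hlt
            have : 36 * e * (e3 - xx) - 4 * (e * e) = 0 := Nat.sub_eq_zero_of_le hlt.le
            rw [this] at he
            simp at he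
          have h2 : (((36 * e * (e3 - xx) - 4 * (e * e)) / 9 : ℕ) : ℝ)
              ≤ ((36 * e * (e3 - xx) - 4 * (e * e) : ℕ) : ℝ) / ((9 : ℕ) : ℝ) := Nat.cast_div_le
          rw [Nat.cast_sub h1, Nat.cast_mul, Nat.cast_mul, Nat.cast_sub hx'] at h2
          push_cast at h2
          have h3 := div_le_div_of_nonneg_right h2 (show (0 : ℝ) ≤ 4 * 268435456 ^ 2 by norm_num)
          refine h3.trans (le_of_eq ?_)
          field_simp
          ring
        have hE1 : 0 < (36 * e2l * (e3 - xx) - 4 * (e2l * e2l)) / 9 := by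
          refine lt_of_lt_of_le hE ?_
          unfold nmin
          cases hh : Nat.ble ((36 * e2l * (e3 - xx) - 4 * (e2l * e2l)) / 9)
              ((36 * e2h * (e3 - xx) - 4 * (e2h * e2h)) / 9)
          · have := Nat.le_of_lt (Nat.lt_of_not_ge (fun h' => by
              rw [Nat.ble_eq_true_of_le h'] at hh; exact Bool.noConfusion hh))
            simpa using this
          · simp
        have hE2 : 0 < (36 * e2h * (e3 - xx) - 4 * (e2h * e2h)) / 9 := by
          refine lt_of_lt_of_le hE ?_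
          unfold nmin
          cases hh : Nat.ble ((36 * e2l * (e3 - xx) - 4 * (e2l * e2l)) / 9)
              ((36 * e2h * (e3 - xx) - 4 * (e2h * e2h)) / 9)
          · simp
          · simpa using Nat.le_of_ble_eq_true hh
        have hm1 : ((nmin ((36 * e2l * (e3 - xx) - 4 * (e2l * e2l)) / 9)
            ((36 * e2h * (e3 - xx) - 4 * (e2h * e2h)) / 9) : ℕ) : ℝ)
            ≤ (((36 * e2l * (e3 - xx) - 4 * (e2l * e2l)) / 9 : ℕ) : ℝ) := by
          unfold nmin
          cases hh : Nat.ble ((36 * e2l * (e3 - xx) - 4 * (e2l * e2l)) / 9)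
              ((36 * e2h * (e3 - xx) - 4 * (e2h * e2h)) / 9)
          · have := Nat.le_of_lt (Nat.lt_of_not_ge (fun h' => by
              rw [Nat.ble_eq_true_of_le h'] at hh; exact Bool.noConfusion hh))
            simpa using (by exact_mod_cast this :
              (((36 * e2h * (e3 - xx) - 4 * (e2h * e2h)) / 9 : ℕ) : ℝ)
                ≤ (((36 * e2l * (e3 - xx) - 4 * (e2l * e2l)) / 9 : ℕ) : ℝ))
          · simp
        have hm2 : ((nmin ((36 * e2l * (e3 - xx) - 4 * (e2l * e2l)) / 9)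
            ((36 * e2h * (e3 - xx) - 4 * (e2h * e2h)) / 9) : ℕ) : ℝ)
            ≤ (((36 * e2h * (e3 - xx) - 4 * (e2h * e2h)) / 9 : ℕ) : ℝ) := by
          unfold nmin
          cases hh : Nat.ble ((36 * e2l * (e3 - xx) - 4 * (e2l * e2l)) / 9)
              ((36 * e2h * (e3 - xx) - 4 * (e2h * e2h)) / 9)
          · simp
          · simpa using (by exact_mod_cast Nat.le_of_ble_eq_true hh :
              (((36 * e2l * (e3 - xx) - 4 * (e2l * e2l)) / 9 : ℕ) : ℝ)
                ≤ (((36 * e2h * (e3 - xx) - 4 * (e2h * e2h)) / 9 : ℕ) : ℝ))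
        set V := ((nmin ((36 * e2l * (e3 - xx) - 4 * (e2l * e2l)) / 9)
            ((36 * e2h * (e3 - xx) - 4 * (e2h * e2h)) / 9) : ℕ) : ℝ) / (4 * 268435456 ^ 2) with hV
        set c := (e3 : ℝ) / 268435456 - (xx : ℝ) / 268435456 with hc
        have hd0 : (0 : ℝ) ≤ 4 * 268435456 ^ 2 := by norm_num
        have hV1 : V ≤ c * ((e2l : ℝ) / 268435456) - 0 - 1 / 9 * (((e2l : ℝ) / 268435456) * ((e2l : ℝ) / 268435456)) := by
          have := (div_le_div_of_nonneg_right hm1 hd0).trans (key e2l hE1)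
          rw [hV]
          refine this.trans (le_of_eq ?_)
          ring
        have hV2 : V ≤ c * ((e2h : ℝ) / 268435456) - 0 - 1 / 9 * (((e2h : ℝ) / 268435456) * ((e2h : ℝ) / 268435456)) := by
          have := (div_le_div_of_nonneg_right hm2 hd0).trans (key e2h hE2)
          rw [hV]
          refine this.trans (le_of_eq ?_)
          ring
        have hV3 := min_le_concave (al := c) (be := 0) (ga := 1 / 9) (by norm_num) helo hehi hV1 hV2
        have hc2 : c ≤ y 3 ^ 2 - (xx : ℝ) / 268435456 := by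
          rw [hc]
          linarith
        have hy2 : 0 ≤ y 2 ^ 2 := by positivity
        have h5 := mul_le_mul_of_nonneg_left hc2 hy2
        refine hD.trans (hV3.trans ?_)
        nlinarith
  · rw [hp3] at hE hD
    simp only [cond_true] at hE hD
    have hp3' : p = 3 := Nat.eq_of_beq_eq_true hp3
    left
    cases hx : Nat.ble xx ((gb 2 b).1 * (gb 2 b).1)
    · rw [hx] at hE
      simp at hE
    · rw [hx] at hE hD
      simp only [cond_true] at hE hD
      have hx' := Nat.le_of_ble_eq_true hx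
      set e1 := (gb 1 b).1 * (gb 1 b).1 with he1
      set e2 := (gb 2 b).1 * (gb 2 b).1 with he2
      have hxr : (xx : ℝ) / 268435456 ≤ (e2 : ℝ) / 268435456 :=
        div_le_div_of_nonneg_right (by exact_mod_cast hx') (by norm_num)
      have he2y : (e2 : ℝ) / 268435456 ≤ y 2 ^ 2 := sq_lo hb2.1
      have he1y : (e1 : ℝ) / 268435456 ≤ y 1 ^ 2 := sq_lo hb1.1
      refine ⟨hp3', hxr.trans he2y, ?_⟩
      have h1 : e2 * e2 ≤ 4 * e1 * (e2 - xx) := by
        by_contra hlt
        push Not at hlt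
        have : 4 * e1 * (e2 - xx) - e2 * e2 = 0 := Nat.sub_eq_zero_of_le hlt.le
        rw [this] at hE
        simp at hE
      rw [Nat.cast_sub h1, Nat.cast_mul, Nat.cast_mul, Nat.cast_sub hx'] at hD
      refine hD.trans ?_
      push_cast
      set u := y 1 ^ 2 with hu
      set v := y 2 ^ 2 with hv
      set a' := (e1 : ℝ) / 268435456 with ha'
      set b' := (e2 : ℝ) / 268435456 with hb'
      set X := (xx : ℝ) / 268435456 with hX
      have e : (4 * (e1 : ℝ) * ((e2 : ℝ) - xx) - (e2 : ℝ) * e2) / (4 * 268435456 ^ 2)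
          = a' * (b' - X) - b' ^ 2 / 4 := by
        rw [ha', hb', hX]
        field_simp
      rw [e]
      have hvu : v ≤ u := by
        rw [hu, hv]
        nlinarith
      have hb0 : 0 ≤ b' := by positivity
      have hX0 : 0 ≤ b' - X := by linarith
      have h2 : a' * (b' - X) ≤ u * (b' - X) := mul_le_mul_of_nonneg_right he1y hX0
      have h3 : u * (b' - X) - b' ^ 2 / 4 ≤ u * (v - X) - v ^ 2 / 4 := by
        have h4 : 0 ≤ (v - b') * (u - (v + b') / 4) := by
          apply mul_nonneg (by linarith)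
          linarith
        nlinarith
      linarith

/-- A Tool A leaf is contradictory. -/
theorem aOK_sound (hf : Feas k t y a) {b : List (ℕ × ℕ)} (h : Inv k y b) {τ p M tt L L2 : ℕ}
    (hc : aOK k t τ p M tt L L2 b = true) : False := by
  unfold aOK at hc
  simp only [Bool.and_eq_true] at hc
  obtain ⟨⟨⟨⟨⟨⟨h3τ, hτk⟩, htl⟩, hM0⟩, hM1⟩, ht1⟩, ht2⟩ := hc
  have h3τ' := Nat.le_of_ble_eq_true h3τ
  have hτk' : τ < k := by simpa [Nat.blt] using hτk
  have hM0' : 0 < M := by
    have : 1 ≤ M := by simpa [Nat.blt] using hM0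
    omega
  have hM1' : M < 1024 := by simpa [Nat.blt] using hM1
  have hlen := h.len
  have hk4 : 4 ≤ k := by omega
  set xx := xxOf t τ tt L L2 b with hxx
  set E := pickE p τ xx b with hE
  set hh := (gb τ b).2 with hhh
  have ht1' := Nat.le_of_ble_eq_true ht1
  have ht2' := Nat.le_of_ble_eq_true ht2
  have hE0 : 0 < E := by
    rcases Nat.eq_zero_or_pos E with e | e
    · rw [e] at ht1'
      simp at ht1'
    · exact e
  have hEr : (0 : ℝ) < E := by exact_mod_cast hE0
  set D := Real.sqrt ((E : ℝ) / (4 * 268435456 ^ 2)) with hD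
  have hD0 : 0 < D := Real.sqrt_pos.2 (by positivity)
  have hD2 : D ^ 2 = (E : ℝ) / (4 * 268435456 ^ 2) := Real.sq_sqrt (by positivity)
  have hpick := pickE_sound hf h hk4 (p := p) (τ := τ) (xx := xx) hE0 hD2.le
  have hsum := xxOf_sound hf h (τ := τ) hτk'.le htl
  rw [← hxx] at hsum
  have hpi := Real.pi_pos
  have hpi2 : (9.8695877 : ℝ) < Real.pi ^ 2 := by
    have := Real.pi_gt_d6
    nlinarith
  have hMr0 : (0 : ℝ) < M := by exact_mod_cast hM0'
  have hMr1 : (M : ℝ) < 1024 := by exact_mod_cast hM1'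
  set μ : ℝ := (M : ℝ) / 1024 with hμ
  have hμ0 : 0 < μ := by positivity
  have hμ1 : μ < 1 := by
    rw [hμ, div_lt_one (by norm_num)]
    exact hMr1
  have hhbox := (Mem_gb h.mem τ (by omega)).2
  simp only [zero_add] at hhbox
  have hyτ := hf.nn τ
  have hyh : y τ ^ 2 ≤ ((hh * hh : ℕ) : ℝ) / 268435456 := sq_hi hhbox hyτ
  refine hf.ta τ h3τ' hτk' p ((xx : ℝ) / 268435456) D μ hD0 hpick hsum hμ0 hμ1 ?_ ?_
  · -- squares
    have h1 : ((τ : ℝ) ^ 2 * y τ) ^ 2 < (3 * Real.pi * D * μ ^ 2) ^ 2 := by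
      have hr : ((τ ^ 4 * (hh * hh) * 1180591620717411303424 * 10000000 + 1 : ℕ) : ℝ)
          ≤ ((9 * 98695877 * E * M ^ 4 : ℕ) : ℝ) := by exact_mod_cast ht1'
      push_cast at hr
      have e1 : (3 * Real.pi * D * μ ^ 2) ^ 2
          = 9 * Real.pi ^ 2 * ((E : ℝ) * (M : ℝ) ^ 4) / 1180591620717411303424 / 268435456 := by
        rw [mul_pow, mul_pow, mul_pow, hD2, hμ]
        field_simp
        norm_num
      have e2 : ((τ : ℝ) ^ 2 * y τ) ^ 2 = (τ : ℝ) ^ 4 * y τ ^ 2 := by ring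
      rw [e1, e2]
      have h3 : (9.8695877 : ℝ) * ((E : ℝ) * (M : ℝ) ^ 4) ≤ Real.pi ^ 2 * ((E : ℝ) * (M : ℝ) ^ 4) :=
        mul_le_mul_of_nonneg_right hpi2.le (by positivity)
      have h4 : (τ : ℝ) ^ 4 * y τ ^ 2 ≤ (τ : ℝ) ^ 4 * ((hh : ℝ) * hh / 268435456) := by
        apply mul_le_mul_of_nonneg_left _ (by positivity)
        push_cast at hyh
        exact hyh
      refine lt_of_le_of_lt h4 ?_
      rw [div_div, lt_div_iff₀ (by norm_num)]
      have h5 : (τ : ℝ) ^ 4 * ((hh : ℝ) * hh / 268435456) * (1180591620717411303424 * 268435456)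
          = (τ : ℝ) ^ 4 * ((hh : ℝ) * hh) * 1180591620717411303424 := by
        field_simp
      rw [h5]
      nlinarith
    have h2 : 0 ≤ 3 * Real.pi * D * μ ^ 2 := by positivity
    exact lt_of_pow_lt_pow_left₀ 2 h2 h1
  · have hr : ((xx * 1180591620717411303424 * 10000000 : ℕ) : ℝ)
        ≤ ((9 * 98695877 * E * (1024 - M) ^ 4 : ℕ) : ℝ) := by exact_mod_cast ht2'
    have e9 : ((1024 - M : ℕ) : ℝ) = 1024 - (M : ℝ) := by
      rw [Nat.cast_sub hM1'.le]
      norm_num
    rw [show ((9 * 98695877 * E * (1024 - M) ^ 4 : ℕ) : ℝ)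
      = 9 * 98695877 * (E : ℝ) * (1024 - (M : ℝ)) ^ 4 by
        rw [Nat.cast_mul, Nat.cast_pow, e9]
        push_cast
        ring] at hr
    push_cast at hr
    have e1 : (3 * Real.pi * D * (1 - μ) ^ 2) ^ 2
        = 9 * Real.pi ^ 2 * ((E : ℝ) * (1024 - (M : ℝ)) ^ 4) / 1180591620717411303424 / 268435456 := by
      rw [mul_pow, mul_pow, mul_pow, hD2, hμ]
      have : (1 - (M : ℝ) / 1024) = (1024 - (M : ℝ)) / 1024 := by field_simp
      rw [this]
      field_simp
      norm_num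
      ring
    rw [e1, div_div, div_le_div_iff₀ (by norm_num) (by norm_num)]
    have h3 : (9.8695877 : ℝ) * ((E : ℝ) * (1024 - (M : ℝ)) ^ 4)
        ≤ Real.pi ^ 2 * ((E : ℝ) * (1024 - (M : ℝ)) ^ 4) :=
      mul_le_mul_of_nonneg_right hpi2.le (by
        have : (0 : ℝ) ≤ 1024 - (M : ℝ) := by linarith
        positivity)
    nlinarith

/-- A budget leaf is contradictory. -/
theorem lamOK'_sound (hf : Feas k t y a) {b : List (ℕ × ℕ)} (hI : Inv k y b) {L : ℕ}
    (h : lamOK' L t b = true) : False := by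
  unfold lamOK' at h
  have h' := Nat.le_of_ble_eq_true h
  set c := sumC L t b with hc
  have hr : ((c.2 + 268435456000000000 * L : ℕ) : ℝ) ≤ ((c.1 + 618475290624000000000 : ℕ) : ℝ) := by
    exact_mod_cast h'
  push_cast at hr
  have hlen := hI.len
  have h1 := sumC_sound L t hI.mem (a := a) (fun l _ hl => hf.val l (by omega))
  rw [zero_add, hlen, ← Finset.range_eq_Ico, ← hc] at h1
  rw [Finset.sum_sub_distrib, ← Finset.mul_sum, hf.sum] at h1
  have hb := hf.bud
  have hZ : 0 < ZZ := by unfold ZZ; norm_num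
  have hlt : ZZ * ((L : ℝ) / 1024 * 1 - ∑ l ∈ Finset.range k, y l ^ 2)
      < ZZ * ((L : ℝ) / 1024 * 1 - 9 / 4) := mul_lt_mul_of_pos_left (by linarith) hZ
  have e : ZZ * ((L : ℝ) / 1024 * 1 - 9 / 4)
      = 268435456000000000 * (L : ℝ) - 618475290624000000000 := by
    unfold ZZ; ring
  rw [e] at hlt
  unfold pv at h1
  linarith

/-- The bound of the argument of a factor. -/
lemma arg_le {j hl c : ℕ} {yl yc : ℝ} (hyl : 0 ≤ yl) (hc : 0 < c) (h1 : 16384 * yl ≤ (hl : ℝ))
    (h2 : (c : ℝ) ≤ 16384 * yc) :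
    Real.sqrt 3 * (((j : ℝ) / 4) * yl / yc)
      ≤ ((86605 * j * hl / (10000 * c) + 1 : ℕ) : ℝ) / 20 := by
  have hcr : (0 : ℝ) < c := by exact_mod_cast hc
  have hyc : 0 < yc := by
    have : (0 : ℝ) < 16384 * yc := lt_of_lt_of_le hcr h2
    linarith
  have hs3 : Real.sqrt 3 ≤ 1.7321 := by
    rw [Real.sqrt_le_left (by norm_num)]
    norm_num
  have hj : (0 : ℝ) ≤ j := by positivity
  have hr : yl / yc ≤ (hl : ℝ) / c := by
    rw [div_le_div_iff₀ hyc hcr]
    have hhl : (0 : ℝ) ≤ hl := by positivity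
    nlinarith
  have hq : ((86605 * j * hl : ℕ) : ℝ) / ((10000 * c : ℕ) : ℝ)
      < ((86605 * j * hl / (10000 * c) : ℕ) : ℝ) + 1 := by
    have := Nat.lt_floor_add_one (((86605 * j * hl : ℕ) : ℝ) / ((10000 * c : ℕ) : ℝ))
    rwa [Nat.floor_div_eq_div] at this
  push_cast at hq ⊢
  have e : Real.sqrt 3 * (((j : ℝ) / 4) * yl / yc) = Real.sqrt 3 * ((j : ℝ) / 4 * (yl / yc)) := by
    ring
  rw [e]
  have h3 : Real.sqrt 3 * ((j : ℝ) / 4 * (yl / yc)) ≤ 1.7321 * ((j : ℝ) / 4 * ((hl : ℝ) / c)) := by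
    apply mul_le_mul hs3 _ (by positivity) (by norm_num)
    exact mul_le_mul_of_nonneg_left hr (by positivity)
  refine h3.trans ?_
  have e2 : (1.7321 : ℝ) * ((j : ℝ) / 4 * ((hl : ℝ) / c))
      = (86605 * (j : ℝ) * (hl : ℝ) / (10000 * (c : ℝ))) / 20 := by
    field_simp
    norm_num
    ring
  rw [e2]
  exact div_le_div_of_nonneg_right hq.le (by norm_num)

/-- The bound for the product. -/
lemma Hprod_sound {l hl j : ℕ} (hn : ∀ i, 0 ≤ y i) (hy : Antitone y) (hyl : 0 < y l)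
    (hh : 16384 * y l ≤ (hl : ℝ)) {c : ℕ} {cs : List (ℕ × ℕ)} (hm : Mem y c cs)
    (hc : c + cs.length ≤ l) :
    ∏ i ∈ Finset.Ico c (c + cs.length), Phi (Real.sqrt 3 * (((j : ℝ) / 4) * y l / y i))
      ≤ (Hprod j hl cs : ℝ) / 10 ^ 12 := by
  induction cs generalizing c with
  | nil =>
    simp only [List.length_nil, Nat.add_zero, Finset.Ico_self, Finset.prod_empty, Hprod]
    norm_num
  | cons p r ih =>
    obtain ⟨h1, h2, h3⟩ := hm
    have e : c + (p :: r).length = c + 1 + r.length := by simp; omega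
    rw [e, Finset.prod_eq_prod_Ico_succ_bot (by omega)]
    have hc' : c + 1 + r.length ≤ l := by omega
    have ih' := ih h3 hc'
    set P := ∏ i ∈ Finset.Ico (c + 1) (c + 1 + r.length),
      Phi (Real.sqrt 3 * (((j : ℝ) / 4) * y l / y i)) with hP
    have hP0 : 0 ≤ P := Finset.prod_nonneg fun _ _ => Phi_nonneg _
    simp only [Hprod]
    cases hb : Nat.beq p.1 0
    · simp only [cond_false]
      have hp0 : 0 < p.1 := by
        rcases Nat.eq_zero_or_pos p.1 with e0 | e0
        · rw [e0] at hb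
          simp at hb
        · exact e0
      have harg := arg_le (j := j) hyl.le hp0 hh h1
      have hf1 := Phi_le_hi20_of_le harg
      set f := hi20 (86605 * j * hl / (10000 * p.1) + 1) with hf
      have hfn : (0 : ℝ) ≤ (f : ℝ) / 10 ^ 12 := by positivity
      have h4 : Phi (Real.sqrt 3 * (((j : ℝ) / 4) * y l / y c)) * P
          ≤ (f : ℝ) / 10 ^ 12 * ((Hprod j hl r : ℝ) / 10 ^ 12) :=
        mul_le_mul hf1 ih' hP0 hfn
      refine h4.trans ?_
      have hq : ((Hprod j hl r * f : ℕ) : ℝ) / ((1000000000000 : ℕ) : ℝ)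
          < ((Hprod j hl r * f / 1000000000000 : ℕ) : ℝ) + 1 := by
        have := Nat.lt_floor_add_one (((Hprod j hl r * f : ℕ) : ℝ) / ((1000000000000 : ℕ) : ℝ))
        rwa [Nat.floor_div_eq_div] at this
      push_cast at hq ⊢
      rw [div_mul_div_comm, div_le_div_iff₀ (by norm_num) (by norm_num)]
      rw [div_lt_iff₀ (by norm_num)] at hq
      nlinarith
    · simp only [cond_true]
      have hf1 : Phi (Real.sqrt 3 * (((j : ℝ) / 4) * y l / y c)) ≤ 1 := Phi_le_one _
      have h4 : Phi (Real.sqrt 3 * (((j : ℝ) / 4) * y l / y c)) * P ≤ 1 * P :=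
        mul_le_mul_of_nonneg_right hf1 hP0
      linarith

lemma Hprod_nonneg (j hl : ℕ) (cs : List (ℕ × ℕ)) : (0 : ℝ) ≤ (Hprod j hl cs : ℝ) / 10 ^ 12 := by
  positivity

/-- The bound for the moments. -/
lemma mom_sound (hl : ℕ) (cs : List (ℕ × ℕ)) (n : ℕ) (hn : n ≤ 20) :
    ∑ j ∈ Finset.range n, (Hprod (j + 1) hl cs : ℝ) / 10 ^ 12 * dd1 j + ee 20
        ≤ ((mom hl cs n).1 : ℝ) / 10 ^ 24 ∧
    ∑ j ∈ Finset.range n, (Hprod (j + 1) hl cs : ℝ) / 10 ^ 12 * dd3 j + 27 * ee 20
        ≤ ((mom hl cs n).2 : ℝ) / 10 ^ 24 := by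
  induction n with
  | zero =>
    simp only [Finset.range_zero, Finset.sum_empty, zero_add, mom]
    constructor
    · refine ee20_le.trans (le_of_eq ?_)
      push_cast
      field_simp
      norm_num
    · refine ee20_27_le.trans (le_of_eq ?_)
      push_cast
      field_simp
      norm_num
  | succ n ih =>
    obtain ⟨h1, h3⟩ := ih (by omega)
    have hlt : n < 20 := by omega
    have h4 := dd1_le n hlt
    have h5 := dd3_le n hlt
    rw [Finset.sum_range_succ, Finset.sum_range_succ]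
    simp only [mom]
    have hH := Hprod_nonneg (n + 1) hl cs
    have h6 := mul_le_mul_of_nonneg_left h4 hH
    have h7 := mul_le_mul_of_nonneg_left h5 hH
    constructor
    · push_cast
      have e : (Hprod (n + 1) hl cs : ℝ) / 10 ^ 12 * ((d1q.getD n 0 : ℝ) / 10 ^ 12)
          = (Hprod (n + 1) hl cs : ℝ) * (d1q.getD n 0 : ℝ) / 10 ^ 24 := by
        field_simp
      rw [add_div]
      linarith
    · push_cast
      have e : (Hprod (n + 1) hl cs : ℝ) / 10 ^ 12 * ((d3q.getD n 0 : ℝ) / 10 ^ 12)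
          = (Hprod (n + 1) hl cs : ℝ) * (d3q.getD n 0 : ℝ) / 10 ^ 24 := by
        field_simp
      rw [add_div]
      linarith

/-- A Tool B leaf is contradictory. -/
theorem bOK_sound (hf : Feas k t y a) {b : List (ℕ × ℕ)} (h : Inv k y b) {l m p tt L L2 : ℕ}
    (hc : bOK k t l m p tt L L2 b = true) : False := by
  unfold bOK at hc
  simp only [Bool.and_eq_true] at hc
  obtain ⟨⟨⟨⟨h3m, hml⟩, hlk⟩, htl⟩, hnt⟩ := hc
  have h3m' := Nat.le_of_ble_eq_true h3m
  have hml' : m < l := by simpa [Nat.blt] using hml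
  have hlk' : l < k := by simpa [Nat.blt] using hlk
  have hlen := h.len
  have hk4 : 4 ≤ k := by omega
  set xx := xxOf t m tt L L2 b with hxx
  set E := pickE p m xx b with hE
  set sl := (gb l b).1 with hsl
  set sh := (gb l b).2 with hsh
  set cs := (b.take l).drop (m + 1) with hcs
  set q := mom sh cs 20 with hq
  clear_value q
  set V := xx - sl * sl with hV
  have hbox := Mem_gb h.mem l (by omega)
  rw [zero_add] at hbox
  have hlpos : 0 < y l := lt_of_lt_of_le hf.pos (hf.anti (by omega))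
  have hsum := xxOf_sound hf h (τ := m) (by omega) htl
  rw [← hxx] at hsum
  have hkd : 0 < 3 * m * 1000000000000000000000000 := by positivity
  have hylsq : y l ^ 2 ≤ ∑ i ∈ Finset.Ico m k, y i ^ 2 := by
    have hmem : l ∈ Finset.Ico m k := Finset.mem_Ico.2 ⟨hml'.le, hlk'⟩
    exact Finset.single_le_sum (f := fun i => y i ^ 2) (fun i _ => by positivity) hmem
  have hXX0 : 0 ≤ (xx : ℝ) / 268435456 - y l ^ 2 := by linarith
  -- the moments
  set Hv : ℕ → ℝ := fun j => (Hprod j sh cs : ℝ) / 10 ^ 12 with hHv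
  obtain ⟨hm1, hm3⟩ := mom_sound sh cs 20 le_rfl
  rw [← hq] at hm1 hm3
  set I1 := ∑ j ∈ Finset.range 20, Hv (j + 1) * dd1 j + ee 20 with hI1
  set I3 := ∑ j ∈ Finset.range 20, Hv (j + 1) * dd3 j + 27 * ee 20 with hI3
  have hq10 : (0 : ℝ) ≤ (q.1 : ℝ) / 10 ^ 24 := by positivity
  -- the factor
  have hHvOK : ∀ j : ℕ, 1 ≤ j → j ≤ 20 → Hh y l m ((j : ℝ) / 4) ≤ Hv j := by
    intro j _ _
    have hmem : Mem y (m + 1) cs := by
      rw [hcs]
      have := (Mem_take h.mem l).drop (m + 1)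
      rwa [zero_add] at this
    have hlc : (m + 1) + cs.length = l := by
      rw [hcs]
      simp
      omega
    have := Hprod_sound (j := j) hf.nn hf.anti hlpos hbox.2 hmem hlc.le
    rw [hlc] at this
    exact this
  refine ntAll_contra (x := y l) (T' := ((xx : ℝ) / 268435456 - y l ^ 2) * I1) hkd hnt hlpos hbox.1
    hbox.2 ?_ ?_
  · -- the tail
    have hsl2 : ((sl * sl : ℕ) : ℝ) / 268435456 ≤ y l ^ 2 := sq_lo hbox.1
    have hVr : (xx : ℝ) / 268435456 - y l ^ 2 ≤ (V : ℝ) / 268435456 := by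
      have h1 : (xx : ℝ) - ((sl * sl : ℕ) : ℝ) ≤ (V : ℝ) := cast_sub_ge xx (sl * sl)
      have h2 : ((xx : ℝ) - ((sl * sl : ℕ) : ℝ)) / 268435456 ≤ (V : ℝ) / 268435456 :=
        div_le_div_of_nonneg_right h1 (by norm_num)
      rw [sub_div] at h2
      linarith
    have h3 : ((xx : ℝ) / 268435456 - y l ^ 2) * I1 ≤ (V : ℝ) / 268435456 * ((q.1 : ℝ) / 10 ^ 24) :=
      (mul_le_mul_of_nonneg_left hm1 hXX0).trans (mul_le_mul_of_nonneg_right hVr hq10)
    refine h3.trans ?_
    have hq2 : ((V * q.1 : ℕ) : ℝ) / ((1000000000000000000000000 : ℕ) : ℝ)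
        < ((V * q.1 / 1000000000000000000000000 : ℕ) : ℝ) + 1 := by
      have := Nat.lt_floor_add_one (((V * q.1 : ℕ) : ℝ) / ((1000000000000000000000000 : ℕ) : ℝ))
      rwa [Nat.floor_div_eq_div] at this
    push_cast at hq2 ⊢
    have e : (V : ℝ) / 268435456 * ((q.1 : ℝ) / 10 ^ 24)
        = ((V : ℝ) * q.1 / 1000000000000000000000000) / 268435456 := by
      field_simp
      norm_num
    rw [e]
    exact div_le_div_of_nonneg_right hq2.le (by norm_num)
  · intro D hD hD2
    have hE0 : 0 < E := by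
      rcases Nat.eq_zero_or_pos E with e | e
      · rw [e] at hD2
        have : 0 < D ^ 2 := by positivity
        simp at hD2
        nlinarith
      · exact e
    have hpick := pickE_sound hf h hk4 (p := p) (τ := m) (xx := xx) hE0 hD2
    have htb := hf.tb l m h3m' hml' hlk' p ((xx : ℝ) / 268435456) D hD hpick hsum Hv hHvOK
    refine htb.trans ?_
    have hy0 : 0 ≤ y l ^ 2 := by positivity
    have hm0 : (0 : ℝ) < m := by
      have : 0 < m := by omega
      exact_mod_cast this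
    have hK : ((m : ℝ) + 1) ^ 3 / (3 * (m : ℝ)) * y l ^ 2 * I3
        ≤ ((m : ℝ) + 1) ^ 3 / (3 * (m : ℝ)) * y l ^ 2 * ((q.2 : ℝ) / 10 ^ 24) :=
      mul_le_mul_of_nonneg_left hm3 (by positivity)
    have e : ((((m + 1) ^ 3 * q.2 : ℕ) : ℝ) / ((3 * m * 1000000000000000000000000 : ℕ) : ℝ))
        * y l ^ 2 = ((m : ℝ) + 1) ^ 3 / (3 * (m : ℝ)) * y l ^ 2 * ((q.2 : ℝ) / 10 ^ 24) := by
      push_cast
      field_simp
      norm_num
    rw [e]
    linarith

/-- **Soundness of the checker.** -/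
theorem chk_sound (hf : Feas k t y a) (c : Cert) :
    ∀ b : List (ℕ × ℕ), chk k t c b = true → Inv k y b → False := by
  induction c with
  | L n =>
    intro b h hI
    exact lamOK'_sound hf hI h
  | A τ p M tt L L2 =>
    intro b h hI
    exact aOK_sound hf hI h
  | B l m p tt L L2 =>
    intro b h hI
    exact bOK_sound hf hI h
  | E =>
    intro b h hI
    simp only [chk] at h
    rw [hI.mem.not_any] at h
    exact Bool.noConfusion h
  | sp i m p q ihp ihq =>
    intro b h hI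
    simp only [chk, Bool.and_eq_true] at h
    rcases le_total (16384 * y i) (m : ℝ) with h3 | h3
    · refine ihp _ h.1 (Inv.tight hf ?_)
      exact ⟨by rw [length_updH]; exact hI.len, hI.mem.updH (by simpa using h3)⟩
    · refine ihq _ h.2 (Inv.tight hf ?_)
      exact ⟨by rw [length_updL]; exact hI.len, hI.mem.updL (by simpa using h3)⟩

lemma Mem_replicate (hf : Feas k t y a) (n s : ℕ) : Mem y s (List.replicate n (0, 16384)) := by
  induction n generalizing s with
  | zero => simp [Mem]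
  | succ n ih =>
    rw [List.replicate_succ]
    refine ⟨?_, ?_, ih (s + 1)⟩
    · have := hf.nn s
      push_cast
      linarith
    · have h1 := hf.top
      have h2 : y s ≤ y 0 := hf.anti (Nat.zero_le _)
      push_cast
      linarith

/-- **The final form.** -/
theorem no_feas (hf : Feas k t y a) (c : Cert)
    (h : chk k t c (List.replicate k (0, 16384)) = true) : False :=
  chk_sound hf c _ h ⟨by simp, Mem_replicate hf k 0⟩

end Crest.Agent.Propeller.AB
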