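import Crest.Agent.Lib.Propeller.BlockH

/-!
# Propeller: Tool B, single deletion of an arbitrary index with Harris on the larger cells

`j` arbitrary, `s = ‖z j‖`.  `erase j = G ∪ (insert c₀ D ∪ N)`, disjoint.  Cells of `D` have norm at
least `s` and at most `‖z c₀‖`.  `N` is arbitrary (cells of `N` only enter the variance `V`).
`Hcell z j D n = ∏_{l ∈ D} Φ(√3 n s / ‖z l‖)`.  With `m = |G|`, `K = (m+1)³/(3m)`,
`I₁ ≥ E n₊ Hcell`, `I₃ ≥ E n₊³ Hcell`:

`2 π Δ s ≤ K s² I₃ + V I₁`.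

Since the cells of `N` need no lower bound, the statement does not depend on `k`.
-/

set_option autoImplicit false
set_option linter.unusedSectionVars false
open MeasureTheory ProbabilityTheory Set Filter
open scoped RealInnerProductSpace ENNReal

namespace Crest.Agent.Propeller

universe u

variable {E : Type u} [NormedAddCommGroup E] [InnerProductSpace ℝ E] [FiniteDimensional ℝ E]
  [MeasurableSpace E] [BorelSpace E]
variable {k : ℕ} {z : Fin k → E} {A : Fin k → Set E}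

/-- The Harris factor. -/
noncomputable def Hcell (z : Fin k → E) (j : Fin k) (D : Finset (Fin k)) (n : ℝ) : ℝ :=
  ∏ l ∈ D, Phi (Real.sqrt 3 * (n * ‖z j‖ / ‖z l‖))

lemma Hcell_nonneg (j : Fin k) (D : Finset (Fin k)) (n : ℝ) : 0 ≤ Hcell z j D n :=
  Finset.prod_nonneg fun _ _ => Phi_nonneg _

lemma Hcell_le_one (j : Fin k) (D : Finset (Fin k)) (n : ℝ) : Hcell z j D n ≤ 1 :=
  Finset.prod_le_one (fun _ _ => Phi_nonneg _) fun _ _ => Phi_le_one _

lemma Hcell_mono (j : Fin k) (D : Finset (Fin k)) : Monotone (Hcell z j D) := by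
  intro n n' hnn
  refine Finset.prod_le_prod (fun _ _ => Phi_nonneg _) fun l _ => Phi_mono ?_
  apply mul_le_mul_of_nonneg_left _ (Real.sqrt_nonneg _)
  exact div_le_div_of_nonneg_right (mul_le_mul_of_nonneg_right hnn (norm_nonneg _)) (norm_nonneg _)

lemma measurable_Hcell (j : Fin k) (D : Finset (Fin k)) : Measurable (Hcell z j D) :=
  (Hcell_mono j D).measurable

/-- The bound at one cell of small coefficient. -/
lemma toolB_node {j l : Fin k} (hs : 0 < ‖z j‖) (hq0 : 0 ≤ qc z j l) (hq1 : qc z j l ≤ 1 / 2)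
    (hσ : ‖z j‖ ≤ ‖z l‖) {n y : ℝ} (hn : 0 ≤ n) (hy : y ≤ n * ‖z j‖ * (1 + qc z j l)) :
    (stdGaussian E).real {g | ⟪prp (uvec z j) (z l), g⟫ < y}
      ≤ Phi (Real.sqrt 3 * (n * ‖z j‖ / ‖z l‖)) := by
  set q := qc z j l with hq
  set s := ‖z j‖ with hsdef
  have hK : ‖prp (uvec z j) (z l)‖ ^ 2 = ‖z l‖ ^ 2 - q ^ 2 * s ^ 2 := Kp_eq j l hs
  have hσ2 : s ^ 2 ≤ ‖z l‖ ^ 2 := pow_le_pow_left₀ hs.le hσ 2
  have hq2 : q ^ 2 ≤ 1 / 4 := by nlinarith
  have hl0 : 0 < ‖z l‖ := lt_of_lt_of_le hs hσ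
  have hK1 : 3 / 4 * ‖z l‖ ^ 2 ≤ ‖prp (uvec z j) (z l)‖ ^ 2 := by
    rw [hK]
    have : q ^ 2 * s ^ 2 ≤ 1 / 4 * ‖z l‖ ^ 2 :=
      mul_le_mul hq2 hσ2 (by positivity) (by norm_num)
    linarith
  have hKpos : 0 < ‖prp (uvec z j) (z l)‖ ^ 2 := lt_of_lt_of_le (by positivity) hK1
  have hw : prp (uvec z j) (z l) ≠ 0 := by
    intro h0
    rw [h0, norm_zero] at hKpos
    norm_num at hKpos
  have hwn : 0 < ‖prp (uvec z j) (z l)‖ := norm_pos_iff.2 hw
  rw [real_halfspace _ hw]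
  apply Phi_mono
  rw [div_le_iff₀ hwn]
  refine hy.trans ?_
  set r3 := Real.sqrt 3 with hr3
  have hr3s : r3 ^ 2 = 3 := Real.sq_sqrt (by norm_num)
  have hr30 : 0 < r3 := Real.sqrt_pos.2 (by norm_num)
  -- `ρ ≥ (√3/2) σ`
  have hρ : r3 / 2 * ‖z l‖ ≤ ‖prp (uvec z j) (z l)‖ := by
    apply abs_le_of_sq_le_sq' _ (norm_nonneg _) |>.2
    rw [mul_pow, div_pow, hr3s]
    linarith
  have hfrac : 0 ≤ r3 * (n * s / ‖z l‖) := by positivity
  calc n * s * (1 + q) ≤ n * s * (3 / 2) :=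
        mul_le_mul_of_nonneg_left (by linarith) (by positivity)
    _ = r3 * (n * s / ‖z l‖) * (r3 / 2 * ‖z l‖) := by
        field_simp
        nlinarith
    _ ≤ r3 * (n * s / ‖z l‖) * ‖prp (uvec z j) (z l)‖ :=
        mul_le_mul_of_nonneg_left hρ hfrac

/-- The product over `insert c₀ D`: whatever cell is heavy, the bound by `Hcell` holds. -/
lemma toolB_prod (hc : Critical z A) (hR : R < S z) (hP : PF E (k - 1)) (hk : 2 ≤ k) (j : Fin k)
    (c₀ : Fin k) (D : Finset (Fin k)) (hc₀ : c₀ ∉ D) (hc₀j : c₀ ≠ j) (hDj : ∀ l ∈ D, l ≠ j)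
    (hσ : ∀ l ∈ D, ‖z j‖ ≤ ‖z l‖) (hσ₀ : ∀ l ∈ D, ‖z l‖ ≤ ‖z c₀‖)
    {n : ℝ} (hn : 0 ≤ n) (y : Fin k → ℝ) (hy : ∀ l, y l ≤ n * ‖z j‖ * (1 + qc z j l)) :
    ∏ l ∈ insert c₀ D, (stdGaussian E).real {g | ⟪prp (uvec z j) (z l), g⟫ < y l}
      ≤ Hcell z j D n := by
  have hs := hc.norm_pos hR hP hk j
  set f : Fin k → ℝ := fun l => (stdGaussian E).real {g | ⟪prp (uvec z j) (z l), g⟫ < y l} with hf
  have hf0 : ∀ l, 0 ≤ f l := fun l => measureReal_nonneg
  have hf1 : ∀ l, f l ≤ 1 := fun l => measureReal_le_one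
  set p : Fin k → ℝ := fun l => Phi (Real.sqrt 3 * (n * ‖z j‖ / ‖z l‖)) with hp
  have hp0 : ∀ l, 0 ≤ p l := fun l => Phi_nonneg _
  have hq0 : ∀ l, l ≠ j → 0 ≤ qc z j l := fun l hl => hc.qc_nonneg hR hP j hl
  have hnode : ∀ l ∈ insert c₀ D, l ≠ j → qc z j l ≤ 1 / 2 → ‖z j‖ ≤ ‖z l‖ → f l ≤ p l :=
    fun l _ hlj hq hσl => toolB_node hs (hq0 l hlj) hq hσl hn (hy l)
  unfold Hcell
  rw [Finset.prod_insert hc₀]
  -- at most one heavy cell
  by_cases hheavy : ∃ x ∈ D, 1 / 2 < qc z j x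
  · obtain ⟨x, hx, hqx⟩ := hheavy
    have hxj := hDj x hx
    have hlight : ∀ l, l ≠ j → l ≠ x → qc z j l ≤ 1 / 2 := fun l hlj hlx => by
      have := hc.qc_add_le hR hP hk j hlj hxj hlx
      linarith
    have hc₀x : c₀ ≠ x := fun h => hc₀ (h ▸ hx)
    have h1 : f c₀ ≤ p x := by
      refine (toolB_node hs (hq0 c₀ hc₀j) (hlight c₀ hc₀j hc₀x)
        ((hσ x hx).trans (hσ₀ x hx)) hn (hy c₀)).trans ?_
      refine Phi_mono ?_
      apply mul_le_mul_of_nonneg_left _ (Real.sqrt_nonneg _)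
      have hx0 : 0 < ‖z x‖ := lt_of_lt_of_le hs (hσ x hx)
      apply div_le_div_of_nonneg_left (by positivity) hx0 (hσ₀ x hx)
    rw [← Finset.mul_prod_erase D f hx, ← Finset.mul_prod_erase D _ hx]
    have h2 : ∏ l ∈ D.erase x, f l ≤ ∏ l ∈ D.erase x, p l := by
      refine Finset.prod_le_prod (fun l _ => hf0 l) fun l hl => ?_
      have hlD := Finset.mem_of_mem_erase hl
      exact toolB_node hs (hq0 l (hDj l hlD)) (hlight l (hDj l hlD) (Finset.ne_of_mem_erase hl))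
        (hσ l hlD) hn (hy l)
    have h3 : 0 ≤ ∏ l ∈ D.erase x, f l := Finset.prod_nonneg fun l _ => hf0 l
    calc f c₀ * (f x * ∏ l ∈ D.erase x, f l)
        ≤ p x * (1 * ∏ l ∈ D.erase x, p l) := by
          apply mul_le_mul h1 _ (mul_nonneg (hf0 _) h3) (hp0 x)
          exact mul_le_mul (hf1 x) h2 h3 zero_le_one
      _ = p x * ∏ l ∈ D.erase x, p l := by rw [one_mul]
  · push Not at hheavy
    have h2 : ∏ l ∈ D, f l ≤ ∏ l ∈ D, p l := by
      refine Finset.prod_le_prod (fun l _ => hf0 l) fun l hl => ?_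
      exact toolB_node hs (hq0 l (hDj l hl)) (hheavy l hl) (hσ l hl) hn (hy l)
    have h3 : 0 ≤ ∏ l ∈ D, f l := Finset.prod_nonneg fun l _ => hf0 l
    calc f c₀ * ∏ l ∈ D, f l ≤ 1 * ∏ l ∈ D, f l := mul_le_mul_of_nonneg_right (hf1 _) h3
      _ = ∏ l ∈ D, f l := one_mul _
      _ ≤ _ := h2

/-- The inner integral. -/
lemma toolB_inner (c m Rr V D H : ℝ) (hm : 0 < m) (hRr : 0 ≤ Rr) (hV : 0 ≤ V) (hD : 0 < D)
    (hH : 0 ≤ H) :
    ∫⁻ w in Ioo (0 : ℝ) Rr, ENNReal.ofReal (((c - m * w) ^ 2 + V) / D * H)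
      = ENNReal.ofReal (((c ^ 3 - (c - m * Rr) ^ 3) / (3 * m) + V * Rr) / D * H) := by
  rw [← ofReal_integral_eq_lintegral_ofReal]
  · congr 1
    rw [← integral_Ioc_eq_integral_Ioo, ← intervalIntegral.integral_of_le hRr]
    have hF : ∀ w ∈ uIcc (0 : ℝ) Rr, HasDerivAt (fun w : ℝ => (-(c - m * w) ^ 3 / (3 * m) + V * w) / D * H)
        (((c - m * w) ^ 2 + V) / D * H) w := by
      intro w _
      have h1 : HasDerivAt (fun w : ℝ => c - m * w) (-m) w := by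
        simpa using ((hasDerivAt_id w).const_mul m).const_sub c
      have h2 := h1.fun_pow 3
      have h3 := ((h2.fun_neg.div_const (3 * m)).fun_add ((hasDerivAt_id w).const_mul V)).div_const D
      refine (h3.mul_const H).congr_deriv ?_
      field_simp
      simp
      ring
    rw [intervalIntegral.integral_eq_sub_of_hasDerivAt hF
      (by apply Continuous.intervalIntegrable; fun_prop)]
    field_simp
    ring
  · apply IntegrableOn.mono_set (t := Icc (0 : ℝ) Rr) _ Ioo_subset_Icc_self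
    apply Continuous.integrableOn_Icc
    fun_prop
  · refine Eventually.of_forall fun w => ?_
    simp only [Pi.zero_apply]
    positivity

/-- The moment constant. -/
lemma toolB_moment {m q s δ : ℝ} (hm : 1 ≤ m) (hq0 : 0 ≤ q) (hq1 : q ≤ 1) (hs : 0 ≤ s) (hδ1 : δ ≤ 1) :
    (s * (m + q)) ^ 3 - (s * (q - δ)) ^ 3 ≤ (m + 1) ^ 3 * s ^ 3 := by
  have e : (s * (m + q)) ^ 3 - (s * (q - δ)) ^ 3 = s ^ 3 * ((m + q) ^ 3 - (q - δ) ^ 3) := by ring
  rw [e, mul_comm ((m + 1) ^ 3)]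
  apply mul_le_mul_of_nonneg_left _ (by positivity)
  rcases le_total δ q with h | h
  · have h1 : 0 ≤ (q - δ) ^ 3 := pow_nonneg (by linarith) 3
    have h2 : (m + q) ^ 3 ≤ (m + 1) ^ 3 := pow_le_pow_left₀ (by linarith) (by linarith) 3
    linarith
  · have h1 : (δ - q) ^ 3 ≤ (1 - q) ^ 3 := pow_le_pow_left₀ (by linarith) (by linarith) 3
    have h2 : (q - δ) ^ 3 = - (δ - q) ^ 3 := by ring
    rw [h2]
    have h3 : (1 - q) ^ 3 ≤ 1 - q := by
      have h4 : 0 ≤ 1 - q := by linarith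
      have h5 : 1 - q ≤ 1 := by linarith
      nlinarith [mul_nonneg h4 h4, mul_nonneg h4 (sub_nonneg.2 h5), mul_nonneg (mul_nonneg h4 h4) (sub_nonneg.2 h5)]
    have h6 : (m + 1) ^ 3 - (m + q) ^ 3 = (1 - q) * ((m + 1) ^ 2 + (m + 1) * (m + q) + (m + q) ^ 2) := by
      ring
    have h7 : 1 ≤ (m + 1) ^ 2 + (m + 1) * (m + q) + (m + q) ^ 2 := by nlinarith
    have h8 : (1 - q) * 1 ≤ (1 - q) * ((m + 1) ^ 2 + (m + 1) * (m + q) + (m + q) ^ 2) :=
      mul_le_mul_of_nonneg_left h7 (by linarith)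
    linarith

/-- **Tool B, the gain.** -/
theorem toolB_gain (hc : Critical z A) (hR : R < S z) (hP : PF E (k - 1)) (hk : 2 ≤ k) (j : Fin k)
    (G N D : Finset (Fin k)) (c₀ : Fin k) (hc₀ : c₀ ∉ D)
    (hG : Disjoint G (insert c₀ D ∪ N)) (_hN : Disjoint (insert c₀ D) N)
    (hcov : G ∪ (insert c₀ D ∪ N) = Finset.univ.erase j) {a b : Fin k} (ha : a ∈ G) (hb : b ∈ G)
    (hab : a ≠ b) {Δ : ℝ} (hΔ : 0 < Δ) {W : Submodule ℝ E}
    (hW : W = Submodule.span ℝ (z '' ((insert j (insert c₀ D ∪ N) : Finset (Fin k)) : Set (Fin k))))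
    (hΔ2 : Δ ^ 2 ≤ ‖Wᗮ.starProjection (z a)‖ ^ 2 * ‖Wᗮ.starProjection (z b)‖ ^ 2
      - ⟪Wᗮ.starProjection (z a), Wᗮ.starProjection (z b)⟫ ^ 2)
    (hσ : ∀ l ∈ D, ‖z j‖ ≤ ‖z l‖) (hσ₀ : ∀ l ∈ D, ‖z l‖ ≤ ‖z c₀‖)
    {V : ℝ} (hV : ∑ l ∈ insert c₀ D ∪ N, ‖z l‖ ^ 2 ≤ V) {I₁ I₃ : ℝ} (hI₁0 : 0 ≤ I₁) (hI₃0 : 0 ≤ I₃)
    (hI₁ : ∫⁻ n in Ioi (0 : ℝ), ENNReal.ofReal (n * Hcell z j D n) ∂(gaussianReal 0 1)
      ≤ ENNReal.ofReal I₁)
    (hI₃ : ∫⁻ n in Ioi (0 : ℝ), ENNReal.ofReal (n ^ 3 * Hcell z j D n) ∂(gaussianReal 0 1)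
      ≤ ENNReal.ofReal I₃) :
    F z - F (restr z (Finset.univ.erase j))
      ≤ (((G.card : ℝ) + 1) ^ 3 / (3 * (G.card : ℝ)) * ‖z j‖ ^ 3 * I₃
          + V * ((k : ℝ) / ((k : ℝ) - 1)) * ‖z j‖ * I₁) / (4 * Real.pi * Δ) := by
  have hs := hc.norm_pos hR hP hk j
  have hpi := Real.pi_pos
  have hD0 : 0 < 4 * Real.pi * Δ := by positivity
  set s := ‖z j‖ with hsdef
  set e := uvec z j with he
  set C := insert c₀ D with hCdef
  set v : Fin k → E := fun i => prp e (z i) with hv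
  have hk2 : (2 : ℝ) ≤ k := by exact_mod_cast hk
  have hk1 : (0 : ℝ) < (k : ℝ) - 1 := by linarith
  have hk0 : (0 : ℝ) < k := by linarith
  have hjE : ∀ l ∈ Finset.univ.erase j, l ≠ j := fun l hl => Finset.ne_of_mem_erase hl
  have hGj : ∀ l ∈ G, l ≠ j := fun l hl => hjE l (hcov ▸ Finset.mem_union_left _ hl)
  have hCNj : ∀ l ∈ C ∪ N, l ≠ j := fun l hl => hjE l (hcov ▸ Finset.mem_union_right _ hl)
  have hCj : ∀ l ∈ C, l ≠ j := fun l hl => hCNj l (Finset.mem_union_left _ hl)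
  have hGC : Disjoint G C := Finset.disjoint_of_subset_right Finset.subset_union_left hG
  have hT : (Finset.univ.erase j).Nonempty := ⟨a, by rw [← hcov]; exact Finset.mem_union_left _ ha⟩
  -- obtuseness of the projected family
  have hobtall : ∀ i ∈ C ∪ N, ∀ l ∈ G ∪ (C ∪ N), i ≠ l → ⟪v i, v l⟫ ≤ 0 := by
    intro i hi l hl hil
    rw [hcov] at hl
    exact hc.inner_prp_nonpos hR hP j hs (hCNj i hi) (hjE l hl) hil
  have hobt : ∀ i ∈ C, ∀ l ∈ G ∪ C, i ≠ l → ⟪v i, v l⟫ ≤ 0 := by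
    intro i hi l hl hil
    refine hobtall i (Finset.mem_union_left _ hi) l ?_ hil
    rcases Finset.mem_union.1 hl with hl | hl
    · exact Finset.mem_union_left _ hl
    · exact Finset.mem_union_right _ (Finset.mem_union_left _ hl)
  -- `e` in `W`
  have heW : e ∈ W := by
    rw [hW, he]
    refine Submodule.smul_mem _ _ (Submodule.subset_span ⟨j, ?_, rfl⟩)
    simp
  have hPv : ∀ i, Wᗮ.starProjection (v i) = Wᗮ.starProjection (z i) := fun i => star_prp_eq heW _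
  have hsumT : ∑ i ∈ G ∪ (C ∪ N), v i = 0 := by
    rw [hcov]
    exact sum_prp_erase z j hc.sum_zero hs
  have hsumG : ∑ i ∈ G, v i = - ∑ i ∈ C ∪ N, v i := by
    rw [Finset.sum_union hG] at hsumT
    exact eq_neg_of_add_eq_zero_left hsumT
  have hinW : ∑ i ∈ G, v i ∈ W := by
    rw [hsumG]
    refine W.neg_mem (W.sum_mem fun l hl => ?_)
    simp only [hv, prp]
    refine W.sub_mem ?_ (W.smul_mem _ heW)
    rw [hW]
    refine Submodule.subset_span ⟨l, ?_, rfl⟩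
    exact Finset.mem_coe.2 (Finset.mem_insert_of_mem hl)
  have hΔ2' : Δ ^ 2 ≤ ‖Wᗮ.starProjection (v a)‖ ^ 2 * ‖Wᗮ.starProjection (v b)‖ ^ 2
      - ⟪Wᗮ.starProjection (v a), Wᗮ.starProjection (v b)⟫ ^ 2 := by
    rw [hPv, hPv]
    exact hΔ2
  -- coefficients
  have hqT : ∀ l ∈ G ∪ (C ∪ N), 0 ≤ qc z j l := fun l hl => by
    rw [hcov] at hl
    exact hc.qc_nonneg hR hP j (hjE l hl)
  have hqsum : ∑ l ∈ G ∪ (C ∪ N), qc z j l = 1 := by
    rw [hcov]
    exact qc_sum hc.sum_zero j hs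
  have hqG : ∑ l ∈ G, qc z j l ≤ 1 := by
    rw [← hqsum]
    exact Finset.sum_le_sum_of_subset_of_nonneg Finset.subset_union_left fun i hi _ => hqT i hi
  have hq0G : 0 ≤ ∑ i ∈ G, qc z j i :=
    Finset.sum_nonneg fun l hl => hqT l (Finset.mem_union_left _ hl)
  have hVG : ‖∑ i ∈ G, v i‖ ^ 2 ≤ V := by
    rw [hsumG, norm_neg]
    refine le_trans (norm_sum_sq_le_of_obtuse (C ∪ N) v fun i hi l hl hil =>
      hobtall i hi l (Finset.mem_union_right _ hl) hil) (le_trans ?_ hV)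
    refine Finset.sum_le_sum fun l _ => ?_
    exact Kp_le j l hs
  have hV0 : 0 ≤ V := le_trans (by positivity) hVG
  -- the inner product with `e`
  have hinn : ∀ i, ⟪z i, e⟫ = - qc z j i * s := fun i => by
    rw [real_inner_comm, he, inner_uvec j i hs]
  set m : ℝ := (G.card : ℝ) with hm
  have hm1 : 1 ≤ m := by
    have : 0 < G.card := Finset.card_pos.2 ⟨a, ha⟩
    simp only [hm]
    exact_mod_cast this
  have hm0 : 0 < m := by linarith
  set qG : ℝ := ∑ l ∈ G, qc z j l with hqGdef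
  set Aa : ℝ := s * (m + qG) with hAa
  have hsumy : ∀ n w : ℝ, ∑ i ∈ G, yy z e s n w i = n * Aa - m * w := by
    intro n w
    unfold yy
    simp_rw [hinn]
    have e1 : ∀ i, n * (s - -qc z j i * s) - w = n * s + (n * s) * qc z j i - w := fun i => by ring
    simp_rw [e1]
    rw [Finset.sum_sub_distrib, Finset.sum_add_distrib, Finset.sum_const, Finset.sum_const,
      nsmul_eq_mul, nsmul_eq_mul, ← Finset.mul_sum]
    simp only [hAa, hm, hqGdef]
    ring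
  have hyle : ∀ n w : ℝ, 0 < w → ∀ l, yy z e s n w l ≤ n * s * (1 + qc z j l) := by
    intro n w hw l
    unfold yy
    rw [hinn]
    nlinarith
  -- the pointwise bound
  set r : ℝ := (k : ℝ) / ((k : ℝ) - 1) with hr
  have hr1 : 1 ≤ r := by
    rw [hr, one_le_div hk1]
    linarith
  have hpoint : ∀ n : ℝ, 0 < n → ∀ w ∈ Ioo (0 : ℝ) ((k : ℝ) * n * s / ((k : ℝ) - 1)),
      stdGaussian E (below (Finset.univ.erase j) (fun i => prp (‖z j‖⁻¹ • z j) (z i))
        (yy z (‖z j‖⁻¹ • z j) ‖z j‖ n w))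
      ≤ ENNReal.ofReal (((n * Aa - m * w) ^ 2 + V) / (4 * Real.pi * Δ) * Hcell z j D n) := by
    intro n hn w hw
    have hsub : below (Finset.univ.erase j) (fun i => prp (‖z j‖⁻¹ • z j) (z i))
        (yy z (‖z j‖⁻¹ • z j) ‖z j‖ n w)
        ⊆ {g : E | ∀ i ∈ G ∪ C, ⟪v i, g⟫ < yy z e s n w i} := by
      intro g hg i hi
      refine hg i ?_
      rw [← hcov]
      rcases Finset.mem_union.1 hi with hi | hi
      · exact Finset.mem_union_left _ hi
      · exact Finset.mem_union_right _ (Finset.mem_union_left _ hi)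
    have h1 := block_tail v G C hGC hobt ha hb hab W hinW Δ hΔ hΔ2' (yy z e s n w)
    refine (measure_mono hsub).trans ?_
    rw [← ofReal_measureReal]
    apply ENNReal.ofReal_le_ofReal
    refine h1.trans ?_
    rw [hsumy]
    have hprod := toolB_prod hc hR hP hk j c₀ D hc₀ (hCj c₀ (Finset.mem_insert_self _ _))
      (fun l hl => hCj l (Finset.mem_insert_of_mem hl)) hσ hσ₀ hn.le (yy z e s n w)
      (hyle n w hw.1)
    apply mul_le_mul _ hprod (Finset.prod_nonneg fun _ _ => measureReal_nonneg) (by positivity)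
    exact div_le_div_of_nonneg_right (by linarith) hD0.le
  have hgain := gain_le_of_bound z j hT hc.sum_zero hs hk
    (fun n w => ENNReal.ofReal (((n * Aa - m * w) ^ 2 + V) / (4 * Real.pi * Δ) * Hcell z j D n))
    hpoint
  set K0 : ℝ := (m + 1) ^ 3 / (3 * m) with hK0
  -- the inner integral
  have hinner : ∀ n ∈ Ioi (0 : ℝ),
      ∫⁻ w in Ioo (0 : ℝ) ((k : ℝ) * n * s / ((k : ℝ) - 1)),
        ENNReal.ofReal (((n * Aa - m * w) ^ 2 + V) / (4 * Real.pi * Δ) * Hcell z j D n)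
      ≤ ENNReal.ofReal ((K0 * s ^ 3 / (4 * Real.pi * Δ)) * (n ^ 3 * Hcell z j D n))
        + ENNReal.ofReal ((V * r * s / (4 * Real.pi * Δ)) * (n * Hcell z j D n)) := by
    intro n hn
    have hn0 : 0 < n := hn
    have hH := Hcell_nonneg (z := z) j D n
    rw [toolB_inner _ _ _ _ _ _ hm0 (by positivity) hV0 hD0 hH,
      ← ENNReal.ofReal_add (by positivity) (by positivity)]
    apply ENNReal.ofReal_le_ofReal
    -- the moment
    set δ : ℝ := m / ((k : ℝ) - 1) with hδ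
    have hδ0 : 0 ≤ δ := by positivity
    have hGk : (G.card : ℝ) ≤ (k : ℝ) - 1 := by
      have h1 : G ⊆ Finset.univ.erase j := by
        rw [← hcov]
        exact Finset.subset_union_left
      have h2 := Finset.card_le_card h1
      rw [Finset.card_erase_of_mem (Finset.mem_univ j), Finset.card_univ, Fintype.card_fin] at h2
      have h3 : ((k - 1 : ℕ) : ℝ) = (k : ℝ) - 1 := by
        rw [Nat.cast_sub (by omega)]
        simp
      rw [← h3]
      exact_mod_cast h2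
    have hδ1 : δ ≤ 1 := by
      rw [hδ, div_le_one hk1]
      exact hGk
    have hmom := toolB_moment hm1 hq0G hqG hs.le hδ1
    have e1 : n * Aa - m * ((k : ℝ) * n * s / ((k : ℝ) - 1)) = n * (s * (qG - δ)) := by
      rw [hAa, hδ]
      have : (k : ℝ) ≠ (1 : ℝ) := by linarith
      have h2 : (k : ℝ) - 1 ≠ 0 := hk1.ne'
      field_simp
      ring
    rw [e1]
    have e2 : ((n * Aa) ^ 3 - (n * (s * (qG - δ))) ^ 3) / (3 * m)
        = n ^ 3 * ((s * (m + qG)) ^ 3 - (s * (qG - δ)) ^ 3) / (3 * m) := by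
      rw [hAa]; ring
    rw [e2]
    have e3 : V * ((k : ℝ) * n * s / ((k : ℝ) - 1)) = V * r * s * n := by
      rw [hr]; ring
    rw [e3]
    have h4 : n ^ 3 * ((s * (m + qG)) ^ 3 - (s * (qG - δ)) ^ 3) / (3 * m)
        ≤ n ^ 3 * ((m + 1) ^ 3 * s ^ 3) / (3 * m) :=
      div_le_div_of_nonneg_right (mul_le_mul_of_nonneg_left hmom (by positivity)) (by positivity)
    have h5 : 0 ≤ Hcell z j D n / (4 * Real.pi * Δ) := by positivity
    calc (n ^ 3 * ((s * (m + qG)) ^ 3 - (s * (qG - δ)) ^ 3) / (3 * m) + V * r * s * n)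
          / (4 * Real.pi * Δ) * Hcell z j D n
        = (n ^ 3 * ((s * (m + qG)) ^ 3 - (s * (qG - δ)) ^ 3) / (3 * m) + V * r * s * n)
          * (Hcell z j D n / (4 * Real.pi * Δ)) := by ring
      _ ≤ (n ^ 3 * ((m + 1) ^ 3 * s ^ 3) / (3 * m) + V * r * s * n)
          * (Hcell z j D n / (4 * Real.pi * Δ)) :=
          mul_le_mul_of_nonneg_right (by linarith) h5
      _ = _ := by
          rw [hK0]
          field_simp
  -- the outer integral
  have hmeasH := measurable_Hcell (z := z) j D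
  have hC3 : 0 ≤ K0 * s ^ 3 / (4 * Real.pi * Δ) := by positivity
  have hC1 : 0 ≤ V * r * s / (4 * Real.pi * Δ) := by positivity
  have houter : ∫⁻ n in Ioi (0 : ℝ), (∫⁻ w in Ioo (0 : ℝ) ((k : ℝ) * n * s / ((k : ℝ) - 1)),
        ENNReal.ofReal (((n * Aa - m * w) ^ 2 + V) / (4 * Real.pi * Δ) * Hcell z j D n))
        ∂(gaussianReal 0 1)
      ≤ ENNReal.ofReal ((K0 * s ^ 3 / (4 * Real.pi * Δ)) * I₃)
        + ENNReal.ofReal ((V * r * s / (4 * Real.pi * Δ)) * I₁) := by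
    refine (setLIntegral_mono' measurableSet_Ioi hinner).trans ?_
    have hm3 : Measurable fun n : ℝ =>
        ENNReal.ofReal ((K0 * s ^ 3 / (4 * Real.pi * Δ)) * (n ^ 3 * Hcell z j D n)) := by
      apply ENNReal.measurable_ofReal.comp
      exact ((measurable_id.pow_const 3).mul hmeasH).const_mul _
    have hm1' : Measurable fun n : ℝ =>
        ENNReal.ofReal ((V * r * s / (4 * Real.pi * Δ)) * (n * Hcell z j D n)) := by
      apply ENNReal.measurable_ofReal.comp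
      exact (measurable_id.mul hmeasH).const_mul _
    rw [lintegral_add_left hm3]
    refine add_le_add ?_ ?_
    · have e : (fun n : ℝ => ENNReal.ofReal ((K0 * s ^ 3 / (4 * Real.pi * Δ)) * (n ^ 3 * Hcell z j D n)))
          = fun n => ENNReal.ofReal (K0 * s ^ 3 / (4 * Real.pi * Δ))
            * ENNReal.ofReal (n ^ 3 * Hcell z j D n) := by
        funext n
        rw [ENNReal.ofReal_mul hC3]
      rw [e, lintegral_const_mul' _ _ ENNReal.ofReal_ne_top, ENNReal.ofReal_mul hC3]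
      gcongr
    · have e : (fun n : ℝ => ENNReal.ofReal ((V * r * s / (4 * Real.pi * Δ)) * (n * Hcell z j D n)))
          = fun n => ENNReal.ofReal (V * r * s / (4 * Real.pi * Δ))
            * ENNReal.ofReal (n * Hcell z j D n) := by
        funext n
        rw [ENNReal.ofReal_mul hC1]
      rw [e, lintegral_const_mul' _ _ ENNReal.ofReal_ne_top, ENNReal.ofReal_mul hC1]
      gcongr
  have hfinal := hgain.trans houter
  rw [← ENNReal.ofReal_add (by positivity) (by positivity)] at hfinal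
  have hfinal' := (ENNReal.ofReal_le_ofReal_iff (by positivity)).1 hfinal
  refine hfinal'.trans (le_of_eq ?_)
  field_simp

/-- **Tool B, the master inequality.** -/
theorem Critical.toolB (hc : Critical z A) (hR : R < S z) (hP : PF E (k - 1)) (hk : 2 ≤ k) (j : Fin k)
    (G N D : Finset (Fin k)) (c₀ : Fin k) (hc₀ : c₀ ∉ D)
    (hG : Disjoint G (insert c₀ D ∪ N)) (_hN : Disjoint (insert c₀ D) N)
    (hcov : G ∪ (insert c₀ D ∪ N) = Finset.univ.erase j) {a b : Fin k} (ha : a ∈ G) (hb : b ∈ G)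
    (hab : a ≠ b) {Δ : ℝ} (hΔ : 0 < Δ) {W : Submodule ℝ E}
    (hW : W = Submodule.span ℝ (z '' ((insert j (insert c₀ D ∪ N) : Finset (Fin k)) : Set (Fin k))))
    (hΔ2 : Δ ^ 2 ≤ ‖Wᗮ.starProjection (z a)‖ ^ 2 * ‖Wᗮ.starProjection (z b)‖ ^ 2
      - ⟪Wᗮ.starProjection (z a), Wᗮ.starProjection (z b)⟫ ^ 2)
    (hσ : ∀ l ∈ D, ‖z j‖ ≤ ‖z l‖) (hσ₀ : ∀ l ∈ D, ‖z l‖ ≤ ‖z c₀‖)
    {V : ℝ} (hV : ∑ l ∈ insert c₀ D ∪ N, ‖z l‖ ^ 2 ≤ V) {I₁ I₃ : ℝ} (hI₁0 : 0 ≤ I₁) (hI₃0 : 0 ≤ I₃)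
    (hI₁ : ∫⁻ n in Ioi (0 : ℝ), ENNReal.ofReal (n * Hcell z j D n) ∂(gaussianReal 0 1)
      ≤ ENNReal.ofReal I₁)
    (hI₃ : ∫⁻ n in Ioi (0 : ℝ), ENNReal.ofReal (n ^ 3 * Hcell z j D n) ∂(gaussianReal 0 1)
      ≤ ENNReal.ofReal I₃) :
    2 * Real.pi * Δ * ‖z j‖
      ≤ ((G.card : ℝ) + 1) ^ 3 / (3 * (G.card : ℝ)) * ‖z j‖ ^ 2 * I₃ + V * I₁ := by
  have hs := hc.norm_pos hR hP hk j
  have hpi := Real.pi_pos
  have hk2 : (2 : ℝ) ≤ k := by exact_mod_cast hk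
  have hk1 : (0 : ℝ) < (k : ℝ) - 1 := by linarith
  have hdel := hc.deletion_one hR hP j hk
  have hgain := toolB_gain hc hR hP hk j G N D c₀ hc₀ hG _hN hcov ha hb hab hΔ hW hΔ2 hσ hσ₀ hV
    hI₁0 hI₃0 hI₁ hI₃
  set s := ‖z j‖ with hsdef
  set L := F z - F (restr z (Finset.univ.erase j)) with hL
  set r : ℝ := (k : ℝ) / ((k : ℝ) - 1) with hr
  have hr1 : 1 ≤ r := by
    rw [hr, one_le_div hk1]
    linarith
  set K0 : ℝ := ((G.card : ℝ) + 1) ^ 3 / (3 * (G.card : ℝ)) with hK0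
  have hK00 : 0 ≤ K0 := by positivity
  have hS : 0 < S z := R_pos.trans hR
  have h1 : 0 ≤ L ^ 2 / S z := by positivity
  have h2 : s ^ 2 * r ≤ 2 * L := by linarith
  have hD : 0 < 4 * Real.pi * Δ := by positivity
  have h3 : L * (4 * Real.pi * Δ) ≤ K0 * s ^ 3 * I₃ + V * r * s * I₁ := by
    rwa [le_div_iff₀ hD] at hgain
  have h4 : s ^ 2 * r * (2 * Real.pi * Δ) ≤ K0 * s ^ 3 * I₃ + V * r * s * I₁ := by
    have := mul_le_mul_of_nonneg_right h2 (show 0 ≤ 2 * Real.pi * Δ by positivity)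
    nlinarith
  -- divide by `s r`
  have h5 : s * r * (2 * Real.pi * Δ * s) ≤ s * r * (K0 * s ^ 2 * I₃ + V * I₁) := by
    have e1 : s * r * (2 * Real.pi * Δ * s) = s ^ 2 * r * (2 * Real.pi * Δ) := by ring
    have e2 : s * r * (K0 * s ^ 2 * I₃ + V * I₁) = r * (K0 * s ^ 3 * I₃) + V * r * s * I₁ := by ring
    rw [e1, e2]
    have h6 : K0 * s ^ 3 * I₃ ≤ r * (K0 * s ^ 3 * I₃) := by
      have h7 : 0 ≤ K0 * s ^ 3 * I₃ := by positivity
      nlinarith
    linarith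
  exact le_of_mul_le_mul_left h5 (by positivity)

end Crest.Agent.Propeller
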