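/-
The bridge from a critical configuration to the data of the checker `ABTree`.
-/
import Crest.Agent.Lib.Propeller.ABTree
import Crest.Agent.Lib.Propeller.ToolB
import Crest.Agent.Lib.Propeller.Tetra
import Crest.Agent.Lib.Propeller.K6Close
import Crest.Agent.Lib.Propeller.ConeCapGen

set_option autoImplicit false
set_option linter.unusedSectionVars false
open MeasureTheory ProbabilityTheory
open scoped RealInnerProductSpace

namespace Crest.Agent.Propeller.AB

universe u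

section perm

variable {E : Type u} [NormedAddCommGroup E] [InnerProductSpace ℝ E] [FiniteDimensional ℝ E]
  [MeasurableSpace E] [BorelSpace E]
variable {ι : Type*} [Fintype ι]

/-- A critical configuration stays critical under a permutation. -/
theorem critical_comp {z : ι → E} {A : ι → Set E} (hc : Critical z A) (σ : Equiv.Perm ι) :
    Critical (z ∘ σ) (A ∘ σ) := by
  have hmx : ∀ g, mx (z ∘ σ) g = mx z g := fun g => by
    unfold mx
    exact Equiv.iSup_comp (g := fun i => ⟪z i, g⟫) σ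
  have hF : F (z ∘ σ) = F z := by
    unfold F
    simp_rw [hmx]
  have hS : S (z ∘ σ) = S z := by
    unfold S
    exact Equiv.sum_comp σ (fun i => ‖z i‖ ^ 2)
  refine ⟨⟨fun i => hc.part.meas _, ?_, ?_⟩, ?_, ?_, ?_, ?_, ?_⟩
  · intro i j hij
    exact hc.part.disj (fun h => hij (σ.injective h))
  · have := hc.part.cov
    rw [← this]
    exact σ.surjective.iUnion_comp A
  · intro i g hg
    rw [hmx]
    exact hc.cell _ g hg
  · intro i
    exact hc.mom_eq _
  · exact (Equiv.sum_comp σ z).trans hc.sum_zero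
  · rw [hF, hS]
    exact hc.F_eq
  · intro y
    rw [hS]
    exact hc.max y

lemma S_comp (z : ι → E) (σ : Equiv.Perm ι) : S (z ∘ σ) = S z := by
  unfold S
  exact Equiv.sum_comp σ (fun i => ‖z i‖ ^ 2)

end perm

section sums

variable {k : ℕ}

lemma sum_Ico_eq (g : ℕ → ℝ) (τ : ℕ) :
    ∑ i ∈ Finset.Ico τ k, g i = ∑ l ∈ Finset.univ.filter (fun l : Fin k => τ ≤ l.val), g l.val := by
  rw [Finset.sum_filter, Fin.sum_univ_eq_sum_range (fun n => if τ ≤ n then g n else 0) k,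
    ← Finset.sum_filter]
  congr 1
  ext n
  simp only [Finset.mem_Ico, Finset.mem_filter, Finset.mem_range]
  omega

lemma prod_Ico_eq (g : ℕ → ℝ) (m l : ℕ) (hl : l ≤ k) :
    ∏ i ∈ Finset.Ico m l, g i
      = ∏ c ∈ Finset.univ.filter (fun c : Fin k => m ≤ c.val ∧ c.val < l), g c.val := by
  rw [Finset.prod_filter, Fin.prod_univ_eq_prod_range (fun n => if m ≤ n ∧ n < l then g n else 1) k,
    ← Finset.prod_filter]
  congr 1
  ext n
  simp only [Finset.mem_Ico, Finset.mem_filter, Finset.mem_range]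
  omega

lemma card_top {τ : ℕ} (hτ : τ ≤ k) :
    ((Finset.univ.filter (fun l : Fin k => τ ≤ l.val))ᶜ).card = τ := by
  have h : (((Finset.univ.filter (fun l : Fin k => τ ≤ l.val))ᶜ).map Fin.valEmbedding)
      = Finset.range τ := by
    ext n
    simp only [Finset.mem_map, Finset.mem_compl, Finset.mem_filter, Finset.mem_univ, true_and,
      Fin.valEmbedding_apply, Finset.mem_range, not_le]
    constructor
    · rintro ⟨a, ha, rfl⟩
      exact ha
    · intro hn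
      exact ⟨⟨n, by omega⟩, hn, rfl⟩
  have := congrArg Finset.card h
  rwa [Finset.card_map, Finset.card_range] at this

end sums

section main

variable {E : Type u} [NormedAddCommGroup E] [InnerProductSpace ℝ E] [FiniteDimensional ℝ E]
  [MeasurableSpace E] [BorelSpace E]
variable {k : ℕ} {z : Fin k → E} {A : Fin k → Set E}

lemma D3p_le {e2 e3 xx : ℝ} (h1 : e3 ≤ e2) (h2 : xx ≤ e3) (h3 : 0 ≤ xx) :
    e2 * (e3 - xx) - e3 ^ 2 / 4 ≤ D3 e2 e3 xx := by
  unfold D3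
  apply le_min
  · nlinarith [mul_le_mul_of_nonneg_right h1 h3]
  · nlinarith [mul_nonneg h3 (sub_nonneg.2 h2), mul_nonneg h3 h3]

/-- Hat norms, as a function on `ℕ`. -/
noncomputable def yy (z : Fin k → E) (n : ℕ) : ℝ :=
  if h : n < k then Real.sqrt (2 * Real.pi) * ‖z ⟨n, h⟩‖ else 0

/-- Masses, as a function on `ℕ`. -/
noncomputable def aa (A : Fin k → Set E) (n : ℕ) : ℝ :=
  if h : n < k then (stdGaussian E).real (A ⟨n, h⟩) else 0

lemma yy_val (z : Fin k → E) (i : Fin k) : yy z i.val = Real.sqrt (2 * Real.pi) * ‖z i‖ := by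
  unfold yy
  rw [dif_pos i.2]

lemma aa_val (A : Fin k → Set E) (i : Fin k) : aa A i.val = (stdGaussian E).real (A i) := by
  unfold aa
  rw [dif_pos i.2]

lemma yy_sq_val (z : Fin k → E) (i : Fin k) : yy z i.val ^ 2 = 2 * Real.pi * ‖z i‖ ^ 2 := by
  rw [yy_val, mul_pow, Real.sq_sqrt (by positivity)]

lemma yy_nonneg (z : Fin k → E) (n : ℕ) : 0 ≤ yy z n := by
  unfold yy
  split_ifs
  · positivity
  · exact le_rfl

/-- Antitone in the indices of `Fin k`. -/
def SortedZ (z : Fin k → E) : Prop := ∀ i j : Fin k, i ≤ j → ‖z j‖ ≤ ‖z i‖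

lemma yy_anti (hs : SortedZ z) : Antitone (yy z) := by
  intro m n hmn
  unfold yy
  by_cases hn : n < k
  · have hm : m < k := by omega
    rw [dif_pos hm, dif_pos hn]
    exact mul_le_mul_of_nonneg_left (hs _ _ (by simpa using hmn)) (by positivity)
  · rw [dif_neg hn]
    split_ifs
    · positivity
    · exact le_rfl

/-- The picks: there is a pair in the top `τ` with a large determinant. -/
theorem exists_pick (hc : Critical z A) (hobt : ∀ a b : Fin k, a ≠ b → ⟪z a, z b⟫ ≤ 0)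
    (hs : SortedZ z) {τ : ℕ} (hτ3 : 3 ≤ τ) (hτk : τ ≤ k) {p : ℕ} {XX D : ℝ} (hD : 0 < D)
    (hpick : PickOK (yy z) τ p XX D) (hsum : ∑ i ∈ Finset.Ico τ k, yy z i ^ 2 ≤ XX) :
    ∃ a b : Fin k, τ > a.val ∧ τ > b.val ∧ a ≠ b ∧
      (D / (2 * Real.pi)) ^ 2 ≤
        ‖(Submodule.span ℝ (z '' ((Finset.univ.filter (fun l : Fin k => τ ≤ l.val) : Finset (Fin k)) :
            Set (Fin k))))ᗮ.starProjection (z a)‖ ^ 2
          * ‖(Submodule.span ℝ (z '' ((Finset.univ.filter (fun l : Fin k => τ ≤ l.val) : Finset (Fin k)) :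
            Set (Fin k))))ᗮ.starProjection (z b)‖ ^ 2
        - ⟪(Submodule.span ℝ (z '' ((Finset.univ.filter (fun l : Fin k => τ ≤ l.val) : Finset (Fin k)) :
            Set (Fin k))))ᗮ.starProjection (z a),
           (Submodule.span ℝ (z '' ((Finset.univ.filter (fun l : Fin k => τ ≤ l.val) : Finset (Fin k)) :
            Set (Fin k))))ᗮ.starProjection (z b)⟫ ^ 2 := by
  classical
  have hpi := Real.pi_pos
  have h2pi : 0 < 2 * Real.pi := by positivity
  set X := Finset.univ.filter (fun l : Fin k => τ ≤ l.val) with hX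
  set V := Submodule.span ℝ (z '' (X : Set (Fin k))) with hV
  have hsumz := hc.sum_zero
  -- energy outside
  set xx := XX / (2 * Real.pi) with hxx
  have hXXe : XX = 2 * Real.pi * xx := by
    rw [hxx]
    field_simp
  have hsum2 : ∑ l ∈ X, ‖z l‖ ^ 2 ≤ xx := by
    rw [sum_Ico_eq] at hsum
    have : ∑ l ∈ X, yy z l.val ^ 2 = 2 * Real.pi * ∑ l ∈ X, ‖z l‖ ^ 2 := by
      rw [Finset.mul_sum]
      exact Finset.sum_congr rfl fun l _ => yy_sq_val z l
    rw [this] at hsum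
    rw [hxx, le_div_iff₀ h2pi]
    linarith
  have hXn : ‖∑ l ∈ X, z l‖ ^ 2 ≤ xx :=
    (norm_sum_sq_le_of_obtuse X z fun i _ j _ hij => hobt i j hij).trans hsum2
  have hxx0 : 0 ≤ xx := le_trans (by positivity) hXn
  have hk3 : 3 ≤ k := by omega
  let i0 : Fin k := ⟨0, by omega⟩
  let i1 : Fin k := ⟨1, by omega⟩
  let i2 : Fin k := ⟨2, by omega⟩
  have h01 : i0 ≠ i1 := by simp [i0, i1, Fin.ext_iff]
  have h02 : i0 ≠ i2 := by simp [i0, i2, Fin.ext_iff]
  have h12 : i1 ≠ i2 := by simp [i1, i2, Fin.ext_iff]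
  have hnX : ∀ i : Fin k, i.val < τ → i ∉ X := by
    intro i hi
    simp only [hX, Finset.mem_filter, Finset.mem_univ, true_and, not_le]
    exact hi
  have e01 : ‖z i1‖ ^ 2 ≤ ‖z i0‖ ^ 2 :=
    pow_le_pow_left₀ (norm_nonneg _) (hs _ _ (by simp [i0, i1, Fin.le_iff_val_le_val])) 2
  have e12 : ‖z i2‖ ^ 2 ≤ ‖z i1‖ ^ 2 :=
    pow_le_pow_left₀ (norm_nonneg _) (hs _ _ (by simp [i1, i2, Fin.le_iff_val_le_val])) 2
  have hy1 : yy z 1 ^ 2 = 2 * Real.pi * ‖z i1‖ ^ 2 := yy_sq_val z i1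
  have hy2 : yy z 2 ^ 2 = 2 * Real.pi * ‖z i2‖ ^ 2 := yy_sq_val z i2
  have hDD : (D / (2 * Real.pi)) ^ 2 = D ^ 2 / (2 * Real.pi) ^ 2 := by rw [div_pow]
  rcases hpick with ⟨_, hx3, hd3⟩ | ⟨_, h4τ, hx3, hd3⟩
  · -- `p = 3`
    rw [hy1, hy2, hXXe] at hd3
    rw [hy2, hXXe] at hx3
    have hxa : xx ≤ ‖z i2‖ ^ 2 := le_of_mul_le_mul_left hx3 h2pi
    obtain ⟨c, hc', hdet⟩ := pick_D3 z X hsumz hobt (V := V) rfl (a := i2) (b₁ := i0) (b₂ := i1)
      (hnX _ (by simp only [i2]; omega)) (hnX _ (by simp only [i0]; omega))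
      (hnX _ (by simp only [i1]; omega)) h02.symm h12.symm h01 e01 le_rfl hXn hxa
    have hval : (D / (2 * Real.pi)) ^ 2
        ≤ ‖z i1‖ ^ 2 * (‖z i2‖ ^ 2 - xx) - (‖z i2‖ ^ 2) ^ 2 / 4 := by
      rw [hDD, div_le_iff₀ (by positivity)]
      refine hd3.trans (le_of_eq ?_)
      ring
    have hD3 := D3p_le e12 hxa hxx0
    refine ⟨i2, c, by simp only [i2]; omega, ?_, ?_, ?_⟩
    · rcases hc' with rfl | rfl
      · simp only [i0]; omega
      · simp only [i1]; omega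
    · rcases hc' with rfl | rfl
      · exact h02.symm
      · exact h12.symm
    · exact hval.trans (hD3.trans hdet)
  · -- `p = 4`
    let i3 : Fin k := ⟨3, by omega⟩
    have h03 : i0 ≠ i3 := by simp [i0, i3, Fin.ext_iff]
    have h13 : i1 ≠ i3 := by simp [i1, i3, Fin.ext_iff]
    have h23 : i2 ≠ i3 := by simp [i2, i3, Fin.ext_iff]
    have e23 : ‖z i3‖ ^ 2 ≤ ‖z i2‖ ^ 2 :=
      pow_le_pow_left₀ (norm_nonneg _) (hs _ _ (by simp [i2, i3, Fin.le_iff_val_le_val])) 2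
    have hy3 : yy z 3 ^ 2 = 2 * Real.pi * ‖z i3‖ ^ 2 := yy_sq_val z i3
    rw [hy2, hy3, hXXe] at hd3
    rw [hy3, hXXe] at hx3
    have hxa : xx ≤ ‖z i3‖ ^ 2 := le_of_mul_le_mul_left hx3 h2pi
    have hval : (D / (2 * Real.pi)) ^ 2
        ≤ ‖z i2‖ ^ 2 * (‖z i3‖ ^ 2 - xx) - (‖z i2‖ ^ 2) ^ 2 / 9 := by
      rw [hDD, div_le_iff₀ (by positivity)]
      refine hd3.trans (le_of_eq ?_)
      ring
    have hQc : ({i0, i1, i3} : Finset (Fin k)).card = 3 := by
      rw [Finset.card_insert_of_notMem, Finset.card_pair h13]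
      simp [h01, h03]
    obtain ⟨c, hc', hdet⟩ := pick_det z X hsumz hobt (V := V) rfl (a := i2)
      (hnX _ (by simp only [i2]; omega)) {i0, i1, i3}
      (by
        intro c hc
        simp only [Finset.mem_insert, Finset.mem_singleton] at hc
        rcases hc with rfl | rfl | rfl
        · exact Finset.mem_erase.2 ⟨h02, Finset.mem_compl.2 (hnX _ (by simp only [i0]; omega))⟩
        · exact Finset.mem_erase.2 ⟨h12, Finset.mem_compl.2 (hnX _ (by simp only [i1]; omega))⟩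
        · exact Finset.mem_erase.2 ⟨h23.symm, Finset.mem_compl.2 (hnX _ (by simp only [i3]; omega))⟩)
      (Finset.insert_nonempty _ _)
    rw [hQc] at hdet
    simp only [Finset.mem_insert, Finset.mem_singleton] at hc'
    have hS0 : 0 ≤ ‖∑ l ∈ X, z l‖ ^ 2 := by positivity
    have ea0 : 0 ≤ ‖z i2‖ ^ 2 := by positivity
    have hfin : (D / (2 * Real.pi)) ^ 2
        ≤ ‖z i2‖ ^ 2 * ‖z c‖ ^ 2 - max (‖z i2‖ ^ 2) (‖z c‖ ^ 2) * ‖∑ l ∈ X, z l‖ ^ 2
          - (‖z i2‖ ^ 2 / ((3 : ℕ) : ℝ)) ^ 2 := by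
      refine hval.trans ?_
      have e9 : (‖z i2‖ ^ 2 / ((3 : ℕ) : ℝ)) ^ 2 = (‖z i2‖ ^ 2) ^ 2 / 9 := by
        push_cast
        ring
      rw [e9]
      have hbig : ∀ w : ℝ, ‖z i2‖ ^ 2 ≤ w →
          ‖z i2‖ ^ 2 * (‖z i3‖ ^ 2 - xx)
            ≤ ‖z i2‖ ^ 2 * w - max (‖z i2‖ ^ 2) w * ‖∑ l ∈ X, z l‖ ^ 2 := by
        intro w hw
        rw [max_eq_right hw]
        have h1 : ‖z i2‖ ^ 2 * w - w * ‖∑ l ∈ X, z l‖ ^ 2 = w * (‖z i2‖ ^ 2 - ‖∑ l ∈ X, z l‖ ^ 2) := by
          ring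
        rw [h1]
        have h2 : 0 ≤ ‖z i2‖ ^ 2 - ‖∑ l ∈ X, z l‖ ^ 2 := by linarith
        have h3 := mul_le_mul_of_nonneg_right hw h2
        have h4 : ‖z i2‖ ^ 2 * (‖z i3‖ ^ 2 - xx) ≤ ‖z i2‖ ^ 2 * (‖z i2‖ ^ 2 - ‖∑ l ∈ X, z l‖ ^ 2) :=
          mul_le_mul_of_nonneg_left (by linarith) ea0
        linarith
      rcases hc' with rfl | rfl | rfl
      · have := hbig _ (e12.trans e01)
        linarith
      · have := hbig _ e12
        linarith
      · rw [max_eq_left e23]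
        have h4 : ‖z i2‖ ^ 2 * ‖∑ l ∈ X, z l‖ ^ 2 ≤ ‖z i2‖ ^ 2 * xx :=
          mul_le_mul_of_nonneg_left hXn ea0
        nlinarith
    refine ⟨i2, c, by simp only [i2]; omega, ?_, ?_, hfin.trans hdet⟩
    · rcases hc' with rfl | rfl | rfl
      · simp only [i0]; omega
      · simp only [i1]; omega
      · simp only [i3]; omega
    · rcases hc' with rfl | rfl | rfl
      · exact h02.symm
      · exact h12.symm
      · exact h23

/-- `√(2/π) = √(2π)/π`. -/
lemma sqrt_two_div_pi : Real.sqrt (2 / Real.pi) = Real.sqrt (2 * Real.pi) / Real.pi := by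
  have hpi := Real.pi_pos
  rw [show 2 / Real.pi = (2 * Real.pi) / Real.pi ^ 2 by field_simp,
    Real.sqrt_div' _ (by positivity), Real.sqrt_sq hpi.le]

/-- **The field `ta`.** -/
theorem ta_of_critical (hc : Critical z A) (hR : R < S z) (hP : PF E (k - 1)) (hs : SortedZ z)
    (τ : ℕ) (hτ3 : 3 ≤ τ) (hτk : τ < k) (p : ℕ) (XX D μ : ℝ) (hD : 0 < D)
    (hpick : PickOK (yy z) τ p XX D) (hsum : ∑ i ∈ Finset.Ico τ k, yy z i ^ 2 ≤ XX)
    (hμ0 : 0 < μ) (hμ1 : μ < 1) (hn1 : (τ : ℝ) ^ 2 * yy z τ < 3 * Real.pi * D * μ ^ 2)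
    (hn2 : XX ≤ (3 * Real.pi * D * (1 - μ) ^ 2) ^ 2) : False := by
  classical
  have hpi := Real.pi_pos
  have h2pi : 0 < 2 * Real.pi := by positivity
  have hobt : ∀ a b : Fin k, a ≠ b → ⟪z a, z b⟫ ≤ 0 := fun a b hab => (hc.inner_neg hR hP hab).le
  obtain ⟨a, b, ha, hb, hab, hdet⟩ := exists_pick hc hobt hs hτ3 hτk.le hD hpick hsum
  set X := Finset.univ.filter (fun l : Fin k => τ ≤ l.val) with hX
  set V := Submodule.span ℝ (z '' (X : Set (Fin k))) with hV
  set det := ‖Vᗮ.starProjection (z a)‖ ^ 2 * ‖Vᗮ.starProjection (z b)‖ ^ 2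
    - ⟪Vᗮ.starProjection (z a), Vᗮ.starProjection (z b)⟫ ^ 2 with hdetdef
  have hD2 : 0 < D / (2 * Real.pi) := by positivity
  have hdet0 : 0 < det := lt_of_lt_of_le (by positivity) hdet
  set Δ := Real.sqrt det with hΔ
  have hΔ0 : 0 < Δ := Real.sqrt_pos.2 hdet0
  have hΔ2 : Δ ^ 2 = det := Real.sq_sqrt hdet0.le
  have hΔD : D / (2 * Real.pi) ≤ Δ := by
    rw [hΔ]
    exact Real.le_sqrt_of_sq_le hdet
  have hΔD' : D ≤ 2 * Real.pi * Δ := by
    rw [div_le_iff₀ h2pi] at hΔD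
    linarith
  have hmemT : ∀ i : Fin k, i.val < τ → i ∈ Xᶜ := by
    intro i hi
    simp only [hX, Finset.mem_compl, Finset.mem_filter, Finset.mem_univ, true_and, not_le]
    exact hi
  let iτ : Fin k := ⟨τ, hτk⟩
  have hiτ : iτ ∈ X := by simp [hX, iτ]
  have hTc : (Xᶜ)ᶜ = X := compl_compl X
  have hk2 : 2 ≤ k := by omega
  have hyτ : yy z τ = Real.sqrt (2 * Real.pi) * ‖z iτ‖ := yy_val z iτ
  have hr0 : 0 < Real.sqrt (2 * Real.pi) := Real.sqrt_pos.2 h2pi
  have hr2 : Real.sqrt (2 * Real.pi) ^ 2 = 2 * Real.pi := Real.sq_sqrt h2pi.le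
  refine hc.no_deletion_tri hR hP Xᶜ (hmemT a ha) (hmemT b hb) hab (by rw [hTc]; exact ⟨iτ, hiτ⟩) V
    (by
      rw [hTc]
      intro l hl
      exact Submodule.subset_span ⟨l, hl, rfl⟩) Δ hΔ0 hΔ2 hμ0 hμ1 (σ := ‖z iτ‖)
    (by
      rw [hTc]
      intro l hl
      refine hs _ _ ?_
      simp only [hX, Finset.mem_filter, Finset.mem_univ, true_and] at hl
      simpa [iτ, Fin.le_iff_val_le_val] using hl)
    (by
      rw [hTc]
      exact ⟨iτ, hiτ, norm_pos_iff.1 (hc.norm_pos hR hP hk2 iτ)⟩) ?_ ?_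
  · rw [card_top hτk.le, sqrt_two_div_pi]
    have h1 : (τ : ℝ) ^ 2 * ‖z iτ‖ * (Real.sqrt (2 * Real.pi) / Real.pi)
        = (τ : ℝ) ^ 2 * yy z τ / Real.pi := by
      rw [hyτ]
      ring
    rw [h1, div_lt_iff₀ hpi]
    have h2 : 3 * Real.pi * D * μ ^ 2 ≤ 3 * Real.pi * (2 * Real.pi * Δ) * μ ^ 2 := by
      apply mul_le_mul_of_nonneg_right _ (by positivity)
      exact mul_le_mul_of_nonneg_left hΔD' (by positivity)
    calc (τ : ℝ) ^ 2 * yy z τ < 3 * Real.pi * D * μ ^ 2 := hn1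
      _ ≤ 3 * Real.pi * (2 * Real.pi * Δ) * μ ^ 2 := h2
      _ = 6 * Real.pi * Δ * μ ^ 2 * Real.pi := by ring
  · rw [hTc, sqrt_two_div_pi]
    have hsum' : 2 * Real.pi * ‖∑ l ∈ X, z l‖ ^ 2 ≤ XX := by
      have h3 : ‖∑ l ∈ X, z l‖ ^ 2 ≤ ∑ l ∈ X, ‖z l‖ ^ 2 :=
        norm_sum_sq_le_of_obtuse X z fun i _ j _ hij => hobt i j hij
      have h4 : ∑ l ∈ X, yy z l.val ^ 2 = 2 * Real.pi * ∑ l ∈ X, ‖z l‖ ^ 2 := by
        rw [Finset.mul_sum]
        exact Finset.sum_congr rfl fun l _ => yy_sq_val z l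
      rw [sum_Ico_eq, h4] at hsum
      have := mul_le_mul_of_nonneg_left h3 h2pi.le
      linarith
    set B := 3 * Real.pi * D * (1 - μ) ^ 2 with hB
    have hB0 : 0 ≤ B := by positivity
    have h5 : (‖∑ l ∈ X, z l‖ * Real.sqrt (2 * Real.pi)) ^ 2 ≤ B ^ 2 := by
      rw [mul_pow, hr2]
      linarith
    have h6 : ‖∑ l ∈ X, z l‖ * Real.sqrt (2 * Real.pi) ≤ B := by
      exact abs_le_of_sq_le_sq' h5 hB0 |>.2
    rw [← mul_div_assoc, div_le_iff₀ hpi]
    refine h6.trans ?_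
    have h7 : 3 * Real.pi * D * (1 - μ) ^ 2 ≤ 3 * Real.pi * (2 * Real.pi * Δ) * (1 - μ) ^ 2 := by
      apply mul_le_mul_of_nonneg_right _ (by positivity)
      exact mul_le_mul_of_nonneg_left hΔD' (by positivity)
    refine h7.trans (le_of_eq ?_)
    ring

lemma ee_pos (j : ℕ) : 0 < ee j := Real.exp_pos _

lemma dd1_nonneg (j : ℕ) : 0 ≤ dd1 j := by
  unfold dd1 ee
  rw [sub_nonneg]
  apply Real.exp_le_exp.2
  have h0 : (0 : ℝ) ≤ (j : ℝ) / 4 := by positivity
  have h1 : (j : ℝ) / 4 ≤ ((j + 1 : ℕ) : ℝ) / 4 := by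
    push_cast
    linarith
  have h2 := pow_le_pow_left₀ h0 h1 2
  linarith

lemma dd3_nonneg (j : ℕ) : 0 ≤ dd3 j := by
  unfold dd3 ee
  rw [sub_nonneg]
  set a := (j : ℝ) / 4 with ha
  have e : (((j : ℝ) + 1) / 4) = ((j + 1 : ℕ) : ℝ) / 4 := by
    push_cast
    ring
  rw [e]
  set b := ((j + 1 : ℕ) : ℝ) / 4 with hb
  have h0 : (0 : ℝ) ≤ a := by positivity
  have h1 : a ≤ b := by
    rw [ha, hb]
    push_cast
    linarith
  have h2 := pow_le_pow_left₀ h0 h1 2
  have h3 : -b ^ 2 / 2 = -a ^ 2 / 2 + -((b ^ 2 - a ^ 2) / 2) := by ring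
  rw [h3, Real.exp_add]
  set E1 := Real.exp (-a ^ 2 / 2) with hE1
  have hE1p : 0 < E1 := Real.exp_pos _
  set x := (b ^ 2 - a ^ 2) / 2 with hx
  have hx0 : 0 ≤ x := by
    rw [hx]
    linarith
  have h4 : 1 + x ≤ Real.exp x := by
    have := Real.add_one_le_exp x
    linarith
  have h5 : Real.exp (-x) = (Real.exp x)⁻¹ := Real.exp_neg x
  rw [h5]
  have hE2 : 0 < Real.exp x := Real.exp_pos _
  have h6 : (b ^ 2 + 2) ≤ (a ^ 2 + 2) * Real.exp x := by
    have h7 : (a ^ 2 + 2) * (1 + x) ≤ (a ^ 2 + 2) * Real.exp x :=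
      mul_le_mul_of_nonneg_left h4 (by positivity)
    have h8 : b ^ 2 + 2 ≤ (a ^ 2 + 2) * (1 + x) := by
      have : b ^ 2 = a ^ 2 + 2 * x := by
        rw [hx]
        ring
      rw [this]
      nlinarith [sq_nonneg a]
    linarith
  have h9 : (b ^ 2 + 2) * (E1 * (Real.exp x)⁻¹) = ((b ^ 2 + 2) / Real.exp x) * E1 := by
    field_simp
  rw [h9]
  apply mul_le_mul_of_nonneg_right _ hE1p.le
  rw [div_le_iff₀ hE2]
  exact h6

/-- **The field `tb`.** -/
theorem tb_of_critical (hc : Critical z A) (hR : R < S z) (hP : PF E (k - 1)) (hs : SortedZ z)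
    (l m : ℕ) (h3m : 3 ≤ m) (hml : m < l) (hlk : l < k) (p : ℕ) (XX D : ℝ) (hD : 0 < D)
    (hpick : PickOK (yy z) m p XX D) (hsum : ∑ i ∈ Finset.Ico m k, yy z i ^ 2 ≤ XX) (Hv : ℕ → ℝ)
    (hHv : ∀ j : ℕ, 1 ≤ j → j ≤ 20 → Hh (yy z) l m ((j : ℝ) / 4) ≤ Hv j) :
    2 * Real.pi * D * yy z l ≤ ((m : ℝ) + 1) ^ 3 / (3 * (m : ℝ)) * yy z l ^ 2
        * (∑ j ∈ Finset.range 20, Hv (j + 1) * dd3 j + 27 * ee 20)
      + (XX - yy z l ^ 2) * (∑ j ∈ Finset.range 20, Hv (j + 1) * dd1 j + ee 20) := by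
  classical
  have hpi := Real.pi_pos
  have h2pi : 0 < 2 * Real.pi := by positivity
  have hobt : ∀ a b : Fin k, a ≠ b → ⟪z a, z b⟫ ≤ 0 := fun a b hab => (hc.inner_neg hR hP hab).le
  obtain ⟨a, b, ha, hb, hab, hdet⟩ := exists_pick hc hobt hs h3m (by omega) hD hpick hsum
  set X := Finset.univ.filter (fun l : Fin k => m ≤ l.val) with hX
  set V := Submodule.span ℝ (z '' (X : Set (Fin k))) with hV
  let j : Fin k := ⟨l, hlk⟩
  let c₀ : Fin k := ⟨m, by omega⟩
  set Dc := Finset.univ.filter (fun c : Fin k => m + 1 ≤ c.val ∧ c.val < l) with hDc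
  set N := Finset.univ.filter (fun c : Fin k => l < c.val) with hN
  have hmemT : ∀ i : Fin k, i.val < m → i ∈ Xᶜ := by
    intro i hi
    simp only [hX, Finset.mem_compl, Finset.mem_filter, Finset.mem_univ, true_and, not_le]
    exact hi
  have hc₀ : c₀ ∉ Dc := by
    simp [hDc, c₀]
  have hXeq : insert j (insert c₀ Dc ∪ N) = X := by
    ext i
    simp only [Finset.mem_insert, Finset.mem_union, hDc, hN, hX, Finset.mem_filter, Finset.mem_univ,
      true_and, Fin.ext_iff, j, c₀]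
    omega
  have hG : Disjoint Xᶜ (insert c₀ Dc ∪ N) := by
    rw [Finset.disjoint_left]
    intro i hi hi2
    have : i ∈ X := by
      rw [← hXeq]
      exact Finset.mem_insert_of_mem hi2
    exact (Finset.mem_compl.1 hi) this
  have hNd : Disjoint (insert c₀ Dc) N := by
    rw [Finset.disjoint_left]
    intro i hi hi2
    simp only [Finset.mem_insert, hDc, hN, Finset.mem_filter, Finset.mem_univ, true_and,
      Fin.ext_iff, c₀] at hi hi2
    omega
  have hcov : Xᶜ ∪ (insert c₀ Dc ∪ N) = Finset.univ.erase j := by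
    ext i
    simp only [Finset.mem_union, Finset.mem_compl, Finset.mem_insert, hX, hDc, hN, Finset.mem_filter,
      Finset.mem_univ, true_and, Fin.ext_iff, Finset.mem_erase, j, c₀, and_true, ne_eq, not_le]
    omega
  have hk2 : 2 ≤ k := by omega
  have hr0 : 0 < Real.sqrt (2 * Real.pi) := Real.sqrt_pos.2 h2pi
  have hr2 : Real.sqrt (2 * Real.pi) ^ 2 = 2 * Real.pi := Real.sq_sqrt h2pi.le
  have hyl : yy z l = Real.sqrt (2 * Real.pi) * ‖z j‖ := yy_val z j
  have hyl2 : yy z l ^ 2 = 2 * Real.pi * ‖z j‖ ^ 2 := yy_sq_val z j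
  -- the factor
  have hH : ∀ n : ℝ, Hcell z j Dc n = Hh (yy z) l m n := by
    intro n
    unfold Hcell Hh
    rw [prod_Ico_eq (k := k) (fun c => Phi (Real.sqrt 3 * (n * yy z l / yy z c))) (m + 1) l hlk.le]
    refine Finset.prod_congr rfl fun c _ => ?_
    rw [hyl, yy_val z c]
    congr 2
    have e : n * (Real.sqrt (2 * Real.pi) * ‖z j‖) = Real.sqrt (2 * Real.pi) * (n * ‖z j‖) := by ring
    rw [e, mul_div_mul_left _ _ hr0.ne']
  have hHv' : ∀ j' : ℕ, 1 ≤ j' → j' ≤ 20 → Hcell z j Dc ((j' : ℝ) / 4) ≤ Hv j' := by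
    intro j' h1 h2
    rw [hH]
    exact hHv j' h1 h2
  have hHv0 : ∀ i : ℕ, i ∈ Finset.range 20 → 0 ≤ Hv (i + 1) := by
    intro i hi
    have hi' := Finset.mem_range.1 hi
    have h3 := hHv' (i + 1) (by omega) (by omega)
    exact (Hcell_nonneg j Dc _).trans h3
  set I1 := ∑ i ∈ Finset.range 20, Hv (i + 1) * dd1 i + ee 20 with hI1
  set I3 := ∑ i ∈ Finset.range 20, Hv (i + 1) * dd3 i + 27 * ee 20 with hI3
  have hI10 : 0 ≤ I1 := by
    have := Finset.sum_nonneg fun i hi => mul_nonneg (hHv0 i hi) (dd1_nonneg i)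
    have := ee_pos 20
    positivity
  have hI30 : 0 ≤ I3 := by
    have := Finset.sum_nonneg fun i hi => mul_nonneg (hHv0 i hi) (dd3_nonneg i)
    have := ee_pos 20
    positivity
  have hphi := phi0_pos
  have hb1 := step_int1 (Hcell z j Dc) (Hcell_mono j Dc) (Hcell_nonneg j Dc) (Hcell_le_one j Dc) Hv hHv'
  have hb3 := step_int3 (Hcell z j Dc) (Hcell_mono j Dc) (Hcell_nonneg j Dc) (Hcell_le_one j Dc) Hv hHv'
  -- the energy
  have hVb : ∑ c ∈ insert c₀ Dc ∪ N, ‖z c‖ ^ 2 ≤ (XX - yy z l ^ 2) / (2 * Real.pi) := by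
    rw [le_div_iff₀ h2pi]
    have h4 : ∑ c ∈ X, yy z c.val ^ 2 = 2 * Real.pi * ∑ c ∈ X, ‖z c‖ ^ 2 := by
      rw [Finset.mul_sum]
      exact Finset.sum_congr rfl fun c _ => yy_sq_val z c
    rw [sum_Ico_eq, h4] at hsum
    rw [← hXeq, Finset.sum_insert] at hsum
    · rw [hyl2]
      linarith
    · simp only [Finset.mem_union, Finset.mem_insert, hDc, hN, Finset.mem_filter, Finset.mem_univ,
        true_and, Fin.ext_iff, j, c₀]
      omega
  have hΔ : 0 < D / (2 * Real.pi) := by positivity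
  have hb' := hc.toolB hR hP hk2 j Xᶜ N Dc c₀ hc₀ hG hNd hcov (hmemT a ha) (hmemT b hb) hab hΔ
    (W := V) (by rw [hXeq]) hdet
    (by
      intro c hc'
      refine hs _ _ ?_
      simp only [hDc, Finset.mem_filter, Finset.mem_univ, true_and] at hc'
      simp only [j, Fin.le_iff_val_le_val]
      omega)
    (by
      intro c hc'
      refine hs _ _ ?_
      simp only [hDc, Finset.mem_filter, Finset.mem_univ, true_and] at hc'
      simp only [c₀, Fin.le_iff_val_le_val]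
      omega)
    hVb (mul_nonneg hphi.le hI10) (mul_nonneg hphi.le hI30) hb1 hb3
  rw [card_top (by omega)] at hb'
  -- scale
  have hphir : Real.sqrt (2 * Real.pi) * phi0 = 1 := by
    unfold phi0
    exact mul_inv_cancel₀ hr0.ne'
  have e1 : 2 * Real.pi * (D / (2 * Real.pi)) * ‖z j‖ = D * ‖z j‖ := by
    field_simp
  rw [e1] at hb'
  have hm0 : (0 : ℝ) < m := by
    have : 0 < m := by omega
    exact_mod_cast this
  have hb2 := mul_le_mul_of_nonneg_left hb' (show 0 ≤ 2 * Real.pi * Real.sqrt (2 * Real.pi) by positivity)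
  have e2 : 2 * Real.pi * Real.sqrt (2 * Real.pi) * (D * ‖z j‖) = 2 * Real.pi * D * yy z l := by
    rw [hyl]
    ring
  have e3 : 2 * Real.pi * Real.sqrt (2 * Real.pi) * (((m : ℝ) + 1) ^ 3 / (3 * (m : ℝ)) * ‖z j‖ ^ 2
      * (phi0 * I3) + (XX - yy z l ^ 2) / (2 * Real.pi) * (phi0 * I1))
      = (Real.sqrt (2 * Real.pi) * phi0) * (((m : ℝ) + 1) ^ 3 / (3 * (m : ℝ)) * yy z l ^ 2 * I3
        + (XX - yy z l ^ 2) * I1) := by
    rw [hyl2]
    field_simp
  rw [e2, e3, hphir, one_mul] at hb2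
  exact hb2

end main

/-! ### The tangent lines -/

/-- Partial sum of `W`. -/
def wq (m : ℕ) (τ : ℚ) : ℕ → ℚ
  | 0 => 0
  | i + 1 => wq m τ i + (m.choose i : ℚ) * (-1) ^ i * ((1 - τ ^ (2 * i + 1)) / (2 * (i : ℚ) + 1))

/-- The constant of the tangent line. -/
def Pq (m : ℕ) (τ : ℚ) : ℚ := (1 - τ ^ 2) ^ (m + 1) - (2 * (m : ℚ) + 2) * τ * wq m τ (m + 1)

/-- The slope of the tangent line. -/
def cq (m : ℕ) : ℚ := 2 ^ (m + 2) * ((m + 1).factorial : ℚ) / ((2 * m + 1).doubleFactorial : ℚ)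

/-- The check of a tangent line `a ≥ (A/10⁹) x - B/10⁹`, `τ = T/2^20`; `T = 0` is the line `a ≥ 0`. -/
def lineOK (m T A B : ℕ) : Bool :=
  (Nat.beq T 0 && Nat.beq A 0 && Nat.beq B 0) ||
    (Nat.blt 0 T && Nat.blt T 1048576 &&
      decide ((A : ℚ) / 1000000000 * (cq m * ((T : ℚ) / 1048576)) ≤ 1) &&
      decide (Pq m ((T : ℚ) / 1048576) ≤ (B : ℚ) / 1000000000 * (cq m * ((T : ℚ) / 1048576))))

/-- The check of a table. -/
def ptOK (m : ℕ) : Gen.PT → Bool
  | .leaf T A B => lineOK m T A B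
  | .node _ l r => ptOK m l && ptOK m r

lemma wq_cast (m : ℕ) (τ : ℚ) (n : ℕ) :
    ((wq m τ n : ℚ) : ℝ) = ∑ i ∈ Finset.range n,
      (m.choose i : ℝ) * (-1) ^ i * ((1 - (τ : ℝ) ^ (2 * i + 1)) / (2 * (i : ℝ) + 1)) := by
  induction n with
  | zero => simp [wq]
  | succ n ih =>
    rw [Finset.sum_range_succ, ← ih]
    simp only [wq]
    push_cast
    ring

section lines

variable {E : Type u} [NormedAddCommGroup E] [InnerProductSpace ℝ E] [FiniteDimensional ℝ E]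
  [MeasurableSpace E] [BorelSpace E]
variable {ι : Type*} [Fintype ι] {z : ι → E} {A : ι → Set E}

/-- The tangent bound in hat units, in an odd dimension `2 m + 3`. -/
theorem hat_tangent (hc : Critical z A) {m : ℕ} (hn : Module.finrank ℝ E = 2 * m + 3) (i : ι)
    (hne : ∀ j, j ≠ i → z j ≠ z i) {τ : ℝ} (h0 : 0 < τ) (h1 : τ < 1) :
    Real.sqrt (2 * Real.pi) * ‖z i‖ ≤ (1 - τ ^ 2) ^ (m + 1)
      - (2 * (m : ℝ) + 2) * τ * (∑ i ∈ Finset.range (m + 1),
          (m.choose i : ℝ) * (-1) ^ i * ((1 - τ ^ (2 * i + 1)) / (2 * (i : ℝ) + 1)))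
      + (2 ^ (m + 2) * ((m + 1).factorial : ℝ) / ((2 * m + 1).doubleFactorial : ℝ)) * τ
        * (stdGaussian E).real (A i) := by
  have hpi := Real.pi_pos
  have hr0 : 0 < Real.sqrt (2 * Real.pi) := Real.sqrt_pos.2 (by positivity)
  have hphir : Real.sqrt (2 * Real.pi) * phi0 = 1 := by
    unfold phi0
    exact mul_inv_cancel₀ hr0.ne'
  have h := hc.norm_le_capGen (j := 2 * m + 1) (by omega) hn i hne h0 h1
  rw [Wint_odd, show 2 * m + 1 + 2 = 2 * (m + 1) + 1 by ring, Dc_odd,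
    show 2 * m + 1 + 1 = 2 * m + 2 by ring, Dc_even] at h
  have e5 : (((2 * m + 1 : ℕ) : ℝ) + 1) / 2 = ((m + 1 : ℕ) : ℝ) := by
    push_cast
    ring
  rw [e5, Real.rpow_natCast] at h
  have hp := phi0_pos
  have hdf : (0 : ℝ) < ((2 * m + 1).doubleFactorial : ℝ) := by
    exact_mod_cast Nat.doubleFactorial_pos _
  have h2 := mul_le_mul_of_nonneg_left h hr0.le
  refine h2.trans (le_of_eq ?_)
  have e6 : (2 : ℝ) ^ (m + 1) * ((m + 1).factorial : ℝ) / (((2 * m + 1).doubleFactorial : ℝ) / (2 * phi0))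
      = phi0 * (2 ^ (m + 2) * ((m + 1).factorial : ℝ) / ((2 * m + 1).doubleFactorial : ℝ)) := by
    field_simp
    ring
  rw [e6]
  have e7 : ((2 * m + 1 : ℕ) : ℝ) + 1 = 2 * (m : ℝ) + 2 := by
    push_cast
    ring
  rw [e7]
  set G := (2 : ℝ) ^ (m + 2) * ((m + 1).factorial : ℝ) / ((2 * m + 1).doubleFactorial : ℝ) with hG
  set W := ∑ i ∈ Finset.range (m + 1),
          (m.choose i : ℝ) * (-1) ^ i * ((1 - τ ^ (2 * i + 1)) / (2 * (i : ℝ) + 1)) with hW
  set a := (stdGaussian E).real (A i) with ha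
  calc Real.sqrt (2 * Real.pi) * (phi0 * ((1 - τ ^ 2) ^ (m + 1) - (2 * (m : ℝ) + 2) * τ * W)
        + τ * (phi0 * G) * a)
      = (Real.sqrt (2 * Real.pi) * phi0) * ((1 - τ ^ 2) ^ (m + 1) - (2 * (m : ℝ) + 2) * τ * W
        + G * τ * a) := by ring
    _ = _ := by rw [hphir, one_mul]

/-- All the tangent lines of a table are valid. -/
theorem pt_valid (hc : Critical z A) {m : ℕ} (hn : Module.finrank ℝ E = 2 * m + 3) (i : ι)
    (hne : ∀ j, j ≠ i → z j ≠ z i) (t : Gen.PT) (ht : ptOK m t = true) :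
    t.Valid (Real.sqrt (2 * Real.pi) * ‖z i‖) ((stdGaussian E).real (A i)) := by
  induction t with
  | node c l r ihl ihr =>
    simp only [ptOK, Bool.and_eq_true] at ht
    exact ⟨ihl ht.1, ihr ht.2⟩
  | leaf T A' B =>
    simp only [ptOK, lineOK, Bool.or_eq_true, Bool.and_eq_true, decide_eq_true_eq] at ht
    simp only [Gen.PT.Valid]
    have ha0 : 0 ≤ (stdGaussian E).real (A i) := measureReal_nonneg
    rcases ht with ⟨⟨_, h2⟩, h3⟩ | ⟨⟨⟨h1, h2⟩, h3⟩, h4⟩
    · have h2' : A' = 0 := Nat.eq_of_beq_eq_true h2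
      have h3' : B = 0 := Nat.eq_of_beq_eq_true h3
      rw [h2', h3']
      simp [ha0]
    · have h1' : 0 < T := by
        have : 1 ≤ T := by simpa [Nat.blt] using h1
        omega
      have h2' : T < 1048576 := by simpa [Nat.blt] using h2
      set τq : ℚ := (T : ℚ) / 1048576 with hτq
      have hτ0 : (0 : ℝ) < ((τq : ℚ) : ℝ) := by
        rw [hτq]
        push_cast
        have : (0 : ℝ) < T := by exact_mod_cast h1'
        positivity
      have hτ1 : ((τq : ℚ) : ℝ) < 1 := by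
        rw [hτq]
        push_cast
        rw [div_lt_one (by norm_num)]
        exact_mod_cast h2'
      have htan := hat_tangent hc hn i hne hτ0 hτ1
      have hc0 : 0 < cq m := by
        unfold cq
        have : (0 : ℚ) < ((2 * m + 1).doubleFactorial : ℚ) := by
          exact_mod_cast Nat.doubleFactorial_pos _
        have h5 : (0 : ℚ) < ((m + 1).factorial : ℚ) := by
          exact_mod_cast Nat.factorial_pos _
        positivity
      have hcr : ((cq m : ℚ) : ℝ)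
          = 2 ^ (m + 2) * ((m + 1).factorial : ℝ) / ((2 * m + 1).doubleFactorial : ℝ) := by
        unfold cq
        push_cast
        rfl
      have hPr : ((Pq m τq : ℚ) : ℝ) = (1 - (τq : ℝ) ^ 2) ^ (m + 1)
          - (2 * (m : ℝ) + 2) * (τq : ℝ) * (∑ i ∈ Finset.range (m + 1),
          (m.choose i : ℝ) * (-1) ^ i * ((1 - (τq : ℝ) ^ (2 * i + 1)) / (2 * (i : ℝ) + 1))) := by
        unfold Pq
        rw [← wq_cast]
        push_cast
        rfl
      rw [← hcr, ← hPr] at htan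
      set x := Real.sqrt (2 * Real.pi) * ‖z i‖ with hx
      have hx0 : 0 ≤ x := by positivity
      have h3r : ((A' : ℝ) / 1000000000) * (((cq m : ℚ) : ℝ) * (τq : ℝ)) ≤ 1 := by
        have := (Rat.cast_le (K := ℝ)).2 h3
        push_cast at this
        exact this
      have h4r : ((Pq m τq : ℚ) : ℝ) ≤ ((B : ℝ) / 1000000000) * (((cq m : ℚ) : ℝ) * (τq : ℝ)) := by
        have := (Rat.cast_le (K := ℝ)).2 h4
        push_cast at this
        exact this
      have hcr0 : (0 : ℝ) < ((cq m : ℚ) : ℝ) := by exact_mod_cast hc0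
      set w := ((cq m : ℚ) : ℝ) * (τq : ℝ) with hw
      have hw0 : 0 < w := by positivity
      set a := (stdGaussian E).real (A i) with ha
      have htan' : x ≤ ((Pq m τq : ℚ) : ℝ) + w * a := by
        rw [hw]
        linarith
      have h5 := mul_le_mul_of_nonneg_right h3r hx0
      have h6 : ((A' : ℝ) / 1000000000 * x - (B : ℝ) / 1000000000) * w ≤ a * w := by
        nlinarith
      exact le_of_mul_le_mul_right h6 hw0

/-- The norm is at most `1` in hat units. -/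
theorem hat_le_one (hc : Critical z A) {m : ℕ} (hn : Module.finrank ℝ E = 2 * m + 3) (i : ι)
    (hne : ∀ j, j ≠ i → z j ≠ z i) :
    Real.sqrt (2 * Real.pi) * ‖z i‖ ≤ 1 := by
  have hpi := Real.pi_pos
  have hr0 : 0 < Real.sqrt (2 * Real.pi) := Real.sqrt_pos.2 (by positivity)
  have hphir : Real.sqrt (2 * Real.pi) * phi0 = 1 := by
    unfold phi0
    exact mul_inv_cancel₀ hr0.ne'
  have hp := phi0_pos
  have key : ∀ τ : ℝ, 0 < τ → τ < 1 →
      ‖z i‖ ≤ phi0 + τ * (Dc (2 * m + 1 + 2) / Dc (2 * m + 1 + 1)) := by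
    intro τ h0 h1
    have h := hc.norm_le_capGen (j := 2 * m + 1) (by omega) hn i hne h0 h1
    refine h.trans ?_
    have hW : 0 ≤ Wint (2 * m + 1) τ := by
      unfold Wint
      refine intervalIntegral.integral_nonneg h1.le fun x hx => ?_
      apply Real.rpow_nonneg
      have : x ^ 2 ≤ 1 := by
        have h2 := hx.1
        have h3 := hx.2
        nlinarith
      linarith
    have hq : 0 ≤ 1 - τ ^ 2 := by nlinarith
    have hq1 : 1 - τ ^ 2 ≤ 1 := by nlinarith [sq_nonneg τ]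
    have hpow : (1 - τ ^ 2) ^ ((((2 * m + 1 : ℕ) : ℝ) + 1) / 2) ≤ 1 :=
      Real.rpow_le_one hq hq1 (by positivity)
    have hC : 0 ≤ Dc (2 * m + 1 + 2) / Dc (2 * m + 1 + 1) :=
      div_nonneg (Dc_pos _).le (Dc_pos _).le
    have ha : (stdGaussian E).real (A i) ≤ 1 := by
      have hprob : (stdGaussian E).real (A i) ≤ (stdGaussian E).real Set.univ :=
        measureReal_mono (Set.subset_univ _)
      simpa using hprob
    have h5 : phi0 * ((1 - τ ^ 2) ^ ((((2 * m + 1 : ℕ) : ℝ) + 1) / 2)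
        - (((2 * m + 1 : ℕ) : ℝ) + 1) * τ * Wint (2 * m + 1) τ) ≤ phi0 * 1 := by
      apply mul_le_mul_of_nonneg_left _ hp.le
      have : 0 ≤ (((2 * m + 1 : ℕ) : ℝ) + 1) * τ * Wint (2 * m + 1) τ := by positivity
      linarith
    have h6 : τ * (Dc (2 * m + 1 + 2) / Dc (2 * m + 1 + 1)) * (stdGaussian E).real (A i)
        ≤ τ * (Dc (2 * m + 1 + 2) / Dc (2 * m + 1 + 1)) * 1 :=
      mul_le_mul_of_nonneg_left ha (by positivity)
    linarith
  have hle : ‖z i‖ ≤ phi0 := by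
    set C := Dc (2 * m + 1 + 2) / Dc (2 * m + 1 + 1) with hC
    have hC0 : 0 < C := div_pos (Dc_pos _) (Dc_pos _)
    refine le_of_forall_pos_le_add fun ε hε => ?_
    set τ := min (1 / 2) (ε / C) with hτ
    have h0 : 0 < τ := lt_min (by norm_num) (by positivity)
    have h1 : τ < 1 := lt_of_le_of_lt (min_le_left _ _) (by norm_num)
    have h2 := key τ h0 h1
    have h3 : τ * C ≤ ε := by
      have := min_le_right (1 / 2 : ℝ) (ε / C)
      rw [← hτ] at this
      rwa [le_div_iff₀ hC0] at this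
    linarith
  have := mul_le_mul_of_nonneg_left hle hr0.le
  rwa [hphir] at this

end lines

section final

variable {E : Type u} [NormedAddCommGroup E] [InnerProductSpace ℝ E] [FiniteDimensional ℝ E]
  [MeasurableSpace E] [BorelSpace E]
variable {k : ℕ} {z : Fin k → E} {A : Fin k → Set E}

/-- **The bridge.** -/
theorem feas_of_critical (hc : Critical z A) (hR : R < S z) (hP : PF E (k - 1)) (hk4 : 4 ≤ k)
    (hs : SortedZ z) {m : ℕ} (hn : Module.finrank ℝ E = 2 * m + 3) (t : Gen.PT)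
    (ht : ptOK m t = true) : Feas k t (yy z) (aa A) := by
  have hpi := Real.pi_pos
  have h2pi : 0 < 2 * Real.pi := by positivity
  have hk2 : 2 ≤ k := by omega
  have hneg : ∀ a b : Fin k, a ≠ b → ⟪z a, z b⟫ < 0 := fun a b hab => hc.inner_neg hR hP hab
  have hne : ∀ i j : Fin k, j ≠ i → z j ≠ z i := fun i =>
    ne_of_inner_neg (fun j hj => hneg j i hj)
  refine ⟨yy_anti hs, yy_nonneg z, ?_, by omega, ?_, ?_, ?_, ?_, ?_, ?_⟩
  · have := yy_val z (⟨k - 1, by omega⟩ : Fin k)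
    simp only at this
    rw [this]
    have h1 := hc.norm_pos hR hP hk2 (⟨k - 1, by omega⟩ : Fin k)
    have hr0 : 0 < Real.sqrt (2 * Real.pi) := Real.sqrt_pos.2 h2pi
    positivity
  · have := yy_val z (⟨0, by omega⟩ : Fin k)
    simp only at this
    rw [this]
    exact hat_le_one hc hn _ (hne _)
  · intro i hi
    have e1 := yy_val z (⟨i, hi⟩ : Fin k)
    have e2 := aa_val A (⟨i, hi⟩ : Fin k)
    simp only at e1 e2
    rw [e1, e2]
    exact pt_valid hc hn _ (hne _) t ht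
  · rw [← Fin.sum_univ_eq_sum_range (fun n => aa A n) k]
    simp_rw [aa_val]
    exact sum_real_cells_cap hc.part
  · rw [← Fin.sum_univ_eq_sum_range (fun n => yy z n ^ 2) k]
    simp_rw [yy_sq_val]
    rw [← Finset.mul_sum]
    have h2 : 2 * Real.pi * R = 9 / 4 := by
      unfold R
      field_simp
      norm_num
    have h3 : 2 * Real.pi * R < 2 * Real.pi * S z := mul_lt_mul_of_pos_left hR h2pi
    rw [h2] at h3
    exact h3
  · intro τ h3 hτ p XX D μ hD hpick hsum hμ0 hμ1 hn1 hn2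
    exact ta_of_critical hc hR hP hs τ h3 hτ p XX D μ hD hpick hsum hμ0 hμ1 hn1 hn2
  · intro l m' h3 hml hl p XX D hD hpick hsum Hv hHv
    exact tb_of_critical hc hR hP hs l m' h3 hml hl p XX D hD hpick hsum Hv hHv

/-- **The step from a certificate.** -/
theorem step_of_chk (hk4 : 4 ≤ k) {m : ℕ} (hn : Module.finrank ℝ E = 2 * m + 3)
    (hP : PF E (k - 1)) (z : Fin k → E) (A : Fin k → Set E) (hc : Critical z A) (hR : R < S z)
    (t : Gen.PT) (ht : ptOK m t = true) (c : Cert)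
    (hchk : chk k t c (List.replicate k (0, 16384)) = true) : False := by
  set x : Fin k → ℝ := fun i => ‖z i‖ with hx
  set p := Tuple.sort x with hp
  have hmono : Monotone (x ∘ p) := Tuple.monotone_sort x
  set σ : Equiv.Perm (Fin k) := Fin.revPerm.trans p with hσ
  have hc' := critical_comp hc σ
  have hR' : R < S (z ∘ σ) := by rwa [S_comp]
  have hs : SortedZ (z ∘ σ) := by
    intro i j hij
    have h1 : Fin.rev j ≤ Fin.rev i := Fin.rev_le_rev.2 hij
    exact hmono h1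
  exact no_feas (feas_of_critical hc' hR' hP hk4 hs hn t ht) c hchk

end final

end Crest.Agent.Propeller.AB
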