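import Crest.Agent.Lib.Propeller.SingleClosure

/-!
# Propeller: sharper choice of the pair in the single deletion closure

For a critical configuration, `j` deleted, `v i = prp e (z i)`, `K i = ‖v i‖²`, `w a b = -⟪v a, v b⟫ ≥ 0`.

* `triple_pick`: for three vertices `a b c`, with `X = ‖v a + v b + v c‖²`, some pair has
  `w ≤ (K a + K b - K c)/2 - X/6`, hence a determinant at least `g (K a) (K b) (K c)`,
  where `g A B C = AB + BC + CA - (A + B + C)²/4`.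
* `sum_pick`: for three vertices some pair has `w ≤ (K a + K b + K c - X)/6`.
-/

set_option autoImplicit false
set_option linter.unusedSectionVars false
open MeasureTheory ProbabilityTheory
open scoped RealInnerProductSpace

namespace Crest.Agent.Propeller

universe u

variable {E : Type u} [NormedAddCommGroup E] [InnerProductSpace ℝ E] [FiniteDimensional ℝ E]
  [MeasurableSpace E] [BorelSpace E]
variable {k : ℕ} {z : Fin k → E} {A : Fin k → Set E}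

/-- The projected vector. -/
noncomputable abbrev vp (z : Fin k → E) (j i : Fin k) : E := prp (uvec z j) (z i)

/-- The inner product of a vertex with the sum of a triple containing it is nonnegative. -/
lemma Critical.inner_triple_nonneg (hc : Critical z A) (hR : R < S z) (hP : PF E (k - 1))
    (hk : 2 ≤ k) (j : Fin k) {a b c : Fin k} (ha : a ≠ j) (hb : b ≠ j) (hc' : c ≠ j)
    (hab : a ≠ b) (hac : a ≠ c) (hbc : b ≠ c) (d : Fin k) (hd : d = a ∨ d = b ∨ d = c) :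
    0 ≤ ⟪vp z j d, vp z j a + vp z j b + vp z j c⟫ := by
  classical
  have hs := hc.norm_pos hR hP hk j
  set T := Finset.univ.erase j with hT
  have haT : a ∈ T := Finset.mem_erase.2 ⟨ha, Finset.mem_univ _⟩
  have hbT : b ∈ T.erase a := Finset.mem_erase.2 ⟨hab.symm, Finset.mem_erase.2 ⟨hb, Finset.mem_univ _⟩⟩
  have hcT : c ∈ (T.erase a).erase b := Finset.mem_erase.2 ⟨hbc.symm,
    Finset.mem_erase.2 ⟨hac.symm, Finset.mem_erase.2 ⟨hc', Finset.mem_univ _⟩⟩⟩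
  have hsum : ∑ i ∈ T, vp z j i = 0 := sum_prp_erase z j hc.sum_zero hs
  rw [← Finset.add_sum_erase _ _ haT, ← Finset.add_sum_erase _ _ hbT,
    ← Finset.add_sum_erase _ _ hcT] at hsum
  set N := ((T.erase a).erase b).erase c with hN
  have h1 : vp z j a + vp z j b + vp z j c = - ∑ i ∈ N, vp z j i := by
    rw [eq_neg_iff_add_eq_zero, ← hsum]
    abel
  rw [h1, inner_neg_right, inner_sum]
  have h2 : ∑ i ∈ N, ⟪vp z j d, vp z j i⟫ ≤ 0 := by
    refine Finset.sum_nonpos fun i hi => ?_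
    have hi1 : i ≠ c := Finset.ne_of_mem_erase hi
    have hi2 : i ≠ b := Finset.ne_of_mem_erase (Finset.mem_of_mem_erase hi)
    have hi3 : i ≠ a := Finset.ne_of_mem_erase (Finset.mem_of_mem_erase (Finset.mem_of_mem_erase hi))
    have hi4 : i ≠ j := Finset.ne_of_mem_erase
      (Finset.mem_of_mem_erase (Finset.mem_of_mem_erase (Finset.mem_of_mem_erase hi)))
    have hdj : d ≠ j := by rcases hd with rfl | rfl | rfl <;> assumption
    have hdi : d ≠ i := by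
      rcases hd with rfl | rfl | rfl
      · exact hi3.symm
      · exact hi2.symm
      · exact hi1.symm
    exact hc.inner_prp_nonpos hR hP j hs hdj hi4 hdi
  linarith

/-- **Triple pick**, sharp form: a permutation `(a', b', c')` of the triple with
`36 π³ (K a' K b' - ((K a' + K b' - K c')/2 - X/6)²) ≤ 2 k⁴ s²` and
`0 ≤ (K a' + K b' - K c')/2 - X/6`. -/
theorem Critical.triple_pick_sharp (hc : Critical z A) (hR : R < S z) (hP : PF E (k - 1))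
    (hk : 2 ≤ k) (j : Fin k) {a b c : Fin k} (ha : a ≠ j) (hb : b ≠ j) (hc' : c ≠ j)
    (hab : a ≠ b) (hac : a ≠ c) (hbc : b ≠ c) :
    ∃ a' b' c' : Fin k, ((a' = a ∧ b' = b ∧ c' = c) ∨ (a' = a ∧ b' = c ∧ c' = b)
        ∨ (a' = b ∧ b' = c ∧ c' = a)) ∧
      0 ≤ (Kp z j a' + Kp z j b' - Kp z j c') / 2 - ‖vp z j a + vp z j b + vp z j c‖ ^ 2 / 6 ∧
      36 * Real.pi ^ 3 * (Kp z j a' * Kp z j b'
        - ((Kp z j a' + Kp z j b' - Kp z j c') / 2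
            - ‖vp z j a + vp z j b + vp z j c‖ ^ 2 / 6) ^ 2) ≤ 2 * (k : ℝ) ^ 4 * ‖z j‖ ^ 2 := by
  have hs := hc.norm_pos hR hP hk j
  have hpi := Real.pi_pos
  set va := vp z j a with hva
  set vb := vp z j b with hvb
  set vc := vp z j c with hvc
  set X := ‖va + vb + vc‖ ^ 2 with hX
  have hKa : Kp z j a = ⟪va, va⟫ := by
    rw [real_inner_self_eq_norm_sq]; rfl
  have hKb : Kp z j b = ⟪vb, vb⟫ := by
    rw [real_inner_self_eq_norm_sq]; rfl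
  have hKc : Kp z j c = ⟪vc, vc⟫ := by
    rw [real_inner_self_eq_norm_sq]; rfl
  set xa := ⟪va, va + vb + vc⟫ with hxa
  set xb := ⟪vb, va + vb + vc⟫ with hxb
  set xc := ⟪vc, va + vb + vc⟫ with hxc
  have h0a : 0 ≤ xa := hc.inner_triple_nonneg hR hP hk j ha hb hc' hab hac hbc a (Or.inl rfl)
  have h0b : 0 ≤ xb := hc.inner_triple_nonneg hR hP hk j ha hb hc' hab hac hbc b (Or.inr (Or.inl rfl))
  have h0c : 0 ≤ xc := hc.inner_triple_nonneg hR hP hk j ha hb hc' hab hac hbc c (Or.inr (Or.inr rfl))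
  have hXsum : X = xa + xb + xc := by
    rw [hX, ← real_inner_self_eq_norm_sq, inner_add_left, inner_add_left]
  have ea : xa = ⟪va, va⟫ + ⟪va, vb⟫ + ⟪va, vc⟫ := by rw [hxa, inner_add_right, inner_add_right]
  have eb : xb = ⟪va, vb⟫ + ⟪vb, vb⟫ + ⟪vb, vc⟫ := by
    rw [hxb, inner_add_right, inner_add_right, real_inner_comm va vb]
  have ec : xc = ⟪va, vc⟫ + ⟪vb, vc⟫ + ⟪vc, vc⟫ := by
    rw [hxc, inner_add_right, inner_add_right, real_inner_comm va vc, real_inner_comm vb vc]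
  have hnab : ⟪va, vb⟫ ≤ 0 := hc.inner_prp_nonpos hR hP j hs ha hb hab
  have hnac : ⟪va, vc⟫ ≤ 0 := hc.inner_prp_nonpos hR hP j hs ha hc' hac
  have hnbc : ⟪vb, vc⟫ ≤ 0 := hc.inner_prp_nonpos hR hP j hs hb hc' hbc
  have hdet1 := hc.det_le hR hP hk j ha hb hab
  have hdet2 := hc.det_le hR hP hk j ha hc' hac
  have hdet3 := hc.det_le hR hP hk j hb hc' hbc
  have hmain : ∀ (K1 K2 K3 w : ℝ), 0 ≤ w → w ≤ (K1 + K2 - K3) / 2 - X / 6 →
      36 * Real.pi ^ 3 * (K1 * K2 - w ^ 2) ≤ 2 * (k : ℝ) ^ 4 * ‖z j‖ ^ 2 →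
      0 ≤ (K1 + K2 - K3) / 2 - X / 6 ∧
      36 * Real.pi ^ 3 * (K1 * K2 - ((K1 + K2 - K3) / 2 - X / 6) ^ 2)
        ≤ 2 * (k : ℝ) ^ 4 * ‖z j‖ ^ 2 := by
    intro K1 K2 K3 w h0 hle hdet
    have h1 : 0 ≤ (K1 + K2 - K3) / 2 - X / 6 := h0.trans hle
    refine ⟨h1, ?_⟩
    have h2 : w ^ 2 ≤ ((K1 + K2 - K3) / 2 - X / 6) ^ 2 := pow_le_pow_left₀ h0 hle 2
    have h3 : (0 : ℝ) < 36 * Real.pi ^ 3 := by positivity
    have := mul_le_mul_of_nonneg_left h2 h3.le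
    nlinarith
  -- the three cases: one of the `x` is small
  by_cases hcase1 : xc - xa - xb ≤ -X / 3
  · -- pair (a, b)
    have hle : -⟪va, vb⟫ ≤ (Kp z j a + Kp z j b - Kp z j c) / 2 - X / 6 := by
      rw [hKa, hKb, hKc]
      linarith
    have hq := hmain (Kp z j a) (Kp z j b) (Kp z j c) (-⟪va, vb⟫) (by linarith) hle
      (by rw [neg_sq]; exact hdet1)
    exact ⟨a, b, c, Or.inl ⟨rfl, rfl, rfl⟩, hq.1, hq.2⟩
  by_cases hcase2 : xb - xa - xc ≤ -X / 3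
  · have hle : -⟪va, vc⟫ ≤ (Kp z j a + Kp z j c - Kp z j b) / 2 - X / 6 := by
      rw [hKa, hKb, hKc]
      linarith
    have hq := hmain (Kp z j a) (Kp z j c) (Kp z j b) (-⟪va, vc⟫) (by linarith) hle
      (by rw [neg_sq]; exact hdet2)
    exact ⟨a, c, b, Or.inr (Or.inl ⟨rfl, rfl, rfl⟩), hq.1, hq.2⟩
  · push Not at hcase1 hcase2
    have hcase3 : xa - xb - xc ≤ -X / 3 := by linarith
    have hle : -⟪vb, vc⟫ ≤ (Kp z j b + Kp z j c - Kp z j a) / 2 - X / 6 := by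
      rw [hKa, hKb, hKc]
      linarith
    have hq := hmain (Kp z j b) (Kp z j c) (Kp z j a) (-⟪vb, vc⟫) (by linarith) hle
      (by rw [neg_sq]; exact hdet3)
    exact ⟨b, c, a, Or.inr (Or.inr ⟨rfl, rfl, rfl⟩), hq.1, hq.2⟩

/-- **Triple pick**: `36 π³ g (K a) (K b) (K c) ≤ 2 k⁴ s²` for any three vertices. -/
theorem Critical.triple_pick (hc : Critical z A) (hR : R < S z) (hP : PF E (k - 1))
    (hk : 2 ≤ k) (j : Fin k) {a b c : Fin k} (ha : a ≠ j) (hb : b ≠ j) (hc' : c ≠ j)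
    (hab : a ≠ b) (hac : a ≠ c) (hbc : b ≠ c) :
    36 * Real.pi ^ 3 * (Kp z j a * Kp z j b + Kp z j b * Kp z j c + Kp z j c * Kp z j a
      - (Kp z j a + Kp z j b + Kp z j c) ^ 2 / 4) ≤ 2 * (k : ℝ) ^ 4 * ‖z j‖ ^ 2 := by
  have hpi := Real.pi_pos
  obtain ⟨a', b', c', hperm, h0, hle⟩ := hc.triple_pick_sharp hR hP hk j ha hb hc' hab hac hbc
  set X := ‖vp z j a + vp z j b + vp z j c‖ ^ 2 with hX
  have hX0 : 0 ≤ X := by positivity
  have h3 : (0 : ℝ) < 36 * Real.pi ^ 3 := by positivity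
  -- `(K1 + K2 - K3)/2 ≥ X/6 ≥ 0`, so the square is at most the square without `X/6`
  have key : ∀ K1 K2 K3 : ℝ, 0 ≤ (K1 + K2 - K3) / 2 - X / 6 →
      36 * Real.pi ^ 3 * (K1 * K2 - ((K1 + K2 - K3) / 2 - X / 6) ^ 2)
        ≤ 2 * (k : ℝ) ^ 4 * ‖z j‖ ^ 2 →
      36 * Real.pi ^ 3 * (K1 * K2 - ((K1 + K2 - K3) / 2) ^ 2) ≤ 2 * (k : ℝ) ^ 4 * ‖z j‖ ^ 2 := by
    intro K1 K2 K3 h1 h2
    have h4 : ((K1 + K2 - K3) / 2 - X / 6) ^ 2 ≤ ((K1 + K2 - K3) / 2) ^ 2 :=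
      pow_le_pow_left₀ h1 (by linarith) 2
    have := mul_le_mul_of_nonneg_left h4 h3.le
    nlinarith
  have := key _ _ _ h0 hle
  refine le_trans (le_of_eq ?_) this
  rcases hperm with ⟨rfl, rfl, rfl⟩ | ⟨rfl, rfl, rfl⟩ | ⟨rfl, rfl, rfl⟩ <;> ring

/-- **Sum pick**: in a triple some pair `(a', b')` has `w ≤ (K a + K b + K c - X)/6`. -/
theorem Critical.sum_pick (hc : Critical z A) (hR : R < S z) (hP : PF E (k - 1))
    (hk : 2 ≤ k) (j : Fin k) {a b c : Fin k} (ha : a ≠ j) (hb : b ≠ j) (hc' : c ≠ j)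
    (hab : a ≠ b) (hac : a ≠ c) (hbc : b ≠ c) :
    ∃ a' b' : Fin k, ((a' = a ∧ b' = b) ∨ (a' = a ∧ b' = c) ∨ (a' = b ∧ b' = c)) ∧
      0 ≤ (Kp z j a + Kp z j b + Kp z j c - ‖vp z j a + vp z j b + vp z j c‖ ^ 2) / 6 ∧
      36 * Real.pi ^ 3 * (Kp z j a' * Kp z j b'
        - ((Kp z j a + Kp z j b + Kp z j c - ‖vp z j a + vp z j b + vp z j c‖ ^ 2) / 6) ^ 2)
        ≤ 2 * (k : ℝ) ^ 4 * ‖z j‖ ^ 2 := by
  have hs := hc.norm_pos hR hP hk j
  have hpi := Real.pi_pos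
  set va := vp z j a with hva
  set vb := vp z j b with hvb
  set vc := vp z j c with hvc
  set X := ‖va + vb + vc‖ ^ 2 with hX
  have hKa : Kp z j a = ⟪va, va⟫ := by
    rw [real_inner_self_eq_norm_sq]; rfl
  have hKb : Kp z j b = ⟪vb, vb⟫ := by
    rw [real_inner_self_eq_norm_sq]; rfl
  have hKc : Kp z j c = ⟪vc, vc⟫ := by
    rw [real_inner_self_eq_norm_sq]; rfl
  have hXe : X = ⟪va, va⟫ + ⟪vb, vb⟫ + ⟪vc, vc⟫ + 2 * ⟪va, vb⟫ + 2 * ⟪va, vc⟫ + 2 * ⟪vb, vc⟫ := by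
    rw [hX, ← real_inner_self_eq_norm_sq]
    simp only [inner_add_left, inner_add_right]
    rw [real_inner_comm va vb, real_inner_comm va vc, real_inner_comm vb vc]
    ring
  have hnab : ⟪va, vb⟫ ≤ 0 := hc.inner_prp_nonpos hR hP j hs ha hb hab
  have hnac : ⟪va, vc⟫ ≤ 0 := hc.inner_prp_nonpos hR hP j hs ha hc' hac
  have hnbc : ⟪vb, vc⟫ ≤ 0 := hc.inner_prp_nonpos hR hP j hs hb hc' hbc
  have hdet1 := hc.det_le hR hP hk j ha hb hab
  have hdet2 := hc.det_le hR hP hk j ha hc' hac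
  have hdet3 := hc.det_le hR hP hk j hb hc' hbc
  set U := (Kp z j a + Kp z j b + Kp z j c - X) / 6 with hU
  have hUe : U = (-⟪va, vb⟫ - ⟪va, vc⟫ - ⟪vb, vc⟫) / 3 := by
    rw [hU, hKa, hKb, hKc, hXe]
    ring
  have hU0 : 0 ≤ U := by rw [hUe]; linarith
  have h3 : (0 : ℝ) < 36 * Real.pi ^ 3 := by positivity
  have hmain : ∀ (K1 K2 w : ℝ), 0 ≤ w → w ≤ U →
      36 * Real.pi ^ 3 * (K1 * K2 - w ^ 2) ≤ 2 * (k : ℝ) ^ 4 * ‖z j‖ ^ 2 →
      36 * Real.pi ^ 3 * (K1 * K2 - U ^ 2) ≤ 2 * (k : ℝ) ^ 4 * ‖z j‖ ^ 2 := by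
    intro K1 K2 w h0 hle hdet
    have h2 : w ^ 2 ≤ U ^ 2 := pow_le_pow_left₀ h0 hle 2
    have := mul_le_mul_of_nonneg_left h2 h3.le
    nlinarith
  by_cases hcase1 : -⟪va, vb⟫ ≤ U
  · exact ⟨a, b, Or.inl ⟨rfl, rfl⟩, hU0,
      hmain _ _ (-⟪va, vb⟫) (by linarith) hcase1 (by rw [neg_sq]; exact hdet1)⟩
  by_cases hcase2 : -⟪va, vc⟫ ≤ U
  · exact ⟨a, c, Or.inr (Or.inl ⟨rfl, rfl⟩), hU0,
      hmain _ _ (-⟪va, vc⟫) (by linarith) hcase2 (by rw [neg_sq]; exact hdet2)⟩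
  · push Not at hcase1 hcase2
    have hcase3 : -⟪vb, vc⟫ ≤ U := by rw [hUe] at hcase1 hcase2 ⊢; linarith
    exact ⟨b, c, Or.inr (Or.inr ⟨rfl, rfl⟩), hU0,
      hmain _ _ (-⟪vb, vc⟫) (by linarith) hcase3 (by rw [neg_sq]; exact hdet3)⟩

end Crest.Agent.Propeller
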