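import Crest.Agent.Lib.Propeller.ConeCapExact

/-!
# Propeller: reduction to dimension `k - 1`

`F` is invariant under linear isometric embeddings, hence `P k` in `ℝ^{k-1}` gives `P k` in every
space; and the induction frame `PF_all_euclid` where at level `k` the critical configuration lives in
`ℝ^{k-1}` exactly (this is where the cone caps `J_{k-1}` apply).
-/

set_option autoImplicit false
set_option linter.unusedSectionVars false
open MeasureTheory ProbabilityTheory
open scoped RealInnerProductSpace

namespace Crest.Agent.Propeller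

universe u v w

section iso

variable {W : Type v} {V : Type w}
  [NormedAddCommGroup W] [InnerProductSpace ℝ W] [FiniteDimensional ℝ W]
  [MeasurableSpace W] [BorelSpace W]
  [NormedAddCommGroup V] [InnerProductSpace ℝ V] [FiniteDimensional ℝ V]
  [MeasurableSpace V] [BorelSpace V]

/-- The adjoint of a linear isometry pushes the standard Gaussian to the standard Gaussian. -/
theorem map_adjoint_stdGaussian (L : W →ₗᵢ[ℝ] V) :
    (stdGaussian V).map (ContinuousLinearMap.adjoint L.toContinuousLinearMap)
      = stdGaussian W := by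
  set A := ContinuousLinearMap.adjoint L.toContinuousLinearMap with hA
  have hc : Continuous A := A.continuous
  have : IsProbabilityMeasure ((stdGaussian V).map A) :=
    Measure.isProbabilityMeasure_map hc.measurable.aemeasurable
  apply Measure.ext_of_charFun
  ext t
  rw [charFun_stdGaussian, charFun_apply, integral_map hc.measurable.aemeasurable
    (by
      apply Continuous.aestronglyMeasurable
      fun_prop)]
  have h1 : ∀ g : V, ((⟪A g, t⟫ : ℝ) : ℂ) = ((⟪g, L t⟫ : ℝ) : ℂ) := by
    intro g
    rw [hA, ContinuousLinearMap.adjoint_inner_left]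
    rfl
  simp_rw [h1]
  have h2 := charFun_stdGaussian (E := V) (L t)
  rw [charFun_apply] at h2
  rw [h2, L.norm_map]

theorem F_comp_isometry {ι : Type*} [Fintype ι] (L : W →ₗᵢ[ℝ] V) (z : ι → W) :
    F (fun i => L (z i)) = F z := by
  set A := ContinuousLinearMap.adjoint L.toContinuousLinearMap with hA
  have hc : Continuous A := A.continuous
  have h1 : ∀ g : V, mx (fun i => L (z i)) g = mx z (A g) := by
    intro g
    unfold mx
    congr 1
    funext i
    rw [hA, ContinuousLinearMap.adjoint_inner_right]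
    rfl
  unfold F
  simp_rw [h1]
  conv_rhs => rw [← map_adjoint_stdGaussian L]
  rw [integral_map hc.measurable.aemeasurable (measurable_mx z).aestronglyMeasurable]

theorem S_comp_isometry {ι : Type*} [Fintype ι] (L : W →ₗᵢ[ℝ] V) (z : ι → W) :
    S (fun i => L (z i)) = S z := by
  unfold S
  simp

end iso

section euclid

variable {E : Type u} [NormedAddCommGroup E] [InnerProductSpace ℝ E] [FiniteDimensional ℝ E]
  [MeasurableSpace E] [BorelSpace E]

/-- An inner product space of dimension `≤ m` embeds isometrically in `ℝ^m`. -/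
lemma exists_isometry_euclid {W : Type*} [NormedAddCommGroup W] [InnerProductSpace ℝ W]
    [FiniteDimensional ℝ W] {m : ℕ} (h : Module.finrank ℝ W ≤ m) :
    Nonempty (W →ₗᵢ[ℝ] EuclideanSpace ℝ (Fin m)) := by
  classical
  set b := stdOrthonormalBasis ℝ W
  set w : Fin (Module.finrank ℝ W) → EuclideanSpace ℝ (Fin m) :=
    fun i => EuclideanSpace.single (Fin.castLE h i) (1 : ℝ) with hw
  set f : W →ₗ[ℝ] EuclideanSpace ℝ (Fin m) := b.toBasis.constr ℝ w with hf
  have hv : Orthonormal ℝ b.toBasis := by
    simpa using b.orthonormal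
  have hfv : Orthonormal ℝ (f ∘ b.toBasis) := by
    have : (f ∘ b.toBasis) = w := by
      funext i
      simp [hf]
    rw [this]
    rw [orthonormal_iff_ite]
    intro i j
    simp only [hw, EuclideanSpace.inner_single_left]
    by_cases hij : i = j
    · subst hij
      simp
    · have : Fin.castLE h i ≠ Fin.castLE h j := by
        intro h'
        exact hij (Fin.castLE_injective h h')
      simp [hij, this, EuclideanSpace.single_apply]
  exact ⟨f.isometryOfOrthonormal hv hfv⟩

/-- `P k` in `ℝ^{k-1}` gives `P k` everywhere. -/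
theorem PF_of_euclid {k : ℕ} (hk : 1 ≤ k) (h : PF (EuclideanSpace ℝ (Fin (k - 1))) k) :
    PF E k := by
  classical
  intro z
  have : Nonempty (Fin k) := ⟨⟨0, by omega⟩⟩
  -- centre
  set c : E := (k : ℝ)⁻¹ • ∑ i, z i with hc
  set y : Fin k → E := fun i => z i + (-c) with hy
  have hF : F y = F z := F_add_const z (-c)
  have hkpos : (0 : ℝ) < k := by exact_mod_cast hk
  have hsum : ∑ i, y i = 0 := by
    simp only [hy, Finset.sum_add_distrib, Finset.sum_const, Finset.card_univ, Fintype.card_fin,
      hc, smul_neg, nsmul_eq_mul]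
    rw [← Nat.cast_smul_eq_nsmul ℝ, smul_smul, mul_inv_cancel₀ hkpos.ne', one_smul]
    simp
  have hS : S y ≤ S z := by
    have h1 : S y = S z - (k : ℝ) * ‖c‖ ^ 2 := by
      unfold S
      have h4 : ∀ i, ‖y i‖ ^ 2 = ‖z i‖ ^ 2 - 2 * ⟪z i, c⟫ + ‖c‖ ^ 2 := fun i => by
        simp only [hy]
        rw [← sub_eq_add_neg, norm_sub_sq_real]
      simp_rw [h4]
      rw [Finset.sum_add_distrib, Finset.sum_sub_distrib, ← Finset.mul_sum, ← sum_inner]
      have h5 : ∑ i, z i = (k : ℝ) • c := by
        rw [hc, smul_smul, mul_inv_cancel₀ hkpos.ne', one_smul]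
      rw [h5, real_inner_smul_left, real_inner_self_eq_norm_sq]
      simp
      ring
    rw [h1]
    have : 0 ≤ (k : ℝ) * ‖c‖ ^ 2 := by positivity
    linarith
  -- the span
  set i0 : Fin k := ⟨0, by omega⟩
  set s : Finset (Fin k) := Finset.univ.erase i0
  set W : Submodule ℝ E := Submodule.span ℝ (Set.range y) with hW
  have hWle : W ≤ Submodule.span ℝ ((s.image y : Finset E) : Set E) := by
    refine Submodule.span_le.2 ?_
    rintro _ ⟨i, rfl⟩
    by_cases hi : i = i0
    · subst hi
      have h1 : y i0 = - ∑ j ∈ s, y j := by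
        have := Finset.add_sum_erase Finset.univ y (Finset.mem_univ i0)
        rw [hsum] at this
        exact eq_neg_of_add_eq_zero_left this
      rw [h1]
      refine Submodule.neg_mem _ (Submodule.sum_mem _ fun j hj => ?_)
      exact Submodule.subset_span (by simpa using ⟨j, by simpa [s] using hj, rfl⟩)
    · exact Submodule.subset_span (by
        simp only [Finset.coe_image, Set.mem_image, Finset.mem_coe]
        exact ⟨i, by simpa [s] using hi, rfl⟩)
  have hfin : Module.finrank ℝ W ≤ k - 1 := by
    refine (Submodule.finrank_mono hWle).trans ?_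
    refine (finrank_span_finset_le_card (R := ℝ) (s.image y)).trans ?_
    refine Finset.card_image_le.trans ?_
    simp [s, Finset.card_erase_of_mem]
  obtain ⟨L⟩ := exists_isometry_euclid hfin
  set yW : Fin k → W := fun i => ⟨y i, Submodule.subset_span ⟨i, rfl⟩⟩ with hyW
  have h1 : F yW = F y := by
    have := F_comp_isometry (W.subtypeₗᵢ) yW
    simpa using this.symm
  have h2 : S yW = S y := by
    have := S_comp_isometry (W.subtypeₗᵢ) yW
    simpa using this.symm
  have h3 := h (fun i => L (yW i))
  rw [F_comp_isometry, S_comp_isometry, h1, h2, hF] at h3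
  exact h3.trans (mul_le_mul_of_nonneg_left hS R_pos.le)

/-- The induction frame with the critical configuration at level `k` in `ℝ^{k-1}`. -/
theorem PF_all_euclid
    (step : ∀ k, 4 ≤ k → PF (EuclideanSpace ℝ (Fin (k - 1))) (k - 1) →
      ∀ (z : Fin k → EuclideanSpace ℝ (Fin (k - 1))) (A : Fin k → Set (EuclideanSpace ℝ (Fin (k - 1)))),
        Critical z A → R < S z → False) :
    ∀ n, PF E n := by
  have key : ∀ n, PF (EuclideanSpace ℝ (Fin (n - 1))) n := by
    intro n
    induction n using Nat.strong_induction_on with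
    | _ n ih =>
      by_cases hn : n ≤ 3
      · exact PF_of_le hn PF_three
      · push Not at hn
        intro z
        by_contra hlt
        push Not at hlt
        have : Nonempty (Fin n) := ⟨⟨0, by omega⟩⟩
        obtain ⟨z', A, hc, hR⟩ := exists_critical z R R_pos.le hlt
        exact step n (by omega) (PF_of_euclid (by omega) (ih _ (by omega))) z' A hc hR
  intro n
  by_cases hn : n = 0
  · subst hn
    exact PF_of_le (Nat.zero_le _) PF_three
  · exact PF_of_euclid (by omega) (key n)

end euclid

section critical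

variable {E : Type u} [NormedAddCommGroup E] [InnerProductSpace ℝ E] [FiniteDimensional ℝ E]
  [MeasurableSpace E] [BorelSpace E]

/-- Hyperplanes are null. -/
lemma stdGaussian_hyperplane {v : E} (hv : v ≠ 0) : (stdGaussian E) {g | ⟪v, g⟫ = 0} = 0 := by
  have hm : Measurable (fun g : E => ⟪v, g⟫) := (continuous_const.inner continuous_id).measurable
  have h1 : (stdGaussian E) {g | ⟪v, g⟫ = 0} = ((stdGaussian E).map (fun g => ⟪v, g⟫)) {0} := by
    rw [Measure.map_apply hm (measurableSet_singleton 0)]
    rfl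
  rw [h1, map_inner_std]
  have hne : Real.toNNReal (‖v‖ ^ 2) ≠ 0 := by
    simpa using hv
  have := nullSingletonClass_gaussianReal (μ := 0) hne
  exact measure_singleton 0

/-- The closed argmax cone. -/
def argmaxCone {ι : Type*} (z : ι → E) (i : ι) : Set E := {g | ∀ j, ⟪z j, g⟫ ≤ ⟪z i, g⟫}

lemma isConeSet_argmaxCone {ι : Type*} (z : ι → E) (i : ι) : IsConeSet (argmaxCone z i) := by
  intro x hx s hs j
  rw [real_inner_smul_right, real_inner_smul_right]
  exact mul_le_mul_of_nonneg_left (hx j) hs.le

lemma measurableSet_argmaxCone {ι : Type*} [Fintype ι] (z : ι → E) (i : ι) :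
    MeasurableSet (argmaxCone z i) := by
  have : argmaxCone z i = ⋂ j, {g | ⟪z j, g⟫ ≤ ⟪z i, g⟫} := by
    ext g
    simp [argmaxCone]
  rw [this]
  exact MeasurableSet.iInter fun j => measurableSet_le (by fun_prop) (by fun_prop)

/-- The cell of a critical configuration is a.e. the argmax cone. -/
theorem Critical.ae_eq_argmaxCone {ι : Type*} [Fintype ι] {z : ι → E} {A : ι → Set E}
    (hc : Critical z A) (i : ι) (hne : ∀ j, j ≠ i → z j ≠ z i) :
    A i =ᵐ[stdGaussian E] argmaxCone z i := by
  classical
  have hsub : A i ⊆ argmaxCone z i := by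
    intro g hg j
    rw [← hc.cell i g hg]
    exact le_mx z j g
  have hnull : (stdGaussian E) (argmaxCone z i \ A i) = 0 := by
    have hcov : argmaxCone z i \ A i ⊆ ⋃ j ∈ (Finset.univ.erase i : Finset ι),
        {g | ⟪z j - z i, g⟫ = 0} := by
      rintro g ⟨hg1, hg2⟩
      have : g ∈ ⋃ j, A j := by
        rw [hc.part.cov]
        exact Set.mem_univ g
      obtain ⟨j, hj⟩ := Set.mem_iUnion.1 this
      have hji : j ≠ i := fun h => hg2 (h ▸ hj)
      refine Set.mem_biUnion (x := j) (by simp [hji]) ?_
      have h1 := hc.cell j g hj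
      have h2 := hg1 j
      have h3 := le_mx z i g
      simp only [Set.mem_ofPred_eq]
      rw [inner_sub_left]
      linarith
    refine measure_mono_null hcov ?_
    refine (measure_biUnion_null_iff (Finset.countable_toSet _)).2 fun j hj => ?_
    have hji : j ≠ i := by simpa using hj
    exact stdGaussian_hyperplane (sub_ne_zero.2 (hne j hji))
  refine (ae_eq_set.2 ⟨?_, hnull⟩)
  rw [Set.diff_eq_empty.2 hsub]
  simp

/-- The cell of a critical configuration is, as far as measure and moment go, a cone. -/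
theorem Critical.cone_data {ι : Type*} [Fintype ι] {z : ι → E} {A : ι → Set E}
    (hc : Critical z A) (i : ι) (hne : ∀ j, j ≠ i → z j ≠ z i) :
    ∃ C : Set E, IsConeSet C ∧ MeasurableSet C ∧ (stdGaussian E).real C = (stdGaussian E).real (A i)
      ∧ ∫ g in C, g ∂(stdGaussian E) = z i := by
  refine ⟨argmaxCone z i, isConeSet_argmaxCone z i, measurableSet_argmaxCone z i, ?_, ?_⟩
  · exact (measureReal_congr (hc.ae_eq_argmaxCone i hne)).symm
  · rw [← hc.mom_eq i]
    exact (setIntegral_congr_set (hc.ae_eq_argmaxCone i hne)).symm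

/-- From directional bounds to the norm of the moment, in a nontrivial space. -/
lemma norm_setIntegral_le' [Nontrivial E] {A : Set E} {C : ℝ}
    (h : ∀ u : E, ‖u‖ = 1 → ∫ g in A, ⟪u, g⟫ ∂(stdGaussian E) ≤ C) :
    ‖∫ g in A, g ∂(stdGaussian E)‖ ≤ C := by
  have hC : 0 ≤ C := by
    obtain ⟨v, hv⟩ := exists_norm_eq E (show (0 : ℝ) ≤ 1 by norm_num)
    have h1 := h v hv
    have h2 := h (-v) (by rwa [norm_neg])
    simp only [inner_neg_left] at h2
    rw [integral_neg] at h2
    linarith
  exact norm_setIntegral_le hC h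

/-- `‖z i‖ ≤ 4 φ₀ a (1-a)` in dimension 3. -/
theorem Critical.norm_le_cap3 {ι : Type*} [Fintype ι] {z : ι → E} {A : ι → Set E}
    (hc : Critical z A) (hn : Module.finrank ℝ E = 3) (i : ι) (hne : ∀ j, j ≠ i → z j ≠ z i) :
    ‖z i‖ ≤ 4 * phi0 * ((stdGaussian E).real (A i) * (1 - (stdGaussian E).real (A i))) := by
  obtain ⟨C, h1, h2, h3, h4⟩ := hc.cone_data i hne
  rw [← h3, ← h4]
  exact norm_moment_cap3 hn h1 h2

/-- The tangent bound in dimension 5. -/
theorem Critical.norm_le_cap5 {ι : Type*} [Fintype ι] {z : ι → E} {A : ι → Set E}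
    (hc : Critical z A) (hn : Module.finrank ℝ E = 5) (i : ι) (hne : ∀ j, j ≠ i → z j ≠ z i)
    {τ : ℝ} (h0 : 0 < τ) (h1 : τ < 1) :
    ‖z i‖ ≤ phi0 * ((1 - τ ^ 2) ^ 2
      + (16 / 3) * τ * ((stdGaussian E).real (A i) - (2 - 3 * τ + τ ^ 3) / 4)) := by
  obtain ⟨C, hC1, hC2, hC3, hC4⟩ := hc.cone_data i hne
  have : Nontrivial E := nontrivial_of_eq (n := 4) hn
  rw [← hC3, ← hC4]
  exact norm_setIntegral_le' fun u hu => cap5_tangent hn hu h0 h1 hC1 hC2

/-- The tangent bound in dimension 4. -/
theorem Critical.norm_le_cap4 {ι : Type*} [Fintype ι] {z : ι → E} {A : ι → Set E}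
    (hc : Critical z A) (hn : Module.finrank ℝ E = 4) (i : ι) (hne : ∀ j, j ≠ i → z j ≠ z i)
    {τ : ℝ} (h0 : 0 < τ) (h1 : τ < 1) :
    ‖z i‖ ≤ phi0 * (1 - τ ^ 2) ^ ((3 : ℝ) / 2)
      + τ * (3 / (4 * phi0)) *
        ((stdGaussian E).real (A i) - (Real.arccos τ - τ * Real.sqrt (1 - τ ^ 2)) / Real.pi) := by
  obtain ⟨C, hC1, hC2, hC3, hC4⟩ := hc.cone_data i hne
  have : Nontrivial E := nontrivial_of_eq (n := 3) hn
  rw [← hC3, ← hC4]
  exact norm_setIntegral_le' fun u hu => cap4_tangent hn hu h0 h1 hC1 hC2

/-- Pairwise distinctness from strict obtuseness. -/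
lemma ne_of_inner_neg {ι : Type*} {z : ι → E} {i : ι} (h : ∀ j, j ≠ i → ⟪z j, z i⟫ < 0) :
    ∀ j, j ≠ i → z j ≠ z i := by
  intro j hj hz
  have := h j hj
  rw [hz, real_inner_self_eq_norm_sq] at this
  have h2 : 0 ≤ ‖z i‖ ^ 2 := by positivity
  linarith

end critical

end Crest.Agent.Propeller
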