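/-
The tangent form of the cap `J_4` in rational parametrisation:
`τ = 2m/(1+m²)`, `√(1-τ²) = (1-m²)/(1+m²)`, `arccos τ = π/2 - 2 arctan m`.
-/
import Crest.Agent.Lib.Propeller.DimRed

set_option autoImplicit false
set_option linter.unusedSectionVars false
open MeasureTheory ProbabilityTheory
open scoped RealInnerProductSpace

namespace Crest.Agent.Propeller.Tang

/-- Upper bound of the arctangent by the alternating series. -/
noncomputable def polyAt (m : ℝ) : ℝ :=
  m - m ^ 3 / 3 + m ^ 5 / 5 - m ^ 7 / 7 + m ^ 9 / 9 - m ^ 11 / 11 + m ^ 13 / 13 - m ^ 15 / 15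
    + m ^ 17 / 17 - m ^ 19 / 19 + m ^ 21 / 21

lemma arctan_le_polyAt {m : ℝ} (hm : 0 ≤ m) : Real.arctan m ≤ polyAt m := by
  set f : ℝ → ℝ := fun t => polyAt t - Real.arctan t with hf
  have hderiv : ∀ t : ℝ, HasDerivAt f (t ^ 22 / (1 + t ^ 2)) t := by
    intro t
    have pw : ∀ n : ℕ, 0 < n → HasDerivAt (fun x : ℝ => x ^ n / (n : ℝ)) (t ^ (n - 1)) t := by
      intro n hn
      have h := ((hasDerivAt_id' t).fun_pow n).div_const (n : ℝ)
      have hn' : (n : ℝ) ≠ 0 := by exact_mod_cast hn.ne'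
      exact h.congr_deriv (by field_simp)
    have h3 : HasDerivAt (fun x : ℝ => x ^ 3 / 3) (t ^ 2) t := by simpa using pw 3 (by norm_num)
    have h5 : HasDerivAt (fun x : ℝ => x ^ 5 / 5) (t ^ 4) t := by simpa using pw 5 (by norm_num)
    have h7 : HasDerivAt (fun x : ℝ => x ^ 7 / 7) (t ^ 6) t := by simpa using pw 7 (by norm_num)
    have h9 : HasDerivAt (fun x : ℝ => x ^ 9 / 9) (t ^ 8) t := by simpa using pw 9 (by norm_num)
    have h11 : HasDerivAt (fun x : ℝ => x ^ 11 / 11) (t ^ 10) t := by simpa using pw 11 (by norm_num)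
    have h13 : HasDerivAt (fun x : ℝ => x ^ 13 / 13) (t ^ 12) t := by simpa using pw 13 (by norm_num)
    have h15 : HasDerivAt (fun x : ℝ => x ^ 15 / 15) (t ^ 14) t := by simpa using pw 15 (by norm_num)
    have h17 : HasDerivAt (fun x : ℝ => x ^ 17 / 17) (t ^ 16) t := by simpa using pw 17 (by norm_num)
    have h19 : HasDerivAt (fun x : ℝ => x ^ 19 / 19) (t ^ 18) t := by simpa using pw 19 (by norm_num)
    have h21 : HasDerivAt (fun x : ℝ => x ^ 21 / 21) (t ^ 20) t := by simpa using pw 21 (by norm_num)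
    have h1 : HasDerivAt polyAt (1 - t ^ 2 + t ^ 4 - t ^ 6 + t ^ 8 - t ^ 10 + t ^ 12 - t ^ 14
        + t ^ 16 - t ^ 18 + t ^ 20) t :=
      (((((((((((hasDerivAt_id' t).fun_sub h3).fun_add h5).fun_sub h7).fun_add h9).fun_sub h11).fun_add
        h13).fun_sub h15).fun_add h17).fun_sub h19).fun_add h21)
    have h2 := h1.fun_sub (Real.hasDerivAt_arctan t)
    have hne : (1 + t ^ 2) ≠ 0 := by positivity
    exact h2.congr_deriv (by field_simp; ring)
  have hmono : Monotone f := by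
    refine monotone_of_deriv_nonneg (fun t => (hderiv t).differentiableAt) fun t => ?_
    rw [(hderiv t).deriv]
    positivity
  have h0 : f 0 = 0 := by
    simp [hf, polyAt]
  have := hmono hm
  rw [h0] at this
  simp only [hf] at this
  linarith

/-- The parameter `τ`. -/
noncomputable def tauR (m : ℝ) : ℝ := 2 * m / (1 + m ^ 2)

/-- The parameter `ρ = √(1 - τ²)`. -/
noncomputable def rhoR (m : ℝ) : ℝ := (1 - m ^ 2) / (1 + m ^ 2)

lemma one_sub_tau_sq (m : ℝ) : 1 - tauR m ^ 2 = rhoR m ^ 2 := by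
  unfold tauR rhoR
  have : (1 + m ^ 2) ≠ 0 := by positivity
  field_simp
  ring

lemma rhoR_pos {m : ℝ} (h0 : 0 < m) (h1 : m < 1) : 0 < rhoR m := by
  unfold rhoR
  apply div_pos _ (by positivity)
  nlinarith

lemma tauR_pos {m : ℝ} (h0 : 0 < m) : 0 < tauR m := by
  unfold tauR
  positivity

lemma tauR_lt_one {m : ℝ} (h0 : 0 < m) (h1 : m < 1) : tauR m < 1 := by
  unfold tauR
  rw [div_lt_one (by positivity)]
  nlinarith [sq_pos_of_pos (sub_pos.2 h1)]

lemma arcsin_tauR {m : ℝ} (h0 : 0 < m) (h1 : m < 1) : Real.arcsin (tauR m) = 2 * Real.arctan m := by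
  apply Real.arcsin_eq_of_sin_eq
  · rw [Real.sin_two_mul, Real.sin_arctan, Real.cos_arctan]
    unfold tauR
    have h2 : (0 : ℝ) < 1 + m ^ 2 := by positivity
    have h3 : Real.sqrt (1 + m ^ 2) ^ 2 = 1 + m ^ 2 := Real.sq_sqrt h2.le
    have h4 : Real.sqrt (1 + m ^ 2) ≠ 0 := (Real.sqrt_pos.2 h2).ne'
    field_simp
    rw [h3]
  · have h2 : Real.arctan m ≤ Real.pi / 4 := by
      rw [← Real.arctan_one]
      exact Real.arctan_mono h1.le
    have h3 : 0 ≤ Real.arctan m := by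
      rw [← Real.arctan_zero]
      exact Real.arctan_mono h0.le
    have := Real.pi_pos
    constructor <;> linarith

lemma arccos_tauR {m : ℝ} (h0 : 0 < m) (h1 : m < 1) :
    Real.arccos (tauR m) = Real.pi / 2 - 2 * Real.arctan m := by
  rw [Real.arccos, arcsin_tauR h0 h1]

universe u

variable {E : Type u} [NormedAddCommGroup E] [InnerProductSpace ℝ E] [FiniteDimensional ℝ E]
  [MeasurableSpace E] [BorelSpace E]

/-- The tangent bound in the rational parametrisation and the scale `σ̂ = √(2π) ‖z‖`. -/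
theorem Critical_tangent4 {ι : Type*} [Fintype ι] {z : ι → E} {A : ι → Set E}
    (hc : Critical z A) (hn : Module.finrank ℝ E = 4) (i : ι) (hne : ∀ j, j ≠ i → z j ≠ z i)
    {m : ℝ} (h0 : 0 < m) (h1 : m < 1) :
    Real.sqrt (2 * Real.pi) * ‖z i‖ ≤ rhoR m ^ 3
      - 3 / 2 * tauR m * (Real.pi / 2 - 2 * Real.arctan m - tauR m * rhoR m)
      + 3 / 2 * Real.pi * tauR m * (stdGaussian E).real (A i) := by
  have hpi := Real.pi_pos
  have hτ0 := tauR_pos h0
  have hτ1 := tauR_lt_one h0 h1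
  have hρ := rhoR_pos h0 h1
  have hcap := hc.norm_le_cap4 hn i hne hτ0 hτ1
  set a := (stdGaussian E).real (A i) with ha
  have hs : Real.sqrt (1 - tauR m ^ 2) = rhoR m := by
    rw [one_sub_tau_sq, Real.sqrt_sq hρ.le]
  have hp : (1 - tauR m ^ 2) ^ ((3 : ℝ) / 2) = rhoR m ^ 3 := by
    rw [one_sub_tau_sq, ← Real.rpow_natCast (rhoR m) 2, ← Real.rpow_mul hρ.le,
      ← Real.rpow_natCast (rhoR m) 3]
    norm_num
  rw [hs, hp, arccos_tauR h0 h1] at hcap
  set S := Real.sqrt (2 * Real.pi) with hS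
  have hSpos : 0 < S := Real.sqrt_pos.2 (by positivity)
  have hSsq : S ^ 2 = 2 * Real.pi := Real.sq_sqrt (by positivity)
  have hphi : phi0 = S⁻¹ := rfl
  have h2 := mul_le_mul_of_nonneg_left hcap hSpos.le
  refine h2.trans (le_of_eq ?_)
  rw [hphi]
  field_simp
  rw [hSsq]
  ring

end Crest.Agent.Propeller.Tang
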