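/-
The tangent table of the level 5 step is valid for the cone cap `J_4`.
-/
import Crest.Agent.Lib.Propeller.Step5Data
import Crest.Agent.Lib.Propeller.TangCap

set_option autoImplicit false

namespace Crest.Agent.Propeller.Tang

/-- One tangent, with rational bounds of `π` and the arctangent. -/
lemma ent_bound {σ a : ℝ} (ha0 : 0 ≤ a)
    (h : ∀ m : ℝ, 0 < m → m < 1 → σ ≤ rhoR m ^ 3
      - 3 / 2 * tauR m * (Real.pi / 2 - 2 * Real.arctan m - tauR m * rhoR m)
      + 3 / 2 * Real.pi * tauR m * a)
    (m : ℝ) (c d : ℕ) (hm0 : 0 < m) (hm1 : m < 1)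
    (hd : 3 / 2 * (3141593 / 1000000) * tauR m ≤ cc d)
    (hc : rhoR m ^ 3 - 3 / 2 * tauR m * (3141592 / 2000000 - 2 * polyAt m - tauR m * rhoR m) ≤ cc c) :
    σ ≤ cc c + cc d * a := by
  have h1 := h m hm0 hm1
  have hτ := tauR_pos hm0
  have hρ := rhoR_pos hm0 hm1
  have hpi1 := Real.pi_gt_d6
  have hpi2 := Real.pi_lt_d6
  have hat := arctan_le_polyAt hm0.le
  have h2 : 3 / 2 * Real.pi * tauR m * a ≤ cc d * a := by
    refine mul_le_mul_of_nonneg_right (hd.trans' ?_) ha0
    have : Real.pi * tauR m ≤ 3.141593 * tauR m := mul_le_mul_of_nonneg_right hpi2.le hτ.le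
    norm_num at this ⊢
    linarith
  have h3 : - (3 / 2 * tauR m * (Real.pi / 2 - 2 * Real.arctan m - tauR m * rhoR m))
      ≤ - (3 / 2 * tauR m * (3141592 / 2000000 - 2 * polyAt m - tauR m * rhoR m)) := by
    apply neg_le_neg
    apply mul_le_mul_of_nonneg_left _ (by positivity)
    norm_num at hpi1
    linarith
  linarith

/-- All the tangents of the table. -/
theorem tab5_enc {σ a : ℝ} (ha0 : 0 ≤ a)
    (h : ∀ m : ℝ, 0 < m → m < 1 → σ ≤ rhoR m ^ 3
      - 3 / 2 * tauR m * (Real.pi / 2 - 2 * Real.arctan m - tauR m * rhoR m)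
      + 3 / 2 * Real.pi * tauR m * a) :
    ∀ e ∈ tab5, σ ≤ cc e.c + cc e.d * a := by
  intro e he
  simp only [tab5, List.mem_cons, List.not_mem_nil, or_false] at he
  rcases he with rfl | rfl | rfl | rfl | rfl | rfl | rfl | rfl | rfl | rfl | rfl | rfl | rfl | rfl | rfl | rfl | rfl | rfl | rfl | rfl | rfl | rfl | rfl | rfl | rfl | rfl | rfl | rfl | rfl | rfl | rfl | rfl | rfl | rfl | rfl | rfl | rfl | rfl | rfl | rfl | rfl | rfl | rfl | rfl | rfl | rfl | rfl | rfl | rfl | rfl | rfl | rfl | rfl | rfl | rfl | rfl | rfl | rfl | rfl | rfl | rfl | rfl | rfl | rfl | rfl | rfl | rfl | rfl | rfl | rfl | rfl | rfl | rfl | rfl | rfl | rfl | rfl | rfl | rfl | rfl | rfl | rfl | rfl | rfl | rfl | rfl | rfl | rfl | rfl | rfl | rfl | rfl | rfl | rfl | rfl | rfl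
  · exact ent_bound ha0 h (87492 / 100000) 35227 46706303 (by norm_num) (by norm_num) (by norm_num [tauR, rhoR, cc]) (by norm_num [tauR, rhoR, polyAt, cc])
  · exact ent_bound ha0 h (81547 / 100000) 7957 46160148 (by norm_num) (by norm_num) (by norm_num [tauR, rhoR, cc]) (by norm_num [tauR, rhoR, polyAt, cc])
  · exact ent_bound ha0 h (76744 / 100000) 4271 45519922 (by norm_num) (by norm_num) (by norm_num [tauR, rhoR, cc]) (by norm_num [tauR, rhoR, polyAt, cc])
  · exact ent_bound ha0 h (72910 / 100000) 6245 44865929 (by norm_num) (by norm_num) (by norm_num [tauR, rhoR, cc]) (by norm_num [tauR, rhoR, polyAt, cc])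
  · exact ent_bound ha0 h (70079 / 100000) 10171 44294558 (by norm_num) (by norm_num) (by norm_num [tauR, rhoR, cc]) (by norm_num [tauR, rhoR, polyAt, cc])
  · exact ent_bound ha0 h (66787 / 100000) 18119 43529102 (by norm_num) (by norm_num) (by norm_num [tauR, rhoR, cc]) (by norm_num [tauR, rhoR, polyAt, cc])
  · exact ent_bound ha0 h (63383 / 100000) 31713 42616361 (by norm_num) (by norm_num) (by norm_num [tauR, rhoR, cc]) (by norm_num [tauR, rhoR, polyAt, cc])
  · exact ent_bound ha0 h (60634 / 100000) 48311 41784288 (by norm_num) (by norm_num) (by norm_num [tauR, rhoR, cc]) (by norm_num [tauR, rhoR, polyAt, cc])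
  · exact ent_bound ha0 h (58304 / 100000) 67653 41009606 (by norm_num) (by norm_num) (by norm_num [tauR, rhoR, cc]) (by norm_num [tauR, rhoR, polyAt, cc])
  · exact ent_bound ha0 h (56266 / 100000) 89583 40278000 (by norm_num) (by norm_num) (by norm_num [tauR, rhoR, cc]) (by norm_num [tauR, rhoR, polyAt, cc])
  · exact ent_bound ha0 h (54446 / 100000) 113967 39580916 (by norm_num) (by norm_num) (by norm_num [tauR, rhoR, cc]) (by norm_num [tauR, rhoR, polyAt, cc])
  · exact ent_bound ha0 h (52796 / 100000) 140692 38912520 (by norm_num) (by norm_num) (by norm_num [tauR, rhoR, cc]) (by norm_num [tauR, rhoR, polyAt, cc])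
  · exact ent_bound ha0 h (51280 / 100000) 169715 38267341 (by norm_num) (by norm_num) (by norm_num [tauR, rhoR, cc]) (by norm_num [tauR, rhoR, polyAt, cc])
  · exact ent_bound ha0 h (49876 / 100000) 200929 37642918 (by norm_num) (by norm_num) (by norm_num [tauR, rhoR, cc]) (by norm_num [tauR, rhoR, polyAt, cc])
  · exact ent_bound ha0 h (48565 / 100000) 234290 37036226 (by norm_num) (by norm_num) (by norm_num [tauR, rhoR, cc]) (by norm_num [tauR, rhoR, polyAt, cc])
  · exact ent_bound ha0 h (47333 / 100000) 269751 36445100 (by norm_num) (by norm_num) (by norm_num [tauR, rhoR, cc]) (by norm_num [tauR, rhoR, polyAt, cc])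
  · exact ent_bound ha0 h (46169 / 100000) 307273 35867772 (by norm_num) (by norm_num) (by norm_num [tauR, rhoR, cc]) (by norm_num [tauR, rhoR, polyAt, cc])
  · exact ent_bound ha0 h (45065 / 100000) 346789 35303202 (by norm_num) (by norm_num) (by norm_num [tauR, rhoR, cc]) (by norm_num [tauR, rhoR, polyAt, cc])
  · exact ent_bound ha0 h (44014 / 100000) 388253 34750286 (by norm_num) (by norm_num) (by norm_num [tauR, rhoR, cc]) (by norm_num [tauR, rhoR, polyAt, cc])
  · exact ent_bound ha0 h (43009 / 100000) 431676 34207431 (by norm_num) (by norm_num) (by norm_num [tauR, rhoR, cc]) (by norm_num [tauR, rhoR, polyAt, cc])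
  · exact ent_bound ha0 h (42045 / 100000) 477038 33673707 (by norm_num) (by norm_num) (by norm_num [tauR, rhoR, cc]) (by norm_num [tauR, rhoR, polyAt, cc])
  · exact ent_bound ha0 h (41119 / 100000) 524257 33149007 (by norm_num) (by norm_num) (by norm_num [tauR, rhoR, cc]) (by norm_num [tauR, rhoR, polyAt, cc])
  · exact ent_bound ha0 h (40226 / 100000) 573383 32631855 (by norm_num) (by norm_num) (by norm_num [tauR, rhoR, cc]) (by norm_num [tauR, rhoR, polyAt, cc])
  · exact ent_bound ha0 h (39365 / 100000) 624278 32122872 (by norm_num) (by norm_num) (by norm_num [tauR, rhoR, cc]) (by norm_num [tauR, rhoR, polyAt, cc])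
  · exact ent_bound ha0 h (38531 / 100000) 677059 31620167 (by norm_num) (by norm_num) (by norm_num [tauR, rhoR, cc]) (by norm_num [tauR, rhoR, polyAt, cc])
  · exact ent_bound ha0 h (37723 / 100000) 731628 31124063 (by norm_num) (by norm_num) (by norm_num [tauR, rhoR, cc]) (by norm_num [tauR, rhoR, polyAt, cc])
  · exact ent_bound ha0 h (36939 / 100000) 787961 30634188 (by norm_num) (by norm_num) (by norm_num [tauR, rhoR, cc]) (by norm_num [tauR, rhoR, polyAt, cc])
  · exact ent_bound ha0 h (36177 / 100000) 846054 30150058 (by norm_num) (by norm_num) (by norm_num [tauR, rhoR, cc]) (by norm_num [tauR, rhoR, polyAt, cc])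
  · exact ent_bound ha0 h (35435 / 100000) 905922 29671087 (by norm_num) (by norm_num) (by norm_num [tauR, rhoR, cc]) (by norm_num [tauR, rhoR, polyAt, cc])
  · exact ent_bound ha0 h (34712 / 100000) 967518 29197250 (by norm_num) (by norm_num) (by norm_num [tauR, rhoR, cc]) (by norm_num [tauR, rhoR, polyAt, cc])
  · exact ent_bound ha0 h (34006 / 100000) 1030891 28727798 (by norm_num) (by norm_num) (by norm_num [tauR, rhoR, cc]) (by norm_num [tauR, rhoR, polyAt, cc])
  · exact ent_bound ha0 h (33317 / 100000) 1095925 28263252 (by norm_num) (by norm_num) (by norm_num [tauR, rhoR, cc]) (by norm_num [tauR, rhoR, polyAt, cc])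
  · exact ent_bound ha0 h (32643 / 100000) 1162697 27802742 (by norm_num) (by norm_num) (by norm_num [tauR, rhoR, cc]) (by norm_num [tauR, rhoR, polyAt, cc])
  · exact ent_bound ha0 h (31983 / 100000) 1231205 27346014 (by norm_num) (by norm_num) (by norm_num [tauR, rhoR, cc]) (by norm_num [tauR, rhoR, polyAt, cc])
  · exact ent_bound ha0 h (31337 / 100000) 1301348 26893471 (by norm_num) (by norm_num) (by norm_num [tauR, rhoR, cc]) (by norm_num [tauR, rhoR, polyAt, cc])
  · exact ent_bound ha0 h (30704 / 100000) 1373135 26444797 (by norm_num) (by norm_num) (by norm_num [tauR, rhoR, cc]) (by norm_num [tauR, rhoR, polyAt, cc])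
  · exact ent_bound ha0 h (30083 / 100000) 1446585 25999631 (by norm_num) (by norm_num) (by norm_num [tauR, rhoR, cc]) (by norm_num [tauR, rhoR, polyAt, cc])
  · exact ent_bound ha0 h (29472 / 100000) 1521857 25556845 (by norm_num) (by norm_num) (by norm_num [tauR, rhoR, cc]) (by norm_num [tauR, rhoR, polyAt, cc])
  · exact ent_bound ha0 h (28873 / 100000) 1598622 25118187 (by norm_num) (by norm_num) (by norm_num [tauR, rhoR, cc]) (by norm_num [tauR, rhoR, polyAt, cc])
  · exact ent_bound ha0 h (28284 / 100000) 1677047 24682485 (by norm_num) (by norm_num) (by norm_num [tauR, rhoR, cc]) (by norm_num [tauR, rhoR, polyAt, cc])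
  · exact ent_bound ha0 h (27704 / 100000) 1757193 24249250 (by norm_num) (by norm_num) (by norm_num [tauR, rhoR, cc]) (by norm_num [tauR, rhoR, polyAt, cc])
  · exact ent_bound ha0 h (27133 / 100000) 1838993 23818720 (by norm_num) (by norm_num) (by norm_num [tauR, rhoR, cc]) (by norm_num [tauR, rhoR, polyAt, cc])
  · exact ent_bound ha0 h (26571 / 100000) 1922374 23391125 (by norm_num) (by norm_num) (by norm_num [tauR, rhoR, cc]) (by norm_num [tauR, rhoR, polyAt, cc])
  · exact ent_bound ha0 h (26017 / 100000) 2007415 22965921 (by norm_num) (by norm_num) (by norm_num [tauR, rhoR, cc]) (by norm_num [tauR, rhoR, polyAt, cc])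
  · exact ent_bound ha0 h (25471 / 100000) 2094051 22543309 (by norm_num) (by norm_num) (by norm_num [tauR, rhoR, cc]) (by norm_num [tauR, rhoR, polyAt, cc])
  · exact ent_bound ha0 h (24933 / 100000) 2182213 22123486 (by norm_num) (by norm_num) (by norm_num [tauR, rhoR, cc]) (by norm_num [tauR, rhoR, polyAt, cc])
  · exact ent_bound ha0 h (24401 / 100000) 2272172 21705065 (by norm_num) (by norm_num) (by norm_num [tauR, rhoR, cc]) (by norm_num [tauR, rhoR, polyAt, cc])
  · exact ent_bound ha0 h (23876 / 100000) 2363707 21288995 (by norm_num) (by norm_num) (by norm_num [tauR, rhoR, cc]) (by norm_num [tauR, rhoR, polyAt, cc])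
  · exact ent_bound ha0 h (23358 / 100000) 2456756 20875443 (by norm_num) (by norm_num) (by norm_num [tauR, rhoR, cc]) (by norm_num [tauR, rhoR, polyAt, cc])
  · exact ent_bound ha0 h (22846 / 100000) 2551441 20463765 (by norm_num) (by norm_num) (by norm_num [tauR, rhoR, cc]) (by norm_num [tauR, rhoR, polyAt, cc])
  · exact ent_bound ha0 h (22339 / 100000) 2647901 20053293 (by norm_num) (by norm_num) (by norm_num [tauR, rhoR, cc]) (by norm_num [tauR, rhoR, polyAt, cc])
  · exact ent_bound ha0 h (21839 / 100000) 2745703 19645786 (by norm_num) (by norm_num) (by norm_num [tauR, rhoR, cc]) (by norm_num [tauR, rhoR, polyAt, cc])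
  · exact ent_bound ha0 h (21343 / 100000) 2845382 19238928 (by norm_num) (by norm_num) (by norm_num [tauR, rhoR, cc]) (by norm_num [tauR, rhoR, polyAt, cc])
  · exact ent_bound ha0 h (20853 / 100000) 2946495 18834479 (by norm_num) (by norm_num) (by norm_num [tauR, rhoR, cc]) (by norm_num [tauR, rhoR, polyAt, cc])
  · exact ent_bound ha0 h (20368 / 100000) 3049194 18431740 (by norm_num) (by norm_num) (by norm_num [tauR, rhoR, cc]) (by norm_num [tauR, rhoR, polyAt, cc])
  · exact ent_bound ha0 h (19887 / 100000) 3153650 18029986 (by norm_num) (by norm_num) (by norm_num [tauR, rhoR, cc]) (by norm_num [tauR, rhoR, polyAt, cc])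
  · exact ent_bound ha0 h (19411 / 100000) 3259605 17630158 (by norm_num) (by norm_num) (by norm_num [tauR, rhoR, cc]) (by norm_num [tauR, rhoR, polyAt, cc])
  · exact ent_bound ha0 h (18940 / 100000) 3367009 17232366 (by norm_num) (by norm_num) (by norm_num [tauR, rhoR, cc]) (by norm_num [tauR, rhoR, polyAt, cc])
  · exact ent_bound ha0 h (18472 / 100000) 3476279 16835017 (by norm_num) (by norm_num) (by norm_num [tauR, rhoR, cc]) (by norm_num [tauR, rhoR, polyAt, cc])
  · exact ent_bound ha0 h (18009 / 100000) 3586911 16439899 (by norm_num) (by norm_num) (by norm_num [tauR, rhoR, cc]) (by norm_num [tauR, rhoR, polyAt, cc])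
  · exact ent_bound ha0 h (17549 / 100000) 3699343 16045399 (by norm_num) (by norm_num) (by norm_num [tauR, rhoR, cc]) (by norm_num [tauR, rhoR, polyAt, cc])
  · exact ent_bound ha0 h (17093 / 100000) 3813295 15652456 (by norm_num) (by norm_num) (by norm_num [tauR, rhoR, cc]) (by norm_num [tauR, rhoR, polyAt, cc])
  · exact ent_bound ha0 h (16640 / 100000) 3928984 15260291 (by norm_num) (by norm_num) (by norm_num [tauR, rhoR, cc]) (by norm_num [tauR, rhoR, polyAt, cc])
  · exact ent_bound ha0 h (16191 / 100000) 4046116 14869849 (by norm_num) (by norm_num) (by norm_num [tauR, rhoR, cc]) (by norm_num [tauR, rhoR, polyAt, cc])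
  · exact ent_bound ha0 h (15745 / 100000) 4164917 14480340 (by norm_num) (by norm_num) (by norm_num [tauR, rhoR, cc]) (by norm_num [tauR, rhoR, polyAt, cc])
  · exact ent_bound ha0 h (15302 / 100000) 4285354 14091835 (by norm_num) (by norm_num) (by norm_num [tauR, rhoR, cc]) (by norm_num [tauR, rhoR, polyAt, cc])
  · exact ent_bound ha0 h (14862 / 100000) 4407395 13704405 (by norm_num) (by norm_num) (by norm_num [tauR, rhoR, cc]) (by norm_num [tauR, rhoR, polyAt, cc])
  · exact ent_bound ha0 h (14425 / 100000) 4531008 13318120 (by norm_num) (by norm_num) (by norm_num [tauR, rhoR, cc]) (by norm_num [tauR, rhoR, polyAt, cc])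
  · exact ent_bound ha0 h (13991 / 100000) 4656157 12933047 (by norm_num) (by norm_num) (by norm_num [tauR, rhoR, cc]) (by norm_num [tauR, rhoR, polyAt, cc])
  · exact ent_bound ha0 h (13559 / 100000) 4783103 12548361 (by norm_num) (by norm_num) (by norm_num [tauR, rhoR, cc]) (by norm_num [tauR, rhoR, polyAt, cc])
  · exact ent_bound ha0 h (13130 / 100000) 4911525 12165014 (by norm_num) (by norm_num) (by norm_num [tauR, rhoR, cc]) (by norm_num [tauR, rhoR, polyAt, cc])
  · exact ent_bound ha0 h (12703 / 100000) 5041691 11782173 (by norm_num) (by norm_num) (by norm_num [tauR, rhoR, cc]) (by norm_num [tauR, rhoR, polyAt, cc])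
  · exact ent_bound ha0 h (12279 / 100000) 5173267 11400793 (by norm_num) (by norm_num) (by norm_num [tauR, rhoR, cc]) (by norm_num [tauR, rhoR, polyAt, cc])
  · exact ent_bound ha0 h (11856 / 100000) 5306849 11019128 (by norm_num) (by norm_num) (by norm_num [tauR, rhoR, cc]) (by norm_num [tauR, rhoR, polyAt, cc])
  · exact ent_bound ha0 h (11436 / 100000) 5441783 10639038 (by norm_num) (by norm_num) (by norm_num [tauR, rhoR, cc]) (by norm_num [tauR, rhoR, polyAt, cc])
  · exact ent_bound ha0 h (11018 / 100000) 5578354 10259673 (by norm_num) (by norm_num) (by norm_num [tauR, rhoR, cc]) (by norm_num [tauR, rhoR, polyAt, cc])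
  · exact ent_bound ha0 h (10602 / 100000) 5716538 9881085 (by norm_num) (by norm_num) (by norm_num [tauR, rhoR, cc]) (by norm_num [tauR, rhoR, polyAt, cc])
  · exact ent_bound ha0 h (10187 / 100000) 5856646 9502412 (by norm_num) (by norm_num) (by norm_num [tauR, rhoR, cc]) (by norm_num [tauR, rhoR, polyAt, cc])
  · exact ent_bound ha0 h (9774 / 100000) 5998323 9124611 (by norm_num) (by norm_num) (by norm_num [tauR, rhoR, cc]) (by norm_num [tauR, rhoR, polyAt, cc])
  · exact ent_bound ha0 h (9363 / 100000) 6141538 8747733 (by norm_num) (by norm_num) (by norm_num [tauR, rhoR, cc]) (by norm_num [tauR, rhoR, polyAt, cc])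
  · exact ent_bound ha0 h (8954 / 100000) 6286262 8371827 (by norm_num) (by norm_num) (by norm_num [tauR, rhoR, cc]) (by norm_num [tauR, rhoR, polyAt, cc])
  · exact ent_bound ha0 h (8546 / 100000) 6432827 7996018 (by norm_num) (by norm_num) (by norm_num [tauR, rhoR, cc]) (by norm_num [tauR, rhoR, polyAt, cc])
  · exact ent_bound ha0 h (8139 / 100000) 6581217 7620348 (by norm_num) (by norm_num) (by norm_num [tauR, rhoR, cc]) (by norm_num [tauR, rhoR, polyAt, cc])
  · exact ent_bound ha0 h (7734 / 100000) 6731043 7245784 (by norm_num) (by norm_num) (by norm_num [tauR, rhoR, cc]) (by norm_num [tauR, rhoR, polyAt, cc])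
  · exact ent_bound ha0 h (7330 / 100000) 6882650 6871444 (by norm_num) (by norm_num) (by norm_num [tauR, rhoR, cc]) (by norm_num [tauR, rhoR, polyAt, cc])
  · exact ent_bound ha0 h (6927 / 100000) 7036022 6497368 (by norm_num) (by norm_num) (by norm_num [tauR, rhoR, cc]) (by norm_num [tauR, rhoR, polyAt, cc])
  · exact ent_bound ha0 h (6526 / 100000) 7190750 6124528 (by norm_num) (by norm_num) (by norm_num [tauR, rhoR, cc]) (by norm_num [tauR, rhoR, polyAt, cc])
  · exact ent_bound ha0 h (6125 / 100000) 7347587 5751102 (by norm_num) (by norm_num) (by norm_num [tauR, rhoR, cc]) (by norm_num [tauR, rhoR, polyAt, cc])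
  · exact ent_bound ha0 h (5725 / 100000) 7506130 5378060 (by norm_num) (by norm_num) (by norm_num [tauR, rhoR, cc]) (by norm_num [tauR, rhoR, polyAt, cc])
  · exact ent_bound ha0 h (5327 / 100000) 7665955 5006374 (by norm_num) (by norm_num) (by norm_num [tauR, rhoR, cc]) (by norm_num [tauR, rhoR, polyAt, cc])
  · exact ent_bound ha0 h (4929 / 100000) 7827841 4634215 (by norm_num) (by norm_num) (by norm_num [tauR, rhoR, cc]) (by norm_num [tauR, rhoR, polyAt, cc])
  · exact ent_bound ha0 h (4531 / 100000) 7991784 4261619 (by norm_num) (by norm_num) (by norm_num [tauR, rhoR, cc]) (by norm_num [tauR, rhoR, polyAt, cc])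
  · exact ent_bound ha0 h (4135 / 100000) 8156935 3890495 (by norm_num) (by norm_num) (by norm_num [tauR, rhoR, cc]) (by norm_num [tauR, rhoR, polyAt, cc])
  · exact ent_bound ha0 h (3147 / 100000) 8577764 2963044 (by norm_num) (by norm_num) (by norm_num [tauR, rhoR, cc]) (by norm_num [tauR, rhoR, polyAt, cc])
  · exact ent_bound ha0 h (1178 / 100000) 9453282 1110085 (by norm_num) (by norm_num) (by norm_num [tauR, rhoR, cc]) (by norm_num [tauR, rhoR, polyAt, cc])
  · exact ent_bound ha0 h (1 / 100000) 9999529 943 (by norm_num) (by norm_num) (by norm_num [tauR, rhoR, cc]) (by norm_num [tauR, rhoR, polyAt, cc])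

end Crest.Agent.Propeller.Tang
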