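/-
The induction step of the Propeller bound at level `k = 5`, in dimension 4.
-/
import Crest.Agent.Lib.Propeller.Step5Cell
import Crest.Agent.Lib.Propeller.Picks

set_option autoImplicit false
set_option linter.unusedSectionVars false
open MeasureTheory ProbabilityTheory
open scoped RealInnerProductSpace

namespace Crest.Agent.Propeller

open Tang

/-- A line for the small masses. -/
def lnS5 : Ln := ⟨125, 0, 14718249⟩
/-- A line for the other masses. -/
def lnB5 : Ln := ⟨3546481, 0, 14314926⟩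

theorem lnS5_ok : lineOK tab5 lnS5 0 10000 = true := by decide +kernel
theorem lnB5_ok : lineOK tab5 lnB5 10000 100000 = true := by decide +kernel
theorem ub5_ok : ubOK tab5 100000 10000945 = true := by decide +kernel

/-- Three small masses are excluded by the budget. -/
lemma crude5 {x y u v w sx sy su sv sw : ℝ} (cx : Cell tab5 x sx) (cy : Cell tab5 y sy)
    (cu : Cell tab5 u su) (cv : Cell tab5 v sv) (cw : Cell tab5 w sw)
    (hxy : x ≤ y) (hyu : y ≤ u) (hu : u < mm 10000) (hsum : x + y + u + v + w = 1)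
    (hbud : 9 / 4 < sx ^ 2 + sy ^ 2 + su ^ 2 + sv ^ 2 + sw ^ 2) : False := by
  have small : ∀ {t σ : ℝ}, Cell tab5 t σ → t ≤ mm 10000 → σ ^ 2 ≤ lnS5.val t := by
    intro t σ ct ht
    exact lineOK_sound tab5_cov tab5_ne lnS5_ok ct (by rw [mm_zero]; exact ct.a0) ht
  have large : ∀ {t σ : ℝ}, Cell tab5 t σ → mm 10000 ≤ t → σ ^ 2 ≤ lnB5.val t := by
    intro t σ ct ht
    exact lineOK_sound tab5_cov tab5_ne lnB5_ok ct ht (by rw [mm_one]; exact ct.a1)
  have any : ∀ {t σ : ℝ}, Cell tab5 t σ → σ ^ 2 ≤ cc 10000945 := by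
    intro t σ ct
    exact ubOK_sound ct (by rw [mm_one]; exact ct.a1) ub5_ok
  have h10 : mm 10000 = 1 / 10 := by unfold mm; norm_num
  have hcc : cc 10000945 = 10000945 / 10000000 := by unfold cc; norm_num
  have e1 := small cx (by linarith)
  have e2 := small cy (by linarith)
  have e3 := small cu hu.le
  simp only [lnS5, Ln.val] at e1 e2 e3
  norm_num [cc] at e1 e2 e3
  have hx0 := cx.a0
  have hv0 := cv.a0
  have hw0 := cw.a0
  rw [h10] at hu
  rcases le_or_gt (mm 10000) v with hv | hv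
  · rcases le_or_gt (mm 10000) w with hw | hw
    · have e4 := large cv hv
      have e5 := large cw hw
      simp only [lnB5, Ln.val] at e4 e5
      norm_num [cc] at e4 e5
      rw [h10] at hv hw
      linarith
    · have e4 := any cv
      have e5 := small cw hw.le
      simp only [lnS5, Ln.val] at e5
      norm_num [cc] at e5
      rw [hcc] at e4
      rw [h10] at hw
      linarith
  · have e4 := small cv hv.le
    have e5 := any cw
    simp only [lnS5, Ln.val] at e4
    norm_num [cc] at e4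
    rw [hcc] at e5
    rw [h10] at hv
    linarith

universe u

variable {E : Type u} [NormedAddCommGroup E] [InnerProductSpace ℝ E] [FiniteDimensional ℝ E]
  [MeasurableSpace E] [BorelSpace E]

/-- The rescaled sharp pick. -/
lemma pick_scale {K1 K2 K3 Kl s2 : ℝ} (hs2 : 0 ≤ s2)
    (h : 36 * Real.pi ^ 3 * (K1 * K2 - ((K1 + K2 - K3) / 2 - Kl / 6) ^ 2) ≤ 2 * 5 ^ 4 * s2) :
    (2 * Real.pi * K1) * (2 * Real.pi * K2)
      - (((2 * Real.pi * K1) + (2 * Real.pi * K2) - (2 * Real.pi * K3)) / 2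
          - (2 * Real.pi * Kl) / 6) ^ 2 ≤ (70363 / 10000 : ℝ) * (2 * Real.pi * s2) := by
  have hpi := Real.pi_pos
  have hpi2 : (9.8696 : ℝ) < Real.pi ^ 2 := by
    have := Real.pi_gt_d6
    nlinarith
  set Y := K1 * K2 - ((K1 + K2 - K3) / 2 - Kl / 6) ^ 2 with hY
  have e : (2 * Real.pi * K1) * (2 * Real.pi * K2)
      - (((2 * Real.pi * K1) + (2 * Real.pi * K2) - (2 * Real.pi * K3)) / 2
          - (2 * Real.pi * Kl) / 6) ^ 2 = 4 * Real.pi ^ 2 * Y := by
    rw [hY]; ring
  rw [e]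
  have h9 : (0 : ℝ) < 9 * Real.pi := by positivity
  have h1 : 9 * Real.pi * (4 * Real.pi ^ 2 * Y) ≤ 9 * Real.pi * ((70363 / 10000 : ℝ) * (2 * Real.pi * s2)) := by
    have e2 : 9 * Real.pi * (4 * Real.pi ^ 2 * Y) = 36 * Real.pi ^ 3 * Y := by ring
    have e3 : 9 * Real.pi * ((70363 / 10000 : ℝ) * (2 * Real.pi * s2))
        = ((70363 / 10000 : ℝ) * 18 * Real.pi ^ 2) * s2 := by ring
    rw [e2, e3]
    refine h.trans ?_
    apply mul_le_mul_of_nonneg_right _ hs2
    norm_num at hpi2 ⊢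
    linarith
  exact le_of_mul_le_mul_left h1 h9

/-- **The step `k = 5`.** -/
theorem step5 (hn : Module.finrank ℝ E = 4) (hP : PF E 4) (z : Fin 5 → E) (A : Fin 5 → Set E)
    (hc : Critical z A) (hR : R < S z) : False := by
  classical
  have hpi := Real.pi_pos
  have hP' : PF E (5 - 1) := hP
  have hk : 2 ≤ 5 := by norm_num
  have hneg : ∀ a b : Fin 5, a ≠ b → ⟪z a, z b⟫ < 0 := fun a b hab => hc.inner_neg hR hP' hab
  have hne : ∀ i j : Fin 5, j ≠ i → z j ≠ z i := fun i =>
    ne_of_inner_neg (fun j hj => hneg j i hj)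
  set m : Fin 5 → ℝ := fun i => (stdGaussian E).real (A i) with hm
  have hm0 : ∀ i, 0 ≤ m i := fun i => measureReal_nonneg
  have hmsum : ∑ i, m i = 1 := sum_real_cells hc.part
  have hm1 : ∀ i, m i ≤ 1 := fun i => by
    have : m i ≤ ∑ i, m i := Finset.single_le_sum (fun i _ => hm0 i) (Finset.mem_univ i)
    linarith
  set σ : Fin 5 → ℝ := fun i => Real.sqrt (2 * Real.pi) * ‖z i‖ with hσ
  have hσsq : ∀ i, σ i ^ 2 = 2 * Real.pi * ‖z i‖ ^ 2 := fun i => by
    simp only [hσ]
    rw [mul_pow, Real.sq_sqrt (by positivity)]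
  -- cells
  have hcell : ∀ i, Cell tab5 (m i) (σ i) := by
    intro i
    have hcap : ∀ e ∈ tab5, σ i ≤ cc e.c + cc e.d * m i :=
      tab5_enc (hm0 i) fun t ht0 ht1 => Critical_tangent4 hc hn i (hne i) ht0 ht1
    refine ⟨by simp only [hσ]; positivity, hm0 i, hm1 i, ?_, hcap⟩
    have h1 := hcap ⟨50000, 100000, 9999529, 943⟩ (by simp [tab5])
    simp only at h1
    have h2 := hm1 i
    have h3 := hm0 i
    norm_num [cc] at h1
    linarith
  -- the two smallest cells
  obtain ⟨j, -, hj⟩ := Finset.exists_min_image Finset.univ m ⟨0, Finset.mem_univ _⟩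
  have hne1 : (Finset.univ.erase j).Nonempty := by
    have : 1 < (Finset.univ : Finset (Fin 5)).card := by simp
    obtain ⟨i, hi, hij⟩ := Finset.exists_mem_ne this j
    exact ⟨i, Finset.mem_erase.2 ⟨hij, hi⟩⟩
  obtain ⟨l, hlE, hl⟩ := Finset.exists_min_image (Finset.univ.erase j) m hne1
  have hcard : ((Finset.univ.erase j).erase l).card = 3 := by
    rw [Finset.card_erase_of_mem hlE, Finset.card_erase_of_mem (Finset.mem_univ j)]
    simp
  obtain ⟨ia, ib, ic, hab, hac, hbc, herase⟩ := Finset.card_eq_three.1 hcard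
  have haE : ia ∈ (Finset.univ.erase j).erase l := by rw [herase]; simp
  have hbE : ib ∈ (Finset.univ.erase j).erase l := by rw [herase]; simp
  have hcE : ic ∈ (Finset.univ.erase j).erase l := by rw [herase]; simp
  have hal : ia ≠ l := Finset.ne_of_mem_erase haE
  have hbl : ib ≠ l := Finset.ne_of_mem_erase hbE
  have hcl : ic ≠ l := Finset.ne_of_mem_erase hcE
  have haj : ia ≠ j := Finset.ne_of_mem_erase (Finset.mem_of_mem_erase haE)
  have hbj : ib ≠ j := Finset.ne_of_mem_erase (Finset.mem_of_mem_erase hbE)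
  have hcj : ic ≠ j := Finset.ne_of_mem_erase (Finset.mem_of_mem_erase hcE)
  have hlj : l ≠ j := Finset.ne_of_mem_erase hlE
  have herase1 : Finset.univ.erase j = {l, ia, ib, ic} := by
    rw [← Finset.insert_erase hlE, herase]
  have hsplit1 : ∀ (f : Fin 5 → ℝ),
      ∑ i ∈ Finset.univ.erase j, f i = f l + (f ia + (f ib + f ic)) := by
    intro f
    rw [herase1, Finset.sum_insert (by simp [hal.symm, hbl.symm, hcl.symm]),
      Finset.sum_insert (by simp [hab, hac]), Finset.sum_insert (by simp [hbc]),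
      Finset.sum_singleton]
  have hsplit1E : ∀ (f : Fin 5 → E),
      ∑ i ∈ Finset.univ.erase j, f i = f l + (f ia + (f ib + f ic)) := by
    intro f
    rw [herase1, Finset.sum_insert (by simp [hal.symm, hbl.symm, hcl.symm]),
      Finset.sum_insert (by simp [hab, hac]), Finset.sum_insert (by simp [hbc]),
      Finset.sum_singleton]
  have hsplit : ∀ f : Fin 5 → ℝ, ∑ i, f i = f j + (f l + (f ia + (f ib + f ic))) := by
    intro f
    rw [← Finset.add_sum_erase _ _ (Finset.mem_univ j), hsplit1]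
  have hs : 0 < ‖z j‖ := hc.norm_pos hR hP' hk j
  -- masses
  have hxy : m j ≤ m l := hj l (Finset.mem_univ _)
  have hya : m l ≤ m ia := hl ia (Finset.mem_of_mem_erase haE)
  have hyb : m l ≤ m ib := hl ib (Finset.mem_of_mem_erase hbE)
  have hyc : m l ≤ m ic := hl ic (Finset.mem_of_mem_erase hcE)
  have hsum : m j + m l + m ia + m ib + m ic = 1 := by
    have := hsplit m
    linarith
  -- the budget
  have hbud : 9 / 4 < σ j ^ 2 + σ l ^ 2 + σ ia ^ 2 + σ ib ^ 2 + σ ic ^ 2 := by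
    have h1 : S z = ‖z j‖ ^ 2 + (‖z l‖ ^ 2 + (‖z ia‖ ^ 2 + (‖z ib‖ ^ 2 + ‖z ic‖ ^ 2))) := by
      unfold S
      exact hsplit _
    have h2 : 2 * Real.pi * R = 9 / 4 := by
      unfold R
      field_simp
      norm_num
    have h3 : 2 * Real.pi * R < 2 * Real.pi * S z := mul_lt_mul_of_pos_left hR (by positivity)
    rw [h2, h1] at h3
    simp only [hσsq]
    linarith
  -- masses are not small
  have hc10 : ∀ {u v w : Fin 5}, m l ≤ m u → m j + m l + m u + m v + m w = 1 →
      9 / 4 < σ j ^ 2 + σ l ^ 2 + σ u ^ 2 + σ v ^ 2 + σ w ^ 2 → mm 10000 ≤ m u := by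
    intro u v w hu hs hb
    by_contra hcon
    push Not at hcon
    exact crude5 (hcell j) (hcell l) (hcell u) (hcell v) (hcell w) hxy hu hcon hs hb
  have ha10 := hc10 (v := ib) (w := ic) hya hsum hbud
  have hb10 := hc10 (u := ib) (v := ia) (w := ic) hyb (by linarith) (by linarith)
  have hc10' := hc10 (u := ic) (v := ia) (w := ib) hyc (by linarith) (by linarith)
  -- coefficients
  have hqsum : qc z j l + (qc z j ia + (qc z j ib + qc z j ic)) = 1 := by
    rw [← hsplit1]
    exact qc_sum hc.sum_zero j hs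
  have hKhat : ∀ i, σ i ^ 2 - qc z j i ^ 2 * σ j ^ 2 = 2 * Real.pi * Kp z j i := by
    intro i
    rw [Kp_eq j i hs, hσsq, hσsq]
    ring
  -- the pick
  have hXT : ‖vp z j ia + vp z j ib + vp z j ic‖ ^ 2 = Kp z j l := by
    have h1 : ∑ i ∈ Finset.univ.erase j, vp z j i = 0 := sum_prp_erase z j hc.sum_zero hs
    rw [hsplit1E] at h1
    have h2 : vp z j ia + vp z j ib + vp z j ic = - vp z j l := by
      rw [eq_neg_iff_add_eq_zero, ← h1]
      abel
    rw [h2, norm_neg]
    rfl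
  obtain ⟨a', b', c', hperm, -, hle⟩ := hc.triple_pick_sharp hR hP' hk j haj hbj hcj hab hac hbc
  rw [hXT] at hle
  have hs2 : 0 ≤ ‖z j‖ ^ 2 := by positivity
  have hpick : Pick (σ ia ^ 2 - qc z j ia ^ 2 * σ j ^ 2) (σ ib ^ 2 - qc z j ib ^ 2 * σ j ^ 2)
      (σ ic ^ 2 - qc z j ic ^ 2 * σ j ^ 2) (σ l ^ 2 - qc z j l ^ 2 * σ j ^ 2) (σ j ^ 2) := by
    unfold Pick
    simp only [hKhat]
    rw [hσsq j]
    have hle' : 36 * Real.pi ^ 3 * (Kp z j a' * Kp z j b'
        - ((Kp z j a' + Kp z j b' - Kp z j c') / 2 - Kp z j l / 6) ^ 2)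
        ≤ 2 * 5 ^ 4 * ‖z j‖ ^ 2 := by
      refine hle.trans (le_of_eq ?_)
      norm_num
    rcases hperm with ⟨rfl, rfl, rfl⟩ | ⟨rfl, rfl, rfl⟩ | ⟨rfl, rfl, rfl⟩
    · exact Or.inl (pick_scale hs2 hle')
    · exact Or.inr (Or.inl (pick_scale hs2 hle'))
    · exact Or.inr (Or.inr (pick_scale hs2 hle'))
  have hconf : Conf tab5 (m j) (m l) (m ia) (m ib) (m ic) (σ j) (σ l) (σ ia) (σ ib) (σ ic)
      (qc z j l) (qc z j ia) (qc z j ib) (qc z j ic) := by
    refine ⟨hcell j, hcell l, hcell ia, hcell ib, hcell ic, hxy, hya, hyb, hyc, hsum, hbud,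
      ha10, hb10, hc10', hc.qc_nonneg hR hP' j hlj, hc.qc_nonneg hR hP' j haj,
      hc.qc_nonneg hR hP' j hbj, hc.qc_nonneg hR hP' j hcj, by linarith, ?_, hpick⟩
    rw [hKhat]
    exact mul_nonneg (by positivity) (Kp_nonneg j l)
  have hx20 : m j ≤ mm 20000 := by
    have : mm 20000 = 1 / 5 := by unfold mm; norm_num
    rw [this]
    linarith [hm0 j]
  have hy25 : m l ≤ mm 25000 := by
    have : mm 25000 = 1 / 4 := by unfold mm; norm_num
    rw [this]
    linarith [hm0 j]
  exact chk_sound tab5_cov tab5_ne hconf tree5 0 20000 0 25000 tree5_ok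
    (by rw [mm_zero]; exact hm0 j) hx20 (by rw [mm_zero]; exact hm0 l) hy25

end Crest.Agent.Propeller
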