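/-
Generated data: the tangent table and the certificate tree of the level 6 step.
-/
import Crest.Agent.Lib.Propeller.K6Tree

set_option autoImplicit false

namespace Crest.Agent.Propeller.K6

/-- The tangent lines. -/
def tab6 : PT := PT.node 2048 (PT.node 1024 (PT.node 512 (PT.node 256 (PT.node 128 (PT.leaf 239 200836819 77116) (PT.leaf 227 211453743 398247)) (PT.node 384 (PT.leaf 217 221198155 1003070) (PT.leaf 209 229665070 1808016))) (PT.node 768 (PT.node 640 (PT.leaf 202 237623761 2816839) (PT.leaf 196 244897958 3957628)) (PT.node 896 (PT.leaf 190 252631577 5400127) (PT.leaf 184 260869564 7194106)))) (PT.node 1536 (PT.node 1280 (PT.node 1152 (PT.leaf 178 269662920 9395397) (PT.leaf 173 277456646 11586119)) (PT.node 1408 (PT.leaf 167 287425148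 14703656) (PT.leaf 162 296296295 17762809))) (PT.node 1792 (PT.node 1664 (PT.leaf 157 305732483 21296479) (PT.leaf 152 315789472 25363221)) (PT.node 1920 (PT.leaf 146 328767122 31040702) (PT.leaf 141 340425530 36525690))))) (PT.node 3072 (PT.node 2560 (PT.node 2304 (PT.node 2176 (PT.leaf 136 352941175 42789124) (PT.leaf 131 366412212 49931955)) (PT.node 2432 (PT.leaf 125 383999999 59829513) (PT.leaf 120 399999999 69343950))) (PT.node 2816 (PT.node 2688 (PT.leaf 114 421052630 82525639) (PT.leaf 109 440366971 95210584)) (PT.node 2944 (PT.leaf 103 466019416 112827600) (PT.leaf 97 494845359 133535234)))) (PT.node 3584 (PT.node 3328 (PT.node 3200 (PT.leaf 91 527472526 157966039) (PT.leaf 84 571428570 192267453)) (PT.node 3456 (PT.leaf 77 623376622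 234468876) (PT.leaf 69 695652172 295502603))) (PT.node 3840 (PT.node 3712 (PT.leaf 61 786885244 375395146) (PT.leaf 51 941176469 515389340)) (PT.node 3968 (PT.leaf 39 1230769229 787677158) (PT.node 4096 (PT.leaf 23 2086956520 1620602604) (PT.leaf 5 9599999999 9107323755))))))

def t0 : Cert := Cert.s3 (Cert.s4 (Cert.s5 Cert.a (Cert.s6 Cert.a (Cert.s1 (Cert.L 64) (Cert.s2 (Cert.s3 (Cert.L 64) (Cert.s5 (Cert.s1 (Cert.L 64) (Cert.s2 (Cert.L 64) Cert.a)) (Cert.s6 (Cert.s1 (Cert.L 64) (Cert.s2 (Cert.L 64) Cert.a)) (Cert.s1 (Cert.L 64) (Cert.s2 (Cert.L 64) (Cert.s3 (Cert.L 64) (Cert.s5 (Cert.s1 (Cert.s2 (Cert.L 64) Cert.a) (Cert.s2 (Cert.s3 Cert.a Cert.a) Cert.a)) (Cert.s6 (Cert.s1 (Cert.s2 (Cert.L 64) Cert.a) (Cert.s2 (Cert.s3 Cert.a Cert.a) Cert.a))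 (Cert.s1 (Cert.s2 (Cert.L 64) (Cert.s3 (Cert.L 64) (Cert.s5 Cert.c (Cert.s6 Cert.c Cert.c)))) (Cert.s2 (Cert.s3 (Cert.L 64) (Cert.s5 Cert.c (Cert.L 108))) (Cert.s3 (Cert.L 116) (Cert.s5 Cert.c (Cert.s6 Cert.c Cert.c))))))))))))) (Cert.s3 (Cert.s5 Cert.a (Cert.s6 Cert.a (Cert.L 116))) (Cert.s5 Cert.a (Cert.s6 Cert.a (Cert.s1 (Cert.s3 (Cert.L 64) (Cert.s5 Cert.a (Cert.s6 Cert.a (Cert.s1 (Cert.L 64) (Cert.s2 (Cert.s3 (Cert.L 64) (Cert.s5 Cert.a Cert.c)) (Cert.s3 (Cert.s5 Cert.a Cert.c) (Cert.s5 Cert.a Cert.c))))))) (Cert.s2 (Cert.s3 (Cert.s5 Cert.a (Cert.s6 Cert.a (Cert.s1 (Cert.s2 (Cert.L 64) (Cert.s3 (Cert.L 64) (Cert.s5 Cert.c Cert.c))) (Cert.s2 (Cert.L 92) (Cert.s3 (Cert.L 92) (Cert.s5 Cert.c Cert.c)))))) (Cert.s5 Cert.a (Cert.s6 Cert.a (Cert.s1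 (Cert.s2 (Cert.s3 (Cert.s5 Cert.c Cert.c) (Cert.s5 Cert.a Cert.c)) (Cert.s3 (Cert.s5 Cert.a Cert.c) (Cert.s5 Cert.a Cert.c))) (Cert.s2 (Cert.s3 (Cert.s5 Cert.c Cert.c) (Cert.s5 Cert.a Cert.c)) (Cert.s3 (Cert.s5 Cert.a Cert.c) (Cert.s5 Cert.a Cert.c))))))) (Cert.s3 (Cert.s5 Cert.a (Cert.s6 Cert.a (Cert.s1 (Cert.s3 (Cert.L 92) (Cert.s5 Cert.a Cert.c)) (Cert.L 152)))) (Cert.s5 Cert.a (Cert.s6 Cert.a (Cert.s1 (Cert.s3 (Cert.s5 Cert.a Cert.c) Cert.c) (Cert.L 184)))))))))))))) (Cert.s5 Cert.a (Cert.s6 Cert.a (Cert.s1 (Cert.L 64) (Cert.s2 (Cert.s3 (Cert.L 64) (Cert.s4 (Cert.s5 (Cert.s1 (Cert.L 64) (Cert.s2 (Cert.L 64) Cert.a)) (Cert.s6 (Cert.s1 (Cert.L 64) (Cert.s2 (Cert.L 64) Cert.a)) (Cert.s1 (Cert.L 64) (Cert.s2 (Cert.L 64) (Cert.s3 (Cert.L 64) (Cert.s4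 (Cert.s5 (Cert.s1 (Cert.s2 (Cert.L 64) Cert.a) (Cert.s2 (Cert.s3 Cert.a Cert.a) Cert.a)) (Cert.s6 (Cert.s1 (Cert.s2 (Cert.L 64) Cert.a) (Cert.s2 (Cert.s3 Cert.a Cert.a) Cert.a)) (Cert.s1 (Cert.s2 (Cert.L 64) (Cert.s3 (Cert.L 64) (Cert.s4 (Cert.s5 Cert.c (Cert.s6 Cert.c Cert.c)) (Cert.s5 Cert.c (Cert.s6 Cert.c Cert.c))))) (Cert.s2 (Cert.L 108) (Cert.s3 (Cert.L 108) (Cert.s4 (Cert.s5 Cert.c (Cert.s6 Cert.c Cert.c)) (Cert.s5 Cert.c (Cert.L 140)))))))) (Cert.s5 (Cert.s1 (Cert.s2 (Cert.L 64) Cert.a) (Cert.s2 (Cert.s3 Cert.a Cert.a) Cert.a)) (Cert.s6 (Cert.s1 (Cert.s2 (Cert.L 64) Cert.a) (Cert.s2 (Cert.L 112) Cert.a)) (Cert.s1 (Cert.s2 (Cert.L 112) (Cert.s3 (Cert.L 112) (Cert.s4 (Cert.s5 Cert.c (Cert.L 120)) (Cert.L 124)))) (Cert.L 132)))))))))) (Cert.s5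 (Cert.s1 (Cert.s2 (Cert.L 64) Cert.a) (Cert.s2 (Cert.s3 Cert.a Cert.a) Cert.a)) (Cert.s6 (Cert.s1 (Cert.s2 (Cert.L 64) Cert.a) (Cert.s2 (Cert.s3 Cert.a Cert.a) Cert.a)) (Cert.s1 (Cert.s2 (Cert.L 64) (Cert.s3 (Cert.L 64) (Cert.s4 (Cert.s5 (Cert.s1 (Cert.L 64) (Cert.s2 (Cert.L 64) Cert.a)) (Cert.L 120)) (Cert.s5 (Cert.s1 (Cert.L 64) (Cert.s2 (Cert.L 64) Cert.a)) (Cert.L 132))))) (Cert.s2 (Cert.L 132) (Cert.s3 (Cert.L 132) (Cert.s4 (Cert.s5 (Cert.s1 (Cert.s2 (Cert.L 108) Cert.a) (Cert.s2 (Cert.L 124) Cert.a)) (Cert.s6 (Cert.s1 (Cert.s2 (Cert.L 124) Cert.a) (Cert.L 136)) (Cert.L 136))) (Cert.s5 (Cert.s1 (Cert.s2 (Cert.L 136) Cert.a) (Cert.L 144)) (Cert.L 144)))))))))) (Cert.s3 (Cert.s4 (Cert.s5 Cert.a (Cert.L 124)) (Cert.s5 Cert.a (Cert.L 124)))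 (Cert.s4 (Cert.s5 Cert.a (Cert.s6 Cert.a (Cert.s1 (Cert.s3 (Cert.L 64) (Cert.s4 (Cert.s5 Cert.a (Cert.s6 Cert.a (Cert.s1 (Cert.L 64) (Cert.s2 (Cert.s3 (Cert.L 64) (Cert.s4 (Cert.s5 Cert.a Cert.c) (Cert.s5 Cert.a Cert.c))) (Cert.s3 (Cert.s4 (Cert.s5 Cert.a Cert.c) (Cert.s5 Cert.a Cert.c)) (Cert.s4 (Cert.s5 Cert.a Cert.c) (Cert.s5 Cert.a Cert.c))))))) (Cert.s5 Cert.a (Cert.s6 Cert.a (Cert.s1 (Cert.L 64) (Cert.s2 (Cert.s3 (Cert.L 64) (Cert.s4 (Cert.s5 Cert.a Cert.c) (Cert.s5 Cert.a Cert.c))) (Cert.s3 (Cert.L 128) (Cert.s4 (Cert.s5 Cert.a Cert.c) (Cert.s5 Cert.a Cert.c))))))))) (Cert.s2 (Cert.s3 (Cert.s4 (Cert.s5 Cert.a (Cert.s6 Cert.a (Cert.L 128))) (Cert.s5 Cert.a (Cert.L 128))) (Cert.s4 (Cert.s5 Cert.a (Cert.s6 Cert.a (Cert.s1 (Cert.s2 (Cert.s3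 (Cert.s4 (Cert.s5 Cert.c Cert.c) (Cert.s5 Cert.c Cert.c)) (Cert.s4 (Cert.s5 Cert.a Cert.c) (Cert.s5 Cert.a Cert.c))) (Cert.s3 (Cert.s4 (Cert.s5 Cert.a Cert.c) (Cert.s5 Cert.a Cert.c)) (Cert.s4 (Cert.s5 Cert.a Cert.c) (Cert.s5 Cert.a Cert.c)))) (Cert.s2 (Cert.s3 (Cert.s4 (Cert.s5 Cert.c Cert.c) (Cert.L 128)) (Cert.s4 (Cert.s5 Cert.a Cert.c) (Cert.L 184))) (Cert.s3 (Cert.s4 (Cert.s5 Cert.a Cert.c) (Cert.L 184)) (Cert.L 204)))))) (Cert.s5 Cert.a (Cert.s6 Cert.a (Cert.s1 (Cert.s2 (Cert.s3 (Cert.L 116) (Cert.s4 (Cert.s5 Cert.a Cert.c) (Cert.L 152))) (Cert.s3 (Cert.L 152) (Cert.s4 (Cert.s5 Cert.a Cert.c) (Cert.L 152)))) (Cert.L 152)))))) (Cert.s3 (Cert.s4 (Cert.s5 Cert.a (Cert.s6 Cert.a (Cert.L 152))) (Cert.s5 Cert.a (Cert.L 152))) (Cert.s4 (Cert.s5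 Cert.a (Cert.s6 Cert.a (Cert.s1 (Cert.s3 (Cert.s4 (Cert.s5 Cert.a Cert.c) (Cert.L 156)) Cert.c) (Cert.L 168)))) (Cert.s5 Cert.a (Cert.L 184)))))))) (Cert.s5 Cert.a (Cert.s6 Cert.a (Cert.s1 (Cert.s3 (Cert.L 120) (Cert.s4 (Cert.s5 Cert.a (Cert.s6 Cert.a (Cert.L 144))) (Cert.s5 Cert.a (Cert.L 148)))) (Cert.s2 (Cert.s3 (Cert.L 148) (Cert.s4 (Cert.s5 Cert.a (Cert.s6 Cert.a (Cert.L 148))) (Cert.s5 Cert.a (Cert.L 148)))) (Cert.L 172)))))))))))) (Cert.s4 (Cert.s5 Cert.a (Cert.s6 Cert.a (Cert.s1 (Cert.s5 Cert.a (Cert.s6 Cert.a (Cert.s1 (Cert.L 64) (Cert.s2 (Cert.L 64) (Cert.s3 (Cert.L 64) (Cert.s5 Cert.a (Cert.s6 Cert.a (Cert.s1 (Cert.L 64) (Cert.s2 (Cert.L 64) (Cert.s3 (Cert.s5 Cert.a Cert.c) (Cert.s5 Cert.a Cert.c))))))))))) (Cert.s2 (Cert.s5 Cert.a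 (Cert.s6 Cert.a (Cert.s1 (Cert.s2 (Cert.L 64) (Cert.s3 (Cert.s5 Cert.a (Cert.s6 Cert.a (Cert.s1 (Cert.s2 (Cert.L 64) (Cert.s3 (Cert.L 64) (Cert.s5 Cert.a Cert.c))) (Cert.s2 (Cert.s3 (Cert.L 64) (Cert.s5 Cert.c (Cert.s6 Cert.c Cert.c))) (Cert.s3 (Cert.s5 Cert.c Cert.c) (Cert.s5 Cert.a Cert.c)))))) (Cert.s5 Cert.a (Cert.s6 Cert.a (Cert.s1 (Cert.s2 (Cert.s5 Cert.a Cert.c) (Cert.s3 (Cert.s5 Cert.a Cert.c) (Cert.s5 Cert.a Cert.c))) (Cert.s2 (Cert.s5 Cert.a Cert.c) (Cert.s3 (Cert.s5 Cert.a Cert.c) (Cert.s5 Cert.a Cert.c)))))))) (Cert.s2 (Cert.s5 (Cert.s1 (Cert.s2 (Cert.L 64) (Cert.s3 Cert.a Cert.a)) (Cert.s2 (Cert.L 64) (Cert.s3 Cert.a Cert.a))) (Cert.s6 (Cert.s1 (Cert.s2 (Cert.L 64) (Cert.s3 Cert.a Cert.a)) (Cert.s2 (Cert.L 64) (Cert.s3 Cert.a Cert.a)))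 (Cert.s1 (Cert.s2 (Cert.L 64) (Cert.s3 (Cert.L 64) (Cert.s5 Cert.c (Cert.s6 Cert.c Cert.c)))) (Cert.s2 (Cert.L 64) (Cert.s3 (Cert.s5 Cert.c (Cert.L 108)) (Cert.s5 Cert.c (Cert.s6 Cert.c Cert.c))))))) (Cert.s3 (Cert.s5 Cert.a (Cert.s6 Cert.a (Cert.s1 (Cert.s2 (Cert.s3 (Cert.s5 Cert.c (Cert.s6 Cert.c Cert.c)) (Cert.s5 Cert.c (Cert.s6 Cert.c Cert.c))) (Cert.s3 (Cert.s5 Cert.c Cert.c) (Cert.s5 Cert.a Cert.c))) (Cert.s2 (Cert.s3 (Cert.s5 Cert.c (Cert.s6 Cert.c Cert.c)) (Cert.s5 Cert.c (Cert.s6 Cert.c Cert.c))) (Cert.s3 (Cert.s5 Cert.c Cert.c) (Cert.s5 Cert.a Cert.c)))))) (Cert.s5 Cert.a (Cert.s6 Cert.a (Cert.s1 (Cert.s2 (Cert.s5 Cert.a Cert.c) (Cert.s3 (Cert.s5 Cert.a Cert.c) (Cert.s5 Cert.a Cert.c))) (Cert.s2 (Cert.s5 Cert.a Cert.c) (Cert.s3 (Cert.s5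 Cert.a Cert.c) (Cert.L 244))))))))))) (Cert.s3 (Cert.s5 Cert.a (Cert.s6 Cert.a (Cert.s1 (Cert.s3 (Cert.s5 Cert.a (Cert.s6 Cert.a (Cert.s1 (Cert.s3 (Cert.s5 Cert.a Cert.c) (Cert.s5 Cert.a Cert.c)) (Cert.s2 (Cert.s3 (Cert.s5 Cert.a Cert.c) (Cert.s5 Cert.a Cert.c)) (Cert.s3 Cert.c Cert.a))))) (Cert.s5 Cert.a (Cert.s6 Cert.a (Cert.s1 (Cert.s3 Cert.c Cert.a) (Cert.s2 (Cert.s3 Cert.c Cert.a) Cert.a))))) (Cert.s2 (Cert.s3 (Cert.s5 Cert.a (Cert.s6 Cert.a (Cert.s1 (Cert.s2 (Cert.s3 (Cert.s5 Cert.a Cert.c) (Cert.s5 Cert.a Cert.c)) (Cert.s3 Cert.c Cert.a)) (Cert.s2 (Cert.s3 (Cert.s5 Cert.a Cert.c) (Cert.s5 Cert.a Cert.c)) (Cert.L 256))))) (Cert.s5 Cert.a (Cert.s6 Cert.a (Cert.s1 (Cert.s2 (Cert.s3 Cert.c Cert.a) Cert.a) (Cert.L 256))))) (Cert.s3 Cert.a Cert.a)))))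 (Cert.s5 Cert.a (Cert.s6 Cert.a (Cert.s1 Cert.a (Cert.s2 Cert.a Cert.a))))))))) (Cert.s5 Cert.a (Cert.s6 Cert.a (Cert.s1 (Cert.s4 (Cert.s5 Cert.a (Cert.s6 Cert.a (Cert.s1 (Cert.L 64) (Cert.s2 (Cert.L 64) (Cert.s3 (Cert.L 64) (Cert.s4 (Cert.s5 Cert.a (Cert.s6 Cert.a (Cert.s1 (Cert.L 64) (Cert.s2 (Cert.L 64) (Cert.s3 (Cert.s4 (Cert.s5 Cert.a Cert.c) (Cert.s5 Cert.a Cert.c)) (Cert.s4 (Cert.s5 Cert.a Cert.c) (Cert.s5 Cert.a Cert.c))))))) (Cert.s5 Cert.a (Cert.s6 Cert.a (Cert.s1 (Cert.L 64) (Cert.s2 (Cert.L 64) (Cert.s3 (Cert.s4 (Cert.s5 Cert.a Cert.c) (Cert.s5 Cert.a Cert.c)) (Cert.s4 (Cert.s5 Cert.a Cert.c) (Cert.s5 Cert.a Cert.c))))))))))))) (Cert.s5 Cert.a (Cert.s6 Cert.a (Cert.s1 (Cert.L 64) (Cert.s2 (Cert.L 64) (Cert.s3 (Cert.s4 (Cert.s5 Cert.a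 (Cert.s6 Cert.a (Cert.s1 (Cert.L 64) (Cert.s2 (Cert.L 64) (Cert.s3 (Cert.L 64) (Cert.s4 (Cert.s5 Cert.a Cert.c) (Cert.s5 Cert.a Cert.c))))))) (Cert.s5 Cert.a (Cert.s6 Cert.a (Cert.L 152)))) (Cert.s4 (Cert.s5 Cert.a (Cert.s6 Cert.a (Cert.s1 (Cert.L 64) (Cert.s2 (Cert.s4 (Cert.s5 Cert.a Cert.c) (Cert.s5 Cert.a Cert.c)) (Cert.s3 (Cert.s4 (Cert.s5 Cert.a Cert.c) (Cert.s5 Cert.a Cert.c)) (Cert.s4 (Cert.s5 Cert.a Cert.c) (Cert.s5 Cert.a Cert.c))))))) (Cert.s5 Cert.a (Cert.s6 Cert.a (Cert.s1 (Cert.L 76) (Cert.s2 (Cert.s4 (Cert.s5 Cert.a Cert.c) (Cert.L 152)) (Cert.s3 (Cert.s4 (Cert.s5 Cert.a Cert.c) (Cert.L 160)) (Cert.s4 (Cert.s5 Cert.a Cert.c) (Cert.L 172)))))))))))))) (Cert.s2 (Cert.s4 (Cert.s5 Cert.a (Cert.s6 Cert.a (Cert.s1 (Cert.s2 (Cert.L 64)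 (Cert.s3 (Cert.s4 (Cert.s5 Cert.a (Cert.s6 Cert.a (Cert.s1 (Cert.s2 (Cert.L 64) (Cert.s3 (Cert.L 64) (Cert.s4 (Cert.s5 Cert.a Cert.c) (Cert.s5 Cert.a Cert.c)))) (Cert.s2 (Cert.s3 (Cert.L 64) (Cert.s4 (Cert.s5 Cert.c (Cert.s6 Cert.c Cert.c)) (Cert.s5 Cert.c (Cert.s6 Cert.c Cert.c)))) (Cert.s3 (Cert.s4 (Cert.s5 Cert.c Cert.c) (Cert.s5 Cert.c Cert.c)) (Cert.s4 (Cert.s5 Cert.a Cert.c) (Cert.s5 Cert.a Cert.c))))))) (Cert.s5 Cert.a (Cert.s6 Cert.a (Cert.s1 (Cert.s2 (Cert.L 64) (Cert.s3 (Cert.L 64) (Cert.s4 (Cert.s5 Cert.a Cert.c) (Cert.s5 Cert.a Cert.c)))) (Cert.s2 (Cert.s3 (Cert.L 64) (Cert.s4 (Cert.s5 Cert.c (Cert.s6 Cert.c Cert.c)) (Cert.s5 Cert.c (Cert.s6 Cert.c Cert.c)))) (Cert.s3 (Cert.s4 (Cert.s5 Cert.c Cert.c) (Cert.s5 Cert.c Cert.c)) (Cert.s4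 (Cert.s5 Cert.a Cert.c) (Cert.s5 Cert.a Cert.c)))))))) (Cert.s4 (Cert.s5 Cert.a (Cert.s6 Cert.a (Cert.s1 (Cert.s2 (Cert.s4 (Cert.s5 Cert.a Cert.c) (Cert.s5 Cert.a Cert.c)) (Cert.s3 (Cert.s4 (Cert.s5 Cert.a Cert.c) (Cert.s5 Cert.a Cert.c)) (Cert.s4 (Cert.s5 Cert.a Cert.c) (Cert.s5 Cert.a Cert.c)))) (Cert.s2 (Cert.s4 (Cert.s5 Cert.a Cert.c) (Cert.s5 Cert.a Cert.c)) (Cert.s3 (Cert.s4 (Cert.s5 Cert.a Cert.c) (Cert.s5 Cert.a Cert.c)) (Cert.s4 (Cert.s5 Cert.a Cert.c) (Cert.s5 Cert.a Cert.c))))))) (Cert.s5 Cert.a (Cert.s6 Cert.a (Cert.s1 (Cert.s2 (Cert.s4 (Cert.s5 Cert.a Cert.c) (Cert.s5 Cert.a Cert.c)) (Cert.s3 (Cert.s4 (Cert.s5 Cert.a Cert.c) (Cert.s5 Cert.a Cert.c)) (Cert.s4 (Cert.s5 Cert.a Cert.c) (Cert.s5 Cert.a Cert.c)))) (Cert.s2 (Cert.s4 (Cert.s5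 Cert.a Cert.c) (Cert.s5 Cert.a Cert.c)) (Cert.s3 (Cert.s4 (Cert.s5 Cert.a Cert.c) (Cert.s5 Cert.a Cert.c)) (Cert.s4 (Cert.s5 Cert.a Cert.c) (Cert.s5 Cert.a Cert.c)))))))))) (Cert.s2 (Cert.s4 (Cert.s5 (Cert.s1 (Cert.s2 (Cert.L 64) (Cert.s3 Cert.a Cert.a)) (Cert.s2 (Cert.L 64) (Cert.s3 Cert.a Cert.a))) (Cert.s6 (Cert.s1 (Cert.s2 (Cert.L 64) (Cert.s3 Cert.a Cert.a)) (Cert.s2 (Cert.L 64) (Cert.s3 Cert.a Cert.a))) (Cert.s1 (Cert.s2 (Cert.L 64) (Cert.s3 (Cert.L 64) (Cert.s4 (Cert.s5 Cert.c (Cert.s6 Cert.c Cert.c)) (Cert.s5 Cert.c (Cert.s6 Cert.c Cert.c))))) (Cert.s2 (Cert.L 64) (Cert.s3 (Cert.L 112) (Cert.s4 (Cert.s5 Cert.c (Cert.s6 Cert.c Cert.c)) (Cert.s5 Cert.c (Cert.s6 Cert.c Cert.c)))))))) (Cert.s5 (Cert.s1 (Cert.s2 (Cert.L 112) (Cert.s3 Cert.a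 Cert.a)) (Cert.s2 (Cert.L 112) (Cert.s3 Cert.a Cert.a))) (Cert.s6 (Cert.s1 (Cert.s2 (Cert.L 112) (Cert.s3 Cert.a Cert.a)) (Cert.s2 (Cert.L 112) (Cert.s3 Cert.a Cert.a))) (Cert.s1 (Cert.s2 (Cert.L 112) (Cert.s3 (Cert.L 112) (Cert.s4 (Cert.s5 Cert.c (Cert.s6 Cert.c Cert.c)) (Cert.s5 Cert.c (Cert.L 124))))) (Cert.L 160))))) (Cert.s3 (Cert.s4 (Cert.s5 Cert.a (Cert.s6 Cert.a (Cert.s1 (Cert.s2 (Cert.s3 (Cert.s4 (Cert.s5 Cert.c (Cert.s6 Cert.c Cert.c)) (Cert.s5 Cert.c (Cert.s6 Cert.c Cert.c))) (Cert.s4 (Cert.s5 Cert.c (Cert.s6 Cert.c Cert.c)) (Cert.s5 Cert.c (Cert.s6 Cert.c Cert.c)))) (Cert.s3 (Cert.s4 (Cert.s5 Cert.c Cert.c) (Cert.s5 Cert.c Cert.c)) (Cert.s4 (Cert.s5 Cert.a Cert.c) (Cert.s5 Cert.a Cert.c)))) (Cert.s2 (Cert.s3 (Cert.s4 (Cert.s5 Cert.c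 (Cert.s6 Cert.c Cert.c)) (Cert.s5 Cert.c (Cert.s6 Cert.c Cert.c))) (Cert.s4 (Cert.s5 Cert.c (Cert.s6 Cert.c Cert.c)) (Cert.s5 Cert.c (Cert.s6 Cert.c Cert.c)))) (Cert.s3 (Cert.s4 (Cert.s5 Cert.c Cert.c) (Cert.s5 Cert.c Cert.c)) (Cert.s4 (Cert.s5 Cert.a Cert.c) (Cert.s5 Cert.a Cert.c))))))) (Cert.s5 Cert.a (Cert.s6 Cert.a (Cert.s1 (Cert.s2 (Cert.s3 (Cert.s4 (Cert.s5 Cert.c (Cert.s6 Cert.c Cert.c)) (Cert.s5 Cert.c (Cert.L 160))) (Cert.s4 (Cert.s5 Cert.c (Cert.s6 Cert.c Cert.c)) (Cert.s5 Cert.c (Cert.s6 Cert.c Cert.c)))) (Cert.s3 (Cert.s4 (Cert.s5 Cert.c Cert.c) (Cert.s5 Cert.c Cert.c)) (Cert.s4 (Cert.s5 Cert.a Cert.c) (Cert.s5 Cert.a Cert.c)))) (Cert.L 172))))) (Cert.s4 (Cert.s5 Cert.a (Cert.s6 Cert.a (Cert.s1 (Cert.s2 (Cert.s4 (Cert.s5 Cert.a Cert.c)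 (Cert.s5 Cert.a Cert.c)) (Cert.s3 (Cert.s4 (Cert.s5 Cert.a Cert.c) (Cert.s5 Cert.a Cert.c)) (Cert.s4 (Cert.s5 Cert.a Cert.c) (Cert.s5 Cert.a Cert.c)))) (Cert.s2 (Cert.s4 (Cert.s5 Cert.a Cert.c) (Cert.s5 Cert.a Cert.c)) (Cert.L 256))))) (Cert.s5 Cert.a (Cert.s6 Cert.a (Cert.s1 (Cert.s2 (Cert.s4 (Cert.s5 Cert.a Cert.c) (Cert.s5 Cert.a Cert.c)) (Cert.s3 (Cert.s4 (Cert.s5 Cert.a Cert.c) (Cert.L 256)) (Cert.L 256))) (Cert.L 256)))))))))) (Cert.s5 Cert.a (Cert.s6 Cert.a (Cert.s1 (Cert.s2 (Cert.s4 (Cert.s5 (Cert.s1 (Cert.L 64) (Cert.s2 (Cert.L 64) (Cert.s3 Cert.a Cert.a))) (Cert.s6 (Cert.s1 (Cert.L 64) (Cert.s2 (Cert.L 64) (Cert.s3 Cert.a Cert.a))) (Cert.L 108))) (Cert.s5 (Cert.s1 (Cert.L 64) (Cert.s2 (Cert.L 64) (Cert.s3 Cert.a Cert.a))) (Cert.s6 (Cert.s1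 (Cert.L 64) (Cert.s2 (Cert.L 64) (Cert.s3 Cert.a Cert.a))) (Cert.L 124)))) (Cert.s3 (Cert.s4 (Cert.s5 Cert.a (Cert.s6 Cert.a (Cert.s1 (Cert.s2 (Cert.s3 (Cert.L 124) (Cert.s4 (Cert.s5 Cert.c (Cert.L 120)) (Cert.s5 Cert.c (Cert.L 124)))) (Cert.s3 (Cert.s4 (Cert.L 120) (Cert.L 124)) (Cert.s4 (Cert.s5 Cert.a Cert.c) (Cert.s5 Cert.a Cert.c)))) (Cert.s2 (Cert.s3 (Cert.L 124) (Cert.s4 (Cert.s5 Cert.c (Cert.s6 Cert.c Cert.c)) (Cert.s5 Cert.c (Cert.L 144)))) (Cert.s3 (Cert.s4 (Cert.s5 Cert.c Cert.c) (Cert.L 144)) (Cert.s4 (Cert.s5 Cert.a Cert.c) (Cert.s5 Cert.a Cert.c))))))) (Cert.s5 Cert.a (Cert.s6 Cert.a (Cert.L 160)))) (Cert.s4 (Cert.s5 Cert.a (Cert.s6 Cert.a (Cert.s1 (Cert.s2 (Cert.s4 (Cert.s5 Cert.a Cert.c) (Cert.s5 Cert.a Cert.c)) (Cert.s3 (Cert.s4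 (Cert.s5 Cert.a Cert.c) (Cert.s5 Cert.a Cert.c)) (Cert.s4 (Cert.s5 Cert.a Cert.c) (Cert.s5 Cert.a Cert.c)))) (Cert.s2 (Cert.s4 (Cert.s5 Cert.a Cert.c) (Cert.s5 Cert.a Cert.c)) (Cert.s3 (Cert.s4 (Cert.s5 Cert.a Cert.c) (Cert.s5 Cert.a Cert.c)) (Cert.L 216)))))) (Cert.s5 Cert.a (Cert.s6 Cert.a (Cert.s1 (Cert.s2 (Cert.s4 (Cert.s5 Cert.a Cert.c) (Cert.L 160)) (Cert.s3 (Cert.s4 (Cert.s5 Cert.a Cert.c) (Cert.L 160)) (Cert.L 176))) (Cert.L 176))))))) (Cert.s2 (Cert.s4 (Cert.s5 (Cert.s1 (Cert.s2 (Cert.L 64) (Cert.s3 Cert.a Cert.a)) (Cert.s2 (Cert.L 72) (Cert.s3 Cert.a Cert.a))) (Cert.s6 (Cert.s1 (Cert.s2 (Cert.L 72) (Cert.s3 Cert.a Cert.a)) (Cert.L 152)) (Cert.L 152))) (Cert.s5 (Cert.s1 (Cert.s2 (Cert.L 152) (Cert.s3 Cert.a Cert.a)) (Cert.L 156)) (Cert.L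 156))) (Cert.s3 (Cert.s4 (Cert.s5 Cert.a (Cert.s6 Cert.a (Cert.L 168))) (Cert.s5 Cert.a (Cert.L 168))) (Cert.s4 (Cert.s5 Cert.a (Cert.s6 Cert.a (Cert.L 172))) (Cert.s5 Cert.a (Cert.L 172))))))))) (Cert.s3 (Cert.s4 (Cert.s5 Cert.a (Cert.s6 Cert.a (Cert.s1 (Cert.s3 (Cert.s4 (Cert.s5 Cert.a (Cert.s6 Cert.a (Cert.s1 (Cert.s3 (Cert.s4 (Cert.s5 Cert.a Cert.c) (Cert.s5 Cert.a Cert.c)) (Cert.s4 (Cert.s5 Cert.a Cert.c) (Cert.s5 Cert.a Cert.c))) (Cert.s2 (Cert.s3 (Cert.s4 (Cert.s5 Cert.a Cert.c) (Cert.s5 Cert.a Cert.c)) (Cert.s4 (Cert.s5 Cert.a Cert.c) (Cert.s5 Cert.a Cert.c))) (Cert.s3 Cert.c Cert.a))))) (Cert.s5 Cert.a (Cert.s6 Cert.a (Cert.s1 (Cert.s3 (Cert.s4 (Cert.s5 Cert.a Cert.c) (Cert.s5 Cert.a Cert.c)) (Cert.s4 (Cert.s5 Cert.a Cert.c) (Cert.s5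 Cert.a Cert.c))) (Cert.s2 (Cert.s3 (Cert.s4 (Cert.s5 Cert.a Cert.c) (Cert.s5 Cert.a Cert.c)) (Cert.s4 (Cert.s5 Cert.a Cert.c) (Cert.s5 Cert.a Cert.c))) (Cert.s3 Cert.c Cert.a)))))) (Cert.s4 (Cert.s5 Cert.a (Cert.s6 Cert.a (Cert.s1 (Cert.s3 Cert.c Cert.a) (Cert.s2 (Cert.s3 Cert.c Cert.a) Cert.a)))) (Cert.s5 Cert.a (Cert.s6 Cert.a (Cert.s1 (Cert.s3 Cert.c Cert.a) (Cert.s2 (Cert.s3 Cert.c Cert.a) Cert.a)))))) (Cert.s2 (Cert.s3 (Cert.s4 (Cert.s5 Cert.a (Cert.s6 Cert.a (Cert.s1 (Cert.s2 (Cert.s3 (Cert.s4 (Cert.s5 Cert.a Cert.c) (Cert.s5 Cert.a Cert.c)) (Cert.s4 (Cert.s5 Cert.a Cert.c) (Cert.s5 Cert.a Cert.c))) (Cert.s3 Cert.c Cert.a)) (Cert.s2 (Cert.s3 (Cert.s4 (Cert.s5 Cert.a Cert.c) (Cert.L 180)) (Cert.L 224)) (Cert.L 224))))) (Cert.s5 Cert.a (Cert.s6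 Cert.a (Cert.s1 (Cert.s2 (Cert.s3 (Cert.s4 (Cert.s5 Cert.a Cert.c) (Cert.s5 Cert.a Cert.c)) (Cert.s4 (Cert.s5 Cert.a Cert.c) (Cert.L 224))) (Cert.L 224)) (Cert.L 224))))) (Cert.s4 (Cert.s5 Cert.a (Cert.s6 Cert.a (Cert.s1 (Cert.s2 (Cert.s3 Cert.c Cert.a) Cert.a) (Cert.L 224)))) (Cert.s5 Cert.a (Cert.s6 Cert.a (Cert.L 224))))) (Cert.s3 Cert.a Cert.a))))) (Cert.s5 Cert.a (Cert.s6 Cert.a (Cert.s1 (Cert.s3 (Cert.s4 (Cert.s5 Cert.a (Cert.s6 Cert.a (Cert.s1 (Cert.s3 (Cert.s4 (Cert.s5 Cert.a Cert.c) (Cert.L 156)) (Cert.s4 (Cert.s5 Cert.a Cert.c) (Cert.s5 Cert.a Cert.c))) (Cert.s2 (Cert.s3 (Cert.s4 (Cert.s5 Cert.a Cert.c) (Cert.L 156)) (Cert.s4 (Cert.s5 Cert.a Cert.c) (Cert.L 168))) (Cert.L 172))))) (Cert.s5 Cert.a (Cert.s6 Cert.a (Cert.L 172)))) (Cert.s4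 (Cert.s5 Cert.a (Cert.s6 Cert.a (Cert.s1 (Cert.s3 Cert.c Cert.a) (Cert.L 196)))) (Cert.s5 Cert.a (Cert.s6 Cert.a (Cert.L 196))))) (Cert.s2 (Cert.s3 (Cert.s4 (Cert.s5 Cert.a (Cert.s6 Cert.a (Cert.L 196))) (Cert.L 204)) (Cert.L 220)) (Cert.L 220)))))) (Cert.s4 (Cert.s5 Cert.a (Cert.s6 Cert.a (Cert.s1 Cert.a (Cert.s2 Cert.a Cert.a)))) (Cert.s5 Cert.a (Cert.s6 Cert.a (Cert.s1 Cert.a (Cert.L 220)))))))))))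

def t1 : Cert := Cert.s6 (Cert.s1 (Cert.L 64) (Cert.s2 (Cert.s5 (Cert.L 64) (Cert.L 116)) (Cert.s3 (Cert.s5 (Cert.s6 Cert.a (Cert.s1 (Cert.L 116) (Cert.s2 (Cert.s3 (Cert.L 116) (Cert.s4 (Cert.s5 (Cert.s6 (Cert.s1 (Cert.s2 (Cert.L 116) Cert.a) (Cert.s2 (Cert.L 116) Cert.a)) (Cert.s1 (Cert.L 76) (Cert.s2 (Cert.L 76) (Cert.s3 (Cert.L 76) (Cert.s4 (Cert.s5 (Cert.s6 (Cert.s1 (Cert.s2 (Cert.L 76) Cert.a) (Cert.s2 (Cert.L 120) Cert.a)) (Cert.s1 (Cert.s2 (Cert.L 120) (Cert.s3 (Cert.L 120) (Cert.s4 (Cert.s5 (Cert.s6 Cert.c Cert.c) (Cert.L 124)) (Cert.L 124)))) (Cert.s2 (Cert.L 124) (Cert.s3 (Cert.L 124) (Cert.s4 (Cert.s5 (Cert.s6 Cert.c Cert.c) (Cert.L 128)) (Cert.L 128)))))) (Cert.s6 (Cert.s1 (Cert.s2 (Cert.L 128) Cert.a) (Cert.L 132)) (Cert.L 132)))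 (Cert.s5 (Cert.s6 (Cert.s1 (Cert.s2 (Cert.L 132) Cert.a) (Cert.L 140)) (Cert.L 140)) (Cert.L 140))))))) (Cert.s6 (Cert.s1 (Cert.s2 (Cert.L 140) Cert.a) (Cert.s2 (Cert.L 140) Cert.a)) (Cert.L 140))) (Cert.s5 (Cert.s6 (Cert.s1 (Cert.s2 (Cert.L 140) Cert.a) (Cert.s2 (Cert.L 140) Cert.a)) (Cert.L 140)) (Cert.s6 (Cert.s1 (Cert.s2 (Cert.L 140) Cert.a) (Cert.L 156)) (Cert.L 156))))) (Cert.s3 (Cert.L 116) (Cert.s4 (Cert.s5 (Cert.s6 Cert.a (Cert.s1 (Cert.s3 (Cert.L 116) (Cert.s4 (Cert.s5 (Cert.s6 Cert.a (Cert.s1 (Cert.L 64) (Cert.s2 (Cert.s3 (Cert.L 64) (Cert.s4 (Cert.s5 (Cert.s6 Cert.a Cert.c) (Cert.s6 Cert.a Cert.c)) (Cert.s5 (Cert.s6 Cert.a Cert.c) (Cert.s6 Cert.a Cert.c)))) (Cert.s3 (Cert.s4 (Cert.s5 Cert.c (Cert.L 120)) (Cert.L 120)) (Cert.s4 (Cert.s5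 Cert.c (Cert.s6 Cert.a Cert.c)) (Cert.s5 Cert.c (Cert.s6 Cert.a Cert.c))))))) (Cert.s6 Cert.a (Cert.L 144))) (Cert.s5 (Cert.s6 Cert.a (Cert.L 144)) (Cert.s6 Cert.a (Cert.L 144))))) (Cert.s2 (Cert.s3 (Cert.L 144) (Cert.s4 (Cert.s5 (Cert.s6 Cert.a (Cert.s1 (Cert.s2 (Cert.s3 (Cert.L 120) (Cert.s4 (Cert.s5 (Cert.s6 Cert.a Cert.c) (Cert.s6 Cert.a Cert.c)) (Cert.s5 (Cert.s6 Cert.a Cert.c) (Cert.L 156)))) (Cert.s3 (Cert.s4 (Cert.s5 Cert.c (Cert.L 156)) (Cert.L 156)) (Cert.s4 (Cert.s5 Cert.c (Cert.L 180)) (Cert.L 184)))) (Cert.L 184))) (Cert.s6 Cert.a (Cert.L 184))) (Cert.s5 (Cert.s6 Cert.a (Cert.L 184)) (Cert.L 184)))) (Cert.s3 (Cert.s4 (Cert.s5 (Cert.s6 Cert.a (Cert.L 184)) (Cert.L 184)) (Cert.L 184)) (Cert.s4 (Cert.s5 (Cert.s6 Cert.a (Cert.L 184))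 (Cert.L 184)) (Cert.L 184)))))) (Cert.s6 Cert.a (Cert.L 144))) (Cert.s5 (Cert.s6 Cert.a (Cert.L 148)) (Cert.s6 Cert.a (Cert.L 148)))))))) (Cert.s6 Cert.a (Cert.L 148))) (Cert.s5 (Cert.s6 Cert.a (Cert.s1 (Cert.s4 (Cert.s5 (Cert.s6 Cert.a (Cert.s1 (Cert.L 64) (Cert.s2 (Cert.L 64) (Cert.s3 (Cert.s4 (Cert.L 64) (Cert.s5 (Cert.L 76) (Cert.L 96))) (Cert.s4 (Cert.s5 (Cert.s6 Cert.a (Cert.s1 (Cert.L 96) (Cert.s2 (Cert.L 96) (Cert.s3 (Cert.s4 (Cert.s5 Cert.c (Cert.s6 Cert.a Cert.c)) (Cert.s5 Cert.c (Cert.s6 Cert.a Cert.c))) (Cert.s4 (Cert.s5 Cert.c Cert.c) (Cert.s5 Cert.c Cert.c)))))) (Cert.s6 Cert.a (Cert.s1 (Cert.L 96) (Cert.s2 (Cert.L 96) (Cert.s3 (Cert.s5 (Cert.s6 Cert.a Cert.c) (Cert.s6 Cert.a (Cert.s1 (Cert.L 96) (Cert.s2 (Cert.s3 (Cert.L 96) (Cert.s5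 Cert.c Cert.c)) (Cert.s3 Cert.c Cert.c))))) (Cert.s5 (Cert.s6 Cert.a Cert.c) (Cert.s6 Cert.a (Cert.s1 Cert.c (Cert.s2 Cert.c Cert.c))))))))) (Cert.s5 (Cert.s6 Cert.a (Cert.s1 (Cert.L 96) (Cert.s2 (Cert.L 96) (Cert.s3 (Cert.s4 (Cert.s5 Cert.c (Cert.s6 Cert.a Cert.c)) (Cert.s5 Cert.c (Cert.s6 Cert.a Cert.c))) (Cert.s4 (Cert.s5 Cert.c Cert.c) (Cert.s5 Cert.c Cert.c)))))) (Cert.s6 Cert.a (Cert.s1 (Cert.L 96) (Cert.s2 (Cert.L 96) (Cert.s3 (Cert.s4 (Cert.s5 (Cert.s6 Cert.a Cert.c) (Cert.s6 Cert.a (Cert.L 152))) (Cert.s5 (Cert.s6 Cert.a Cert.c) (Cert.L 152))) (Cert.s4 (Cert.s5 (Cert.s6 Cert.a Cert.c) (Cert.s6 Cert.a (Cert.s1 Cert.c (Cert.s2 Cert.c Cert.c)))) (Cert.s5 (Cert.s6 Cert.a Cert.c) (Cert.L 156))))))))))))) (Cert.s6 Cert.a (Cert.s1 (Cert.L 156)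 (Cert.s2 (Cert.L 156) (Cert.s3 (Cert.L 104) (Cert.s5 (Cert.s6 Cert.a (Cert.s1 (Cert.L 104) (Cert.s2 (Cert.L 104) (Cert.s3 (Cert.L 156) (Cert.s4 (Cert.s5 (Cert.s6 Cert.a (Cert.L 156)) (Cert.L 156)) (Cert.L 156)))))) (Cert.L 156))))))) (Cert.s5 (Cert.s6 Cert.a (Cert.s1 (Cert.L 156) (Cert.s2 (Cert.L 64) (Cert.s3 (Cert.s4 (Cert.s5 (Cert.s6 Cert.a (Cert.L 116)) (Cert.s6 Cert.a (Cert.L 116))) (Cert.L 156)) (Cert.s4 (Cert.s5 (Cert.s6 Cert.a (Cert.s1 (Cert.L 64) (Cert.s2 (Cert.s4 (Cert.s5 (Cert.s6 Cert.a Cert.c) (Cert.L 108)) (Cert.L 128)) (Cert.s3 (Cert.s4 (Cert.s5 Cert.c (Cert.L 156)) (Cert.L 156)) (Cert.s4 (Cert.s5 Cert.c Cert.c) (Cert.L 156)))))) (Cert.s6 Cert.a (Cert.L 156))) (Cert.s5 (Cert.s6 Cert.a (Cert.L 156)) (Cert.L 156))))))) (Cert.s6 Cert.a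 (Cert.L 156)))) (Cert.s2 (Cert.s4 (Cert.s5 (Cert.s6 Cert.a (Cert.s1 (Cert.s2 (Cert.L 76) (Cert.s3 (Cert.s4 (Cert.s5 (Cert.s6 Cert.a (Cert.s1 (Cert.s2 (Cert.L 76) (Cert.s3 (Cert.L 76) (Cert.s4 (Cert.s5 Cert.c (Cert.s6 Cert.a Cert.c)) (Cert.s5 Cert.c (Cert.s6 Cert.a Cert.c))))) (Cert.s2 (Cert.s3 (Cert.L 76) (Cert.s4 (Cert.s5 (Cert.s6 Cert.c Cert.c) (Cert.s6 Cert.c (Cert.s1 (Cert.s2 (Cert.L 76) Cert.c) (Cert.s2 (Cert.s3 Cert.c Cert.c) Cert.c)))) (Cert.s5 (Cert.s6 Cert.c Cert.c) (Cert.s6 Cert.c (Cert.s1 (Cert.s2 (Cert.L 76) Cert.c) (Cert.s2 (Cert.s3 Cert.c Cert.c) Cert.c)))))) (Cert.s3 (Cert.s4 (Cert.s5 (Cert.s6 Cert.c Cert.c) (Cert.s6 Cert.c Cert.c)) (Cert.s5 (Cert.s6 Cert.c Cert.c) (Cert.s6 Cert.c Cert.c))) (Cert.s4 (Cert.s5 Cert.c (Cert.s6 Cert.a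 Cert.c)) (Cert.s5 Cert.c (Cert.s6 Cert.a Cert.c))))))) (Cert.s6 Cert.a (Cert.s1 (Cert.s2 (Cert.L 76) (Cert.s3 (Cert.L 76) (Cert.s5 (Cert.s6 Cert.a (Cert.s1 (Cert.s2 (Cert.L 76) Cert.c) (Cert.s2 (Cert.s3 Cert.c Cert.c) Cert.c))) (Cert.s6 Cert.a (Cert.L 156))))) (Cert.s2 (Cert.s3 (Cert.L 64) (Cert.s5 (Cert.s6 (Cert.s1 (Cert.s2 (Cert.L 64) Cert.a) (Cert.s2 (Cert.s3 (Cert.L 64) Cert.a) Cert.a)) (Cert.s1 (Cert.s2 (Cert.L 64) (Cert.s3 (Cert.L 64) (Cert.s4 (Cert.s5 Cert.c Cert.c) (Cert.L 128)))) (Cert.s2 (Cert.L 128) (Cert.s3 (Cert.L 128) (Cert.s4 (Cert.s5 Cert.c Cert.c) (Cert.L 144)))))) (Cert.s6 (Cert.s1 (Cert.L 144) (Cert.L 148)) (Cert.L 148)))) (Cert.s3 (Cert.s5 (Cert.s6 (Cert.s1 (Cert.s2 (Cert.L 64) Cert.a) (Cert.s2 (Cert.s3 Cert.a Cert.a) Cert.a))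 (Cert.L 140)) (Cert.L 140)) (Cert.s5 (Cert.s6 Cert.a (Cert.s1 (Cert.s2 (Cert.s3 Cert.c Cert.c) Cert.c) (Cert.s2 (Cert.s3 Cert.c Cert.c) Cert.c))) (Cert.s6 Cert.a (Cert.L 152)))))))) (Cert.s5 (Cert.s6 Cert.a (Cert.s1 (Cert.s2 (Cert.L 76) (Cert.s3 (Cert.L 76) (Cert.s4 (Cert.s5 Cert.c (Cert.s6 Cert.a Cert.c)) (Cert.s5 Cert.c (Cert.s6 Cert.a Cert.c))))) (Cert.s2 (Cert.s3 (Cert.L 76) (Cert.s4 (Cert.s5 (Cert.s6 Cert.c Cert.c) (Cert.s6 Cert.c (Cert.L 144))) (Cert.s5 (Cert.s6 Cert.c Cert.c) (Cert.L 144)))) (Cert.s3 (Cert.s4 (Cert.s5 (Cert.s6 Cert.c Cert.c) (Cert.L 144)) (Cert.L 144)) (Cert.s4 (Cert.s5 Cert.c (Cert.s6 Cert.a Cert.c)) (Cert.s5 Cert.c (Cert.s6 Cert.a Cert.c))))))) (Cert.s6 Cert.a (Cert.s1 (Cert.s2 (Cert.L 84) (Cert.s3 (Cert.L 84) (Cert.s4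 (Cert.s5 (Cert.s6 Cert.a (Cert.L 156)) (Cert.s6 Cert.a (Cert.L 156))) (Cert.L 156)))) (Cert.s2 (Cert.s3 (Cert.L 156) (Cert.s4 (Cert.s5 (Cert.s6 (Cert.s1 (Cert.s2 (Cert.L 156) Cert.a) (Cert.L 156)) (Cert.L 156)) (Cert.L 156)) (Cert.L 156))) (Cert.s3 (Cert.L 156) (Cert.s4 (Cert.s5 (Cert.s6 Cert.a (Cert.L 156)) (Cert.L 156)) (Cert.L 156)))))))) (Cert.s4 (Cert.s5 (Cert.s6 Cert.a (Cert.s1 (Cert.s2 (Cert.s4 (Cert.s5 (Cert.s6 Cert.a Cert.c) (Cert.s6 Cert.a Cert.c)) (Cert.s5 (Cert.s6 Cert.a Cert.c) (Cert.s6 Cert.a Cert.c))) (Cert.s3 (Cert.s4 (Cert.s5 Cert.c (Cert.s6 Cert.a Cert.c)) (Cert.s5 Cert.c (Cert.s6 Cert.a Cert.c))) (Cert.s4 (Cert.s5 Cert.c Cert.c) (Cert.s5 Cert.c Cert.c)))) (Cert.s2 (Cert.s4 (Cert.s5 (Cert.s6 Cert.a Cert.c) (Cert.s6 Cert.a Cert.c))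 (Cert.s5 (Cert.s6 Cert.a Cert.c) (Cert.s6 Cert.a Cert.c))) (Cert.s3 (Cert.s4 (Cert.s5 Cert.c (Cert.s6 Cert.a Cert.c)) (Cert.s5 Cert.c (Cert.s6 Cert.a Cert.c))) (Cert.s4 (Cert.s5 Cert.c Cert.c) (Cert.s5 Cert.c Cert.c)))))) (Cert.s6 Cert.a (Cert.s1 (Cert.s2 (Cert.s5 (Cert.s6 Cert.a (Cert.s1 (Cert.s2 (Cert.L 64) (Cert.s3 Cert.c Cert.c)) (Cert.s2 (Cert.L 64) (Cert.s3 Cert.c Cert.c)))) (Cert.s6 Cert.a (Cert.s1 (Cert.s2 (Cert.L 64) (Cert.s3 (Cert.L 64) (Cert.s5 Cert.c Cert.c))) (Cert.s2 (Cert.L 64) (Cert.s3 (Cert.L 144) (Cert.s5 Cert.c Cert.c)))))) (Cert.s3 (Cert.s5 (Cert.s6 Cert.a Cert.c) (Cert.s6 Cert.a (Cert.s1 (Cert.s2 (Cert.s3 (Cert.s5 Cert.c Cert.c) (Cert.s5 Cert.c Cert.c)) (Cert.s3 Cert.c Cert.c)) (Cert.s2 (Cert.s3 (Cert.s5 Cert.c Cert.c) (Cert.s5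 Cert.c Cert.c)) (Cert.L 172))))) (Cert.s5 (Cert.s6 Cert.a Cert.c) (Cert.s6 Cert.a (Cert.s1 (Cert.s2 Cert.c Cert.c) (Cert.L 188)))))) (Cert.s2 (Cert.s5 (Cert.s6 Cert.a (Cert.s1 (Cert.s2 (Cert.s4 (Cert.s5 Cert.c Cert.c) (Cert.L 124)) (Cert.s3 Cert.c Cert.c)) (Cert.s2 (Cert.s4 (Cert.s5 Cert.c Cert.c) (Cert.L 140)) (Cert.s3 Cert.c Cert.c)))) (Cert.s6 Cert.a (Cert.L 164))) (Cert.s3 (Cert.s5 (Cert.s6 Cert.a Cert.c) (Cert.s6 Cert.a (Cert.L 168))) (Cert.s5 (Cert.s6 Cert.a Cert.c) (Cert.L 192))))))) (Cert.s5 (Cert.s6 Cert.a (Cert.s1 (Cert.s2 (Cert.s4 (Cert.s5 (Cert.s6 Cert.a Cert.c) (Cert.s6 Cert.a Cert.c)) (Cert.s5 (Cert.s6 Cert.a Cert.c) (Cert.s6 Cert.a Cert.c))) (Cert.s3 (Cert.s4 (Cert.s5 Cert.c (Cert.s6 Cert.a Cert.c)) (Cert.s5 Cert.c (Cert.s6 Cert.a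 Cert.c))) (Cert.s4 (Cert.s5 Cert.c Cert.c) (Cert.s5 Cert.c Cert.c)))) (Cert.s2 (Cert.s4 (Cert.s5 (Cert.s6 Cert.a Cert.c) (Cert.s6 Cert.a Cert.c)) (Cert.s5 (Cert.s6 Cert.a Cert.c) (Cert.s6 Cert.a Cert.c))) (Cert.s3 (Cert.s4 (Cert.s5 Cert.c (Cert.s6 Cert.a Cert.c)) (Cert.s5 Cert.c (Cert.s6 Cert.a Cert.c))) (Cert.s4 (Cert.s5 Cert.c Cert.c) (Cert.L 200)))))) (Cert.s6 Cert.a (Cert.s1 (Cert.s2 (Cert.s4 (Cert.s5 (Cert.s6 Cert.a (Cert.s1 (Cert.s2 (Cert.L 64) (Cert.s3 Cert.c Cert.c)) (Cert.s2 (Cert.L 64) (Cert.s3 Cert.c Cert.c)))) (Cert.s6 Cert.a (Cert.L 152))) (Cert.L 160)) (Cert.s3 (Cert.s4 (Cert.s5 (Cert.s6 Cert.a Cert.c) (Cert.s6 Cert.a (Cert.L 160))) (Cert.s5 (Cert.s6 Cert.a Cert.c) (Cert.L 160))) (Cert.s4 (Cert.s5 (Cert.s6 Cert.a Cert.c) (Cert.s6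 Cert.a (Cert.L 160))) (Cert.s5 (Cert.s6 Cert.a Cert.c) (Cert.L 160))))) (Cert.s2 (Cert.s4 (Cert.s5 (Cert.s6 Cert.a (Cert.L 164)) (Cert.L 168)) (Cert.L 168)) (Cert.s3 (Cert.s4 (Cert.s5 (Cert.s6 Cert.a Cert.c) (Cert.L 168)) (Cert.L 168)) (Cert.L 192))))))))) (Cert.s2 (Cert.s4 (Cert.s5 (Cert.s6 (Cert.s1 (Cert.s2 (Cert.L 64) (Cert.s3 Cert.a Cert.a)) (Cert.s2 (Cert.L 64) (Cert.s3 Cert.a Cert.a))) (Cert.s1 (Cert.s2 (Cert.L 64) (Cert.s3 (Cert.L 64) (Cert.s4 (Cert.s5 (Cert.s6 Cert.c (Cert.s1 (Cert.L 72) (Cert.s2 Cert.c Cert.c))) (Cert.s6 (Cert.s1 (Cert.L 76) (Cert.s2 (Cert.L 76) Cert.c)) (Cert.s1 (Cert.L 80) (Cert.s2 (Cert.L 80) (Cert.s3 (Cert.L 80) Cert.c))))) (Cert.s5 (Cert.s6 Cert.c (Cert.s1 (Cert.L 88) (Cert.s2 Cert.c Cert.c))) (Cert.s6 (Cert.s1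 (Cert.L 96) (Cert.s2 (Cert.L 96) Cert.c)) (Cert.L 120)))))) (Cert.s2 (Cert.L 120) (Cert.s3 (Cert.L 120) (Cert.s4 (Cert.s5 (Cert.s6 Cert.c (Cert.s1 (Cert.s2 Cert.c Cert.c) (Cert.L 144))) (Cert.L 148)) (Cert.L 148)))))) (Cert.s6 (Cert.s1 (Cert.s2 (Cert.L 148) (Cert.s3 Cert.a Cert.a)) (Cert.L 160)) (Cert.L 124))) (Cert.s5 (Cert.s6 (Cert.s1 (Cert.s2 (Cert.L 124) (Cert.s3 Cert.a Cert.a)) (Cert.L 168)) (Cert.L 128)) (Cert.s6 (Cert.s1 (Cert.s2 (Cert.L 128) (Cert.s3 Cert.a Cert.a)) (Cert.L 132)) (Cert.L 132)))) (Cert.s3 (Cert.s4 (Cert.s5 (Cert.s6 Cert.a (Cert.s1 (Cert.s2 (Cert.s3 (Cert.s4 (Cert.s5 (Cert.s6 Cert.c Cert.c) (Cert.s6 Cert.c (Cert.L 132))) (Cert.s5 (Cert.s6 Cert.c Cert.c) (Cert.s6 Cert.c (Cert.L 132)))) (Cert.s4 (Cert.s5 (Cert.s6 Cert.c Cert.c)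 (Cert.s6 Cert.c (Cert.s1 (Cert.s2 (Cert.s3 Cert.c Cert.c) Cert.c) (Cert.s2 (Cert.s3 Cert.c Cert.c) Cert.c)))) (Cert.s5 (Cert.s6 Cert.c Cert.c) (Cert.s6 Cert.c (Cert.s1 (Cert.s2 (Cert.s3 Cert.c Cert.c) Cert.c) (Cert.L 164)))))) (Cert.s3 (Cert.s4 (Cert.s5 (Cert.s6 Cert.c Cert.c) (Cert.s6 Cert.c Cert.c)) (Cert.s5 (Cert.s6 Cert.c Cert.c) (Cert.s6 Cert.c Cert.c))) (Cert.s4 (Cert.s5 Cert.c (Cert.s6 Cert.a Cert.c)) (Cert.s5 Cert.c (Cert.s6 Cert.a Cert.c))))) (Cert.s2 (Cert.s3 (Cert.s4 (Cert.s5 (Cert.s6 Cert.c Cert.c) (Cert.L 164)) (Cert.L 164)) (Cert.s4 (Cert.s5 (Cert.s6 Cert.c Cert.c) (Cert.L 164)) (Cert.L 164))) (Cert.s3 (Cert.s4 (Cert.s5 (Cert.s6 Cert.c Cert.c) (Cert.L 164)) (Cert.L 164)) (Cert.s4 (Cert.s5 Cert.c (Cert.L 168)) (Cert.L 168)))))) (Cert.s6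 Cert.a (Cert.s1 (Cert.s2 (Cert.s3 (Cert.L 120) (Cert.s5 (Cert.s6 (Cert.s1 (Cert.s2 (Cert.s3 (Cert.L 120) Cert.a) Cert.a) (Cert.L 164)) (Cert.L 164)) (Cert.L 164))) (Cert.s3 (Cert.s5 (Cert.s6 (Cert.s1 (Cert.s2 (Cert.s3 Cert.a Cert.a) Cert.a) (Cert.L 164)) (Cert.L 164)) (Cert.L 164)) (Cert.s5 (Cert.s6 Cert.a (Cert.L 164)) (Cert.L 164)))) (Cert.L 164)))) (Cert.s5 (Cert.s6 Cert.a (Cert.s1 (Cert.s2 (Cert.s3 (Cert.L 124) (Cert.s4 (Cert.s5 (Cert.s6 Cert.c Cert.c) (Cert.L 164)) (Cert.L 164))) (Cert.s3 (Cert.s4 (Cert.s5 (Cert.s6 Cert.c Cert.c) (Cert.L 164)) (Cert.L 164)) (Cert.s4 (Cert.s5 Cert.c (Cert.L 168)) (Cert.L 168)))) (Cert.L 168))) (Cert.s6 Cert.a (Cert.L 168)))) (Cert.s4 (Cert.s5 (Cert.s6 Cert.a (Cert.s1 (Cert.s2 (Cert.s4 (Cert.s5 (Cert.s6 Cert.a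 Cert.c) (Cert.s6 Cert.a Cert.c)) (Cert.s5 (Cert.s6 Cert.a Cert.c) (Cert.s6 Cert.a Cert.c))) (Cert.s3 (Cert.s4 (Cert.s5 Cert.c (Cert.s6 Cert.a Cert.c)) (Cert.s5 Cert.c (Cert.s6 Cert.a Cert.c))) (Cert.s4 (Cert.s5 Cert.c Cert.c) (Cert.L 212)))) (Cert.s2 (Cert.s4 (Cert.s5 (Cert.s6 Cert.a Cert.c) (Cert.L 212)) (Cert.L 212)) (Cert.L 212)))) (Cert.s6 Cert.a (Cert.s1 (Cert.s2 (Cert.s5 (Cert.s6 Cert.a (Cert.L 168)) (Cert.L 168)) (Cert.L 192)) (Cert.L 192)))) (Cert.s5 (Cert.s6 Cert.a (Cert.s1 (Cert.s2 (Cert.s4 (Cert.s5 (Cert.s6 Cert.a Cert.c) (Cert.L 168)) (Cert.L 168)) (Cert.L 196)) (Cert.L 196))) (Cert.s6 Cert.a (Cert.L 196)))))))) (Cert.s6 Cert.a (Cert.s1 (Cert.s2 (Cert.L 96) (Cert.s3 (Cert.s5 (Cert.s6 Cert.a (Cert.L 144)) (Cert.L 144)) (Cert.s5 (Cert.s6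 Cert.a (Cert.s1 (Cert.s2 (Cert.L 156) (Cert.L 172)) (Cert.L 172))) (Cert.L 172)))) (Cert.L 172)))) (Cert.s5 (Cert.s6 Cert.a (Cert.s1 (Cert.s2 (Cert.L 128) (Cert.s3 (Cert.s4 (Cert.s5 (Cert.s6 Cert.a (Cert.L 160)) (Cert.s6 Cert.a (Cert.L 160))) (Cert.s5 (Cert.s6 Cert.a (Cert.L 160)) (Cert.L 160))) (Cert.s4 (Cert.s5 (Cert.s6 Cert.a (Cert.s1 (Cert.s2 (Cert.s4 (Cert.s5 (Cert.s6 Cert.a Cert.c) (Cert.L 160)) (Cert.L 160)) (Cert.s3 (Cert.s4 (Cert.s5 Cert.c (Cert.L 160)) (Cert.L 160)) (Cert.s4 (Cert.s5 Cert.c Cert.c) (Cert.L 160)))) (Cert.L 168))) (Cert.s6 Cert.a (Cert.L 168))) (Cert.s5 (Cert.s6 Cert.a (Cert.L 168)) (Cert.L 168))))) (Cert.s2 (Cert.L 168) (Cert.L 172)))) (Cert.s6 Cert.a (Cert.L 172)))) (Cert.s3 (Cert.s4 (Cert.s5 (Cert.s6 Cert.a (Cert.s1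 (Cert.s3 (Cert.s4 (Cert.s5 (Cert.s6 Cert.a (Cert.s1 (Cert.s3 (Cert.s4 (Cert.s5 Cert.c (Cert.s6 Cert.a Cert.c)) (Cert.s5 Cert.c (Cert.s6 Cert.a Cert.c))) (Cert.s4 (Cert.s5 Cert.c Cert.c) (Cert.s5 Cert.c Cert.c))) (Cert.s2 (Cert.s3 (Cert.s4 (Cert.s5 Cert.c (Cert.s6 Cert.a Cert.c)) (Cert.s5 Cert.c (Cert.s6 Cert.a Cert.c))) (Cert.s4 (Cert.s5 Cert.c Cert.c) (Cert.s5 Cert.c Cert.c))) (Cert.s3 (Cert.s4 (Cert.s5 Cert.c Cert.c) (Cert.s5 Cert.c Cert.c)) Cert.a)))) (Cert.s6 Cert.a (Cert.s1 (Cert.s3 (Cert.s5 (Cert.s6 Cert.a Cert.c) (Cert.L 156)) (Cert.s5 (Cert.s6 Cert.a Cert.c) (Cert.s6 Cert.a (Cert.L 160)))) (Cert.s2 (Cert.s3 (Cert.s5 (Cert.s6 Cert.a Cert.c) (Cert.L 160)) (Cert.s5 (Cert.s6 Cert.a Cert.c) (Cert.L 176))) (Cert.s3 (Cert.s5 (Cert.s6 Cert.a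 Cert.c) (Cert.L 176)) Cert.a))))) (Cert.s5 (Cert.s6 Cert.a (Cert.s1 (Cert.s3 (Cert.s4 (Cert.s5 Cert.c (Cert.s6 Cert.a Cert.c)) (Cert.s5 Cert.c (Cert.L 144))) (Cert.s4 (Cert.s5 Cert.c Cert.c) (Cert.s5 Cert.c Cert.c))) (Cert.s2 (Cert.s3 (Cert.s4 (Cert.s5 Cert.c (Cert.s6 Cert.a Cert.c)) (Cert.L 160)) (Cert.s4 (Cert.s5 Cert.c Cert.c) (Cert.s5 Cert.c Cert.c))) (Cert.s3 (Cert.s4 (Cert.s5 Cert.c Cert.c) (Cert.L 160)) Cert.a)))) (Cert.s6 Cert.a (Cert.s1 (Cert.s3 (Cert.L 160) (Cert.s4 (Cert.s5 (Cert.s6 Cert.a Cert.c) (Cert.L 160)) (Cert.L 160))) (Cert.L 176))))) (Cert.s4 (Cert.s5 (Cert.s6 Cert.a (Cert.s1 (Cert.s3 (Cert.s4 (Cert.s5 Cert.c Cert.c) (Cert.s5 Cert.c Cert.c)) Cert.a) (Cert.s2 (Cert.s3 (Cert.s4 (Cert.s5 Cert.c Cert.c) (Cert.s5 Cert.c Cert.c))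 Cert.a) Cert.a))) (Cert.s6 Cert.a (Cert.s1 (Cert.s3 (Cert.s5 (Cert.s6 Cert.a Cert.c) (Cert.s6 Cert.a Cert.c)) Cert.a) (Cert.s2 (Cert.s3 (Cert.s5 (Cert.s6 Cert.a Cert.c) (Cert.L 176)) Cert.a) Cert.a)))) (Cert.s5 (Cert.s6 Cert.a (Cert.s1 (Cert.s3 (Cert.s4 (Cert.s5 Cert.c Cert.c) (Cert.s5 Cert.c Cert.c)) Cert.a) (Cert.s2 (Cert.s3 (Cert.s4 (Cert.s5 Cert.c Cert.c) (Cert.L 180)) Cert.a) Cert.a))) (Cert.s6 Cert.a (Cert.s1 (Cert.s3 (Cert.s4 (Cert.s5 (Cert.s6 Cert.a Cert.c) (Cert.s6 Cert.a Cert.c)) (Cert.L 180)) Cert.a) (Cert.L 180)))))) (Cert.s2 (Cert.s3 (Cert.s4 (Cert.s5 (Cert.s6 Cert.a (Cert.s1 (Cert.s2 (Cert.s3 (Cert.s4 (Cert.s5 Cert.c (Cert.s6 Cert.a Cert.c)) (Cert.s5 Cert.c (Cert.s6 Cert.a Cert.c))) (Cert.s4 (Cert.s5 Cert.c Cert.c) (Cert.s5 Cert.c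 Cert.c))) (Cert.s3 (Cert.s4 (Cert.s5 Cert.c Cert.c) (Cert.L 180)) Cert.a)) (Cert.L 180))) (Cert.s6 Cert.a (Cert.L 180))) (Cert.s5 (Cert.s6 Cert.a (Cert.L 180)) (Cert.L 180))) (Cert.s4 (Cert.s5 (Cert.s6 Cert.a (Cert.L 256)) (Cert.L 256)) (Cert.L 256))) (Cert.L 256)))) (Cert.s6 Cert.a (Cert.s1 (Cert.s3 (Cert.s5 (Cert.s6 Cert.a (Cert.L 152)) (Cert.L 152)) (Cert.s5 (Cert.s6 Cert.a (Cert.L 160)) (Cert.L 160))) (Cert.L 164)))) (Cert.s5 (Cert.s6 Cert.a (Cert.s1 (Cert.s3 (Cert.s4 (Cert.s5 (Cert.s6 Cert.a (Cert.L 164)) (Cert.s6 Cert.a (Cert.L 164))) (Cert.L 164)) (Cert.s4 (Cert.s5 (Cert.s6 Cert.a (Cert.L 172)) (Cert.s6 Cert.a (Cert.L 172))) (Cert.L 172))) (Cert.L 172))) (Cert.s6 Cert.a (Cert.L 172)))) (Cert.s4 (Cert.s5 (Cert.s6 Cert.a (Cert.s1 Cert.a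 (Cert.L 208))) (Cert.s6 Cert.a (Cert.L 208))) (Cert.s5 (Cert.s6 Cert.a (Cert.L 208)) (Cert.L 208))))))) (Cert.s6 Cert.a (Cert.s1 (Cert.s5 (Cert.s6 Cert.a (Cert.L 144)) (Cert.L 152)) (Cert.s2 (Cert.s5 (Cert.s6 Cert.a (Cert.L 152)) (Cert.L 152)) (Cert.s3 (Cert.s5 (Cert.s6 Cert.a (Cert.L 152)) (Cert.L 156)) (Cert.L 168))))))))) (Cert.s1 (Cert.L 64) (Cert.s2 (Cert.L 92) (Cert.s3 (Cert.s5 (Cert.s1 (Cert.L 92) (Cert.s2 (Cert.L 128) (Cert.s3 (Cert.L 128) (Cert.s4 (Cert.s5 (Cert.s1 (Cert.s3 (Cert.L 128) (Cert.s4 (Cert.s5 (Cert.s1 (Cert.L 128) (Cert.s2 (Cert.s3 (Cert.L 128) (Cert.s4 (Cert.s5 Cert.c (Cert.L 132)) (Cert.L 132))) (Cert.s3 (Cert.L 132) (Cert.s4 (Cert.s5 Cert.c (Cert.L 140)) (Cert.L 140))))) (Cert.L 140)) (Cert.L 140))) (Cert.s2 (Cert.s3 (Cert.L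 140) (Cert.s4 (Cert.s5 (Cert.s1 (Cert.s2 (Cert.s3 (Cert.L 140) (Cert.s4 (Cert.s5 Cert.c (Cert.L 140)) (Cert.L 140))) (Cert.L 180)) (Cert.L 180)) (Cert.L 180)) (Cert.L 180))) (Cert.L 180))) (Cert.L 180)) (Cert.L 180))))) (Cert.L 180)) (Cert.s5 (Cert.s1 (Cert.s4 (Cert.s5 (Cert.s1 (Cert.L 64) (Cert.s2 (Cert.L 64) (Cert.s3 (Cert.L 88) (Cert.s4 (Cert.s5 (Cert.s1 (Cert.L 88) (Cert.s2 (Cert.L 88) (Cert.s3 (Cert.s4 (Cert.s5 Cert.c (Cert.s6 Cert.c (Cert.s1 (Cert.L 88) (Cert.s2 (Cert.s3 Cert.c Cert.c) Cert.c)))) (Cert.s5 Cert.c (Cert.s6 Cert.c (Cert.s1 (Cert.L 88) (Cert.s2 (Cert.s3 Cert.c Cert.c) Cert.c))))) (Cert.s4 (Cert.s5 Cert.c (Cert.s6 Cert.c Cert.c)) (Cert.s5 Cert.c (Cert.s6 Cert.c Cert.c)))))) (Cert.s6 (Cert.s1 (Cert.L 88) (Cert.s2 (Cert.L 88)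 (Cert.s3 (Cert.s5 (Cert.s6 (Cert.s1 (Cert.L 88) (Cert.s2 (Cert.s3 Cert.c Cert.c) Cert.c)) (Cert.s1 (Cert.L 88) (Cert.s2 (Cert.s3 (Cert.L 88) (Cert.s4 (Cert.s5 Cert.c Cert.c) (Cert.L 132))) (Cert.s3 (Cert.L 140) Cert.c)))) (Cert.L 152)) (Cert.s5 (Cert.s6 Cert.c (Cert.s1 (Cert.s4 (Cert.s5 Cert.c Cert.c) (Cert.L 152)) (Cert.s2 (Cert.s4 (Cert.s5 Cert.c Cert.c) (Cert.L 152)) Cert.c))) (Cert.L 156))))) (Cert.L 156))) (Cert.s5 (Cert.s1 (Cert.L 64) (Cert.s2 (Cert.L 84) (Cert.s3 (Cert.s4 (Cert.s5 Cert.c (Cert.s6 Cert.c (Cert.L 152))) (Cert.s5 Cert.c (Cert.L 152))) (Cert.s4 (Cert.s5 Cert.c (Cert.s6 Cert.c Cert.c)) (Cert.s5 Cert.c (Cert.L 152)))))) (Cert.L 156)))))) (Cert.L 156)) (Cert.L 156)) (Cert.s2 (Cert.s4 (Cert.s5 (Cert.s1 (Cert.s2 (Cert.L 84) (Cert.s3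 (Cert.s4 (Cert.s5 (Cert.s1 (Cert.s2 (Cert.L 84) (Cert.s3 (Cert.L 84) (Cert.s4 (Cert.s5 Cert.c (Cert.s6 Cert.c (Cert.s1 (Cert.s2 (Cert.L 84) (Cert.s3 Cert.c Cert.c)) (Cert.s2 (Cert.s3 (Cert.L 84) (Cert.s5 Cert.c Cert.c)) (Cert.s3 Cert.c Cert.c))))) (Cert.s5 Cert.c (Cert.s6 Cert.c (Cert.s1 (Cert.s2 (Cert.L 84) (Cert.s3 Cert.c Cert.c)) (Cert.s2 (Cert.s3 (Cert.L 84) (Cert.s4 (Cert.s5 Cert.c Cert.c) (Cert.L 124))) (Cert.s3 Cert.c Cert.c)))))))) (Cert.s2 (Cert.s3 (Cert.L 124) (Cert.s4 (Cert.s5 Cert.c (Cert.s6 (Cert.s1 (Cert.s2 (Cert.L 124) (Cert.s3 Cert.c Cert.c)) (Cert.s2 (Cert.L 88) (Cert.s3 Cert.c Cert.c))) (Cert.s1 (Cert.s2 (Cert.L 88) (Cert.s3 (Cert.L 88) (Cert.s5 Cert.c Cert.c))) (Cert.s2 (Cert.L 88) (Cert.s3 (Cert.L 92) (Cert.s5 Cert.c Cert.c))))))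 (Cert.s5 Cert.c (Cert.s6 (Cert.s1 (Cert.s2 (Cert.L 92) (Cert.s3 Cert.c Cert.c)) (Cert.s2 (Cert.L 96) (Cert.s3 Cert.c Cert.c))) (Cert.L 140))))) (Cert.s3 (Cert.s4 (Cert.s5 Cert.c (Cert.s6 (Cert.s1 (Cert.s2 (Cert.L 140) Cert.c) (Cert.s2 (Cert.L 140) Cert.c)) (Cert.L 140))) (Cert.s5 Cert.c (Cert.L 140))) (Cert.s4 (Cert.s5 Cert.c (Cert.s6 Cert.c (Cert.s1 (Cert.s2 (Cert.s3 (Cert.s5 Cert.c Cert.c) (Cert.s5 Cert.c Cert.c)) (Cert.s3 Cert.c Cert.c)) (Cert.s2 (Cert.s3 (Cert.s5 Cert.c Cert.c) (Cert.s5 Cert.c Cert.c)) (Cert.s3 Cert.c Cert.c))))) (Cert.s5 Cert.c (Cert.s6 Cert.c (Cert.s1 (Cert.s2 (Cert.s3 (Cert.L 140) (Cert.s4 (Cert.s5 Cert.c Cert.c) (Cert.L 140))) (Cert.s3 Cert.c Cert.c)) (Cert.L 156)))))))) (Cert.s6 (Cert.s1 (Cert.s2 (Cert.L 64) (Cert.s3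 (Cert.L 64) (Cert.s5 (Cert.s6 (Cert.s1 (Cert.s2 (Cert.L 64) (Cert.s3 (Cert.L 64) Cert.c)) (Cert.s2 (Cert.s3 (Cert.L 64) (Cert.s4 (Cert.s5 Cert.c Cert.c) (Cert.L 128))) (Cert.s3 (Cert.L 144) Cert.c))) (Cert.L 148)) (Cert.L 148)))) (Cert.s2 (Cert.L 148) (Cert.s3 (Cert.L 148) (Cert.s5 (Cert.s6 (Cert.s1 (Cert.s2 (Cert.s3 (Cert.L 148) (Cert.s4 (Cert.s5 Cert.c Cert.c) (Cert.L 148))) (Cert.s3 (Cert.L 148) Cert.c)) (Cert.L 156)) (Cert.L 156)) (Cert.L 156))))) (Cert.L 156))) (Cert.s5 (Cert.s1 (Cert.s2 (Cert.L 80) (Cert.s3 (Cert.L 80) (Cert.s4 (Cert.s5 Cert.c (Cert.L 152)) (Cert.L 152)))) (Cert.s2 (Cert.L 144) (Cert.s3 (Cert.L 144) (Cert.s4 (Cert.s5 Cert.c (Cert.L 152)) (Cert.L 152))))) (Cert.L 152))) (Cert.s4 (Cert.s5 (Cert.s1 (Cert.s2 (Cert.s4 (Cert.s5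 Cert.c (Cert.s6 (Cert.s1 (Cert.s2 Cert.c Cert.c) (Cert.s2 Cert.c Cert.c)) (Cert.s1 (Cert.s2 (Cert.L 64) (Cert.s3 (Cert.L 64) Cert.c)) (Cert.s2 (Cert.L 64) (Cert.s3 (Cert.s5 Cert.c Cert.c) Cert.c))))) (Cert.s5 Cert.c (Cert.s6 (Cert.s1 (Cert.s2 Cert.c Cert.c) (Cert.s2 Cert.c Cert.c)) (Cert.s1 (Cert.s2 (Cert.L 64) (Cert.s3 (Cert.L 64) Cert.c)) (Cert.s2 (Cert.L 64) (Cert.s3 (Cert.s4 (Cert.s5 Cert.c Cert.c) (Cert.L 132)) Cert.c)))))) (Cert.s3 (Cert.s4 (Cert.s5 Cert.c (Cert.s6 Cert.c (Cert.s1 (Cert.s2 (Cert.s3 Cert.c Cert.c) Cert.c) (Cert.s2 (Cert.s3 Cert.c Cert.c) Cert.c)))) (Cert.s5 Cert.c (Cert.s6 Cert.c (Cert.s1 (Cert.s2 (Cert.s3 Cert.c Cert.c) Cert.c) (Cert.s2 (Cert.s3 Cert.c Cert.c) Cert.c))))) (Cert.s4 (Cert.s5 Cert.c (Cert.s6 Cert.c Cert.c))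 (Cert.s5 Cert.c (Cert.s6 Cert.c Cert.c))))) (Cert.s2 (Cert.s4 (Cert.s5 Cert.c (Cert.s6 (Cert.s1 (Cert.s2 Cert.c Cert.c) (Cert.s2 Cert.c Cert.c)) (Cert.s1 (Cert.s2 (Cert.s5 Cert.c Cert.c) (Cert.s3 (Cert.s5 Cert.c Cert.c) Cert.c)) (Cert.s2 (Cert.s5 Cert.c Cert.c) (Cert.s3 (Cert.s5 Cert.c Cert.c) Cert.c))))) (Cert.s5 Cert.c (Cert.s6 (Cert.s1 (Cert.s2 Cert.c Cert.c) (Cert.s2 Cert.c Cert.c)) (Cert.s1 (Cert.s2 (Cert.L 132) (Cert.s3 (Cert.s4 (Cert.s5 Cert.c Cert.c) (Cert.L 140)) Cert.c)) (Cert.L 164))))) (Cert.s3 (Cert.s4 (Cert.s5 Cert.c (Cert.s6 Cert.c (Cert.s1 (Cert.s2 (Cert.s3 Cert.c Cert.c) Cert.c) (Cert.s2 (Cert.s3 Cert.c Cert.c) Cert.c)))) (Cert.s5 Cert.c (Cert.s6 Cert.c (Cert.s1 (Cert.s2 (Cert.s3 Cert.c Cert.c) Cert.c) (Cert.L 164))))) (Cert.s4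 (Cert.s5 Cert.c (Cert.s6 Cert.c Cert.c)) (Cert.s5 Cert.c (Cert.L 232)))))) (Cert.s6 (Cert.s1 (Cert.s2 (Cert.s5 (Cert.s6 (Cert.s1 (Cert.s2 (Cert.L 64) (Cert.s3 (Cert.L 64) (Cert.s4 (Cert.s5 Cert.c Cert.c) (Cert.s5 Cert.c Cert.c)))) (Cert.s2 (Cert.L 64) (Cert.s3 (Cert.s4 (Cert.s5 Cert.c Cert.c) (Cert.L 136)) (Cert.s4 (Cert.s5 Cert.c Cert.c) (Cert.s5 Cert.c Cert.c))))) (Cert.s1 (Cert.s2 (Cert.L 136) (Cert.s3 (Cert.L 136) (Cert.s4 (Cert.s5 Cert.c Cert.c) (Cert.L 136)))) (Cert.L 164))) (Cert.L 164)) (Cert.s3 (Cert.s5 (Cert.s6 (Cert.s1 (Cert.s2 (Cert.s3 Cert.c Cert.c) Cert.c) (Cert.s2 (Cert.s3 Cert.c Cert.c) Cert.c)) (Cert.s1 (Cert.s2 (Cert.s3 (Cert.L 144) (Cert.s4 (Cert.s5 Cert.c Cert.c) (Cert.L 152))) (Cert.s3 (Cert.L 156) Cert.c)) (Cert.s2 (Cert.s3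 (Cert.L 156) (Cert.L 172)) (Cert.L 172)))) (Cert.L 172)) (Cert.s5 (Cert.s6 Cert.c (Cert.s1 (Cert.s2 (Cert.s4 (Cert.s5 Cert.c Cert.c) (Cert.L 172)) Cert.c) (Cert.L 176))) (Cert.L 176)))) (Cert.s2 (Cert.s5 (Cert.s6 (Cert.s1 (Cert.s2 (Cert.L 112) (Cert.s3 (Cert.s4 (Cert.s5 Cert.c Cert.c) (Cert.L 144)) (Cert.s4 (Cert.s5 Cert.c Cert.c) (Cert.L 160)))) (Cert.L 164)) (Cert.L 164)) (Cert.L 164)) (Cert.s3 (Cert.s5 (Cert.s6 (Cert.s1 (Cert.s2 (Cert.s3 Cert.c Cert.c) Cert.c) (Cert.L 164)) (Cert.L 164)) (Cert.L 164)) (Cert.L 184)))) (Cert.L 156))) (Cert.s5 (Cert.s1 (Cert.s2 (Cert.s4 (Cert.s5 Cert.c (Cert.s6 (Cert.s1 (Cert.s2 Cert.c Cert.c) (Cert.s2 Cert.c Cert.c)) (Cert.L 156))) (Cert.L 156)) (Cert.s3 (Cert.s4 (Cert.s5 Cert.c (Cert.s6 Cert.c (Cert.L 156)))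 (Cert.L 164)) (Cert.s4 (Cert.s5 Cert.c (Cert.s6 Cert.c Cert.c)) (Cert.L 176)))) (Cert.s2 (Cert.s4 (Cert.s5 Cert.c (Cert.L 176)) (Cert.L 176)) (Cert.s3 (Cert.s4 (Cert.s5 Cert.c (Cert.L 176)) (Cert.L 176)) (Cert.L 188)))) (Cert.L 160))))) (Cert.s2 (Cert.s4 (Cert.s5 (Cert.s1 (Cert.s2 (Cert.L 64) (Cert.s3 (Cert.L 64) (Cert.s4 (Cert.s5 (Cert.s1 (Cert.L 76) (Cert.s2 (Cert.L 76) (Cert.s3 (Cert.L 76) Cert.c))) (Cert.L 116)) (Cert.L 116)))) (Cert.L 144)) (Cert.L 144)) (Cert.L 144)) (Cert.s3 (Cert.s4 (Cert.s5 (Cert.s1 (Cert.s2 (Cert.s3 (Cert.s4 (Cert.s5 (Cert.s1 (Cert.L 76) (Cert.s2 (Cert.L 76) Cert.c)) (Cert.L 116)) (Cert.L 116)) (Cert.s4 (Cert.s5 Cert.c (Cert.s6 (Cert.s1 (Cert.s2 (Cert.s3 (Cert.L 116) (Cert.s5 Cert.c Cert.c)) (Cert.s3 Cert.c Cert.c))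 (Cert.L 160)) (Cert.L 160))) (Cert.s5 Cert.c (Cert.L 160)))) (Cert.s3 (Cert.s4 (Cert.s5 Cert.c (Cert.L 160)) (Cert.L 160)) (Cert.s4 (Cert.s5 Cert.c (Cert.s6 Cert.c (Cert.L 160))) (Cert.s5 Cert.c (Cert.L 160))))) (Cert.L 164)) (Cert.L 164)) (Cert.L 164)) (Cert.s4 (Cert.s5 (Cert.s1 (Cert.s2 (Cert.s4 (Cert.s5 Cert.c (Cert.s6 (Cert.s1 (Cert.s2 Cert.c Cert.c) (Cert.L 168)) (Cert.L 168))) (Cert.s5 Cert.c (Cert.L 168))) (Cert.s3 (Cert.s4 (Cert.s5 Cert.c (Cert.L 184)) (Cert.L 188)) (Cert.L 212))) (Cert.L 212)) (Cert.L 212)) (Cert.L 212))))) (Cert.L 152)) (Cert.L 156)) (Cert.s3 (Cert.s4 (Cert.s5 (Cert.s1 (Cert.s3 (Cert.s4 (Cert.s5 (Cert.s1 (Cert.s3 (Cert.s4 (Cert.s5 Cert.c (Cert.s6 Cert.c (Cert.s1 (Cert.L 64) (Cert.s2 (Cert.s3 (Cert.L 64) Cert.c) Cert.c))))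 (Cert.s5 Cert.c (Cert.s6 Cert.c (Cert.L 140)))) (Cert.s4 (Cert.s5 Cert.c (Cert.s6 Cert.c Cert.c)) (Cert.s5 Cert.c (Cert.s6 Cert.c Cert.c)))) (Cert.s2 (Cert.s3 (Cert.s4 (Cert.s5 Cert.c (Cert.s6 Cert.c (Cert.s1 (Cert.s2 (Cert.s3 (Cert.L 140) Cert.c) Cert.c) (Cert.L 152)))) (Cert.s5 Cert.c (Cert.s6 Cert.c (Cert.L 152)))) (Cert.s4 (Cert.s5 Cert.c (Cert.s6 Cert.c Cert.c)) (Cert.s5 Cert.c (Cert.s6 Cert.c Cert.c)))) (Cert.s3 (Cert.s4 (Cert.s5 Cert.c (Cert.s6 Cert.c Cert.c)) (Cert.s5 Cert.c (Cert.L 160))) (Cert.s4 (Cert.s5 Cert.c (Cert.L 188)) (Cert.L 188))))) (Cert.s6 (Cert.s1 (Cert.s3 (Cert.L 144) (Cert.s5 (Cert.s6 Cert.c (Cert.L 156)) (Cert.L 156))) (Cert.L 164)) (Cert.L 164))) (Cert.s5 (Cert.s1 (Cert.s3 (Cert.L 148) (Cert.s4 (Cert.s5 Cert.c (Cert.L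 160)) (Cert.L 160))) (Cert.L 168)) (Cert.L 168))) (Cert.s4 (Cert.s5 (Cert.s1 (Cert.s3 (Cert.s4 (Cert.s5 Cert.c (Cert.s6 Cert.c Cert.c)) (Cert.s5 Cert.c (Cert.s6 Cert.c Cert.c))) (Cert.s4 (Cert.s5 Cert.c (Cert.s6 Cert.c Cert.c)) (Cert.s5 Cert.c (Cert.s6 Cert.c Cert.c)))) (Cert.s2 (Cert.s3 (Cert.s4 (Cert.s5 Cert.c (Cert.s6 Cert.c Cert.c)) (Cert.s5 Cert.c (Cert.L 196))) (Cert.L 244)) (Cert.L 244))) (Cert.s6 (Cert.s1 (Cert.s3 (Cert.s5 (Cert.s6 Cert.c Cert.c) (Cert.L 244)) (Cert.L 244)) (Cert.L 244)) (Cert.L 244))) (Cert.s5 (Cert.s1 (Cert.s3 (Cert.s4 (Cert.s5 Cert.c (Cert.L 168)) (Cert.L 168)) (Cert.L 200)) (Cert.L 200)) (Cert.L 200)))) (Cert.s2 (Cert.s3 (Cert.s4 (Cert.s5 (Cert.s1 (Cert.s2 (Cert.s3 (Cert.s4 (Cert.s5 Cert.c (Cert.L 200)) (Cert.L 200))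 (Cert.s4 (Cert.s5 Cert.c (Cert.L 200)) (Cert.L 200))) (Cert.L 200)) (Cert.L 200)) (Cert.L 200)) (Cert.L 200)) (Cert.L 200)) (Cert.L 200))) (Cert.L 200)) (Cert.L 200)) (Cert.L 252)))) (Cert.L 144)))))

def t2 : Cert := Cert.s1 (Cert.s2 (Cert.L 132) (Cert.s3 (Cert.s4 (Cert.L 132) (Cert.s5 (Cert.s1 (Cert.L 64) (Cert.s2 (Cert.L 64) (Cert.s3 (Cert.L 64) (Cert.s4 (Cert.L 64) (Cert.s5 Cert.a (Cert.s6 Cert.a (Cert.s1 (Cert.L 64) (Cert.s2 (Cert.L 64) (Cert.s3 (Cert.L 64) Cert.a))))))))) (Cert.s6 (Cert.s1 (Cert.L 64) (Cert.s2 (Cert.L 64) (Cert.s3 (Cert.L 64) (Cert.s4 (Cert.L 64) (Cert.s5 (Cert.s6 Cert.a (Cert.s1 (Cert.L 64) (Cert.s2 (Cert.L 64) (Cert.s3 (Cert.L 64) Cert.a)))) (Cert.s6 Cert.a (Cert.s1 (Cert.L 64) (Cert.s2 (Cert.L 64) (Cert.s3 (Cert.L 64)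 Cert.a))))))))) (Cert.s1 (Cert.L 64) (Cert.s2 (Cert.L 64) (Cert.s3 (Cert.L 64) (Cert.s4 (Cert.L 64) (Cert.s5 (Cert.s1 (Cert.L 64) (Cert.s2 (Cert.L 64) (Cert.s3 (Cert.L 64) (Cert.s4 (Cert.L 64) (Cert.s5 Cert.c (Cert.s6 Cert.c (Cert.L 156))))))) (Cert.L 156))))))))) (Cert.s4 (Cert.s5 (Cert.s1 (Cert.L 64) (Cert.s2 (Cert.L 64) (Cert.s3 (Cert.L 64) Cert.a))) (Cert.s6 (Cert.s1 (Cert.L 64) (Cert.s2 (Cert.L 64) (Cert.s3 (Cert.L 64) Cert.a))) (Cert.s1 (Cert.L 64) (Cert.s2 (Cert.L 64) (Cert.s3 (Cert.L 64) (Cert.s4 (Cert.L 68) (Cert.s5 (Cert.s1 (Cert.s2 (Cert.L 68) (Cert.s3 (Cert.L 68) (Cert.s4 (Cert.L 68) (Cert.s5 Cert.c (Cert.s6 Cert.c Cert.c))))) (Cert.s2 (Cert.L 68) (Cert.s3 (Cert.s4 (Cert.L 68) (Cert.s5 Cert.c (Cert.s6 Cert.c Cert.c))) (Cert.s4 (Cert.s5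 Cert.c (Cert.s6 Cert.c Cert.c)) (Cert.s5 Cert.c (Cert.s6 Cert.c Cert.c)))))) (Cert.s6 (Cert.s1 (Cert.s2 (Cert.L 68) (Cert.s3 (Cert.L 68) (Cert.s4 (Cert.L 68) (Cert.s5 (Cert.s6 Cert.c Cert.c) (Cert.L 136))))) (Cert.s2 (Cert.L 136) (Cert.s3 (Cert.L 136) (Cert.s4 (Cert.L 148) (Cert.s5 (Cert.s6 Cert.c Cert.c) (Cert.L 156)))))) (Cert.L 156))))))))) (Cert.s5 (Cert.s1 (Cert.s2 (Cert.L 64) (Cert.s3 (Cert.s4 (Cert.L 64) (Cert.s5 Cert.a (Cert.s6 Cert.a (Cert.s1 (Cert.L 64) (Cert.s2 (Cert.L 64) Cert.a))))) Cert.a)) (Cert.s2 (Cert.s4 (Cert.L 64) (Cert.s5 Cert.a (Cert.s6 Cert.a (Cert.s1 (Cert.L 64) (Cert.s2 (Cert.L 64) (Cert.s3 (Cert.L 64) (Cert.s4 (Cert.L 64) (Cert.s5 Cert.a (Cert.s6 Cert.a Cert.c))))))))) (Cert.s3 (Cert.s4 (Cert.s5 Cert.a (Cert.s6 Cert.a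 (Cert.s1 (Cert.L 64) (Cert.s2 (Cert.L 64) Cert.a)))) (Cert.s5 Cert.a (Cert.s6 Cert.a (Cert.s1 (Cert.s2 (Cert.s3 (Cert.L 64) Cert.a) Cert.a) (Cert.s2 (Cert.s3 (Cert.s4 (Cert.L 64) (Cert.s5 Cert.a Cert.c)) Cert.a) Cert.a))))) Cert.a))) (Cert.s6 (Cert.s1 (Cert.s2 (Cert.L 64) (Cert.s3 (Cert.s4 (Cert.L 64) (Cert.s5 (Cert.s6 Cert.a (Cert.s1 (Cert.L 64) (Cert.s2 (Cert.L 64) Cert.a))) (Cert.s6 Cert.a (Cert.s1 (Cert.L 64) (Cert.s2 (Cert.L 64) Cert.a))))) Cert.a)) (Cert.s2 (Cert.s4 (Cert.L 64) (Cert.s5 (Cert.s6 Cert.a (Cert.s1 (Cert.L 64) (Cert.s2 (Cert.L 64) (Cert.s3 (Cert.L 64) (Cert.s4 (Cert.L 64) (Cert.s5 (Cert.s6 Cert.a Cert.c) (Cert.s6 Cert.a Cert.c))))))) (Cert.s6 Cert.a (Cert.s1 (Cert.L 64) (Cert.s2 (Cert.L 64) (Cert.s3 (Cert.L 64) (Cert.s4 (Cert.L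 64) (Cert.s5 (Cert.s6 Cert.a (Cert.s1 (Cert.L 64) (Cert.s2 (Cert.L 64) (Cert.s3 Cert.a Cert.a)))) (Cert.s6 Cert.a (Cert.s1 (Cert.L 64) (Cert.s2 (Cert.L 64) (Cert.s3 Cert.a Cert.a)))))))))))) (Cert.s3 (Cert.s4 (Cert.s5 (Cert.s6 Cert.a (Cert.s1 (Cert.L 64) (Cert.s2 (Cert.L 64) Cert.a))) (Cert.s6 Cert.a (Cert.s1 (Cert.L 64) (Cert.s2 (Cert.L 64) Cert.a)))) (Cert.s5 (Cert.s6 Cert.a (Cert.s1 (Cert.s2 (Cert.s3 (Cert.L 64) Cert.a) Cert.a) (Cert.s2 (Cert.s3 (Cert.s4 (Cert.L 64) (Cert.s5 (Cert.s6 Cert.a Cert.c) (Cert.s6 Cert.a Cert.c))) Cert.a) Cert.a))) (Cert.s6 Cert.a (Cert.s1 (Cert.s2 (Cert.s3 (Cert.L 64) Cert.a) Cert.a) (Cert.s2 (Cert.s3 (Cert.s4 (Cert.L 64) (Cert.s5 (Cert.s6 Cert.a (Cert.s1 (Cert.L 64) (Cert.s2 (Cert.L 64) Cert.a))) (Cert.s6 Cert.a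 (Cert.s1 (Cert.L 64) (Cert.s2 (Cert.L 64) Cert.a))))) Cert.a) Cert.a))))) Cert.a))) (Cert.s1 (Cert.s2 (Cert.L 64) (Cert.s3 (Cert.s4 (Cert.L 64) (Cert.s5 (Cert.s1 (Cert.L 64) (Cert.s2 (Cert.L 64) (Cert.s3 (Cert.L 64) (Cert.s4 (Cert.L 64) (Cert.s5 Cert.c (Cert.s6 Cert.c Cert.c)))))) (Cert.s6 (Cert.s1 (Cert.L 64) (Cert.s2 (Cert.L 64) (Cert.s3 (Cert.L 64) (Cert.s4 (Cert.L 64) (Cert.s5 (Cert.s6 Cert.c (Cert.s1 (Cert.L 64) (Cert.s2 (Cert.L 64) (Cert.s3 Cert.c Cert.c)))) (Cert.s6 (Cert.s1 (Cert.L 64) (Cert.s2 (Cert.L 64) (Cert.s3 (Cert.L 64) Cert.c))) (Cert.L 168))))))) (Cert.L 168)))) (Cert.s4 (Cert.s5 (Cert.s1 (Cert.L 64) (Cert.s2 (Cert.L 64) (Cert.s3 (Cert.L 64) (Cert.s4 (Cert.L 64) (Cert.s5 Cert.c (Cert.s6 Cert.c Cert.c)))))) (Cert.s6 (Cert.s1 (Cert.L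 64) (Cert.s2 (Cert.L 64) (Cert.s3 (Cert.L 64) (Cert.s4 (Cert.L 76) (Cert.s5 (Cert.s6 Cert.c Cert.c) (Cert.s6 Cert.c (Cert.L 164))))))) (Cert.L 164))) (Cert.s5 (Cert.s1 (Cert.s2 (Cert.L 64) (Cert.s3 (Cert.s4 (Cert.L 64) (Cert.s5 Cert.c (Cert.s6 Cert.c Cert.c))) (Cert.s4 (Cert.s5 Cert.c (Cert.s6 Cert.c Cert.c)) (Cert.s5 Cert.c (Cert.s6 Cert.c Cert.c))))) (Cert.s2 (Cert.s4 (Cert.L 64) (Cert.s5 Cert.c (Cert.s6 Cert.c (Cert.s1 (Cert.L 64) (Cert.s2 Cert.c Cert.c))))) (Cert.s3 (Cert.s4 (Cert.s5 Cert.c (Cert.s6 Cert.c Cert.c)) (Cert.s5 Cert.c (Cert.s6 Cert.c Cert.c))) (Cert.s4 (Cert.s5 Cert.c (Cert.s6 Cert.c Cert.c)) (Cert.s5 Cert.c (Cert.s6 Cert.c Cert.c)))))) (Cert.s6 (Cert.s1 (Cert.s2 (Cert.L 64) (Cert.s3 (Cert.s4 (Cert.L 64) (Cert.s5 (Cert.s6 Cert.c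 (Cert.s1 (Cert.L 64) (Cert.s2 (Cert.L 64) Cert.c))) (Cert.s6 (Cert.s1 (Cert.L 64) (Cert.s2 (Cert.L 64) Cert.c)) (Cert.s1 (Cert.L 64) (Cert.s2 (Cert.L 64) (Cert.s3 (Cert.L 64) (Cert.s4 (Cert.L 64) (Cert.s5 Cert.c Cert.c)))))))) (Cert.s4 (Cert.s5 (Cert.s6 Cert.c Cert.c) (Cert.s6 Cert.c (Cert.s1 (Cert.s2 (Cert.L 64) (Cert.s3 Cert.c Cert.c)) (Cert.s2 (Cert.L 64) (Cert.s3 Cert.c Cert.c))))) (Cert.s5 (Cert.s6 Cert.c Cert.c) (Cert.s6 Cert.c (Cert.s1 (Cert.s2 (Cert.L 64) (Cert.s3 Cert.c Cert.c)) (Cert.s2 (Cert.s4 (Cert.L 64) (Cert.s5 Cert.c Cert.c)) (Cert.s3 Cert.c Cert.c)))))))) (Cert.s2 (Cert.s4 (Cert.L 64) (Cert.s5 (Cert.s6 (Cert.s1 (Cert.L 64) (Cert.s2 Cert.c Cert.c)) (Cert.s1 (Cert.L 64) (Cert.s2 (Cert.L 64) (Cert.s3 (Cert.L 64) Cert.c)))) (Cert.s6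 (Cert.s1 (Cert.L 64) (Cert.s2 (Cert.L 64) (Cert.s3 (Cert.L 64) (Cert.s4 (Cert.L 64) (Cert.s5 Cert.c Cert.c))))) (Cert.L 164)))) (Cert.s3 (Cert.s4 (Cert.s5 (Cert.s6 Cert.c (Cert.s1 (Cert.s2 (Cert.L 64) Cert.c) (Cert.s2 (Cert.s3 Cert.c Cert.c) Cert.c))) (Cert.s6 (Cert.s1 (Cert.s2 (Cert.L 64) Cert.c) (Cert.s2 (Cert.s3 (Cert.L 64) Cert.c) Cert.c)) (Cert.L 164))) (Cert.s5 (Cert.s6 Cert.c (Cert.s1 (Cert.s2 (Cert.s3 Cert.c Cert.c) Cert.c) (Cert.s2 (Cert.s3 Cert.c Cert.c) Cert.c))) (Cert.s6 (Cert.s1 (Cert.s2 (Cert.s3 (Cert.L 64) Cert.c) Cert.c) (Cert.s2 (Cert.s3 (Cert.s4 (Cert.L 64) (Cert.s5 Cert.c Cert.c)) Cert.c) Cert.c)) (Cert.s1 (Cert.s2 (Cert.s3 (Cert.L 64) (Cert.s4 (Cert.L 64) (Cert.s5 Cert.c Cert.c))) (Cert.s3 (Cert.s4 (Cert.L 64) (Cert.s5 Cert.c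 Cert.c)) (Cert.s4 (Cert.L 180) (Cert.s5 Cert.c Cert.c)))) (Cert.s2 (Cert.s3 (Cert.L 168) (Cert.s4 (Cert.L 168) (Cert.s5 Cert.c Cert.c))) (Cert.s3 (Cert.s4 (Cert.L 168) (Cert.s5 Cert.c Cert.c)) (Cert.s4 (Cert.L 180) (Cert.s5 Cert.c Cert.c)))))))) (Cert.s4 (Cert.s5 (Cert.s6 Cert.c Cert.c) (Cert.s6 Cert.c (Cert.L 184))) (Cert.s5 (Cert.s6 Cert.c Cert.c) (Cert.s6 Cert.c (Cert.s1 (Cert.s2 (Cert.s4 (Cert.L 184) (Cert.s5 Cert.c Cert.c)) (Cert.s3 Cert.c Cert.c)) (Cert.L 188)))))))) (Cert.s1 (Cert.s2 (Cert.L 64) (Cert.s3 (Cert.s4 (Cert.L 64) (Cert.s5 (Cert.s1 (Cert.L 64) (Cert.s2 (Cert.L 64) (Cert.s3 (Cert.L 64) Cert.c))) (Cert.L 148))) (Cert.s4 (Cert.s5 (Cert.s1 (Cert.L 148) (Cert.L 180)) (Cert.L 180)) (Cert.s5 (Cert.s1 (Cert.s2 (Cert.L 64) Cert.c) (Cert.s2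 (Cert.s4 (Cert.L 64) (Cert.s5 Cert.c Cert.c)) Cert.c)) (Cert.L 176))))) (Cert.s2 (Cert.L 176) (Cert.s3 (Cert.s4 (Cert.L 176) (Cert.s5 (Cert.s1 (Cert.s2 (Cert.s3 (Cert.L 176) (Cert.s4 (Cert.L 176) (Cert.s5 Cert.c Cert.c))) (Cert.s3 (Cert.s4 (Cert.L 176) (Cert.s5 Cert.c Cert.c)) Cert.c)) (Cert.s2 (Cert.L 184) (Cert.s3 (Cert.s4 (Cert.L 184) (Cert.s5 Cert.c Cert.c)) Cert.c))) (Cert.L 184))) (Cert.s4 (Cert.L 184) (Cert.s5 (Cert.s1 (Cert.s2 (Cert.s4 (Cert.L 184) (Cert.s5 Cert.c Cert.c)) Cert.c) (Cert.L 188)) (Cert.L 188))))))))))) (Cert.s2 (Cert.s4 (Cert.L 64) (Cert.s5 (Cert.s1 (Cert.L 64) (Cert.s2 (Cert.L 64) (Cert.s3 (Cert.L 64) (Cert.s4 (Cert.L 64) (Cert.s5 Cert.c (Cert.s6 (Cert.s1 (Cert.L 64) (Cert.s2 (Cert.L 64) (Cert.s3 Cert.c Cert.c))) (Cert.s1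 (Cert.L 64) (Cert.s2 (Cert.L 64) (Cert.s3 (Cert.L 64) (Cert.s4 (Cert.L 68) (Cert.s5 Cert.c Cert.c))))))))))) (Cert.s6 (Cert.s1 (Cert.L 68) (Cert.s2 (Cert.L 68) (Cert.s3 (Cert.L 68) (Cert.s4 (Cert.L 68) (Cert.s5 (Cert.s6 (Cert.s1 (Cert.L 68) (Cert.s2 (Cert.L 68) (Cert.s3 (Cert.L 68) (Cert.s4 (Cert.L 72) (Cert.s5 Cert.c Cert.c))))) (Cert.L 136)) (Cert.L 136)))))) (Cert.L 136)))) (Cert.s3 (Cert.s4 (Cert.s5 (Cert.s1 (Cert.L 64) (Cert.s2 (Cert.L 64) (Cert.s3 (Cert.L 64) (Cert.s4 (Cert.s5 Cert.c (Cert.L 84)) (Cert.s5 Cert.c (Cert.s6 Cert.c Cert.c)))))) (Cert.s6 (Cert.s1 (Cert.L 84) (Cert.s2 (Cert.L 84) (Cert.s3 (Cert.L 84) (Cert.s4 (Cert.L 84) (Cert.s5 (Cert.s6 Cert.c (Cert.L 148)) (Cert.L 148)))))) (Cert.L 148))) (Cert.s5 (Cert.s1 (Cert.s2 (Cert.s3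 (Cert.L 64) (Cert.s4 (Cert.L 64) (Cert.s5 Cert.c (Cert.s6 Cert.c (Cert.s1 (Cert.L 64) (Cert.s2 (Cert.L 64) (Cert.s3 Cert.c Cert.c))))))) (Cert.s3 (Cert.s4 (Cert.L 64) (Cert.s5 Cert.c (Cert.s6 Cert.c (Cert.s1 (Cert.L 64) (Cert.s2 (Cert.L 64) Cert.c))))) (Cert.s4 (Cert.s5 Cert.c (Cert.s6 Cert.c Cert.c)) (Cert.s5 Cert.c (Cert.s6 Cert.c Cert.c))))) (Cert.s2 (Cert.s3 (Cert.s4 (Cert.L 64) (Cert.s5 Cert.c (Cert.s6 (Cert.s1 (Cert.L 64) (Cert.s2 (Cert.L 64) Cert.c)) (Cert.s1 (Cert.L 64) (Cert.s2 (Cert.L 64) (Cert.s3 (Cert.L 64) (Cert.s4 (Cert.L 72) (Cert.s5 Cert.c Cert.c)))))))) (Cert.s4 (Cert.s5 Cert.c (Cert.s6 Cert.c (Cert.s1 (Cert.s2 (Cert.L 72) (Cert.s3 Cert.c Cert.c)) (Cert.L 176)))) (Cert.s5 Cert.c (Cert.s6 Cert.c (Cert.s1 (Cert.s2 (Cert.s3 (Cert.L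 64) (Cert.s4 (Cert.L 64) (Cert.s5 Cert.c Cert.c))) (Cert.s3 Cert.c Cert.c)) (Cert.s2 (Cert.s3 (Cert.s4 (Cert.L 68) (Cert.s5 Cert.c Cert.c)) (Cert.s4 (Cert.s5 Cert.c Cert.c) (Cert.s5 Cert.c Cert.c))) (Cert.s3 Cert.c Cert.c))))))) (Cert.s3 (Cert.s4 (Cert.s5 Cert.c (Cert.s6 Cert.c (Cert.s1 (Cert.s2 (Cert.L 68) Cert.c) (Cert.L 168)))) (Cert.s5 Cert.c (Cert.s6 Cert.c (Cert.s1 (Cert.s2 (Cert.s3 Cert.c Cert.c) Cert.c) (Cert.s2 (Cert.s3 Cert.c Cert.c) Cert.c))))) (Cert.s4 (Cert.s5 Cert.c (Cert.s6 Cert.c Cert.c)) (Cert.s5 Cert.c (Cert.s6 Cert.c Cert.c)))))) (Cert.s6 (Cert.s1 (Cert.s2 (Cert.s3 (Cert.L 64) (Cert.s4 (Cert.L 64) (Cert.s5 (Cert.s6 (Cert.s1 (Cert.L 64) (Cert.s2 (Cert.L 64) (Cert.s3 (Cert.L 64) Cert.c))) (Cert.s1 (Cert.L 64) (Cert.s2 (Cert.L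 64) (Cert.s3 (Cert.L 64) (Cert.s4 (Cert.L 68) (Cert.s5 Cert.c Cert.c)))))) (Cert.s6 (Cert.s1 (Cert.L 68) (Cert.s2 (Cert.L 68) (Cert.s3 (Cert.L 68) (Cert.s4 (Cert.L 72) (Cert.s5 Cert.c Cert.c))))) (Cert.L 144))))) (Cert.s3 (Cert.s4 (Cert.L 144) (Cert.s5 (Cert.s6 (Cert.s1 (Cert.L 64) (Cert.s2 (Cert.L 64) Cert.c)) (Cert.s1 (Cert.L 64) (Cert.s2 (Cert.L 64) (Cert.s3 (Cert.L 64) (Cert.s4 (Cert.L 80) (Cert.s5 Cert.c Cert.c)))))) (Cert.s6 (Cert.s1 (Cert.L 80) (Cert.s2 (Cert.L 80) (Cert.s3 (Cert.L 80) (Cert.s4 (Cert.L 96) (Cert.s5 Cert.c Cert.c))))) (Cert.L 144)))) (Cert.s4 (Cert.s5 (Cert.s6 Cert.c (Cert.L 172)) (Cert.s6 (Cert.s1 (Cert.L 168) (Cert.L 172)) (Cert.L 172))) (Cert.s5 (Cert.s6 Cert.c (Cert.s1 (Cert.s2 (Cert.s3 (Cert.L 64) (Cert.s4 (Cert.L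 64) (Cert.s5 Cert.c Cert.c))) (Cert.s3 Cert.c Cert.c)) (Cert.s2 (Cert.s3 (Cert.s4 (Cert.L 68) (Cert.s5 Cert.c Cert.c)) (Cert.s4 (Cert.L 172) (Cert.s5 Cert.c Cert.c))) (Cert.s3 Cert.c Cert.c)))) (Cert.s6 (Cert.s1 (Cert.s2 (Cert.s3 (Cert.L 64) (Cert.s4 (Cert.L 68) (Cert.s5 Cert.c Cert.c))) (Cert.s3 (Cert.s4 (Cert.L 76) (Cert.s5 Cert.c Cert.c)) Cert.c)) (Cert.s2 (Cert.s3 (Cert.s4 (Cert.L 76) (Cert.s5 Cert.c Cert.c)) (Cert.s4 (Cert.s5 Cert.c Cert.c) (Cert.s5 Cert.c Cert.c))) (Cert.s3 (Cert.s4 (Cert.L 172) (Cert.s5 Cert.c Cert.c)) Cert.c))) (Cert.L 172)))))) (Cert.s2 (Cert.s3 (Cert.s4 (Cert.L 172) (Cert.s5 (Cert.s6 (Cert.s1 (Cert.L 64) (Cert.s2 (Cert.L 64) (Cert.s3 (Cert.L 64) (Cert.s4 (Cert.L 76) (Cert.s5 Cert.c Cert.c))))) (Cert.L 136)) (Cert.L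 136))) (Cert.s4 (Cert.s5 (Cert.s6 (Cert.s1 (Cert.s2 (Cert.L 136) (Cert.s3 (Cert.L 136) Cert.c)) (Cert.L 176)) (Cert.L 176)) (Cert.L 176)) (Cert.s5 (Cert.s6 (Cert.s1 (Cert.s2 (Cert.s3 (Cert.L 64) (Cert.s4 (Cert.L 68) (Cert.s5 Cert.c Cert.c))) (Cert.s3 (Cert.s4 (Cert.L 68) (Cert.s5 Cert.c Cert.c)) Cert.c)) (Cert.s2 (Cert.s3 (Cert.s4 (Cert.L 72) (Cert.s5 Cert.c Cert.c)) (Cert.s4 (Cert.s5 Cert.c Cert.c) (Cert.s5 Cert.c Cert.c))) (Cert.s3 (Cert.s4 (Cert.L 160) (Cert.s5 Cert.c Cert.c)) Cert.c))) (Cert.L 180)) (Cert.L 180)))) (Cert.s3 (Cert.s4 (Cert.s5 (Cert.s6 (Cert.s1 (Cert.s2 (Cert.L 64) Cert.c) (Cert.L 168)) (Cert.L 168)) (Cert.L 168)) (Cert.s5 (Cert.s6 (Cert.s1 (Cert.s2 (Cert.s3 (Cert.L 64) Cert.c) Cert.c) (Cert.s2 (Cert.s3 (Cert.L 160) Cert.c)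 Cert.c)) (Cert.L 176)) (Cert.L 176))) (Cert.s4 (Cert.s5 (Cert.s6 Cert.c (Cert.L 176)) (Cert.L 176)) (Cert.s5 (Cert.s6 Cert.c (Cert.L 184)) (Cert.L 188)))))) (Cert.L 188)))) (Cert.s4 (Cert.s5 (Cert.s1 (Cert.s2 (Cert.L 64) (Cert.s3 (Cert.s4 (Cert.L 68) (Cert.s5 Cert.c (Cert.s6 Cert.c Cert.c))) (Cert.s4 (Cert.s5 Cert.c (Cert.s6 Cert.c Cert.c)) (Cert.s5 Cert.c (Cert.s6 Cert.c Cert.c))))) (Cert.s2 (Cert.s4 (Cert.L 68) (Cert.s5 Cert.c (Cert.s6 Cert.c (Cert.s1 (Cert.s2 Cert.c Cert.c) (Cert.L 168))))) (Cert.s3 (Cert.s4 (Cert.s5 Cert.c (Cert.s6 Cert.c Cert.c)) (Cert.s5 Cert.c (Cert.s6 Cert.c Cert.c))) (Cert.s4 (Cert.s5 Cert.c (Cert.s6 Cert.c Cert.c)) (Cert.s5 Cert.c (Cert.s6 Cert.c Cert.c)))))) (Cert.s6 (Cert.s1 (Cert.s2 (Cert.L 64) (Cert.s3 (Cert.s4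 (Cert.L 76) (Cert.s5 (Cert.s6 Cert.c (Cert.L 168)) (Cert.L 172))) (Cert.s4 (Cert.s5 (Cert.s6 Cert.c Cert.c) (Cert.L 172)) (Cert.s5 (Cert.s6 Cert.c Cert.c) (Cert.s6 Cert.c (Cert.L 172)))))) (Cert.s2 (Cert.s4 (Cert.L 172) (Cert.s5 (Cert.s6 (Cert.s1 (Cert.s2 Cert.c Cert.c) (Cert.L 172)) (Cert.L 172)) (Cert.L 172))) (Cert.s3 (Cert.s4 (Cert.s5 (Cert.s6 Cert.c (Cert.L 172)) (Cert.L 172)) (Cert.s5 (Cert.s6 Cert.c (Cert.L 172)) (Cert.L 172))) (Cert.s4 (Cert.s5 (Cert.s6 Cert.c Cert.c) (Cert.L 172)) (Cert.s5 (Cert.s6 Cert.c Cert.c) (Cert.L 180)))))) (Cert.L 180))) (Cert.s5 (Cert.s1 (Cert.s2 (Cert.s4 (Cert.s5 Cert.c (Cert.s6 Cert.c (Cert.s1 (Cert.s2 Cert.c Cert.c) (Cert.s2 Cert.c Cert.c)))) (Cert.s5 Cert.c (Cert.s6 Cert.c (Cert.s1 (Cert.s2 Cert.c Cert.c)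 (Cert.s2 Cert.c Cert.c))))) (Cert.s3 (Cert.s4 (Cert.s5 Cert.c (Cert.s6 Cert.c Cert.c)) (Cert.s5 Cert.c (Cert.s6 Cert.c Cert.c))) (Cert.s4 (Cert.s5 Cert.c (Cert.s6 Cert.c Cert.c)) (Cert.s5 Cert.c (Cert.s6 Cert.c Cert.c))))) (Cert.s2 (Cert.s4 (Cert.s5 Cert.c (Cert.s6 Cert.c (Cert.s1 (Cert.s2 Cert.c Cert.c) (Cert.s2 Cert.c Cert.c)))) (Cert.s5 Cert.c (Cert.s6 Cert.c (Cert.s1 (Cert.s2 Cert.c Cert.c) (Cert.s2 Cert.c Cert.c))))) (Cert.s3 (Cert.s4 (Cert.s5 Cert.c (Cert.s6 Cert.c Cert.c)) (Cert.s5 Cert.c (Cert.s6 Cert.c Cert.c))) (Cert.s4 (Cert.s5 Cert.c (Cert.s6 Cert.c Cert.c)) (Cert.s5 Cert.c (Cert.s6 Cert.c Cert.c)))))) (Cert.s6 (Cert.s1 (Cert.s2 (Cert.s4 (Cert.s5 (Cert.s6 (Cert.s1 (Cert.s2 Cert.c Cert.c) (Cert.s2 Cert.c Cert.c)) (Cert.L 168)) (Cert.L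 172)) (Cert.s5 (Cert.s6 (Cert.s1 (Cert.s2 Cert.c Cert.c) (Cert.s2 Cert.c Cert.c)) (Cert.s1 (Cert.s2 (Cert.L 64) (Cert.s3 (Cert.s4 (Cert.L 64) (Cert.s5 Cert.c Cert.c)) Cert.c)) (Cert.s2 (Cert.s4 (Cert.L 68) (Cert.s5 Cert.c Cert.c)) (Cert.s3 (Cert.s4 (Cert.s5 Cert.c Cert.c) (Cert.s5 Cert.c Cert.c)) Cert.c)))) (Cert.s6 (Cert.s1 (Cert.s2 (Cert.L 68) (Cert.s3 (Cert.s4 (Cert.L 68) (Cert.s5 Cert.c Cert.c)) (Cert.s4 (Cert.s5 Cert.c Cert.c) (Cert.s5 Cert.c Cert.c)))) (Cert.s2 (Cert.s4 (Cert.L 72) (Cert.s5 Cert.c (Cert.L 164))) (Cert.s3 (Cert.s4 (Cert.s5 Cert.c Cert.c) (Cert.s5 Cert.c Cert.c)) (Cert.s4 (Cert.s5 Cert.c Cert.c) (Cert.s5 Cert.c Cert.c))))) (Cert.L 172)))) (Cert.s3 (Cert.s4 (Cert.s5 (Cert.s6 Cert.c (Cert.s1 (Cert.s2 (Cert.s3 Cert.c Cert.c)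 Cert.c) (Cert.L 188))) (Cert.s6 (Cert.s1 (Cert.s2 (Cert.s3 (Cert.L 164) Cert.c) Cert.c) (Cert.s2 (Cert.L 184) Cert.c)) (Cert.L 184))) (Cert.s5 (Cert.s6 Cert.c (Cert.s1 (Cert.s2 (Cert.s3 Cert.c Cert.c) Cert.c) (Cert.s2 (Cert.s3 Cert.c Cert.c) Cert.c))) (Cert.s6 (Cert.s1 (Cert.s2 (Cert.s3 (Cert.s4 (Cert.s5 Cert.c Cert.c) (Cert.s5 Cert.c Cert.c)) Cert.c) Cert.c) (Cert.s2 (Cert.s3 (Cert.s4 (Cert.s5 Cert.c Cert.c) (Cert.s5 Cert.c Cert.c)) Cert.c) Cert.c)) (Cert.L 184)))) (Cert.s4 (Cert.s5 (Cert.s6 Cert.c Cert.c) (Cert.s6 Cert.c (Cert.L 184))) (Cert.s5 (Cert.s6 Cert.c Cert.c) (Cert.s6 Cert.c (Cert.L 184)))))) (Cert.s2 (Cert.s4 (Cert.s5 (Cert.s6 (Cert.s1 (Cert.s2 Cert.c Cert.c) (Cert.s2 Cert.c Cert.c)) (Cert.L 184)) (Cert.L 184)) (Cert.s5 (Cert.s6 (Cert.s1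 (Cert.s2 Cert.c Cert.c) (Cert.s2 Cert.c Cert.c)) (Cert.L 192)) (Cert.s6 (Cert.s1 (Cert.s2 (Cert.s4 (Cert.L 192) (Cert.s5 Cert.c (Cert.L 192))) (Cert.L 192)) (Cert.L 192)) (Cert.L 192)))) (Cert.s3 (Cert.s4 (Cert.s5 (Cert.s6 Cert.c (Cert.L 192)) (Cert.L 192)) (Cert.s5 (Cert.s6 Cert.c (Cert.L 192)) (Cert.L 192))) (Cert.s4 (Cert.s5 (Cert.s6 Cert.c Cert.c) (Cert.L 192)) (Cert.L 220))))) (Cert.L 184)))))))))))) (Cert.s2 (Cert.s4 (Cert.L 64) (Cert.s5 (Cert.s1 (Cert.L 64) (Cert.s2 (Cert.L 64) (Cert.s3 (Cert.L 64) (Cert.s4 (Cert.L 64) (Cert.s5 Cert.b (Cert.L 108)))))) (Cert.L 108))) (Cert.s3 (Cert.s4 (Cert.s5 (Cert.s1 (Cert.L 64) (Cert.s2 (Cert.L 64) (Cert.s3 (Cert.L 64) (Cert.s4 (Cert.L 64) (Cert.s5 Cert.a (Cert.s6 Cert.a (Cert.L 124))))))) (Cert.L 124))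 (Cert.s5 (Cert.s1 (Cert.s2 (Cert.s3 (Cert.L 124) (Cert.s4 (Cert.L 64) (Cert.s5 Cert.a (Cert.s6 Cert.a (Cert.s1 (Cert.L 64) (Cert.s2 (Cert.L 64) (Cert.s3 (Cert.L 64) (Cert.s4 (Cert.L 64) (Cert.s5 Cert.a Cert.d))))))))) (Cert.s3 (Cert.s4 (Cert.L 64) (Cert.s5 Cert.a (Cert.s6 Cert.a (Cert.s1 (Cert.L 64) (Cert.s2 (Cert.L 64) (Cert.s3 (Cert.L 64) (Cert.s4 (Cert.L 64) (Cert.s5 Cert.a Cert.d)))))))) (Cert.s4 (Cert.s5 Cert.a (Cert.s6 Cert.a (Cert.s1 (Cert.L 64) (Cert.s2 (Cert.L 64) (Cert.s3 (Cert.L 64) Cert.a))))) (Cert.s5 Cert.a (Cert.s6 Cert.a (Cert.s1 (Cert.s2 (Cert.s3 (Cert.L 64) (Cert.s4 (Cert.L 64) (Cert.s5 Cert.a (Cert.s6 Cert.a Cert.c)))) (Cert.s3 (Cert.s4 (Cert.L 64) (Cert.s5 Cert.a Cert.c)) Cert.a)) (Cert.s2 (Cert.s3 (Cert.s4 (Cert.L 64) (Cert.s5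 Cert.a Cert.d)) (Cert.s4 (Cert.s5 Cert.a (Cert.s6 Cert.a Cert.c)) (Cert.s5 Cert.a Cert.d))) (Cert.s3 (Cert.s4 (Cert.s5 Cert.a Cert.c) (Cert.s5 Cert.a Cert.c)) Cert.a)))))))) (Cert.s2 (Cert.s3 (Cert.s4 (Cert.L 64) (Cert.s5 Cert.a (Cert.L 112))) (Cert.s4 (Cert.s5 Cert.a (Cert.L 124)) (Cert.s5 Cert.a (Cert.s6 Cert.a (Cert.s1 (Cert.s2 (Cert.s3 (Cert.L 124) (Cert.s4 (Cert.L 124) Cert.b)) (Cert.s3 (Cert.s4 (Cert.L 124) Cert.b) (Cert.s4 (Cert.s5 Cert.a (Cert.L 124)) Cert.b))) (Cert.L 160)))))) (Cert.s3 (Cert.s4 (Cert.s5 Cert.a (Cert.L 124)) (Cert.s5 Cert.a (Cert.s6 Cert.a (Cert.s1 (Cert.s2 (Cert.s3 (Cert.L 124) (Cert.s4 (Cert.L 124) Cert.b)) (Cert.s3 (Cert.s4 (Cert.L 124) Cert.b) (Cert.s4 (Cert.s5 Cert.a (Cert.L 128)) Cert.b))) (Cert.L 160))))) (Cert.s4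 (Cert.s5 Cert.a (Cert.s6 Cert.a (Cert.s1 (Cert.s2 (Cert.s3 (Cert.L 160) (Cert.s4 (Cert.L 160) (Cert.s5 Cert.a (Cert.L 160)))) (Cert.s3 (Cert.s4 (Cert.L 160) (Cert.s5 Cert.a Cert.c)) Cert.a)) (Cert.L 160)))) (Cert.s5 Cert.a (Cert.s6 Cert.a (Cert.s1 (Cert.s2 (Cert.s3 (Cert.s4 (Cert.s5 Cert.a (Cert.L 160)) Cert.b) (Cert.s4 (Cert.s5 Cert.a (Cert.s6 Cert.a Cert.c)) Cert.b)) (Cert.s3 (Cert.s4 (Cert.s5 Cert.a Cert.c) Cert.b) Cert.a)) (Cert.L 176)))))))) (Cert.s6 (Cert.s1 (Cert.s2 (Cert.s3 (Cert.L 64) (Cert.s4 (Cert.L 64) (Cert.s5 (Cert.s6 Cert.a (Cert.s1 (Cert.L 64) (Cert.s2 (Cert.L 64) (Cert.s3 (Cert.L 64) (Cert.s4 (Cert.L 64) (Cert.s5 (Cert.s6 Cert.a Cert.c) (Cert.L 140))))))) (Cert.s6 Cert.a (Cert.L 140))))) (Cert.s3 (Cert.s4 (Cert.L 140) (Cert.s5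 (Cert.s6 Cert.a (Cert.s1 (Cert.L 64) (Cert.s2 (Cert.L 64) (Cert.s3 (Cert.L 64) (Cert.s4 (Cert.L 64) (Cert.s5 (Cert.s6 Cert.a Cert.c) (Cert.L 140))))))) (Cert.s6 Cert.a (Cert.L 140)))) (Cert.s4 (Cert.s5 (Cert.s6 Cert.a (Cert.s1 (Cert.L 64) (Cert.s2 (Cert.L 64) (Cert.s3 (Cert.L 64) Cert.a)))) (Cert.s6 Cert.a (Cert.L 136))) (Cert.s5 (Cert.s6 Cert.a (Cert.s1 (Cert.s2 (Cert.s3 (Cert.L 64) (Cert.s4 (Cert.L 64) (Cert.s5 (Cert.s6 Cert.a Cert.c) (Cert.s6 Cert.a Cert.d)))) (Cert.s3 (Cert.s4 (Cert.L 64) (Cert.s5 (Cert.s6 Cert.a Cert.c) (Cert.s6 Cert.a Cert.c))) Cert.a)) (Cert.s2 (Cert.s3 (Cert.s4 (Cert.L 64) (Cert.s5 (Cert.s6 Cert.a Cert.c) (Cert.L 140))) (Cert.s4 (Cert.s5 (Cert.s6 Cert.a Cert.c) (Cert.L 140)) (Cert.s5 (Cert.s6 Cert.a Cert.c) (Cert.s6 Cert.a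 Cert.d)))) (Cert.s3 (Cert.s4 (Cert.s5 (Cert.s6 Cert.a Cert.c) (Cert.L 144)) (Cert.s5 (Cert.s6 Cert.a Cert.c) (Cert.s6 Cert.a Cert.c))) Cert.a)))) (Cert.s6 Cert.a (Cert.s1 (Cert.s2 (Cert.s3 (Cert.L 144) (Cert.s4 (Cert.L 144) (Cert.s5 (Cert.s6 Cert.a (Cert.L 144)) (Cert.L 152)))) (Cert.s3 (Cert.s4 (Cert.L 152) (Cert.s5 (Cert.s6 Cert.a (Cert.L 152)) (Cert.L 152))) Cert.a)) (Cert.L 184))))))) (Cert.s2 (Cert.s3 (Cert.L 104) (Cert.s4 (Cert.L 112) (Cert.s5 (Cert.s6 Cert.a (Cert.L 160)) (Cert.L 172)))) (Cert.s3 (Cert.s4 (Cert.L 172) (Cert.s5 (Cert.s6 Cert.a (Cert.L 172)) (Cert.L 172))) (Cert.s4 (Cert.s5 (Cert.s6 Cert.a (Cert.L 172)) (Cert.L 172)) (Cert.s5 (Cert.s6 Cert.a (Cert.L 184)) (Cert.L 184)))))) (Cert.s1 (Cert.s2 (Cert.L 120) (Cert.s3 (Cert.L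 124) (Cert.s4 (Cert.L 132) (Cert.s5 (Cert.s1 (Cert.s2 (Cert.s3 (Cert.L 132) (Cert.s4 (Cert.L 132) (Cert.s5 Cert.c (Cert.L 144)))) (Cert.s3 (Cert.s4 (Cert.L 144) (Cert.s5 Cert.c (Cert.L 144))) (Cert.s4 (Cert.s5 Cert.c (Cert.L 148)) (Cert.s5 Cert.c (Cert.s6 Cert.c (Cert.L 160)))))) (Cert.L 184)) (Cert.L 184))))) (Cert.L 184))))) (Cert.s4 (Cert.s5 (Cert.s1 (Cert.s2 (Cert.L 64) (Cert.s3 (Cert.s4 (Cert.s5 Cert.a (Cert.L 64)) (Cert.s5 Cert.a (Cert.s6 Cert.a (Cert.s1 (Cert.s2 (Cert.L 64) Cert.a) (Cert.s2 (Cert.s3 (Cert.L 64) Cert.a) Cert.a))))) Cert.a)) (Cert.s2 (Cert.s4 (Cert.L 64) (Cert.s5 Cert.a (Cert.s6 Cert.a (Cert.L 120)))) (Cert.s3 (Cert.s4 (Cert.s5 Cert.a (Cert.s6 Cert.a (Cert.s1 (Cert.s2 (Cert.L 120) Cert.a) (Cert.L 140)))) (Cert.s5 Cert.a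 (Cert.s6 Cert.a (Cert.s1 (Cert.s2 (Cert.s3 (Cert.L 140) Cert.a) Cert.a) (Cert.L 164))))) Cert.a))) (Cert.s6 (Cert.s1 (Cert.s2 (Cert.L 64) (Cert.s3 (Cert.s4 (Cert.L 68) (Cert.s5 (Cert.s6 Cert.a (Cert.s1 (Cert.s2 (Cert.L 68) Cert.a) (Cert.s2 (Cert.L 128) Cert.a))) (Cert.s6 Cert.a (Cert.L 156)))) Cert.a)) (Cert.s2 (Cert.L 124) (Cert.s3 (Cert.s4 (Cert.s5 (Cert.s6 Cert.a (Cert.L 124)) (Cert.L 128)) (Cert.s5 (Cert.s6 Cert.a (Cert.L 168)) (Cert.L 172))) Cert.a))) (Cert.s1 (Cert.s2 (Cert.L 172) (Cert.s3 (Cert.L 144) (Cert.s4 (Cert.s5 (Cert.s1 (Cert.s2 (Cert.L 144) (Cert.s3 (Cert.L 144) (Cert.s4 (Cert.L 144) (Cert.s5 Cert.c (Cert.L 152))))) (Cert.L 168)) (Cert.L 168)) (Cert.s5 (Cert.s1 (Cert.s2 (Cert.L 136) (Cert.s3 (Cert.s4 (Cert.s5 Cert.c (Cert.L 136))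 (Cert.s5 Cert.c (Cert.L 164))) (Cert.s4 (Cert.s5 Cert.c (Cert.L 176)) (Cert.s5 Cert.c (Cert.L 184))))) (Cert.L 184)) (Cert.L 184))))) (Cert.L 184)))) (Cert.s5 (Cert.s1 (Cert.s2 (Cert.s4 (Cert.s5 Cert.a (Cert.s6 Cert.a (Cert.s1 (Cert.L 64) (Cert.s2 (Cert.L 64) (Cert.s3 (Cert.L 64) (Cert.s4 (Cert.s5 Cert.a (Cert.s6 Cert.a Cert.c)) (Cert.s5 Cert.a (Cert.s6 Cert.a Cert.c)))))))) (Cert.s5 Cert.a (Cert.s6 Cert.a (Cert.s1 (Cert.s2 (Cert.L 64) (Cert.s3 (Cert.s4 (Cert.L 64) (Cert.s5 Cert.a (Cert.s6 Cert.a Cert.c))) (Cert.s4 (Cert.s5 Cert.a (Cert.s6 Cert.a Cert.c)) (Cert.s5 Cert.a (Cert.s6 Cert.a Cert.c))))) (Cert.s2 (Cert.s4 (Cert.L 64) (Cert.s5 Cert.a Cert.d)) (Cert.s3 (Cert.s4 (Cert.s5 Cert.a (Cert.s6 Cert.a Cert.c)) (Cert.s5 Cert.a Cert.d)) (Cert.s4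 (Cert.s5 Cert.a (Cert.s6 Cert.a Cert.c)) (Cert.s5 Cert.a Cert.d)))))))) (Cert.s3 (Cert.s4 (Cert.s5 Cert.a (Cert.s6 Cert.a (Cert.s1 (Cert.s2 (Cert.s3 (Cert.L 64) Cert.a) Cert.a) (Cert.s2 (Cert.s3 (Cert.s4 (Cert.s5 Cert.a Cert.c) (Cert.s5 Cert.a Cert.c)) Cert.a) Cert.a)))) (Cert.s5 Cert.a (Cert.s6 Cert.a (Cert.s1 (Cert.s2 (Cert.s3 (Cert.s4 (Cert.s5 Cert.a Cert.c) (Cert.s5 Cert.a Cert.c)) Cert.a) Cert.a) (Cert.s2 (Cert.s3 (Cert.s4 (Cert.s5 Cert.a Cert.c) (Cert.s5 Cert.a Cert.c)) Cert.a) Cert.a))))) Cert.a)) (Cert.s2 (Cert.s4 (Cert.s5 Cert.a (Cert.s6 Cert.a (Cert.s1 (Cert.s2 (Cert.L 64) (Cert.s3 (Cert.s4 (Cert.L 72) (Cert.s5 Cert.a (Cert.L 140))) (Cert.s4 (Cert.s5 Cert.a (Cert.s6 Cert.a Cert.c)) (Cert.s5 Cert.a (Cert.s6 Cert.a Cert.c))))) (Cert.L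 164)))) (Cert.s5 Cert.a (Cert.s6 Cert.a (Cert.s1 (Cert.s2 (Cert.s4 (Cert.s5 Cert.a (Cert.L 164)) Cert.b) (Cert.s3 (Cert.s4 (Cert.s5 Cert.a (Cert.s6 Cert.a Cert.c)) Cert.b) (Cert.s4 (Cert.s5 Cert.a (Cert.s6 Cert.a Cert.c)) Cert.b))) (Cert.L 176))))) (Cert.s3 (Cert.s4 (Cert.s5 Cert.a (Cert.s6 Cert.a (Cert.s1 (Cert.s2 (Cert.s3 (Cert.s4 (Cert.s5 Cert.a Cert.c) (Cert.s5 Cert.a Cert.c)) Cert.a) Cert.a) (Cert.L 176)))) (Cert.s5 Cert.a (Cert.s6 Cert.a (Cert.s1 (Cert.s2 (Cert.s3 (Cert.s4 (Cert.s5 Cert.a Cert.c) Cert.b) Cert.a) Cert.a) (Cert.L 180))))) Cert.a))) (Cert.s6 (Cert.s1 (Cert.s2 (Cert.s4 (Cert.s5 (Cert.s6 Cert.a (Cert.s1 (Cert.L 64) (Cert.s2 (Cert.L 64) (Cert.s3 (Cert.L 64) (Cert.s4 (Cert.L 80) (Cert.s5 (Cert.s6 Cert.a Cert.c) (Cert.s6 Cert.a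 Cert.c))))))) (Cert.s6 Cert.a (Cert.L 136))) (Cert.s5 (Cert.s6 Cert.a (Cert.s1 (Cert.s2 (Cert.L 64) (Cert.s3 (Cert.s4 (Cert.L 64) (Cert.s5 (Cert.s6 Cert.a Cert.c) (Cert.s6 Cert.a Cert.d))) (Cert.s4 (Cert.s5 (Cert.s6 Cert.a Cert.c) (Cert.s6 Cert.a Cert.c)) (Cert.s5 (Cert.s6 Cert.a Cert.c) (Cert.s6 Cert.a Cert.c))))) (Cert.s2 (Cert.s4 (Cert.L 64) (Cert.s5 (Cert.s6 Cert.a Cert.d) (Cert.L 140))) (Cert.s3 (Cert.s4 (Cert.s5 (Cert.s6 Cert.a Cert.c) (Cert.L 144)) (Cert.s5 (Cert.s6 Cert.a Cert.c) (Cert.s6 Cert.a Cert.d))) (Cert.s4 (Cert.s5 (Cert.s6 Cert.a Cert.c) (Cert.s6 Cert.a Cert.c)) (Cert.s5 (Cert.s6 Cert.a Cert.c) (Cert.s6 Cert.a Cert.c))))))) (Cert.s6 Cert.a (Cert.s1 (Cert.s2 (Cert.L 144) (Cert.s3 (Cert.s4 (Cert.L 144) (Cert.s5 (Cert.s6 Cert.a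 (Cert.L 152)) (Cert.L 160))) (Cert.s4 (Cert.s5 (Cert.s6 Cert.a (Cert.L 160)) (Cert.L 160)) (Cert.s5 (Cert.s6 Cert.a (Cert.s1 (Cert.s2 (Cert.L 160) (Cert.s3 Cert.a Cert.a)) (Cert.L 184))) (Cert.s6 Cert.a (Cert.L 184)))))) (Cert.s2 (Cert.L 184) (Cert.s3 (Cert.L 188) (Cert.L 192))))))) (Cert.s3 (Cert.s4 (Cert.s5 (Cert.s6 Cert.a (Cert.s1 (Cert.s2 (Cert.s3 (Cert.L 64) Cert.a) Cert.a) (Cert.s2 (Cert.s3 (Cert.s4 (Cert.L 84) (Cert.s5 (Cert.s6 Cert.a Cert.c) (Cert.s6 Cert.a Cert.c))) Cert.a) Cert.a))) (Cert.s6 Cert.a (Cert.s1 (Cert.s2 (Cert.s3 (Cert.L 84) Cert.a) Cert.a) (Cert.L 184)))) (Cert.s5 (Cert.s6 Cert.a (Cert.s1 (Cert.s2 (Cert.s3 (Cert.s4 (Cert.s5 (Cert.s6 Cert.a Cert.c) (Cert.s6 Cert.a Cert.c)) (Cert.s5 (Cert.s6 Cert.a Cert.c) (Cert.s6 Cert.a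 Cert.c))) Cert.a) Cert.a) (Cert.s2 (Cert.s3 (Cert.s4 (Cert.s5 (Cert.s6 Cert.a Cert.c) (Cert.s6 Cert.a Cert.c)) (Cert.s5 (Cert.s6 Cert.a Cert.c) (Cert.s6 Cert.a Cert.c))) Cert.a) Cert.a))) (Cert.s6 Cert.a (Cert.s1 (Cert.s2 (Cert.s3 (Cert.s4 (Cert.s5 (Cert.s6 Cert.a (Cert.L 152)) (Cert.L 156)) (Cert.s5 (Cert.s6 Cert.a (Cert.s1 (Cert.s2 (Cert.s3 (Cert.L 156) Cert.a) Cert.a) (Cert.L 184))) (Cert.s6 Cert.a (Cert.L 184)))) Cert.a) Cert.a) (Cert.L 192))))) Cert.a)) (Cert.s2 (Cert.s4 (Cert.s5 (Cert.s6 Cert.a (Cert.L 192)) (Cert.L 192)) (Cert.s5 (Cert.s6 Cert.a (Cert.L 192)) (Cert.L 192))) (Cert.s3 (Cert.s4 (Cert.s5 (Cert.s6 Cert.a (Cert.L 192)) (Cert.L 192)) (Cert.s5 (Cert.s6 Cert.a (Cert.L 192)) (Cert.L 192))) Cert.a))) (Cert.s1 (Cert.s2 (Cert.s4 (Cert.L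 132) (Cert.s5 (Cert.s1 (Cert.s2 (Cert.L 132) (Cert.s3 (Cert.s4 (Cert.L 132) (Cert.s5 Cert.d (Cert.L 148))) (Cert.s4 (Cert.s5 Cert.c (Cert.L 152)) (Cert.s5 Cert.c (Cert.s6 (Cert.s1 (Cert.s2 (Cert.L 152) (Cert.s3 Cert.c Cert.c)) (Cert.L 184)) (Cert.L 184)))))) (Cert.L 188)) (Cert.L 188))) (Cert.s3 (Cert.s4 (Cert.s5 (Cert.s1 (Cert.s2 (Cert.s3 (Cert.L 64) (Cert.s4 (Cert.L 72) (Cert.s5 Cert.c (Cert.L 156)))) (Cert.s3 (Cert.s4 (Cert.L 156) (Cert.s5 Cert.c (Cert.L 156))) (Cert.s4 (Cert.s5 Cert.c (Cert.L 160)) (Cert.s5 Cert.c (Cert.s6 Cert.c Cert.c))))) (Cert.L 180)) (Cert.L 180)) (Cert.s5 (Cert.s1 (Cert.s2 (Cert.s3 (Cert.s4 (Cert.s5 Cert.c (Cert.L 148)) (Cert.s5 Cert.c (Cert.s6 (Cert.s1 (Cert.s2 (Cert.s3 Cert.c Cert.c) Cert.c) (Cert.L 180)) (Cert.L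 180)))) (Cert.s4 (Cert.s5 Cert.c (Cert.s6 Cert.c (Cert.L 180))) (Cert.s5 Cert.c (Cert.s6 Cert.c (Cert.L 180))))) (Cert.s3 (Cert.s4 (Cert.s5 Cert.c (Cert.s6 Cert.c (Cert.L 180))) (Cert.s5 Cert.c (Cert.s6 Cert.c (Cert.L 180)))) (Cert.s4 (Cert.s5 Cert.c (Cert.s6 Cert.c Cert.c)) (Cert.s5 Cert.c (Cert.s6 Cert.c Cert.c))))) (Cert.L 188)) (Cert.L 188))) (Cert.s4 (Cert.s5 (Cert.s1 (Cert.s2 (Cert.s4 (Cert.s5 Cert.c (Cert.L 160)) (Cert.s5 Cert.c (Cert.s6 Cert.c (Cert.L 164)))) (Cert.s3 (Cert.s4 (Cert.s5 Cert.c (Cert.L 188)) (Cert.s5 Cert.c (Cert.s6 Cert.c Cert.c))) (Cert.s4 (Cert.s5 Cert.c (Cert.L 188)) (Cert.s5 Cert.c (Cert.L 188))))) (Cert.L 188)) (Cert.L 188)) (Cert.s5 (Cert.s1 (Cert.s2 (Cert.s4 (Cert.s5 Cert.c (Cert.s6 Cert.c (Cert.L 188))) (Cert.s5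 Cert.c (Cert.s6 Cert.c (Cert.L 188)))) (Cert.s3 (Cert.s4 (Cert.s5 Cert.c (Cert.s6 Cert.c Cert.c)) (Cert.s5 Cert.c (Cert.L 200))) (Cert.L 240))) (Cert.L 240)) (Cert.L 188))))) (Cert.L 188)))))))

def t3 : Cert := Cert.s3 (Cert.s4 (Cert.s5 (Cert.s1 (Cert.L 64) (Cert.s2 (Cert.L 64) (Cert.s3 Cert.a Cert.a))) (Cert.s6 (Cert.s1 (Cert.L 64) (Cert.s2 (Cert.L 64) (Cert.s3 Cert.a Cert.a))) (Cert.L 156))) (Cert.s5 (Cert.s1 (Cert.s3 (Cert.L 64) (Cert.s4 (Cert.L 64) (Cert.s5 Cert.a (Cert.s6 Cert.a (Cert.s1 (Cert.L 64) (Cert.s2 (Cert.L 64) Cert.a)))))) (Cert.s2 (Cert.s3 (Cert.s4 (Cert.L 64) (Cert.s5 Cert.a (Cert.s6 Cert.a (Cert.s1 (Cert.L 64) (Cert.s2 (Cert.L 64) (Cert.s3 (Cert.L 64) Cert.a)))))) (Cert.s4 (Cert.s5 Cert.a (Cert.s6 Cert.a (Cert.s1 (Cert.L 64)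 (Cert.s2 (Cert.L 64) Cert.a)))) (Cert.s5 Cert.a (Cert.s6 Cert.a (Cert.s1 (Cert.s2 (Cert.s3 Cert.a Cert.a) Cert.a) (Cert.s2 (Cert.s3 Cert.a Cert.a) Cert.a)))))) (Cert.s3 Cert.a Cert.a))) (Cert.s6 (Cert.s1 (Cert.s3 (Cert.L 64) (Cert.s4 (Cert.L 64) (Cert.s5 (Cert.s6 Cert.a (Cert.s1 (Cert.L 64) (Cert.s2 (Cert.L 64) Cert.a))) (Cert.s6 Cert.a (Cert.s1 (Cert.L 64) (Cert.s2 (Cert.L 64) Cert.a)))))) (Cert.s2 (Cert.s3 (Cert.s4 (Cert.L 64) (Cert.s5 (Cert.s6 Cert.a (Cert.s1 (Cert.L 64) (Cert.s2 (Cert.L 64) (Cert.s3 (Cert.L 64) Cert.a)))) (Cert.s6 Cert.a (Cert.s1 (Cert.L 64) (Cert.s2 (Cert.L 64) (Cert.s3 (Cert.L 64) Cert.a)))))) (Cert.s4 (Cert.s5 (Cert.s6 Cert.a (Cert.s1 (Cert.L 64) (Cert.s2 (Cert.L 64) Cert.a))) (Cert.s6 Cert.a (Cert.s1 (Cert.L 64) (Cert.s2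 (Cert.L 64) Cert.a)))) (Cert.s5 (Cert.s6 Cert.a (Cert.s1 (Cert.s2 (Cert.s3 Cert.a Cert.a) Cert.a) (Cert.s2 (Cert.s3 Cert.a Cert.a) Cert.a))) (Cert.s6 Cert.a (Cert.s1 (Cert.s2 (Cert.s3 Cert.a Cert.a) Cert.a) (Cert.s2 (Cert.s3 Cert.a Cert.a) Cert.a)))))) (Cert.s3 Cert.a Cert.a))) (Cert.s1 (Cert.s3 (Cert.L 64) (Cert.s4 (Cert.L 64) (Cert.s5 (Cert.s1 (Cert.L 64) (Cert.s2 (Cert.L 64) (Cert.s3 (Cert.L 64) (Cert.s4 (Cert.L 64) (Cert.s5 Cert.c (Cert.s6 Cert.c Cert.c)))))) (Cert.s6 (Cert.s1 (Cert.L 64) (Cert.s2 (Cert.L 64) (Cert.s3 (Cert.L 64) (Cert.s4 (Cert.L 64) (Cert.s5 (Cert.s6 Cert.c Cert.c) (Cert.L 164)))))) (Cert.L 164))))) (Cert.s2 (Cert.s3 (Cert.s4 (Cert.L 164) (Cert.s5 (Cert.s1 (Cert.L 64) (Cert.s2 (Cert.L 64) (Cert.s3 (Cert.L 64) (Cert.s4 (Cert.L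 64) (Cert.s5 Cert.c (Cert.L 156)))))) (Cert.L 156))) (Cert.s4 (Cert.s5 (Cert.s1 (Cert.L 64) (Cert.s2 (Cert.L 64) (Cert.s3 (Cert.L 64) (Cert.s4 (Cert.L 136) (Cert.s5 Cert.c (Cert.s6 Cert.c Cert.c)))))) (Cert.L 148)) (Cert.s5 (Cert.s1 (Cert.s2 (Cert.s3 (Cert.L 64) (Cert.s4 (Cert.L 64) (Cert.s5 Cert.c (Cert.s6 Cert.c Cert.c)))) (Cert.s3 (Cert.s4 (Cert.L 64) (Cert.s5 Cert.c (Cert.s6 Cert.c Cert.c))) (Cert.s4 (Cert.s5 Cert.c (Cert.s6 Cert.c Cert.c)) (Cert.s5 Cert.c (Cert.s6 Cert.c Cert.c))))) (Cert.s2 (Cert.s3 (Cert.s4 (Cert.L 64) (Cert.s5 Cert.c (Cert.s6 Cert.c (Cert.L 148)))) (Cert.s4 (Cert.s5 Cert.c (Cert.s6 Cert.c Cert.c)) (Cert.s5 Cert.c (Cert.s6 Cert.c Cert.c)))) (Cert.s3 (Cert.s4 (Cert.s5 Cert.c (Cert.L 156)) (Cert.s5 Cert.c (Cert.s6 Cert.c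 Cert.c))) (Cert.s4 (Cert.s5 Cert.c (Cert.s6 Cert.c Cert.c)) (Cert.s5 Cert.c (Cert.s6 Cert.c Cert.c)))))) (Cert.s6 (Cert.s1 (Cert.s2 (Cert.s3 (Cert.L 156) (Cert.s4 (Cert.L 156) (Cert.s5 (Cert.s6 (Cert.s1 (Cert.L 64) (Cert.s2 (Cert.L 64) Cert.c)) (Cert.L 152)) (Cert.L 156)))) (Cert.s3 (Cert.L 168) (Cert.s4 (Cert.L 168) (Cert.s5 (Cert.s6 Cert.c Cert.c) (Cert.L 168))))) (Cert.s2 (Cert.s3 (Cert.L 168) (Cert.s4 (Cert.L 168) (Cert.s5 (Cert.s6 (Cert.s1 (Cert.s2 (Cert.s3 Cert.c Cert.c) Cert.c) (Cert.L 176)) (Cert.L 176)) (Cert.L 176)))) (Cert.s3 (Cert.L 176) (Cert.s4 (Cert.L 176) (Cert.s5 (Cert.s6 Cert.c Cert.c) (Cert.L 176)))))) (Cert.L 176))))) (Cert.s3 (Cert.s4 (Cert.L 148) (Cert.s5 (Cert.s1 (Cert.s3 (Cert.L 148) (Cert.s4 (Cert.L 148) (Cert.s5 Cert.c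 (Cert.L 168)))) (Cert.s2 (Cert.s3 (Cert.s4 (Cert.L 168) (Cert.s5 Cert.c (Cert.L 168))) (Cert.s4 (Cert.s5 Cert.c (Cert.L 168)) (Cert.s5 Cert.c (Cert.L 172)))) (Cert.s3 (Cert.s4 (Cert.L 172) (Cert.s5 Cert.c (Cert.L 172))) (Cert.s4 (Cert.s5 Cert.c (Cert.L 172)) (Cert.s5 Cert.c (Cert.L 172)))))) (Cert.L 172))) (Cert.s4 (Cert.s5 (Cert.s1 (Cert.s3 (Cert.L 68) (Cert.s4 (Cert.s5 Cert.a (Cert.L 120)) (Cert.s5 Cert.a (Cert.s6 Cert.a Cert.c)))) (Cert.s2 (Cert.s3 (Cert.s4 (Cert.L 120) (Cert.s5 Cert.c (Cert.L 152))) (Cert.s4 (Cert.s5 Cert.a (Cert.L 156)) (Cert.s5 Cert.a (Cert.s6 Cert.a Cert.c)))) (Cert.s3 (Cert.s4 (Cert.L 156) (Cert.s5 Cert.a (Cert.L 156))) (Cert.s4 (Cert.s5 Cert.a Cert.c) (Cert.s5 Cert.a Cert.c))))) (Cert.L 160)) (Cert.s5 (Cert.s1 (Cert.s3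 (Cert.s4 (Cert.s5 Cert.c (Cert.s6 Cert.c Cert.c)) (Cert.s5 Cert.c (Cert.s6 Cert.c Cert.c))) (Cert.s4 (Cert.s5 Cert.a (Cert.s6 Cert.a Cert.c)) (Cert.s5 Cert.a (Cert.s6 Cert.a Cert.c)))) (Cert.s2 (Cert.s3 (Cert.s4 (Cert.s5 Cert.c (Cert.L 172)) (Cert.s5 Cert.c (Cert.s6 Cert.c Cert.c))) (Cert.s4 (Cert.s5 Cert.a (Cert.s6 Cert.a Cert.c)) (Cert.s5 Cert.a (Cert.s6 Cert.a Cert.c)))) (Cert.s3 (Cert.s4 (Cert.s5 Cert.a (Cert.L 172)) (Cert.s5 Cert.a (Cert.L 184))) (Cert.s4 (Cert.s5 Cert.a Cert.c) (Cert.L 204))))) (Cert.s6 (Cert.s1 (Cert.s3 (Cert.L 172) (Cert.s4 (Cert.L 172) (Cert.s5 (Cert.s6 Cert.a Cert.c) (Cert.L 172)))) (Cert.L 184)) (Cert.L 184)))))))))) (Cert.s4 (Cert.s5 (Cert.s1 (Cert.s3 Cert.a Cert.a) (Cert.s2 (Cert.s3 Cert.a Cert.a) Cert.a)) (Cert.s6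 (Cert.s1 (Cert.s3 Cert.a Cert.a) (Cert.s2 (Cert.s3 Cert.a Cert.a) Cert.a)) (Cert.s1 (Cert.s3 (Cert.L 64) (Cert.s4 (Cert.L 64) (Cert.s5 (Cert.s1 (Cert.L 64) (Cert.s2 (Cert.s3 (Cert.L 64) (Cert.s4 (Cert.L 64) (Cert.s5 Cert.a Cert.c))) (Cert.s3 (Cert.s4 (Cert.L 64) (Cert.s5 Cert.a Cert.c)) (Cert.s4 (Cert.s5 Cert.a Cert.c) (Cert.s5 Cert.a Cert.c))))) (Cert.s6 (Cert.s1 (Cert.L 64) (Cert.s2 (Cert.s3 (Cert.L 64) (Cert.s4 (Cert.L 64) (Cert.s5 (Cert.s6 Cert.a Cert.c) (Cert.L 148)))) (Cert.s3 (Cert.s4 (Cert.L 148) (Cert.s5 (Cert.s6 Cert.a Cert.c) (Cert.L 148))) (Cert.s4 (Cert.s5 Cert.c (Cert.L 152)) (Cert.s5 Cert.c (Cert.L 168)))))) (Cert.L 168))))) (Cert.s2 (Cert.s3 (Cert.s4 (Cert.L 68) (Cert.s5 (Cert.s1 (Cert.s2 (Cert.L 68) (Cert.s3 (Cert.L 68) (Cert.s4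 (Cert.L 68) (Cert.s5 Cert.a Cert.c)))) (Cert.s2 (Cert.s3 (Cert.L 68) (Cert.s4 (Cert.L 68) (Cert.s5 Cert.c (Cert.L 144)))) (Cert.s3 (Cert.s4 (Cert.L 144) (Cert.s5 Cert.a (Cert.L 144))) (Cert.s4 (Cert.s5 Cert.a Cert.c) (Cert.s5 Cert.a Cert.c))))) (Cert.L 156))) (Cert.s4 (Cert.s5 (Cert.s1 (Cert.s2 (Cert.L 64) (Cert.s3 (Cert.L 64) (Cert.s4 (Cert.s5 Cert.a Cert.c) (Cert.s5 Cert.a Cert.c)))) (Cert.s2 (Cert.s3 (Cert.L 64) (Cert.s4 (Cert.s5 Cert.a Cert.c) (Cert.s5 Cert.a Cert.c))) (Cert.s3 (Cert.s4 (Cert.s5 Cert.a Cert.c) (Cert.s5 Cert.a Cert.c)) (Cert.s4 (Cert.s5 Cert.a Cert.c) (Cert.s5 Cert.a Cert.c))))) (Cert.L 168)) (Cert.s5 (Cert.s1 (Cert.s2 (Cert.s3 (Cert.s4 (Cert.L 64) (Cert.s5 Cert.a (Cert.s6 Cert.a Cert.c))) (Cert.s4 (Cert.s5 Cert.a Cert.c)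 (Cert.s5 Cert.a Cert.c))) (Cert.s3 (Cert.s4 (Cert.s5 Cert.a Cert.c) (Cert.s5 Cert.a Cert.c)) (Cert.s4 (Cert.s5 Cert.a Cert.c) (Cert.s5 Cert.a Cert.c)))) (Cert.s2 (Cert.s3 (Cert.s4 (Cert.s5 Cert.a (Cert.s6 Cert.a Cert.c)) (Cert.s5 Cert.a (Cert.s6 Cert.a Cert.c))) (Cert.s4 (Cert.s5 Cert.a Cert.c) (Cert.s5 Cert.a Cert.c))) (Cert.s3 (Cert.s4 (Cert.s5 Cert.a Cert.c) (Cert.s5 Cert.a Cert.c)) (Cert.s4 (Cert.s5 Cert.a Cert.c) (Cert.s5 Cert.a Cert.c))))) (Cert.s6 (Cert.s1 (Cert.s2 (Cert.s3 (Cert.L 156) (Cert.s4 (Cert.L 172) (Cert.s5 (Cert.s6 Cert.a Cert.c) (Cert.L 172)))) (Cert.s3 (Cert.s4 (Cert.L 172) (Cert.s5 (Cert.s6 Cert.a Cert.c) (Cert.L 172))) (Cert.s4 (Cert.s5 Cert.c (Cert.L 172)) (Cert.s5 Cert.c (Cert.L 172))))) (Cert.s2 (Cert.s3 (Cert.L 172)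 (Cert.s4 (Cert.L 172) (Cert.s5 (Cert.s6 Cert.a Cert.c) (Cert.L 172)))) (Cert.L 180))) (Cert.L 180))))) (Cert.s3 (Cert.s4 (Cert.s5 (Cert.s1 (Cert.L 64) (Cert.s2 (Cert.s3 (Cert.L 68) (Cert.s4 (Cert.L 136) (Cert.s5 Cert.a Cert.c))) (Cert.s3 (Cert.L 148) Cert.a))) (Cert.L 148)) (Cert.s5 (Cert.s1 (Cert.s3 (Cert.s4 (Cert.L 148) (Cert.s5 Cert.a Cert.c)) (Cert.s4 (Cert.s5 Cert.a Cert.c) (Cert.s5 Cert.a Cert.c))) (Cert.s2 (Cert.s3 (Cert.s4 (Cert.L 156) (Cert.s5 Cert.a Cert.c)) (Cert.s4 (Cert.s5 Cert.a Cert.c) (Cert.s5 Cert.a Cert.c))) (Cert.s3 (Cert.s4 (Cert.s5 Cert.a Cert.c) (Cert.s5 Cert.a Cert.c)) Cert.a))) (Cert.L 168))) (Cert.s4 (Cert.s5 (Cert.s1 (Cert.s3 Cert.a Cert.a) (Cert.s2 (Cert.s3 Cert.a Cert.a) Cert.a)) (Cert.L 172)) (Cert.s5 (Cert.s1 (Cert.s3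 Cert.a Cert.a) (Cert.s2 (Cert.s3 Cert.a Cert.a) Cert.a)) (Cert.L 184)))))))) (Cert.s5 (Cert.s1 (Cert.s3 Cert.a Cert.a) (Cert.s2 (Cert.s3 Cert.a Cert.a) Cert.a)) (Cert.s6 (Cert.s1 (Cert.s3 Cert.a Cert.a) (Cert.s2 (Cert.s3 Cert.a Cert.a) Cert.a)) (Cert.s1 (Cert.s3 (Cert.s4 (Cert.s5 (Cert.s1 (Cert.L 64) (Cert.s2 (Cert.L 64) (Cert.s3 (Cert.L 64) (Cert.s4 (Cert.s5 Cert.a Cert.c) (Cert.s5 Cert.a Cert.c))))) (Cert.s6 (Cert.s1 (Cert.L 64) (Cert.s2 (Cert.L 64) (Cert.s3 (Cert.L 64) (Cert.s4 (Cert.L 80) (Cert.s5 (Cert.s6 Cert.a Cert.c) (Cert.L 168)))))) (Cert.L 168))) (Cert.s5 (Cert.s1 (Cert.s3 (Cert.L 64) (Cert.s4 (Cert.L 64) (Cert.s5 Cert.c (Cert.s6 Cert.c Cert.c)))) (Cert.s2 (Cert.s3 (Cert.s4 (Cert.L 64) (Cert.s5 Cert.c (Cert.s6 Cert.c Cert.c))) (Cert.s4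 (Cert.s5 Cert.c (Cert.s6 Cert.c Cert.c)) (Cert.s5 Cert.c (Cert.s6 Cert.c Cert.c)))) (Cert.s3 (Cert.s4 (Cert.s5 Cert.a (Cert.s6 Cert.a Cert.c)) (Cert.s5 Cert.a (Cert.s6 Cert.a Cert.c))) (Cert.s4 (Cert.s5 Cert.a Cert.c) (Cert.s5 Cert.a Cert.c))))) (Cert.s6 (Cert.s1 (Cert.s3 (Cert.L 64) (Cert.s4 (Cert.L 64) (Cert.s5 (Cert.s6 Cert.c Cert.c) (Cert.s6 (Cert.s1 (Cert.L 64) (Cert.s2 (Cert.L 64) Cert.a)) (Cert.L 172))))) (Cert.s2 (Cert.s3 (Cert.s4 (Cert.L 64) (Cert.s5 (Cert.s6 Cert.c (Cert.s1 (Cert.L 64) (Cert.s2 (Cert.L 64) Cert.c))) (Cert.s6 (Cert.s1 (Cert.L 64) (Cert.s2 (Cert.L 64) (Cert.s3 Cert.c Cert.a))) (Cert.L 152)))) (Cert.s4 (Cert.s5 (Cert.s6 Cert.c Cert.c) (Cert.s6 (Cert.s1 (Cert.s2 (Cert.L 152) Cert.a) (Cert.s2 (Cert.s3 Cert.a Cert.a) Cert.a))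 (Cert.L 152))) (Cert.s5 (Cert.s6 Cert.c Cert.c) (Cert.s6 (Cert.s1 (Cert.s2 (Cert.s3 Cert.a Cert.a) Cert.a) (Cert.s2 (Cert.s3 Cert.a Cert.a) Cert.a)) (Cert.L 180))))) (Cert.s3 (Cert.s4 (Cert.s5 (Cert.s6 Cert.a Cert.c) (Cert.L 180)) (Cert.s5 (Cert.s6 Cert.a Cert.c) (Cert.s6 Cert.a (Cert.L 180)))) (Cert.s4 (Cert.s5 (Cert.s6 Cert.a Cert.c) (Cert.s6 Cert.a Cert.c)) (Cert.s5 (Cert.s6 Cert.a Cert.c) (Cert.s6 Cert.a Cert.c)))))) (Cert.s1 (Cert.L 168) (Cert.L 180))))) (Cert.s4 (Cert.s5 (Cert.s1 (Cert.s3 (Cert.L 64) (Cert.s4 (Cert.L 64) (Cert.s5 Cert.a Cert.c))) (Cert.s2 (Cert.s3 (Cert.s4 (Cert.L 64) (Cert.s5 Cert.a (Cert.s6 Cert.a Cert.c))) (Cert.s4 (Cert.s5 Cert.a Cert.c) (Cert.s5 Cert.a Cert.c))) (Cert.s3 (Cert.s4 (Cert.s5 Cert.a Cert.c) (Cert.s5 Cert.a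 Cert.c)) (Cert.s4 (Cert.s5 Cert.a Cert.c) (Cert.s5 Cert.a Cert.c))))) (Cert.s6 (Cert.s1 (Cert.s3 (Cert.L 64) (Cert.s4 (Cert.L 68) (Cert.s5 (Cert.s6 Cert.a Cert.c) (Cert.s6 Cert.a Cert.c)))) (Cert.s2 (Cert.s3 (Cert.s4 (Cert.L 72) (Cert.s5 (Cert.s6 Cert.a Cert.c) (Cert.s6 Cert.a (Cert.L 156)))) (Cert.s4 (Cert.s5 (Cert.s6 Cert.a Cert.c) (Cert.s6 Cert.a Cert.c)) (Cert.s5 (Cert.s6 Cert.a Cert.c) (Cert.s6 Cert.a Cert.c)))) (Cert.s3 (Cert.s4 (Cert.s5 (Cert.s6 Cert.a Cert.c) (Cert.L 168)) (Cert.s5 (Cert.s6 Cert.a Cert.c) (Cert.s6 Cert.a Cert.c))) (Cert.s4 (Cert.s5 Cert.c (Cert.s6 Cert.a Cert.c)) (Cert.s5 Cert.c (Cert.s6 Cert.a Cert.c)))))) (Cert.L 176))) (Cert.s5 (Cert.s1 (Cert.s3 (Cert.s4 (Cert.s5 Cert.a (Cert.s6 Cert.a Cert.c)) (Cert.s5 Cert.a (Cert.s6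 Cert.a Cert.c))) (Cert.s4 (Cert.s5 Cert.a Cert.c) (Cert.s5 Cert.a Cert.c))) (Cert.s2 (Cert.s3 (Cert.s4 (Cert.s5 Cert.a (Cert.s6 Cert.a Cert.c)) (Cert.s5 Cert.a (Cert.s6 Cert.a Cert.c))) (Cert.s4 (Cert.s5 Cert.a Cert.c) (Cert.s5 Cert.a Cert.c))) (Cert.s3 (Cert.s4 (Cert.s5 Cert.a Cert.c) (Cert.s5 Cert.a Cert.c)) (Cert.s4 (Cert.s5 Cert.a Cert.c) (Cert.s5 Cert.a Cert.c))))) (Cert.s6 (Cert.s1 (Cert.s3 (Cert.s4 (Cert.s5 (Cert.s6 Cert.a Cert.c) (Cert.s6 Cert.a (Cert.L 176))) (Cert.s5 (Cert.s6 Cert.a Cert.c) (Cert.s6 Cert.a (Cert.s1 (Cert.s3 Cert.c Cert.c) (Cert.s2 (Cert.s3 Cert.c Cert.c) Cert.c))))) (Cert.s4 (Cert.s5 (Cert.s6 Cert.a Cert.c) (Cert.s6 Cert.a Cert.c)) (Cert.s5 (Cert.s6 Cert.a Cert.c) (Cert.s6 Cert.a Cert.c)))) (Cert.s2 (Cert.s3 (Cert.s4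 (Cert.s5 (Cert.s6 Cert.a Cert.c) (Cert.s6 Cert.a (Cert.L 176))) (Cert.s5 (Cert.s6 Cert.a Cert.c) (Cert.s6 Cert.a (Cert.s1 (Cert.s2 (Cert.s3 Cert.c Cert.c) Cert.c) (Cert.s2 (Cert.s3 Cert.c Cert.c) Cert.c))))) (Cert.s4 (Cert.s5 (Cert.s6 Cert.a Cert.c) (Cert.s6 Cert.a Cert.c)) (Cert.s5 (Cert.s6 Cert.a Cert.c) (Cert.s6 Cert.a Cert.c)))) (Cert.s3 (Cert.s4 (Cert.s5 (Cert.s6 Cert.a Cert.c) (Cert.s6 Cert.a Cert.c)) (Cert.s5 (Cert.s6 Cert.a Cert.c) (Cert.s6 Cert.a Cert.c))) (Cert.s4 (Cert.s5 Cert.c (Cert.s6 Cert.a Cert.c)) (Cert.s5 Cert.c (Cert.L 212)))))) (Cert.s1 (Cert.s3 (Cert.s4 (Cert.L 164) (Cert.s5 Cert.c (Cert.L 168))) (Cert.s4 (Cert.s5 Cert.c (Cert.L 168)) (Cert.s5 Cert.c (Cert.L 176)))) (Cert.s2 (Cert.s3 (Cert.s4 (Cert.L 176) (Cert.s5 Cert.c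 (Cert.L 176))) (Cert.L 192)) (Cert.L 192))))))) (Cert.s2 (Cert.s3 (Cert.s4 (Cert.s5 (Cert.s1 (Cert.s2 (Cert.s3 (Cert.L 64) (Cert.s4 (Cert.s5 Cert.c (Cert.s6 Cert.c Cert.c)) (Cert.s5 Cert.c (Cert.s6 Cert.c Cert.c)))) (Cert.s3 (Cert.s4 (Cert.s5 Cert.a (Cert.s6 Cert.a Cert.c)) (Cert.s5 Cert.a (Cert.s6 Cert.a Cert.c))) (Cert.s4 (Cert.s5 Cert.a Cert.c) (Cert.s5 Cert.a Cert.c)))) (Cert.s2 (Cert.s3 (Cert.s4 (Cert.s5 Cert.c (Cert.L 96)) (Cert.s5 Cert.c (Cert.s6 Cert.c Cert.c))) (Cert.s4 (Cert.s5 Cert.c (Cert.s6 Cert.c Cert.c)) (Cert.s5 Cert.c (Cert.s6 Cert.c Cert.c)))) (Cert.s3 (Cert.s4 (Cert.s5 Cert.a (Cert.s6 Cert.a Cert.c)) (Cert.s5 Cert.a (Cert.s6 Cert.a Cert.c))) (Cert.s4 (Cert.s5 Cert.a Cert.c) (Cert.s5 Cert.a Cert.c))))) (Cert.s6 (Cert.s1 (Cert.s2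 (Cert.s3 (Cert.L 96) (Cert.s4 (Cert.L 96) (Cert.s5 (Cert.s6 Cert.c Cert.c) (Cert.L 160)))) (Cert.s3 (Cert.s4 (Cert.L 160) (Cert.s5 (Cert.s6 Cert.a Cert.c) (Cert.L 160))) (Cert.s4 (Cert.s5 (Cert.s6 Cert.a Cert.c) (Cert.L 160)) (Cert.s5 (Cert.s6 Cert.a Cert.c) (Cert.L 168))))) (Cert.s2 (Cert.s3 (Cert.L 168) (Cert.s4 (Cert.L 168) (Cert.s5 (Cert.s6 Cert.c Cert.c) (Cert.L 168)))) (Cert.L 184))) (Cert.L 184))) (Cert.s5 (Cert.s1 (Cert.s2 (Cert.s3 (Cert.s4 (Cert.s5 Cert.c (Cert.s6 Cert.c Cert.c)) (Cert.s5 Cert.c (Cert.s6 Cert.c Cert.c))) (Cert.s4 (Cert.s5 Cert.c (Cert.s6 Cert.c Cert.c)) (Cert.s5 Cert.c (Cert.s6 Cert.c Cert.c)))) (Cert.s3 (Cert.s4 (Cert.s5 Cert.a (Cert.s6 Cert.a Cert.c)) (Cert.s5 Cert.a (Cert.s6 Cert.a Cert.c))) (Cert.s4 (Cert.s5 Cert.a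 Cert.c) (Cert.s5 Cert.a Cert.c)))) (Cert.s2 (Cert.s3 (Cert.s4 (Cert.s5 Cert.c (Cert.s6 Cert.c Cert.c)) (Cert.s5 Cert.c (Cert.s6 Cert.c Cert.c))) (Cert.s4 (Cert.s5 Cert.c (Cert.s6 Cert.c Cert.c)) (Cert.s5 Cert.c (Cert.s6 Cert.c Cert.c)))) (Cert.s3 (Cert.s4 (Cert.s5 Cert.a (Cert.s6 Cert.a Cert.c)) (Cert.s5 Cert.a (Cert.s6 Cert.a Cert.c))) (Cert.s4 (Cert.s5 Cert.a Cert.c) (Cert.s5 Cert.a Cert.c))))) (Cert.s6 (Cert.s1 (Cert.s2 (Cert.s3 (Cert.s4 (Cert.s5 (Cert.s6 Cert.c (Cert.L 156)) (Cert.L 160)) (Cert.s5 (Cert.s6 Cert.c (Cert.s1 (Cert.s2 (Cert.s3 Cert.c Cert.c) Cert.c) (Cert.s2 (Cert.s3 Cert.c Cert.c) Cert.c))) (Cert.s6 (Cert.s1 (Cert.s2 (Cert.s3 (Cert.L 160) (Cert.s4 (Cert.L 160) (Cert.s5 Cert.c Cert.c))) (Cert.s3 Cert.c Cert.a)) (Cert.s2 (Cert.s3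 (Cert.L 164) (Cert.s4 (Cert.L 164) (Cert.s5 Cert.c Cert.c))) (Cert.L 184))) (Cert.L 184)))) (Cert.s4 (Cert.s5 (Cert.s6 Cert.c Cert.c) (Cert.s6 (Cert.s1 (Cert.s2 (Cert.s3 Cert.a Cert.a) Cert.a) (Cert.L 184)) (Cert.L 184))) (Cert.s5 (Cert.s6 Cert.c Cert.c) (Cert.s6 (Cert.s1 (Cert.s2 (Cert.s3 Cert.a Cert.a) Cert.a) (Cert.s2 (Cert.s3 Cert.a Cert.a) Cert.a)) (Cert.L 184))))) (Cert.s3 (Cert.s4 (Cert.s5 (Cert.s6 Cert.a Cert.c) (Cert.L 184)) (Cert.s5 (Cert.s6 Cert.a Cert.c) (Cert.s6 Cert.a (Cert.L 184)))) (Cert.s4 (Cert.s5 (Cert.s6 Cert.a Cert.c) (Cert.L 184)) (Cert.s5 (Cert.s6 Cert.a Cert.c) (Cert.L 196))))) (Cert.s2 (Cert.s3 (Cert.s4 (Cert.s5 (Cert.s6 Cert.c (Cert.L 196)) (Cert.L 196)) (Cert.s5 (Cert.s6 Cert.c (Cert.L 196)) (Cert.L 196))) (Cert.s4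 (Cert.s5 (Cert.s6 Cert.c Cert.c) (Cert.L 196)) (Cert.s5 (Cert.s6 Cert.c Cert.c) (Cert.L 196)))) (Cert.L 196))) (Cert.L 196)))) (Cert.s4 (Cert.s5 (Cert.s1 (Cert.s2 (Cert.s3 (Cert.s4 (Cert.s5 Cert.a (Cert.s6 Cert.a Cert.c)) (Cert.s5 Cert.a (Cert.s6 Cert.a Cert.c))) (Cert.s4 (Cert.s5 Cert.a Cert.c) (Cert.s5 Cert.a Cert.c))) (Cert.s3 (Cert.s4 (Cert.s5 Cert.a Cert.c) (Cert.s5 Cert.a Cert.c)) (Cert.s4 (Cert.s5 Cert.a Cert.c) (Cert.s5 Cert.a Cert.c)))) (Cert.s2 (Cert.s3 (Cert.s4 (Cert.s5 Cert.a (Cert.s6 Cert.a Cert.c)) (Cert.s5 Cert.a (Cert.s6 Cert.a Cert.c))) (Cert.s4 (Cert.s5 Cert.a Cert.c) (Cert.s5 Cert.a Cert.c))) (Cert.s3 (Cert.s4 (Cert.s5 Cert.a Cert.c) (Cert.s5 Cert.a Cert.c)) (Cert.s4 (Cert.s5 Cert.a Cert.c) (Cert.s5 Cert.a Cert.c))))) (Cert.s6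 (Cert.s1 (Cert.s2 (Cert.s3 (Cert.s4 (Cert.s5 (Cert.s6 Cert.a Cert.c) (Cert.L 164)) (Cert.s5 (Cert.s6 Cert.a Cert.c) (Cert.s6 Cert.a (Cert.L 164)))) (Cert.s4 (Cert.s5 (Cert.s6 Cert.a Cert.c) (Cert.L 176)) (Cert.s5 (Cert.s6 Cert.a Cert.c) (Cert.s6 Cert.a Cert.c)))) (Cert.s3 (Cert.s4 (Cert.s5 (Cert.s6 Cert.a Cert.c) (Cert.L 176)) (Cert.s5 (Cert.s6 Cert.a Cert.c) (Cert.L 180))) (Cert.s4 (Cert.s5 Cert.c (Cert.L 180)) (Cert.s5 Cert.c (Cert.L 184))))) (Cert.s2 (Cert.s3 (Cert.s4 (Cert.s5 (Cert.s6 Cert.a Cert.c) (Cert.L 184)) (Cert.s5 (Cert.s6 Cert.a Cert.c) (Cert.L 184))) (Cert.s4 (Cert.s5 (Cert.s6 Cert.a Cert.c) (Cert.L 184)) (Cert.s5 (Cert.s6 Cert.a Cert.c) (Cert.L 184)))) (Cert.L 188))) (Cert.L 188))) (Cert.s5 (Cert.s1 (Cert.s2 (Cert.s3 (Cert.s4 (Cert.s5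 Cert.a (Cert.s6 Cert.a Cert.c)) (Cert.s5 Cert.a (Cert.s6 Cert.a Cert.c))) (Cert.s4 (Cert.s5 Cert.a Cert.c) (Cert.s5 Cert.a Cert.c))) (Cert.s3 (Cert.s4 (Cert.s5 Cert.a Cert.c) (Cert.s5 Cert.a Cert.c)) (Cert.s4 (Cert.s5 Cert.a Cert.c) (Cert.s5 Cert.a Cert.c)))) (Cert.s2 (Cert.s3 (Cert.s4 (Cert.s5 Cert.a (Cert.s6 Cert.a Cert.c)) (Cert.s5 Cert.a (Cert.s6 Cert.a Cert.c))) (Cert.s4 (Cert.s5 Cert.a Cert.c) (Cert.L 256))) (Cert.s3 (Cert.s4 (Cert.s5 Cert.a Cert.c) (Cert.L 256)) (Cert.L 256)))) (Cert.s6 (Cert.s1 (Cert.s2 (Cert.s3 (Cert.s4 (Cert.s5 (Cert.s6 Cert.a Cert.c) (Cert.s6 Cert.a (Cert.L 172))) (Cert.s5 (Cert.s6 Cert.a Cert.c) (Cert.s6 Cert.a (Cert.L 180)))) (Cert.s4 (Cert.s5 (Cert.s6 Cert.a Cert.c) (Cert.s6 Cert.a Cert.c)) (Cert.s5 (Cert.s6 Cert.a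 Cert.c) (Cert.L 204)))) (Cert.s3 (Cert.s4 (Cert.s5 (Cert.s6 Cert.a Cert.c) (Cert.L 204)) (Cert.L 252)) (Cert.L 252))) (Cert.s2 (Cert.s3 (Cert.s4 (Cert.s5 (Cert.s6 Cert.a Cert.c) (Cert.L 252)) (Cert.L 252)) (Cert.L 252)) (Cert.L 252))) (Cert.L 184))))) (Cert.s3 (Cert.s4 (Cert.s5 (Cert.s1 (Cert.s3 (Cert.s4 (Cert.s5 Cert.a Cert.c) (Cert.s5 Cert.a Cert.c)) (Cert.s4 (Cert.s5 Cert.a Cert.c) (Cert.s5 Cert.a Cert.c))) (Cert.s2 (Cert.s3 (Cert.s4 (Cert.s5 Cert.a Cert.c) (Cert.s5 Cert.a Cert.c)) (Cert.s4 (Cert.s5 Cert.a Cert.c) (Cert.s5 Cert.a Cert.c))) (Cert.s3 (Cert.s4 (Cert.s5 Cert.a Cert.c) (Cert.L 248)) Cert.a))) (Cert.s6 (Cert.s1 (Cert.s3 (Cert.L 172) (Cert.s4 (Cert.L 172) (Cert.s5 Cert.c (Cert.L 172)))) (Cert.L 180)) (Cert.L 180))) (Cert.s5 (Cert.s1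 (Cert.s3 (Cert.s4 (Cert.s5 Cert.a Cert.c) (Cert.s5 Cert.a Cert.c)) (Cert.s4 (Cert.s5 Cert.a Cert.c) (Cert.s5 Cert.a Cert.c))) (Cert.s2 (Cert.s3 (Cert.s4 (Cert.s5 Cert.a Cert.c) (Cert.s5 Cert.a Cert.c)) (Cert.L 252)) (Cert.L 252))) (Cert.s6 (Cert.s1 (Cert.s3 (Cert.s4 (Cert.s5 (Cert.s6 Cert.a Cert.c) (Cert.L 172)) (Cert.s5 (Cert.s6 Cert.a Cert.c) (Cert.L 180))) (Cert.s4 (Cert.s5 Cert.c (Cert.L 180)) (Cert.L 200))) (Cert.L 200)) (Cert.L 200)))) (Cert.s4 (Cert.s5 (Cert.s1 (Cert.s3 Cert.a Cert.a) (Cert.s2 (Cert.s3 Cert.a Cert.a) Cert.a)) (Cert.s6 (Cert.s1 (Cert.s3 Cert.a Cert.a) (Cert.L 200)) (Cert.L 200))) (Cert.s5 (Cert.s1 (Cert.s3 Cert.a Cert.a) (Cert.L 212)) (Cert.L 212)))))))))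

def t4 : Cert := Cert.s5 (Cert.s1 (Cert.s4 (Cert.L 64) (Cert.s5 (Cert.s1 Cert.a (Cert.s2 Cert.a Cert.a)) (Cert.s6 (Cert.s1 Cert.a (Cert.s2 Cert.a Cert.a)) (Cert.s1 (Cert.L 64) (Cert.s2 (Cert.L 64) (Cert.s3 (Cert.L 64) (Cert.s4 (Cert.L 64) (Cert.s5 (Cert.s1 (Cert.L 64) (Cert.s2 (Cert.L 64) (Cert.s3 (Cert.L 64) Cert.a))) (Cert.s6 (Cert.s1 (Cert.L 64) (Cert.s2 (Cert.L 64) (Cert.s3 (Cert.L 64) Cert.a))) (Cert.s1 (Cert.L 64) (Cert.s2 (Cert.L 64) (Cert.s3 (Cert.L 64) (Cert.s4 (Cert.L 64) (Cert.s5 (Cert.s1 (Cert.L 64) (Cert.s2 (Cert.L 64) (Cert.s3 (Cert.L 64) (Cert.s4 (Cert.L 64) (Cert.s5 Cert.c (Cert.s6 Cert.c Cert.c)))))) (Cert.s6 (Cert.s1 (Cert.L 64) (Cert.s2 (Cert.L 64) (Cert.s3 (Cert.L 64) (Cert.s4 (Cert.L 64) (Cert.s5 (Cert.s6 Cert.c Cert.c)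 (Cert.s6 Cert.c (Cert.s1 (Cert.L 64) (Cert.s2 (Cert.L 64) (Cert.s3 Cert.c Cert.c))))))))) (Cert.s1 (Cert.L 64) (Cert.s2 (Cert.L 64) (Cert.s3 (Cert.L 64) (Cert.s4 (Cert.L 64) (Cert.s5 (Cert.s1 (Cert.L 64) (Cert.s2 (Cert.L 64) Cert.c)) (Cert.L 164))))))))))))))))))))) (Cert.s2 (Cert.s4 (Cert.s5 (Cert.s1 (Cert.L 64) (Cert.s2 Cert.a Cert.a)) (Cert.s6 (Cert.s1 (Cert.L 64) (Cert.s2 Cert.a Cert.a)) (Cert.s1 (Cert.L 64) (Cert.s2 (Cert.L 64) (Cert.s3 (Cert.L 64) (Cert.s4 (Cert.s5 (Cert.s1 (Cert.L 64) (Cert.s2 (Cert.L 64) (Cert.s3 (Cert.L 64) Cert.a))) (Cert.L 96)) (Cert.s5 (Cert.s1 (Cert.s2 (Cert.L 96) (Cert.s3 (Cert.L 96) Cert.a)) (Cert.s2 (Cert.L 96) (Cert.s3 (Cert.s4 (Cert.L 96) (Cert.s5 Cert.a (Cert.L 112))) Cert.a))) (Cert.s6 (Cert.s1 (Cert.s2 (Cert.L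 112) (Cert.s3 (Cert.L 112) Cert.a)) (Cert.s2 (Cert.L 112) (Cert.s3 (Cert.L 112) Cert.a))) (Cert.L 132))))))))) (Cert.s5 (Cert.s1 (Cert.s2 Cert.a Cert.a) (Cert.s2 Cert.a Cert.a)) (Cert.s6 (Cert.s1 (Cert.s2 Cert.a Cert.a) (Cert.s2 Cert.a Cert.a)) t2))) (Cert.s3 (Cert.s4 (Cert.s5 Cert.a (Cert.s6 Cert.a (Cert.s1 (Cert.s3 (Cert.L 64) (Cert.s4 (Cert.s5 (Cert.s1 (Cert.L 64) (Cert.s2 (Cert.L 64) Cert.a)) (Cert.s6 (Cert.s1 (Cert.L 64) (Cert.s2 (Cert.L 64) Cert.a)) (Cert.s1 (Cert.L 64) (Cert.s2 (Cert.L 64) (Cert.s3 (Cert.L 64) (Cert.s4 (Cert.L 64) (Cert.s5 (Cert.s1 (Cert.L 64) (Cert.s2 (Cert.L 64) Cert.a)) (Cert.L 124)))))))) (Cert.s5 (Cert.s1 (Cert.L 64) (Cert.s2 (Cert.s3 Cert.a Cert.a) Cert.a)) (Cert.s6 (Cert.s1 (Cert.L 64) (Cert.s2 (Cert.s3 Cert.a Cert.a)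 Cert.a)) (Cert.s1 (Cert.L 64) (Cert.s2 (Cert.s3 (Cert.L 64) (Cert.s4 (Cert.L 64) (Cert.s5 (Cert.s1 (Cert.L 64) (Cert.s2 (Cert.L 64) (Cert.s3 (Cert.L 64) (Cert.s4 (Cert.s5 Cert.a Cert.c) (Cert.s5 Cert.a Cert.c))))) (Cert.L 140)))) (Cert.s3 (Cert.L 140) (Cert.s4 (Cert.s5 (Cert.s1 (Cert.L 140) (Cert.s2 (Cert.s3 Cert.a Cert.a) Cert.a)) (Cert.L 148)) (Cert.s5 (Cert.s1 (Cert.s3 Cert.a Cert.a) (Cert.s2 (Cert.s3 Cert.a Cert.a) Cert.a)) (Cert.L 160)))))))))) (Cert.s2 (Cert.s3 (Cert.s4 (Cert.L 116) (Cert.s5 (Cert.s1 (Cert.s2 (Cert.L 116) (Cert.s3 Cert.a Cert.a)) (Cert.s2 (Cert.s3 (Cert.L 116) (Cert.s4 (Cert.L 116) (Cert.s5 Cert.a (Cert.L 116)))) (Cert.s3 Cert.a Cert.a))) (Cert.s6 (Cert.s1 (Cert.L 144) (Cert.L 148)) (Cert.L 148)))) (Cert.s4 (Cert.s5 (Cert.s1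 (Cert.s2 (Cert.s3 Cert.a Cert.a) Cert.a) (Cert.s2 (Cert.s3 Cert.a Cert.a) Cert.a)) (Cert.s6 (Cert.s1 (Cert.s2 (Cert.s3 Cert.a Cert.a) Cert.a) (Cert.s2 (Cert.s3 Cert.a Cert.a) Cert.a)) (Cert.s1 (Cert.s2 (Cert.L 148) (Cert.s3 (Cert.L 148) (Cert.s4 (Cert.s5 (Cert.s1 (Cert.s2 (Cert.L 148) Cert.a) (Cert.s2 (Cert.L 148) Cert.a)) (Cert.L 148)) (Cert.s5 (Cert.s1 (Cert.s2 (Cert.s3 Cert.a Cert.a) Cert.a) (Cert.L 160)) (Cert.L 160))))) (Cert.L 160)))) (Cert.s5 (Cert.s1 (Cert.s2 (Cert.s3 Cert.a Cert.a) Cert.a) (Cert.s2 (Cert.s3 Cert.a Cert.a) Cert.a)) (Cert.s6 (Cert.s1 (Cert.s2 (Cert.s3 Cert.a Cert.a) Cert.a) (Cert.s2 (Cert.s3 Cert.a Cert.a) Cert.a)) (Cert.s1 (Cert.s2 (Cert.s3 (Cert.L 160) (Cert.s4 (Cert.L 160) (Cert.s5 (Cert.s1 (Cert.s2 (Cert.L 160) (Cert.s3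 (Cert.L 160) (Cert.s4 (Cert.s5 Cert.a Cert.c) (Cert.s5 Cert.a Cert.c)))) (Cert.L 168)) (Cert.L 168)))) (Cert.s3 (Cert.L 168) (Cert.s4 (Cert.s5 (Cert.s1 (Cert.s2 (Cert.s3 Cert.a Cert.a) Cert.a) (Cert.L 168)) (Cert.L 168)) (Cert.s5 (Cert.s1 (Cert.s2 (Cert.s3 Cert.a Cert.a) Cert.a) (Cert.L 168)) (Cert.L 168))))) (Cert.L 168)))))) (Cert.s3 (Cert.s4 (Cert.s5 Cert.a (Cert.L 132)) (Cert.s5 Cert.a (Cert.s6 Cert.a (Cert.L 136)))) (Cert.s4 (Cert.s5 Cert.a (Cert.s6 Cert.a (Cert.s1 (Cert.s3 (Cert.L 136) (Cert.s4 (Cert.s5 Cert.a (Cert.L 144)) (Cert.s5 Cert.a (Cert.L 148)))) (Cert.L 156)))) (Cert.s5 Cert.a (Cert.s6 Cert.a (Cert.L 172))))))))) (Cert.s5 Cert.a (Cert.s6 Cert.a (Cert.s1 t3 (Cert.s2 (Cert.s3 (Cert.s4 (Cert.s5 (Cert.s1 (Cert.s2 (Cert.s3 (Cert.L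 64) (Cert.s4 (Cert.s5 Cert.a (Cert.s6 Cert.a (Cert.L 96))) (Cert.s5 Cert.a (Cert.s6 Cert.a (Cert.s1 (Cert.s2 (Cert.L 96) Cert.a) (Cert.s2 (Cert.s3 Cert.a Cert.a) Cert.a)))))) (Cert.s3 Cert.a Cert.a)) (Cert.s2 (Cert.s3 (Cert.s4 (Cert.L 96) (Cert.s5 Cert.a (Cert.s6 Cert.a (Cert.L 120)))) (Cert.s4 (Cert.s5 Cert.a (Cert.s6 Cert.a (Cert.L 144))) (Cert.s5 Cert.a (Cert.s6 Cert.a (Cert.s1 (Cert.s2 (Cert.s3 Cert.a Cert.a) Cert.a) (Cert.L 160)))))) (Cert.s3 Cert.a Cert.a))) (Cert.s6 (Cert.s1 (Cert.s2 (Cert.s3 (Cert.L 64) (Cert.s4 (Cert.L 128) (Cert.s5 (Cert.s6 Cert.a (Cert.s1 (Cert.s2 (Cert.L 128) Cert.a) (Cert.s2 (Cert.L 128) Cert.a))) (Cert.s6 Cert.a (Cert.L 140))))) (Cert.s3 Cert.a Cert.a)) (Cert.s2 (Cert.s3 (Cert.L 140) (Cert.s4 (Cert.L 148) (Cert.s5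 (Cert.s6 Cert.a (Cert.L 156)) (Cert.L 160)))) (Cert.L 184))) (Cert.L 156))) (Cert.s5 (Cert.s1 (Cert.s2 (Cert.s3 (Cert.s4 (Cert.s5 Cert.a (Cert.s6 Cert.a (Cert.s1 (Cert.s2 (Cert.L 64) (Cert.s3 (Cert.L 64) Cert.a)) (Cert.s2 (Cert.s3 (Cert.L 64) (Cert.s4 (Cert.L 64) (Cert.s5 Cert.a Cert.c))) (Cert.s3 (Cert.L 136) Cert.a))))) (Cert.s5 Cert.a (Cert.s6 Cert.a (Cert.s1 (Cert.s2 (Cert.s3 (Cert.L 64) (Cert.s4 (Cert.L 64) (Cert.s5 Cert.a Cert.c))) (Cert.s3 (Cert.s4 (Cert.s5 Cert.a Cert.c) (Cert.s5 Cert.a Cert.c)) Cert.a)) (Cert.s2 (Cert.s3 (Cert.s4 (Cert.L 64) (Cert.s5 Cert.a Cert.d)) (Cert.s4 (Cert.s5 Cert.a Cert.c) (Cert.s5 Cert.a Cert.c))) (Cert.s3 (Cert.s4 (Cert.s5 Cert.a Cert.c) (Cert.s5 Cert.a Cert.c)) Cert.a)))))) (Cert.s4 (Cert.s5 Cert.a (Cert.s6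 Cert.a (Cert.s1 (Cert.s2 (Cert.s3 Cert.a Cert.a) Cert.a) (Cert.s2 (Cert.s3 Cert.a Cert.a) Cert.a)))) (Cert.s5 Cert.a (Cert.s6 Cert.a (Cert.s1 (Cert.s2 (Cert.s3 Cert.a Cert.a) Cert.a) (Cert.s2 (Cert.s3 Cert.a Cert.a) Cert.a)))))) (Cert.s3 Cert.a Cert.a)) (Cert.s2 (Cert.s3 (Cert.s4 (Cert.s5 Cert.a (Cert.s6 Cert.a (Cert.s1 (Cert.s2 (Cert.s3 (Cert.L 84) (Cert.s4 (Cert.L 96) (Cert.s5 Cert.a Cert.c))) (Cert.s3 (Cert.L 148) Cert.a)) (Cert.L 152)))) (Cert.s5 Cert.a (Cert.s6 Cert.a (Cert.s1 (Cert.s2 (Cert.s3 (Cert.s4 (Cert.L 152) Cert.b) (Cert.s4 (Cert.s5 Cert.a Cert.c) Cert.b)) (Cert.s3 (Cert.s4 (Cert.s5 Cert.a Cert.c) Cert.b) Cert.a)) (Cert.L 168))))) (Cert.s4 (Cert.s5 Cert.a (Cert.s6 Cert.a (Cert.s1 (Cert.s2 (Cert.s3 Cert.a Cert.a) Cert.a) (Cert.L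 168)))) (Cert.s5 Cert.a (Cert.s6 Cert.a (Cert.s1 (Cert.s2 (Cert.s3 Cert.a Cert.a) Cert.a) (Cert.L 176)))))) (Cert.s3 Cert.a Cert.a))) (Cert.s6 (Cert.s1 (Cert.s2 (Cert.s3 (Cert.s4 (Cert.s5 (Cert.s6 Cert.a (Cert.s1 (Cert.s2 (Cert.L 64) (Cert.s3 (Cert.L 64) Cert.a)) (Cert.L 156))) (Cert.s6 Cert.a (Cert.L 156))) (Cert.s5 (Cert.s6 Cert.a (Cert.s1 (Cert.s2 (Cert.s3 (Cert.L 64) (Cert.s4 (Cert.L 64) (Cert.s5 (Cert.s6 Cert.a Cert.c) (Cert.s6 Cert.a Cert.c)))) (Cert.s3 (Cert.s4 (Cert.L 84) (Cert.s5 (Cert.s6 Cert.a Cert.c) (Cert.s6 Cert.a Cert.c))) Cert.a)) (Cert.s2 (Cert.s3 (Cert.s4 (Cert.L 84) (Cert.s5 (Cert.s6 Cert.a Cert.c) (Cert.L 136))) (Cert.s4 (Cert.s5 (Cert.s6 Cert.a Cert.c) (Cert.L 136)) (Cert.s5 (Cert.s6 Cert.a Cert.c) (Cert.s6 Cert.a Cert.c))))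 (Cert.s3 (Cert.s4 (Cert.L 144) (Cert.s5 (Cert.s6 Cert.a Cert.c) (Cert.L 164))) Cert.a)))) (Cert.s6 Cert.a (Cert.s1 (Cert.s2 (Cert.s3 (Cert.L 164) (Cert.s4 (Cert.L 164) (Cert.s5 (Cert.s6 Cert.a (Cert.L 164)) (Cert.L 164)))) (Cert.s3 (Cert.L 164) Cert.a)) (Cert.L 168))))) (Cert.s4 (Cert.s5 (Cert.s6 Cert.a (Cert.s1 (Cert.s2 (Cert.s3 Cert.a Cert.a) Cert.a) (Cert.s2 (Cert.s3 Cert.a Cert.a) Cert.a))) (Cert.s6 Cert.a (Cert.s1 (Cert.s2 (Cert.s3 Cert.a Cert.a) Cert.a) (Cert.L 168)))) (Cert.s5 (Cert.s6 Cert.a (Cert.s1 (Cert.s2 (Cert.s3 Cert.a Cert.a) Cert.a) (Cert.s2 (Cert.s3 Cert.a Cert.a) Cert.a))) (Cert.s6 Cert.a (Cert.s1 (Cert.s2 (Cert.s3 Cert.a Cert.a) Cert.a) (Cert.L 184)))))) (Cert.s3 Cert.a Cert.a)) (Cert.s2 (Cert.s3 (Cert.s4 (Cert.s5 (Cert.s6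 Cert.a (Cert.L 184)) (Cert.L 184)) (Cert.s5 (Cert.s6 Cert.a (Cert.L 184)) (Cert.L 184))) (Cert.s4 (Cert.s5 (Cert.s6 Cert.a (Cert.L 184)) (Cert.L 184)) (Cert.s5 (Cert.s6 Cert.a (Cert.L 184)) (Cert.L 184)))) (Cert.L 192))) (Cert.s1 (Cert.s2 (Cert.s3 (Cert.s4 (Cert.L 128) (Cert.s5 (Cert.s1 (Cert.s2 (Cert.L 160) (Cert.s3 (Cert.L 160) (Cert.s4 (Cert.L 160) (Cert.s5 Cert.c (Cert.L 160))))) (Cert.L 168)) (Cert.L 168))) (Cert.s4 (Cert.s5 (Cert.s1 (Cert.s2 (Cert.s3 (Cert.L 168) (Cert.s4 (Cert.L 168) (Cert.s5 Cert.c (Cert.L 168)))) (Cert.s3 (Cert.L 168) (Cert.s4 (Cert.L 168) (Cert.s5 Cert.c (Cert.L 168))))) (Cert.L 168)) (Cert.L 168)) (Cert.s5 (Cert.s1 (Cert.s2 (Cert.s3 (Cert.s4 (Cert.L 160) (Cert.s5 Cert.c (Cert.L 172))) (Cert.s4 (Cert.s5 Cert.c (Cert.L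 172)) (Cert.s5 Cert.c (Cert.s6 Cert.c Cert.c)))) (Cert.s3 (Cert.s4 (Cert.s5 Cert.c (Cert.L 172)) (Cert.s5 Cert.c (Cert.L 176))) (Cert.s4 (Cert.s5 Cert.c (Cert.L 176)) (Cert.s5 Cert.c (Cert.L 184))))) (Cert.L 184)) (Cert.L 184)))) (Cert.L 192)) (Cert.L 192))))) (Cert.s4 (Cert.s5 (Cert.s1 (Cert.s2 (Cert.s3 Cert.a Cert.a) Cert.a) (Cert.s2 (Cert.s3 Cert.a Cert.a) Cert.a)) (Cert.s6 (Cert.s1 (Cert.s2 (Cert.s3 Cert.a Cert.a) Cert.a) (Cert.s2 (Cert.s3 Cert.a Cert.a) Cert.a)) (Cert.s1 (Cert.s2 (Cert.s3 (Cert.s4 (Cert.L 156) (Cert.s5 (Cert.s1 (Cert.s2 (Cert.s3 (Cert.L 156) (Cert.s4 (Cert.L 156) (Cert.s5 Cert.c (Cert.L 156)))) (Cert.s3 (Cert.L 168) (Cert.s4 (Cert.s5 Cert.a Cert.c) (Cert.s5 Cert.a Cert.c)))) (Cert.L 172)) (Cert.L 172))) (Cert.s4 (Cert.s5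 (Cert.s1 (Cert.s2 (Cert.s3 (Cert.s4 (Cert.L 172) (Cert.s5 Cert.a (Cert.L 172))) (Cert.s4 (Cert.s5 Cert.a Cert.c) (Cert.s5 Cert.a Cert.c))) (Cert.s3 (Cert.s4 (Cert.L 172) (Cert.s5 Cert.a Cert.c)) (Cert.s4 (Cert.s5 Cert.a Cert.c) (Cert.s5 Cert.a Cert.c)))) (Cert.L 176)) (Cert.L 176)) (Cert.s5 (Cert.s1 (Cert.s2 (Cert.s3 (Cert.s4 (Cert.s5 Cert.a (Cert.L 176)) (Cert.s5 Cert.a (Cert.L 176))) (Cert.s4 (Cert.s5 Cert.a Cert.c) (Cert.s5 Cert.a Cert.c))) (Cert.s3 (Cert.s4 (Cert.s5 Cert.a Cert.c) (Cert.s5 Cert.a Cert.c)) (Cert.s4 (Cert.s5 Cert.a Cert.c) (Cert.L 200)))) (Cert.L 200)) (Cert.L 200)))) (Cert.s3 (Cert.L 184) (Cert.s4 (Cert.s5 (Cert.s1 (Cert.s2 (Cert.s3 Cert.a Cert.a) Cert.a) (Cert.L 184)) (Cert.L 184)) (Cert.L 188)))) (Cert.L 188)))) (Cert.s5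 (Cert.s1 (Cert.s2 (Cert.s3 Cert.a Cert.a) Cert.a) (Cert.s2 (Cert.s3 Cert.a Cert.a) Cert.a)) (Cert.s6 (Cert.s1 (Cert.s2 (Cert.s3 Cert.a Cert.a) Cert.a) (Cert.s2 (Cert.s3 Cert.a Cert.a) Cert.a)) (Cert.s1 (Cert.s2 (Cert.s3 (Cert.s4 (Cert.s5 (Cert.s1 (Cert.s2 (Cert.s3 (Cert.s4 (Cert.s5 Cert.c (Cert.L 188)) (Cert.s5 Cert.c (Cert.L 188))) (Cert.s4 (Cert.s5 Cert.c (Cert.L 188)) (Cert.s5 Cert.c (Cert.L 188)))) (Cert.s3 (Cert.s4 (Cert.s5 Cert.a (Cert.L 188)) (Cert.s5 Cert.a (Cert.L 188))) (Cert.s4 (Cert.s5 Cert.a Cert.c) (Cert.s5 Cert.a Cert.c)))) (Cert.L 188)) (Cert.L 188)) (Cert.s5 (Cert.s1 (Cert.s2 (Cert.s3 (Cert.s4 (Cert.s5 Cert.c (Cert.s6 Cert.c Cert.c)) (Cert.s5 Cert.c (Cert.s6 Cert.c Cert.c))) (Cert.s4 (Cert.s5 Cert.c (Cert.L 196)) (Cert.s5 Cert.c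 (Cert.L 196)))) (Cert.s3 (Cert.s4 (Cert.s5 Cert.a (Cert.L 196)) (Cert.L 212)) (Cert.L 212))) (Cert.L 212)) (Cert.L 212))) (Cert.s4 (Cert.s5 (Cert.s1 (Cert.s2 (Cert.s3 (Cert.s4 (Cert.s5 Cert.a (Cert.L 184)) (Cert.s5 Cert.a (Cert.L 192))) (Cert.s4 (Cert.s5 Cert.a Cert.c) (Cert.L 216))) (Cert.L 228)) (Cert.L 228)) (Cert.L 228)) (Cert.L 236))) (Cert.L 192)) (Cert.L 192)))))) (Cert.s3 (Cert.s4 (Cert.s5 Cert.a (Cert.s6 Cert.a (Cert.L 192))) (Cert.s5 Cert.a (Cert.s6 Cert.a (Cert.L 192)))) (Cert.s4 (Cert.s5 Cert.a (Cert.s6 Cert.a (Cert.L 192))) (Cert.s5 Cert.a (Cert.L 232))))))))) (Cert.s4 (Cert.s5 Cert.a (Cert.s6 Cert.a (Cert.s1 (Cert.s4 (Cert.s5 Cert.a (Cert.s6 Cert.a (Cert.s1 (Cert.L 64) (Cert.s2 (Cert.s4 (Cert.L 64) (Cert.s5 (Cert.s1 (Cert.L 64)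 (Cert.s2 (Cert.L 64) (Cert.s3 Cert.a Cert.a))) (Cert.L 140))) (Cert.s3 (Cert.s4 (Cert.s5 Cert.a (Cert.s6 Cert.a (Cert.L 144))) (Cert.s5 Cert.a (Cert.s6 Cert.a (Cert.L 148)))) (Cert.s4 (Cert.s5 Cert.a (Cert.s6 Cert.a (Cert.L 156))) (Cert.s5 Cert.a (Cert.s6 Cert.a (Cert.L 156))))))))) (Cert.s5 Cert.a (Cert.s6 Cert.a (Cert.s1 (Cert.s4 (Cert.L 64) (Cert.s5 (Cert.s1 (Cert.L 64) (Cert.s2 (Cert.L 64) (Cert.s3 Cert.a Cert.a))) (Cert.L 160))) (Cert.s2 (Cert.s4 (Cert.s5 (Cert.s1 (Cert.s2 (Cert.L 160) (Cert.s3 Cert.a Cert.a)) (Cert.s2 (Cert.L 160) (Cert.s3 Cert.a Cert.a))) (Cert.L 160)) (Cert.s5 (Cert.s1 (Cert.s2 (Cert.L 64) (Cert.s3 Cert.a Cert.a)) (Cert.s2 (Cert.s4 (Cert.s5 Cert.a Cert.c) (Cert.s5 Cert.a Cert.c)) (Cert.s3 Cert.a Cert.a))) (Cert.L 168)))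 (Cert.s3 (Cert.s4 (Cert.s5 Cert.a (Cert.L 168)) (Cert.s5 Cert.a (Cert.L 172))) (Cert.s4 (Cert.s5 Cert.a (Cert.L 172)) (Cert.s5 Cert.a (Cert.L 172))))))))) (Cert.s2 (Cert.s4 (Cert.s5 Cert.a (Cert.s6 Cert.a (Cert.s1 (Cert.s2 (Cert.s4 (Cert.s5 (Cert.s1 (Cert.s2 (Cert.L 64) (Cert.s3 Cert.a Cert.a)) (Cert.s2 (Cert.L 64) (Cert.s3 Cert.a Cert.a))) (Cert.L 144)) (Cert.s5 (Cert.s1 (Cert.s2 (Cert.L 144) (Cert.s3 Cert.a Cert.a)) (Cert.s2 (Cert.L 144) (Cert.s3 Cert.a Cert.a))) (Cert.L 152))) (Cert.s3 (Cert.s4 (Cert.s5 Cert.a (Cert.s6 Cert.a (Cert.L 152))) (Cert.s5 Cert.a (Cert.L 160))) (Cert.s4 (Cert.s5 Cert.a (Cert.s6 Cert.a (Cert.L 160))) (Cert.s5 Cert.a (Cert.L 168))))) (Cert.s2 (Cert.s4 (Cert.s5 (Cert.s1 (Cert.s2 (Cert.L 168) (Cert.s3 Cert.a Cert.a))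 (Cert.L 168)) (Cert.L 168)) (Cert.L 168)) (Cert.L 172))))) (Cert.s5 Cert.a (Cert.s6 Cert.a (Cert.s1 (Cert.s2 (Cert.s4 (Cert.s5 (Cert.s1 (Cert.s2 (Cert.L 152) (Cert.s3 Cert.a Cert.a)) (Cert.L 172)) (Cert.L 172)) (Cert.s5 (Cert.s1 (Cert.s2 (Cert.s4 (Cert.s5 Cert.a Cert.c) (Cert.s5 Cert.a Cert.c)) (Cert.s3 Cert.a Cert.a)) (Cert.L 172)) (Cert.L 172))) (Cert.s3 (Cert.s4 (Cert.s5 Cert.a (Cert.L 172)) (Cert.s5 Cert.a (Cert.L 172))) (Cert.L 208))) (Cert.L 208))))) (Cert.s3 (Cert.s4 (Cert.s5 Cert.a (Cert.s6 Cert.a (Cert.s1 (Cert.s3 (Cert.s4 (Cert.s5 Cert.a (Cert.L 172)) (Cert.s5 Cert.a (Cert.L 172))) (Cert.L 236)) (Cert.L 236)))) (Cert.s5 Cert.a (Cert.s6 Cert.a (Cert.L 236)))) (Cert.s4 (Cert.s5 Cert.a (Cert.L 236)) (Cert.L 236))))))) (Cert.s5 Cert.a (Cert.s6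 Cert.a (Cert.s1 (Cert.s4 (Cert.s5 Cert.a (Cert.s6 Cert.a (Cert.s1 (Cert.s4 (Cert.s5 (Cert.s1 (Cert.L 64) (Cert.s2 (Cert.L 64) (Cert.s3 Cert.a Cert.a))) (Cert.s6 (Cert.s1 (Cert.L 64) (Cert.s2 (Cert.L 64) (Cert.s3 Cert.a Cert.a))) (Cert.L 156))) (Cert.s5 (Cert.s1 (Cert.s4 (Cert.L 64) (Cert.s5 Cert.a Cert.c)) (Cert.s2 (Cert.s4 (Cert.s5 Cert.a Cert.c) (Cert.s5 Cert.a Cert.c)) (Cert.s3 Cert.a Cert.a))) (Cert.s6 (Cert.s1 (Cert.s4 (Cert.L 64) (Cert.s5 Cert.c (Cert.L 148))) (Cert.s2 (Cert.s4 (Cert.s5 Cert.c (Cert.L 152)) (Cert.s5 Cert.c (Cert.L 172))) (Cert.s3 Cert.a Cert.a))) (Cert.L 172)))) (Cert.s2 (Cert.s4 (Cert.s5 (Cert.s1 (Cert.s2 (Cert.s4 (Cert.s5 Cert.a Cert.c) (Cert.s5 Cert.a Cert.c)) (Cert.s3 Cert.a Cert.a)) (Cert.s2 (Cert.s4 (Cert.s5 Cert.a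 Cert.c) (Cert.s5 Cert.a Cert.c)) (Cert.s3 Cert.a Cert.a))) (Cert.s6 (Cert.s1 (Cert.s2 (Cert.L 172) (Cert.L 180)) (Cert.L 180)) (Cert.L 180))) (Cert.s5 (Cert.s1 (Cert.s2 (Cert.s4 (Cert.s5 Cert.a Cert.c) (Cert.s5 Cert.a Cert.c)) (Cert.s3 Cert.a Cert.a)) (Cert.s2 (Cert.s4 (Cert.s5 Cert.a Cert.c) (Cert.s5 Cert.a Cert.c)) (Cert.s3 Cert.a Cert.a))) (Cert.s6 (Cert.s1 (Cert.s2 (Cert.s4 (Cert.s5 Cert.c (Cert.L 180)) (Cert.s5 Cert.c (Cert.L 180))) (Cert.s3 Cert.a Cert.a)) (Cert.L 188)) (Cert.L 188)))) (Cert.s3 (Cert.s4 (Cert.s5 Cert.a (Cert.L 176)) (Cert.s5 Cert.a (Cert.L 184))) (Cert.s4 (Cert.s5 Cert.a (Cert.L 184)) (Cert.L 200))))))) (Cert.s5 Cert.a (Cert.s6 Cert.a (Cert.s1 (Cert.s4 (Cert.s5 (Cert.s1 (Cert.s4 (Cert.s5 Cert.a Cert.c) (Cert.s5 Cert.a Cert.c))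 (Cert.s2 (Cert.s4 (Cert.s5 Cert.a Cert.c) (Cert.s5 Cert.a Cert.c)) (Cert.s3 Cert.a Cert.a))) (Cert.s6 (Cert.s1 (Cert.s4 (Cert.s5 Cert.c (Cert.s6 Cert.a Cert.c)) (Cert.s5 Cert.c (Cert.s6 Cert.a Cert.c))) (Cert.s2 (Cert.s4 (Cert.s5 Cert.c (Cert.s6 Cert.a Cert.c)) (Cert.s5 Cert.c (Cert.s6 Cert.a Cert.c))) (Cert.s3 Cert.a Cert.a))) (Cert.L 176))) (Cert.s5 (Cert.s1 (Cert.s4 (Cert.s5 Cert.a Cert.c) (Cert.s5 Cert.a Cert.c)) (Cert.s2 (Cert.s4 (Cert.s5 Cert.a Cert.c) (Cert.s5 Cert.a Cert.c)) (Cert.s3 Cert.a Cert.a))) (Cert.s6 (Cert.s1 (Cert.s4 (Cert.s5 Cert.c (Cert.s6 Cert.a Cert.c)) (Cert.s5 Cert.c (Cert.s6 Cert.a Cert.c))) (Cert.s2 (Cert.s4 (Cert.s5 Cert.c (Cert.s6 Cert.a Cert.c)) (Cert.s5 Cert.c (Cert.L 248))) (Cert.L 252))) (Cert.s1 (Cert.s4 (Cert.s5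 Cert.c (Cert.L 172)) (Cert.s5 Cert.c (Cert.L 176))) (Cert.L 188))))) (Cert.s2 (Cert.s4 (Cert.s5 (Cert.s1 (Cert.s2 (Cert.s4 (Cert.s5 Cert.a Cert.c) (Cert.s5 Cert.a Cert.c)) (Cert.s3 Cert.a Cert.a)) (Cert.s2 (Cert.s4 (Cert.s5 Cert.a Cert.c) (Cert.s5 Cert.a Cert.c)) (Cert.L 236))) (Cert.s6 (Cert.s1 (Cert.s2 (Cert.s4 (Cert.s5 Cert.c (Cert.L 180)) (Cert.s5 Cert.c (Cert.L 192))) (Cert.L 240)) (Cert.L 240)) (Cert.L 240))) (Cert.s5 (Cert.s1 (Cert.s2 (Cert.s4 (Cert.s5 Cert.a Cert.c) (Cert.s5 Cert.a Cert.c)) (Cert.L 248)) (Cert.L 248)) (Cert.L 248))) (Cert.L 248)))))) (Cert.s2 (Cert.s4 (Cert.s5 Cert.a (Cert.s6 Cert.a (Cert.s1 (Cert.s2 (Cert.s4 (Cert.s5 (Cert.s1 (Cert.s2 (Cert.s4 (Cert.s5 Cert.a Cert.c) (Cert.s5 Cert.a Cert.c)) (Cert.s3 Cert.a Cert.a))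 (Cert.L 248)) (Cert.L 172)) (Cert.s5 (Cert.s1 (Cert.s2 (Cert.s4 (Cert.s5 Cert.a Cert.c) (Cert.L 228)) (Cert.L 228)) (Cert.L 228)) (Cert.L 228))) (Cert.L 228)) (Cert.L 228)))) (Cert.s5 Cert.a (Cert.s6 Cert.a (Cert.L 228)))) (Cert.s3 (Cert.s4 (Cert.s5 Cert.a (Cert.L 228)) (Cert.L 228)) (Cert.L 228)))))))))) (Cert.s6 (Cert.s1 (Cert.s4 (Cert.L 64) (Cert.s5 (Cert.s6 (Cert.s1 Cert.a (Cert.s2 Cert.a Cert.a)) (Cert.s1 (Cert.L 64) (Cert.s2 (Cert.L 64) (Cert.s3 (Cert.L 64) (Cert.s4 (Cert.L 64) (Cert.s5 (Cert.s6 (Cert.s1 (Cert.L 64) (Cert.s2 (Cert.L 64) (Cert.s3 (Cert.L 64) Cert.a))) (Cert.s1 (Cert.L 64) (Cert.s2 (Cert.L 64) (Cert.s3 (Cert.L 64) (Cert.s4 (Cert.L 64) (Cert.s5 (Cert.s6 (Cert.s1 (Cert.L 64) (Cert.s2 (Cert.L 64) (Cert.s3 (Cert.L 64) (Cert.s4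 (Cert.L 64) (Cert.s5 (Cert.s6 (Cert.s1 Cert.a (Cert.s2 Cert.a Cert.a)) (Cert.L 168)) (Cert.L 176)))))) (Cert.L 176)) (Cert.L 176))))))) (Cert.s6 (Cert.s1 (Cert.L 176) (Cert.s2 (Cert.L 64) (Cert.s3 (Cert.L 64) Cert.a))) (Cert.L 128)))))))) (Cert.s6 (Cert.s1 Cert.a (Cert.s2 Cert.a Cert.a)) (Cert.L 160)))) (Cert.s2 (Cert.s4 (Cert.s5 (Cert.s6 (Cert.s1 (Cert.L 64) (Cert.s2 Cert.a Cert.a)) (Cert.L 140)) (Cert.s6 (Cert.s1 (Cert.s2 Cert.a Cert.a) (Cert.s2 Cert.a Cert.a)) (Cert.L 140))) (Cert.s5 (Cert.s6 (Cert.s1 (Cert.s2 Cert.a Cert.a) (Cert.s2 Cert.a Cert.a)) (Cert.s1 (Cert.s2 (Cert.L 140) (Cert.s3 (Cert.s4 (Cert.L 140) (Cert.s5 (Cert.s6 (Cert.s1 (Cert.L 140) (Cert.s2 (Cert.L 140) (Cert.s3 (Cert.L 140) (Cert.s4 (Cert.L 140) (Cert.s5 (Cert.s6 Cert.a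 (Cert.s1 (Cert.L 140) (Cert.s2 (Cert.L 140) (Cert.s3 (Cert.L 140) Cert.a)))) (Cert.s6 Cert.a (Cert.L 140))))))) (Cert.L 140)) (Cert.L 152))) (Cert.s4 (Cert.s5 (Cert.s6 (Cert.s1 (Cert.L 64) (Cert.s2 (Cert.L 64) (Cert.s3 (Cert.L 64) Cert.a))) (Cert.L 148)) (Cert.L 164)) (Cert.s5 (Cert.s6 (Cert.s1 (Cert.s2 (Cert.L 64) (Cert.s3 (Cert.s4 (Cert.L 64) (Cert.s5 (Cert.s6 Cert.a (Cert.s1 (Cert.L 64) (Cert.s2 (Cert.L 64) Cert.a))) (Cert.s6 Cert.a (Cert.s1 (Cert.L 64) (Cert.s2 (Cert.L 64) Cert.a))))) Cert.a)) (Cert.s2 (Cert.s4 (Cert.L 64) (Cert.s5 (Cert.s6 Cert.a (Cert.s1 (Cert.L 64) (Cert.s2 (Cert.L 64) (Cert.s3 (Cert.L 64) (Cert.s4 (Cert.L 64) (Cert.s5 (Cert.s6 Cert.a (Cert.L 144)) (Cert.L 148))))))) (Cert.s6 Cert.a (Cert.L 148)))) (Cert.s3 (Cert.s4 (Cert.s5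 (Cert.s6 Cert.a (Cert.s1 (Cert.L 64) (Cert.s2 (Cert.L 64) Cert.a))) (Cert.s6 Cert.a (Cert.L 144))) (Cert.s5 (Cert.s6 Cert.a (Cert.s1 (Cert.s2 (Cert.s3 (Cert.L 144) Cert.a) Cert.a) (Cert.s2 (Cert.s3 (Cert.s4 (Cert.L 144) (Cert.s5 (Cert.s6 Cert.a (Cert.L 144)) (Cert.L 148))) Cert.a) Cert.a))) (Cert.s6 Cert.a (Cert.s1 (Cert.s2 (Cert.L 160) Cert.a) (Cert.L 180))))) Cert.a))) (Cert.s1 (Cert.s2 (Cert.L 180) (Cert.s3 (Cert.s4 (Cert.L 180) (Cert.s5 (Cert.s6 (Cert.s1 (Cert.L 64) (Cert.s2 (Cert.L 64) (Cert.s3 (Cert.L 64) (Cert.s4 (Cert.L 64) (Cert.s5 (Cert.s6 (Cert.s1 (Cert.L 64) (Cert.s2 (Cert.L 64) (Cert.s3 (Cert.L 64) (Cert.s4 (Cert.L 76) (Cert.s5 Cert.c (Cert.L 156)))))) (Cert.L 156)) (Cert.L 156)))))) (Cert.L 156)) (Cert.L 156))) (Cert.s4 (Cert.L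 168) (Cert.s5 (Cert.s6 (Cert.s1 (Cert.s2 (Cert.L 168) (Cert.s3 (Cert.s4 (Cert.L 168) (Cert.s5 (Cert.s6 (Cert.s1 (Cert.L 64) (Cert.s2 (Cert.L 64) (Cert.s3 Cert.a Cert.a))) (Cert.L 152)) (Cert.L 156))) (Cert.s4 (Cert.s5 (Cert.s6 (Cert.s1 (Cert.s2 Cert.a Cert.a) (Cert.s2 Cert.a Cert.a)) (Cert.L 156)) (Cert.L 156)) (Cert.s5 (Cert.s6 (Cert.s1 (Cert.s2 Cert.a Cert.a) (Cert.s2 Cert.a Cert.a)) (Cert.L 176)) (Cert.L 176))))) (Cert.s2 (Cert.s4 (Cert.L 176) (Cert.s5 (Cert.s6 (Cert.s1 (Cert.L 64) (Cert.s2 (Cert.L 64) (Cert.s3 (Cert.L 64) (Cert.s4 (Cert.L 68) (Cert.s5 Cert.c (Cert.L 152)))))) (Cert.L 152)) (Cert.L 152))) (Cert.s3 (Cert.s4 (Cert.L 168) (Cert.s5 (Cert.s6 (Cert.s1 (Cert.s2 (Cert.s3 (Cert.L 64) (Cert.s4 (Cert.L 68) (Cert.s5 Cert.c (Cert.L 168))))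 (Cert.s3 Cert.a Cert.a)) (Cert.s2 (Cert.s3 (Cert.s4 (Cert.L 168) (Cert.s5 Cert.c (Cert.L 168))) (Cert.s4 (Cert.L 168) (Cert.s5 Cert.c (Cert.L 168)))) (Cert.s3 Cert.a Cert.a))) (Cert.L 168)) (Cert.L 172))) (Cert.s4 (Cert.L 184) (Cert.s5 (Cert.s6 (Cert.s1 (Cert.s2 Cert.a Cert.a) (Cert.s2 Cert.a Cert.a)) (Cert.L 184)) (Cert.L 184)))))) (Cert.L 184)) (Cert.L 184))))) (Cert.L 184))) (Cert.s6 (Cert.s1 (Cert.s2 (Cert.L 64) (Cert.s3 (Cert.s4 (Cert.L 64) (Cert.s5 (Cert.s6 Cert.a (Cert.L 144)) (Cert.L 164))) Cert.a)) (Cert.s2 (Cert.L 164) (Cert.s3 (Cert.s4 (Cert.L 164) (Cert.s5 (Cert.s6 Cert.a (Cert.L 164)) (Cert.L 172))) Cert.a))) (Cert.L 172)))))) (Cert.s2 (Cert.L 172) (Cert.s3 (Cert.s4 (Cert.L 172) (Cert.s5 (Cert.s6 (Cert.s1 (Cert.s2 (Cert.L 136) (Cert.s3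 (Cert.L 136) (Cert.s4 (Cert.L 144) (Cert.s5 (Cert.s6 Cert.a (Cert.L 168)) (Cert.L 184))))) (Cert.L 184)) (Cert.L 184)) (Cert.L 184))) (Cert.s4 (Cert.s5 (Cert.s6 (Cert.s1 (Cert.s2 (Cert.L 64) (Cert.s3 (Cert.s4 (Cert.L 84) (Cert.s5 (Cert.s6 Cert.a (Cert.L 136)) (Cert.L 140))) Cert.a)) (Cert.L 172)) (Cert.L 172)) (Cert.L 172)) (Cert.s5 (Cert.s6 (Cert.s1 (Cert.s2 (Cert.s4 (Cert.L 144) (Cert.s5 (Cert.s6 Cert.a (Cert.L 180)) (Cert.s6 Cert.a (Cert.L 180)))) (Cert.s3 (Cert.s4 (Cert.s5 (Cert.s6 Cert.a (Cert.L 180)) (Cert.L 180)) (Cert.s5 (Cert.s6 Cert.a (Cert.L 188)) (Cert.s6 Cert.a (Cert.L 188)))) Cert.a)) (Cert.L 188)) (Cert.L 188)) (Cert.L 188))))))) (Cert.s6 (Cert.s1 (Cert.s2 Cert.a Cert.a) (Cert.s2 Cert.a Cert.a)) (Cert.L 188)))) (Cert.s3 (Cert.s4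 (Cert.s5 (Cert.s6 Cert.a (Cert.s1 (Cert.s3 (Cert.L 64) (Cert.s4 (Cert.s5 (Cert.s6 (Cert.s1 (Cert.L 64) (Cert.s2 (Cert.L 64) Cert.a)) (Cert.L 112)) (Cert.L 132)) (Cert.s5 (Cert.s6 (Cert.s1 (Cert.L 132) (Cert.s2 (Cert.s3 Cert.a Cert.a) Cert.a)) (Cert.L 148)) (Cert.L 156)))) (Cert.s2 (Cert.s3 (Cert.L 156) (Cert.s4 (Cert.s5 (Cert.s6 (Cert.s1 (Cert.s2 (Cert.L 136) Cert.a) (Cert.s2 (Cert.L 140) Cert.a)) (Cert.L 140)) (Cert.L 144)) (Cert.s5 (Cert.s6 (Cert.s1 (Cert.s2 (Cert.s3 Cert.a Cert.a) Cert.a) (Cert.L 164)) (Cert.L 164)) (Cert.L 164)))) (Cert.s3 (Cert.L 164) (Cert.s4 (Cert.s5 (Cert.s6 Cert.a (Cert.L 164)) (Cert.L 164)) (Cert.L 176)))))) (Cert.s6 Cert.a (Cert.L 176))) (Cert.s5 (Cert.s6 Cert.a (Cert.s1 (Cert.s3 (Cert.s4 (Cert.s5 (Cert.s6 (Cert.s1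 (Cert.L 64) (Cert.s2 (Cert.L 64) (Cert.s3 Cert.a Cert.a))) (Cert.L 128)) (Cert.L 140)) (Cert.s5 (Cert.s6 (Cert.s1 (Cert.s3 (Cert.L 140) (Cert.s4 (Cert.L 140) (Cert.s5 (Cert.s6 Cert.a (Cert.s1 (Cert.L 140) (Cert.s2 (Cert.L 140) Cert.a))) (Cert.s6 Cert.a (Cert.L 152))))) (Cert.s2 (Cert.s3 (Cert.s4 (Cert.L 152) (Cert.s5 (Cert.s6 Cert.a (Cert.L 152)) (Cert.L 156))) (Cert.s4 (Cert.s5 (Cert.s6 Cert.a (Cert.L 156)) (Cert.L 164)) (Cert.s5 (Cert.s6 Cert.a (Cert.s1 (Cert.s2 (Cert.s3 Cert.a Cert.a) Cert.a) (Cert.s2 (Cert.s3 Cert.a Cert.a) Cert.a))) (Cert.s6 Cert.a (Cert.L 164))))) (Cert.s3 Cert.a Cert.a))) (Cert.L 168)) (Cert.s6 (Cert.s1 (Cert.s3 (Cert.L 168) (Cert.s4 (Cert.L 168) (Cert.s5 (Cert.s6 Cert.a (Cert.L 168)) (Cert.L 168)))) (Cert.L 172)) (Cert.L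 172)))) (Cert.s4 (Cert.s5 (Cert.s6 (Cert.s1 (Cert.s3 Cert.a Cert.a) (Cert.s2 (Cert.s3 Cert.a Cert.a) Cert.a)) (Cert.L 172)) (Cert.L 176)) (Cert.s5 (Cert.s6 (Cert.s1 (Cert.s3 Cert.a Cert.a) (Cert.s2 (Cert.s3 Cert.a Cert.a) Cert.a)) (Cert.s1 (Cert.s3 (Cert.s4 (Cert.L 176) (Cert.s5 (Cert.s6 (Cert.s1 (Cert.L 176) (Cert.s2 (Cert.s3 (Cert.L 176) (Cert.s4 (Cert.L 176) (Cert.s5 (Cert.s6 (Cert.s1 (Cert.s2 (Cert.s3 Cert.a Cert.a) Cert.a) (Cert.s2 (Cert.s3 Cert.a Cert.a) Cert.a)) (Cert.L 176)) (Cert.L 176)))) (Cert.L 180))) (Cert.L 180)) (Cert.L 180))) (Cert.s4 (Cert.L 180) (Cert.s5 (Cert.s6 (Cert.s1 (Cert.s3 (Cert.s4 (Cert.L 180) (Cert.s5 (Cert.s6 Cert.a (Cert.L 180)) (Cert.L 180))) (Cert.s4 (Cert.s5 (Cert.s6 Cert.a (Cert.L 180)) (Cert.L 180)) (Cert.s5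 (Cert.s6 Cert.a (Cert.L 180)) (Cert.L 180)))) (Cert.s2 (Cert.s3 (Cert.s4 (Cert.L 180) (Cert.s5 (Cert.s6 Cert.a (Cert.L 180)) (Cert.L 180))) (Cert.s4 (Cert.L 184) (Cert.s5 (Cert.s6 Cert.a (Cert.L 184)) (Cert.L 184)))) (Cert.L 188))) (Cert.L 188)) (Cert.L 188)))) (Cert.L 188))) (Cert.s6 (Cert.s1 (Cert.s3 Cert.a Cert.a) (Cert.s2 (Cert.s3 Cert.a Cert.a) Cert.a)) (Cert.L 188))))) (Cert.s2 (Cert.s3 (Cert.s4 (Cert.L 164) (Cert.s5 (Cert.s6 (Cert.s1 (Cert.s2 (Cert.s3 (Cert.s4 (Cert.L 164) (Cert.s5 (Cert.s6 Cert.a (Cert.L 164)) (Cert.L 164))) (Cert.s4 (Cert.s5 (Cert.s6 Cert.a (Cert.L 164)) (Cert.L 164)) (Cert.s5 (Cert.s6 Cert.a (Cert.L 176)) (Cert.L 184)))) (Cert.s3 Cert.a Cert.a)) (Cert.L 184)) (Cert.L 184)) (Cert.L 184))) (Cert.s4 (Cert.s5 (Cert.s6 (Cert.s1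 (Cert.s2 (Cert.s3 Cert.a Cert.a) Cert.a) (Cert.L 184)) (Cert.L 184)) (Cert.L 184)) (Cert.s5 (Cert.s6 (Cert.s1 (Cert.s2 (Cert.s3 Cert.a Cert.a) Cert.a) (Cert.L 184)) (Cert.L 184)) (Cert.L 184)))) (Cert.L 184)))) (Cert.s6 Cert.a (Cert.L 184)))) (Cert.s4 (Cert.s5 (Cert.s6 Cert.a (Cert.s1 (Cert.s4 (Cert.s5 (Cert.s6 Cert.a (Cert.L 160)) (Cert.s6 Cert.a (Cert.L 160))) (Cert.s5 (Cert.s6 Cert.a (Cert.L 164)) (Cert.L 168))) (Cert.s2 (Cert.s4 (Cert.s5 (Cert.s6 Cert.a (Cert.L 168)) (Cert.L 172)) (Cert.s5 (Cert.s6 Cert.a (Cert.L 172)) (Cert.L 172))) (Cert.s3 (Cert.s4 (Cert.s5 (Cert.s6 Cert.a (Cert.L 172)) (Cert.L 172)) (Cert.L 180)) (Cert.L 184))))) (Cert.s6 Cert.a (Cert.L 160))) (Cert.s5 (Cert.s6 Cert.a (Cert.s1 (Cert.s4 (Cert.s5 (Cert.s6 Cert.a (Cert.L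 172)) (Cert.L 180)) (Cert.s5 (Cert.s6 Cert.a (Cert.s1 (Cert.s4 (Cert.L 180) (Cert.s5 (Cert.s6 (Cert.s1 (Cert.s4 (Cert.s5 (Cert.s6 Cert.a (Cert.L 180)) (Cert.L 180)) (Cert.s5 (Cert.s6 Cert.a (Cert.L 180)) (Cert.L 180))) (Cert.L 192)) (Cert.L 192)) (Cert.L 192))) (Cert.L 192))) (Cert.s6 Cert.a (Cert.L 192)))) (Cert.s2 (Cert.s4 (Cert.s5 (Cert.s6 Cert.a (Cert.L 192)) (Cert.L 192)) (Cert.L 216)) (Cert.L 216)))) (Cert.s6 Cert.a (Cert.L 176))))))) (Cert.L 176))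

def t5 : Cert := Cert.s3 (Cert.s4 (Cert.s5 (Cert.s1 (Cert.L 68) (Cert.s2 (Cert.L 68) (Cert.s3 (Cert.L 68) (Cert.s4 (Cert.L 68) (Cert.s5 Cert.c (Cert.s6 Cert.c Cert.c)))))) (Cert.s6 (Cert.s1 (Cert.L 68) (Cert.s2 (Cert.L 68) (Cert.s3 (Cert.L 68) (Cert.s4 (Cert.L 68) (Cert.s5 (Cert.s6 Cert.c (Cert.s1 (Cert.L 68) (Cert.s2 (Cert.L 68) (Cert.s3 Cert.c Cert.c)))) (Cert.s6 (Cert.s1 (Cert.L 68) (Cert.s2 (Cert.L 68) (Cert.s3 (Cert.L 68) Cert.c))) (Cert.s1 (Cert.L 68) (Cert.s2 (Cert.L 68) (Cert.s3 (Cert.L 68) (Cert.s4 (Cert.L 68) (Cert.s5 Cert.c Cert.c))))))))))) (Cert.s1 (Cert.L 68) (Cert.s2 (Cert.L 68) (Cert.s3 (Cert.L 68) (Cert.s4 (Cert.L 68) (Cert.s5 (Cert.s1 (Cert.L 68) (Cert.s2 (Cert.L 68) (Cert.s3 (Cert.L 68) (Cert.s4 (Cert.L 68) (Cert.s5 Cert.c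 Cert.c))))) (Cert.s6 (Cert.s1 (Cert.L 68) (Cert.s2 (Cert.L 68) (Cert.s3 (Cert.L 68) (Cert.s4 (Cert.L 68) (Cert.s5 Cert.c (Cert.L 132)))))) (Cert.L 132))))))))) (Cert.s5 (Cert.s1 (Cert.L 64) (Cert.s2 (Cert.s3 (Cert.L 64) (Cert.s4 (Cert.L 64) (Cert.s5 Cert.c (Cert.s6 Cert.c Cert.d)))) (Cert.s3 (Cert.s4 (Cert.s5 Cert.c (Cert.s6 Cert.c (Cert.s1 (Cert.L 64) (Cert.s2 (Cert.L 64) Cert.c)))) (Cert.s5 Cert.c (Cert.s6 Cert.c Cert.d))) (Cert.s4 (Cert.s5 Cert.c (Cert.s6 Cert.c Cert.c)) (Cert.s5 Cert.c (Cert.s6 Cert.c Cert.c)))))) (Cert.s6 (Cert.s1 (Cert.L 64) (Cert.s2 (Cert.s3 (Cert.L 64) (Cert.s4 (Cert.s5 (Cert.L 64) (Cert.s6 (Cert.s1 (Cert.L 64) (Cert.s2 (Cert.L 64) (Cert.s3 (Cert.L 64) (Cert.s4 (Cert.L 64) (Cert.s5 Cert.c Cert.c))))) (Cert.s1 (Cert.L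 64) (Cert.s2 (Cert.L 64) (Cert.s3 (Cert.L 64) (Cert.s4 (Cert.L 64) (Cert.s5 Cert.c (Cert.s6 Cert.c Cert.c)))))))) (Cert.s5 (Cert.s6 Cert.d (Cert.s1 (Cert.s2 (Cert.L 64) (Cert.s3 (Cert.L 64) (Cert.s4 (Cert.L 64) Cert.d))) Cert.d)) (Cert.s6 (Cert.s1 (Cert.s2 (Cert.L 64) (Cert.s3 (Cert.L 64) (Cert.s4 (Cert.L 64) (Cert.s5 Cert.c Cert.c)))) (Cert.s2 (Cert.s3 (Cert.L 64) (Cert.s4 (Cert.L 64) Cert.d)) (Cert.s3 (Cert.s4 (Cert.L 64) Cert.d) (Cert.s4 (Cert.s5 Cert.c Cert.c) Cert.d)))) (Cert.s1 (Cert.s2 (Cert.L 64) (Cert.s3 (Cert.L 64) (Cert.s4 (Cert.L 64) (Cert.s5 Cert.c Cert.d)))) (Cert.s2 (Cert.s3 (Cert.L 64) (Cert.s4 (Cert.L 64) (Cert.s5 Cert.d Cert.d))) (Cert.s3 (Cert.s4 (Cert.L 64) (Cert.s5 Cert.d Cert.d)) (Cert.s4 (Cert.s5 Cert.c Cert.d) (Cert.s5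 Cert.c Cert.d))))))))) (Cert.s3 (Cert.s4 (Cert.s5 (Cert.s6 (Cert.s1 (Cert.L 64) (Cert.s2 (Cert.L 64) Cert.c)) (Cert.s1 (Cert.L 64) (Cert.s2 (Cert.L 64) (Cert.s3 (Cert.L 64) (Cert.s4 (Cert.L 64) (Cert.s5 Cert.c Cert.c)))))) (Cert.s6 (Cert.s1 (Cert.L 64) (Cert.s2 (Cert.L 64) (Cert.s3 (Cert.L 64) (Cert.s4 (Cert.L 64) (Cert.s5 Cert.c Cert.c))))) (Cert.s1 (Cert.L 64) (Cert.s2 (Cert.L 64) (Cert.s3 (Cert.L 64) (Cert.s4 (Cert.L 64) (Cert.s5 Cert.c (Cert.s6 Cert.c Cert.c)))))))) (Cert.s5 (Cert.s6 Cert.d (Cert.s1 (Cert.L 64) Cert.d)) (Cert.s6 (Cert.s1 (Cert.L 64) (Cert.s2 (Cert.s3 (Cert.L 64) (Cert.s4 (Cert.L 64) Cert.d)) (Cert.s3 (Cert.s4 (Cert.s5 Cert.c Cert.c) Cert.d) (Cert.s4 (Cert.s5 Cert.c Cert.c) Cert.d)))) (Cert.s1 (Cert.L 64) (Cert.s2 (Cert.s3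 (Cert.L 64) (Cert.s4 (Cert.s5 Cert.d Cert.d) (Cert.s5 Cert.d Cert.d))) (Cert.s3 (Cert.s4 (Cert.s5 Cert.c Cert.d) (Cert.s5 Cert.c Cert.d)) (Cert.s4 (Cert.s5 Cert.c Cert.d) (Cert.s5 Cert.c Cert.d)))))))) (Cert.s4 (Cert.s5 (Cert.s6 Cert.c (Cert.s1 (Cert.L 64) (Cert.s2 (Cert.s3 (Cert.L 64) (Cert.s4 (Cert.s5 Cert.c Cert.c) (Cert.s5 Cert.c Cert.c))) (Cert.s3 Cert.c Cert.c)))) (Cert.s6 (Cert.s1 (Cert.L 64) (Cert.s2 (Cert.s3 (Cert.s4 (Cert.L 64) (Cert.s5 Cert.c Cert.c)) (Cert.s4 (Cert.s5 Cert.c Cert.c) (Cert.s5 Cert.c Cert.c))) (Cert.s3 (Cert.s4 (Cert.s5 Cert.c Cert.c) (Cert.s5 Cert.c Cert.c)) Cert.c))) (Cert.s1 (Cert.L 72) (Cert.s2 (Cert.s3 (Cert.s4 (Cert.L 72) (Cert.s5 Cert.c (Cert.s6 Cert.c Cert.c))) (Cert.s4 (Cert.s5 Cert.c (Cert.s6 Cert.c Cert.c))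 (Cert.s5 Cert.c (Cert.s6 Cert.c Cert.c)))) (Cert.s3 (Cert.s4 (Cert.s5 Cert.c Cert.c) (Cert.s5 Cert.c Cert.c)) (Cert.s4 (Cert.s5 Cert.c Cert.c) (Cert.s5 Cert.c Cert.c))))))) (Cert.s5 (Cert.s6 Cert.c (Cert.s1 (Cert.s3 (Cert.s4 (Cert.L 72) Cert.d) (Cert.s4 (Cert.s5 Cert.c Cert.c) Cert.d)) Cert.d)) (Cert.s6 (Cert.s1 (Cert.s3 (Cert.s4 (Cert.L 72) (Cert.s5 Cert.c Cert.c)) (Cert.s4 (Cert.s5 Cert.c Cert.c) (Cert.s5 Cert.c Cert.c))) (Cert.s2 (Cert.s3 (Cert.s4 (Cert.s5 Cert.c Cert.c) Cert.d) (Cert.s4 (Cert.s5 Cert.c Cert.c) Cert.d)) (Cert.s3 (Cert.s4 (Cert.s5 Cert.c Cert.c) Cert.d) Cert.c))) (Cert.s1 (Cert.s3 (Cert.s4 (Cert.L 72) (Cert.s5 Cert.c Cert.d)) (Cert.s4 (Cert.s5 Cert.c (Cert.s6 Cert.c Cert.c)) (Cert.s5 Cert.c Cert.d))) (Cert.s2 (Cert.s3 (Cert.s4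 (Cert.s5 Cert.c Cert.d) (Cert.s5 Cert.c Cert.d)) (Cert.s4 (Cert.s5 Cert.c Cert.d) (Cert.s5 Cert.c Cert.d))) (Cert.s3 (Cert.s4 (Cert.s5 Cert.c Cert.c) (Cert.s5 Cert.c Cert.c)) (Cert.s4 (Cert.s5 Cert.c Cert.c) (Cert.s5 Cert.c Cert.c))))))))))) (Cert.s1 (Cert.L 72) (Cert.s2 (Cert.s3 (Cert.L 72) (Cert.s4 (Cert.s5 (Cert.L 72) (Cert.L 80)) (Cert.s5 (Cert.s1 (Cert.s2 (Cert.L 80) (Cert.s3 (Cert.L 80) (Cert.s4 (Cert.L 80) (Cert.s5 Cert.c Cert.d)))) (Cert.s2 (Cert.s3 (Cert.L 80) (Cert.s4 (Cert.L 80) (Cert.s5 Cert.c Cert.d))) (Cert.s3 (Cert.s4 (Cert.L 80) (Cert.s5 Cert.c Cert.d)) (Cert.s4 (Cert.s5 Cert.c Cert.d) (Cert.s5 Cert.c Cert.d))))) (Cert.s6 (Cert.s1 (Cert.s2 (Cert.L 80) (Cert.s3 (Cert.L 80) (Cert.s4 (Cert.L 80) (Cert.s5 (Cert.s6 Cert.c Cert.c) (Cert.s6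 Cert.d Cert.d))))) (Cert.s2 (Cert.s3 (Cert.L 80) (Cert.s4 (Cert.L 80) (Cert.s5 Cert.d (Cert.s6 Cert.d Cert.d)))) (Cert.s3 (Cert.s4 (Cert.L 80) (Cert.s5 Cert.d (Cert.s6 Cert.d Cert.d))) (Cert.s4 (Cert.s5 (Cert.s6 Cert.c Cert.c) (Cert.s6 Cert.d Cert.d)) (Cert.s5 Cert.d (Cert.s6 Cert.d Cert.d)))))) (Cert.L 176))))) (Cert.s3 (Cert.s4 (Cert.s5 (Cert.s1 (Cert.L 64) (Cert.s2 (Cert.L 64) (Cert.s3 (Cert.L 64) (Cert.s4 (Cert.L 64) (Cert.s5 Cert.c Cert.c))))) (Cert.s6 (Cert.s1 (Cert.L 64) (Cert.s2 (Cert.L 64) (Cert.s3 (Cert.L 64) (Cert.s4 (Cert.L 64) (Cert.s5 (Cert.s6 Cert.c Cert.c) (Cert.L 124)))))) (Cert.L 124))) (Cert.s5 (Cert.s1 (Cert.L 64) (Cert.s2 (Cert.s3 (Cert.L 64) (Cert.s4 (Cert.L 64) (Cert.s5 Cert.c Cert.d))) (Cert.s3 (Cert.s4 (Cert.s5 Cert.c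 Cert.d) (Cert.s5 Cert.c Cert.d)) (Cert.s4 (Cert.s5 Cert.c Cert.c) (Cert.s5 Cert.c Cert.c))))) (Cert.s6 (Cert.s1 (Cert.L 64) (Cert.s2 (Cert.s3 (Cert.L 72) (Cert.s4 (Cert.L 76) (Cert.s5 Cert.d (Cert.L 184)))) (Cert.s3 (Cert.s4 (Cert.s5 (Cert.s6 Cert.c Cert.c) (Cert.L 184)) (Cert.s5 Cert.d (Cert.L 184))) (Cert.s4 (Cert.s5 (Cert.s6 Cert.c Cert.c) (Cert.L 184)) (Cert.s5 Cert.d (Cert.L 188)))))) (Cert.L 188)))) (Cert.s4 (Cert.s5 (Cert.s1 (Cert.L 64) (Cert.s2 (Cert.s3 (Cert.s4 (Cert.L 64) (Cert.s5 Cert.c (Cert.s6 Cert.c Cert.c))) (Cert.s4 (Cert.s5 Cert.c Cert.c) (Cert.s5 Cert.c Cert.c))) (Cert.s3 (Cert.s4 (Cert.s5 Cert.c Cert.c) (Cert.s5 Cert.c Cert.c)) (Cert.s4 (Cert.s5 Cert.c Cert.c) (Cert.s5 Cert.c Cert.c))))) (Cert.s6 (Cert.s1 (Cert.L 76) (Cert.s2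 (Cert.s3 (Cert.s4 (Cert.L 76) (Cert.s5 (Cert.s6 Cert.c Cert.c) (Cert.L 92))) (Cert.s4 (Cert.s5 (Cert.s6 Cert.c Cert.c) (Cert.L 112)) (Cert.s5 (Cert.s6 Cert.c Cert.c) (Cert.L 180)))) (Cert.s3 (Cert.s4 (Cert.s5 (Cert.s6 Cert.c Cert.c) (Cert.L 180)) (Cert.s5 (Cert.s6 Cert.c Cert.c) (Cert.L 180))) (Cert.s4 (Cert.s5 Cert.c (Cert.L 180)) (Cert.s5 Cert.c (Cert.L 184)))))) (Cert.L 184))) (Cert.s5 (Cert.s1 (Cert.s3 (Cert.s4 (Cert.L 64) (Cert.s5 Cert.c Cert.d)) (Cert.s4 (Cert.s5 Cert.c Cert.c) (Cert.s5 Cert.c Cert.c))) (Cert.s2 (Cert.s3 (Cert.s4 (Cert.s5 Cert.c Cert.d) (Cert.s5 Cert.c Cert.d)) (Cert.s4 (Cert.s5 Cert.c Cert.c) (Cert.s5 Cert.c Cert.c))) (Cert.s3 (Cert.s4 (Cert.s5 Cert.c Cert.c) (Cert.s5 Cert.c Cert.c)) (Cert.s4 (Cert.s5 Cert.c Cert.c) (Cert.s5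 Cert.c Cert.c))))) (Cert.s6 (Cert.s1 (Cert.s3 (Cert.s4 (Cert.L 68) (Cert.s5 (Cert.s6 Cert.c Cert.c) (Cert.L 184))) (Cert.s4 (Cert.s5 (Cert.s6 Cert.c Cert.c) (Cert.L 184)) (Cert.s5 (Cert.s6 Cert.c Cert.c) (Cert.s6 Cert.c Cert.c)))) (Cert.s2 (Cert.s3 (Cert.s4 (Cert.s5 (Cert.s6 Cert.c Cert.c) (Cert.L 184)) (Cert.s5 Cert.d (Cert.L 188))) (Cert.s4 (Cert.s5 (Cert.s6 Cert.c Cert.c) (Cert.L 188)) (Cert.s5 Cert.d (Cert.L 188)))) (Cert.s3 (Cert.s4 (Cert.s5 (Cert.s6 Cert.c Cert.c) (Cert.L 188)) (Cert.s5 Cert.d (Cert.L 188))) (Cert.s4 (Cert.s5 Cert.c (Cert.L 188)) (Cert.s5 Cert.c (Cert.L 188)))))) (Cert.L 188)))))))))) (Cert.s4 (Cert.s5 (Cert.s1 (Cert.L 64) (Cert.s2 (Cert.s4 (Cert.L 64) (Cert.s5 Cert.c (Cert.s6 Cert.c (Cert.s1 (Cert.L 64) (Cert.s2 Cert.c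 Cert.c))))) (Cert.s3 (Cert.s4 (Cert.s5 Cert.c (Cert.s6 Cert.c Cert.c)) (Cert.s5 Cert.c (Cert.s6 Cert.c Cert.c))) (Cert.s4 (Cert.s5 Cert.c (Cert.s6 Cert.c Cert.c)) (Cert.s5 Cert.c (Cert.s6 Cert.c Cert.c)))))) (Cert.s6 (Cert.s1 (Cert.L 64) (Cert.s2 (Cert.s4 (Cert.L 64) (Cert.s5 (Cert.s6 (Cert.s1 (Cert.L 64) (Cert.s2 Cert.c Cert.c)) (Cert.s1 (Cert.L 64) (Cert.s2 (Cert.L 64) (Cert.s3 (Cert.L 64) Cert.c)))) (Cert.s6 (Cert.s1 (Cert.L 64) (Cert.s2 (Cert.L 64) (Cert.s3 (Cert.L 64) (Cert.s4 (Cert.L 64) (Cert.s5 Cert.c Cert.c))))) (Cert.s1 (Cert.L 64) (Cert.s2 (Cert.L 64) (Cert.s3 (Cert.L 64) (Cert.s4 (Cert.L 64) (Cert.s5 Cert.c Cert.c)))))))) (Cert.s3 (Cert.s4 (Cert.s5 (Cert.s6 Cert.c (Cert.s1 (Cert.L 64) (Cert.s2 (Cert.L 64) Cert.c))) (Cert.s6 (Cert.s1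 (Cert.L 64) (Cert.s2 (Cert.L 64) Cert.c)) (Cert.s1 (Cert.L 64) (Cert.s2 (Cert.L 64) (Cert.s3 (Cert.L 64) (Cert.s4 (Cert.L 64) (Cert.s5 Cert.c Cert.c))))))) (Cert.s5 (Cert.s6 Cert.c (Cert.s1 (Cert.s3 Cert.c Cert.c) (Cert.s2 (Cert.s3 Cert.c Cert.c) Cert.c))) (Cert.s6 (Cert.s1 (Cert.s3 (Cert.L 64) Cert.c) (Cert.s2 (Cert.s3 (Cert.s4 (Cert.L 64) (Cert.s5 Cert.c Cert.c)) Cert.c) Cert.c)) (Cert.s1 (Cert.s3 (Cert.L 64) (Cert.s4 (Cert.L 64) (Cert.s5 Cert.c Cert.c))) (Cert.s2 (Cert.s3 (Cert.s4 (Cert.L 64) (Cert.s5 Cert.c Cert.c)) (Cert.s4 (Cert.s5 Cert.c Cert.c) (Cert.s5 Cert.c Cert.c))) (Cert.s3 (Cert.s4 (Cert.s5 Cert.c Cert.c) (Cert.s5 Cert.c Cert.c)) (Cert.s4 (Cert.s5 Cert.c Cert.c) (Cert.s5 Cert.c Cert.c)))))))) (Cert.s4 (Cert.s5 (Cert.s6 Cert.c Cert.c)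 (Cert.s6 Cert.c (Cert.s1 (Cert.L 64) (Cert.s2 (Cert.s4 (Cert.L 64) (Cert.s5 Cert.c Cert.c)) (Cert.s3 Cert.c Cert.c))))) (Cert.s5 (Cert.s6 Cert.c Cert.c) (Cert.s6 Cert.c (Cert.s1 (Cert.s4 (Cert.s5 Cert.c Cert.c) (Cert.s5 Cert.c Cert.c)) (Cert.s2 (Cert.s4 (Cert.s5 Cert.c Cert.c) (Cert.s5 Cert.c Cert.c)) (Cert.s3 Cert.c Cert.c))))))))) (Cert.s1 (Cert.L 64) (Cert.s2 (Cert.s4 (Cert.L 64) (Cert.s5 (Cert.s1 (Cert.L 64) (Cert.s2 (Cert.L 64) (Cert.s3 (Cert.L 64) (Cert.s4 (Cert.L 64) (Cert.s5 Cert.c Cert.c))))) (Cert.s6 (Cert.s1 (Cert.L 64) (Cert.s2 (Cert.L 64) (Cert.s3 (Cert.L 64) (Cert.s4 (Cert.L 64) (Cert.s5 (Cert.s6 Cert.c Cert.c) (Cert.L 120)))))) (Cert.L 120)))) (Cert.s3 (Cert.s4 (Cert.s5 (Cert.s1 (Cert.L 120) (Cert.s2 (Cert.L 120) (Cert.s3 (Cert.L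 120) Cert.c))) (Cert.L 164)) (Cert.s5 (Cert.s1 (Cert.s3 (Cert.L 64) (Cert.s4 (Cert.L 64) (Cert.s5 Cert.c Cert.c))) (Cert.s2 (Cert.s3 (Cert.s4 (Cert.L 64) (Cert.s5 Cert.c Cert.c)) (Cert.s4 (Cert.s5 Cert.c Cert.c) (Cert.s5 Cert.c Cert.c))) (Cert.s3 (Cert.s4 (Cert.s5 Cert.c Cert.c) (Cert.s5 Cert.c Cert.c)) Cert.c))) (Cert.s6 (Cert.s1 (Cert.L 172) (Cert.s2 (Cert.s3 (Cert.s4 (Cert.L 172) (Cert.s5 (Cert.s6 Cert.c Cert.c) (Cert.L 172))) (Cert.s4 (Cert.L 172) (Cert.s5 Cert.c (Cert.L 172)))) (Cert.s3 (Cert.s4 (Cert.s5 Cert.c (Cert.L 172)) (Cert.s5 Cert.c (Cert.L 176))) (Cert.s4 (Cert.L 184) (Cert.s5 Cert.c Cert.c))))) (Cert.L 184)))) (Cert.s4 (Cert.s5 (Cert.s1 (Cert.L 64) (Cert.s2 (Cert.s4 (Cert.L 64) (Cert.s5 Cert.c Cert.c)) Cert.c)) (Cert.L 184)) (Cert.s5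 (Cert.s1 (Cert.s4 (Cert.s5 Cert.c Cert.c) (Cert.s5 Cert.c Cert.c)) (Cert.s2 (Cert.s4 (Cert.s5 Cert.c Cert.c) (Cert.s5 Cert.c Cert.c)) Cert.c)) (Cert.s6 (Cert.s1 (Cert.s4 (Cert.L 184) (Cert.s5 Cert.c Cert.c)) (Cert.s2 (Cert.s4 (Cert.L 184) (Cert.s5 Cert.c Cert.c)) (Cert.L 188))) (Cert.L 188))))))))) (Cert.s5 (Cert.s1 (Cert.s4 (Cert.L 64) (Cert.s5 Cert.c (Cert.s6 Cert.c Cert.d))) (Cert.s2 (Cert.s4 (Cert.s5 Cert.c (Cert.s6 Cert.c (Cert.s1 (Cert.s2 Cert.c Cert.c) (Cert.s2 Cert.c Cert.c)))) (Cert.s5 Cert.c (Cert.s6 Cert.c Cert.d))) (Cert.s3 (Cert.s4 (Cert.s5 Cert.c (Cert.s6 Cert.c Cert.c)) (Cert.s5 Cert.c (Cert.s6 Cert.c Cert.c))) (Cert.s4 (Cert.s5 Cert.c (Cert.s6 Cert.c Cert.c)) (Cert.s5 Cert.c (Cert.s6 Cert.c Cert.c)))))) (Cert.s6 (Cert.s1 (Cert.s4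 (Cert.L 64) (Cert.s5 (Cert.s6 (Cert.s1 Cert.c Cert.d) (Cert.s1 (Cert.L 64) (Cert.s2 (Cert.L 64) (Cert.s3 (Cert.s4 (Cert.L 64) (Cert.s5 Cert.c Cert.c)) Cert.c)))) (Cert.s6 (Cert.s1 (Cert.L 64) (Cert.s2 (Cert.L 64) (Cert.s3 (Cert.s4 (Cert.L 64) (Cert.s5 Cert.c Cert.c)) (Cert.s4 (Cert.s5 Cert.c Cert.c) (Cert.s5 Cert.c Cert.c))))) (Cert.s1 (Cert.L 64) (Cert.s2 (Cert.L 64) (Cert.s3 (Cert.s4 (Cert.L 64) (Cert.s5 Cert.c (Cert.s6 Cert.c Cert.c))) (Cert.s4 (Cert.s5 Cert.c Cert.c) (Cert.s5 Cert.c Cert.c)))))))) (Cert.s2 (Cert.s4 (Cert.s5 (Cert.s6 (Cert.s1 (Cert.s2 Cert.c Cert.c) (Cert.s2 Cert.c Cert.c)) (Cert.s1 (Cert.s2 (Cert.L 64) (Cert.s3 (Cert.L 64) Cert.c)) (Cert.s2 (Cert.L 64) (Cert.s3 (Cert.s4 (Cert.s5 Cert.c Cert.c) (Cert.s5 Cert.c Cert.c)) Cert.c))))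 (Cert.s6 (Cert.s1 (Cert.s2 (Cert.L 64) (Cert.s3 (Cert.L 64) (Cert.s4 (Cert.s5 Cert.c Cert.c) (Cert.s5 Cert.c Cert.c)))) (Cert.s2 (Cert.s4 (Cert.L 64) (Cert.s5 Cert.c Cert.d)) (Cert.s3 (Cert.s4 (Cert.s5 Cert.c Cert.c) (Cert.s5 Cert.c Cert.c)) (Cert.s4 (Cert.s5 Cert.c Cert.c) (Cert.s5 Cert.c Cert.c))))) (Cert.s1 (Cert.s2 (Cert.L 64) (Cert.s3 (Cert.L 64) (Cert.s4 (Cert.s5 Cert.c Cert.c) (Cert.s5 Cert.c Cert.c)))) (Cert.s2 (Cert.s4 (Cert.L 64) (Cert.s5 Cert.d (Cert.s6 Cert.c Cert.c))) (Cert.s3 (Cert.s4 (Cert.s5 Cert.c (Cert.s6 Cert.c Cert.c)) (Cert.s5 Cert.c (Cert.s6 Cert.c Cert.c))) (Cert.s4 (Cert.s5 Cert.c Cert.c) (Cert.s5 Cert.c Cert.c))))))) (Cert.s5 (Cert.s6 Cert.d (Cert.s1 (Cert.s2 (Cert.s4 (Cert.L 64) Cert.d) (Cert.s3 (Cert.s4 (Cert.s5 Cert.c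 Cert.c) Cert.d) Cert.c)) Cert.d)) (Cert.s6 (Cert.s1 (Cert.s2 (Cert.s4 (Cert.L 64) (Cert.s5 Cert.c Cert.d)) (Cert.s3 (Cert.s4 (Cert.s5 Cert.c Cert.c) (Cert.s5 Cert.c Cert.c)) (Cert.s4 (Cert.s5 Cert.c Cert.c) (Cert.s5 Cert.c Cert.c)))) (Cert.s2 (Cert.s4 (Cert.s5 Cert.c Cert.d) Cert.d) (Cert.s3 (Cert.s4 (Cert.s5 Cert.c Cert.c) Cert.d) (Cert.s4 (Cert.s5 Cert.c Cert.c) Cert.d)))) (Cert.s1 (Cert.s2 (Cert.s4 (Cert.L 64) (Cert.s5 Cert.d Cert.d)) (Cert.s3 (Cert.s4 (Cert.s5 Cert.c (Cert.s6 Cert.c Cert.c)) (Cert.s5 Cert.c Cert.d)) (Cert.s4 (Cert.s5 Cert.c Cert.c) (Cert.s5 Cert.c Cert.c)))) (Cert.s2 (Cert.s4 (Cert.s5 Cert.d Cert.d) (Cert.s5 Cert.d Cert.d)) (Cert.s3 (Cert.s4 (Cert.s5 Cert.c Cert.d) (Cert.s5 Cert.c Cert.d)) (Cert.s4 (Cert.s5 Cert.c Cert.c)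 (Cert.s5 Cert.c Cert.c)))))))) (Cert.s3 (Cert.s4 (Cert.s5 (Cert.s6 Cert.c (Cert.s1 (Cert.s3 Cert.c Cert.c) (Cert.s2 (Cert.s3 Cert.c Cert.c) Cert.c))) (Cert.s6 (Cert.s1 (Cert.s3 (Cert.s4 (Cert.s5 Cert.c Cert.c) (Cert.s5 Cert.c Cert.c)) Cert.c) (Cert.s2 (Cert.s3 (Cert.s4 (Cert.s5 Cert.c Cert.c) (Cert.s5 Cert.c Cert.c)) Cert.c) Cert.c)) (Cert.s1 (Cert.s3 (Cert.s4 (Cert.s5 Cert.c Cert.c) (Cert.s5 Cert.c Cert.c)) (Cert.s4 (Cert.s5 Cert.c Cert.c) (Cert.s5 Cert.c Cert.c))) (Cert.s2 (Cert.s3 (Cert.s4 (Cert.s5 Cert.c Cert.c) (Cert.s5 Cert.c Cert.c)) (Cert.s4 (Cert.s5 Cert.c Cert.c) (Cert.s5 Cert.c Cert.c))) (Cert.s3 (Cert.s4 (Cert.s5 Cert.c Cert.c) (Cert.s5 Cert.c Cert.c)) (Cert.s4 (Cert.s5 Cert.c Cert.c) (Cert.s5 Cert.c Cert.c))))))) (Cert.s5 (Cert.s6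 Cert.c (Cert.s1 (Cert.s3 Cert.c Cert.c) Cert.d)) (Cert.s6 (Cert.s1 (Cert.s3 (Cert.s4 (Cert.s5 Cert.c Cert.c) (Cert.s5 Cert.c Cert.c)) Cert.c) (Cert.s2 (Cert.s3 (Cert.s4 (Cert.s5 Cert.c Cert.c) Cert.d) Cert.c) Cert.c)) (Cert.s1 (Cert.s3 (Cert.s4 (Cert.s5 Cert.c Cert.c) (Cert.s5 Cert.c Cert.c)) (Cert.s4 (Cert.s5 Cert.c Cert.c) (Cert.s5 Cert.c Cert.c))) (Cert.s2 (Cert.s3 (Cert.s4 (Cert.s5 Cert.c Cert.c) (Cert.s5 Cert.c Cert.c)) (Cert.s4 (Cert.s5 Cert.c Cert.c) (Cert.s5 Cert.c Cert.c))) (Cert.s3 (Cert.s4 (Cert.s5 Cert.c Cert.c) (Cert.s5 Cert.c Cert.c)) (Cert.s4 (Cert.s5 Cert.c Cert.c) (Cert.L 248)))))))) (Cert.s4 (Cert.s5 (Cert.s6 Cert.c Cert.c) (Cert.s6 Cert.c (Cert.s1 (Cert.s4 (Cert.s5 Cert.c Cert.c) (Cert.s5 Cert.c Cert.c)) (Cert.s2 (Cert.s4 (Cert.s5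 Cert.c Cert.c) (Cert.s5 Cert.c Cert.c)) (Cert.s3 Cert.c Cert.c))))) (Cert.s5 (Cert.s6 Cert.c Cert.c) (Cert.s6 Cert.c (Cert.s1 (Cert.s4 (Cert.s5 Cert.c Cert.c) (Cert.s5 Cert.c Cert.c)) (Cert.s2 (Cert.s4 (Cert.s5 Cert.c Cert.c) (Cert.L 248)) (Cert.L 248))))))))) (Cert.s1 (Cert.s4 (Cert.L 76) (Cert.s5 (Cert.s1 (Cert.L 76) (Cert.s2 (Cert.L 76) (Cert.s3 (Cert.s4 (Cert.L 76) (Cert.s5 Cert.c Cert.d)) (Cert.s4 (Cert.s5 Cert.c Cert.c) (Cert.s5 Cert.c Cert.c))))) (Cert.s6 (Cert.s1 (Cert.L 76) (Cert.s2 (Cert.L 76) (Cert.s3 (Cert.s4 (Cert.L 76) (Cert.s5 (Cert.s6 Cert.c Cert.c) (Cert.s6 Cert.c Cert.d))) (Cert.s4 (Cert.s5 (Cert.s6 Cert.c Cert.c) (Cert.L 184)) (Cert.s5 (Cert.s6 Cert.c Cert.c) (Cert.s6 Cert.c Cert.c)))))) (Cert.L 184)))) (Cert.s2 (Cert.s4 (Cert.s5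 (Cert.s1 (Cert.s2 (Cert.L 64) (Cert.s3 (Cert.L 64) (Cert.s4 (Cert.s5 Cert.c Cert.c) (Cert.s5 Cert.c Cert.c)))) (Cert.s2 (Cert.L 76) (Cert.s3 (Cert.s4 (Cert.s5 Cert.c (Cert.s6 Cert.c Cert.c)) (Cert.s5 Cert.c (Cert.s6 Cert.c Cert.c))) (Cert.s4 (Cert.s5 Cert.c Cert.c) (Cert.s5 Cert.c Cert.c))))) (Cert.s6 (Cert.s1 (Cert.s2 (Cert.L 76) (Cert.s3 (Cert.L 76) (Cert.s4 (Cert.s5 (Cert.s6 Cert.c Cert.c) (Cert.L 88)) (Cert.s5 (Cert.s6 Cert.c Cert.c) (Cert.L 180))))) (Cert.s2 (Cert.s4 (Cert.L 64) (Cert.s5 (Cert.L 80) (Cert.L 84))) (Cert.s3 (Cert.s4 (Cert.s5 (Cert.s6 Cert.c Cert.c) (Cert.L 112)) (Cert.s5 (Cert.s6 Cert.c Cert.c) (Cert.L 184))) (Cert.s4 (Cert.s5 (Cert.s6 Cert.c Cert.c) (Cert.L 184)) (Cert.s5 (Cert.s6 Cert.c Cert.c) (Cert.L 184)))))) (Cert.L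 184))) (Cert.s5 (Cert.s1 (Cert.s2 (Cert.s4 (Cert.L 64) (Cert.s5 Cert.c Cert.d)) (Cert.s3 (Cert.s4 (Cert.s5 Cert.c (Cert.s6 Cert.c Cert.c)) (Cert.s5 Cert.c Cert.d)) (Cert.s4 (Cert.s5 Cert.c Cert.c) (Cert.s5 Cert.c Cert.c)))) (Cert.s2 (Cert.s4 (Cert.s5 Cert.c Cert.d) (Cert.s5 Cert.c Cert.d)) (Cert.s3 (Cert.s4 (Cert.s5 Cert.c Cert.d) (Cert.s5 Cert.c Cert.d)) (Cert.s4 (Cert.s5 Cert.c Cert.c) (Cert.s5 Cert.c Cert.c))))) (Cert.s6 (Cert.s1 (Cert.s2 (Cert.s4 (Cert.L 64) (Cert.s5 (Cert.s6 Cert.c Cert.d) (Cert.s6 Cert.d Cert.d))) (Cert.s3 (Cert.s4 (Cert.s5 (Cert.s6 Cert.c Cert.c) (Cert.s6 Cert.c (Cert.L 164))) (Cert.s5 (Cert.s6 Cert.c Cert.c) (Cert.s6 Cert.c Cert.d))) (Cert.s4 (Cert.s5 (Cert.s6 Cert.c Cert.c) (Cert.s6 Cert.c Cert.c)) (Cert.s5 (Cert.s6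 Cert.c Cert.c) (Cert.s6 Cert.c Cert.c))))) (Cert.s2 (Cert.s4 (Cert.s5 (Cert.s6 Cert.c Cert.d) (Cert.s6 Cert.d Cert.d)) (Cert.s5 Cert.d (Cert.s6 Cert.d Cert.d))) (Cert.s3 (Cert.s4 (Cert.s5 (Cert.s6 Cert.c Cert.c) (Cert.s6 Cert.c Cert.d)) (Cert.s5 Cert.d (Cert.s6 Cert.c Cert.d))) (Cert.s4 (Cert.s5 (Cert.s6 Cert.c Cert.c) (Cert.s6 Cert.c Cert.c)) (Cert.s5 Cert.d (Cert.s6 Cert.c Cert.c)))))) (Cert.L 184)))) (Cert.s3 (Cert.s4 (Cert.s5 (Cert.s1 (Cert.s3 (Cert.s4 (Cert.s5 Cert.c Cert.c) (Cert.s5 Cert.c Cert.c)) (Cert.s4 (Cert.s5 Cert.c Cert.c) (Cert.s5 Cert.c Cert.c))) (Cert.s2 (Cert.s3 (Cert.s4 (Cert.s5 Cert.c Cert.c) (Cert.s5 Cert.c Cert.c)) (Cert.s4 (Cert.s5 Cert.c Cert.c) (Cert.s5 Cert.c Cert.c))) (Cert.s3 (Cert.s4 (Cert.s5 Cert.c Cert.c) (Cert.s5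 Cert.c Cert.c)) Cert.c))) (Cert.s6 (Cert.s1 (Cert.s3 (Cert.s4 (Cert.s5 (Cert.s6 Cert.c Cert.c) (Cert.L 184)) (Cert.s5 (Cert.s6 Cert.c Cert.c) (Cert.L 184))) (Cert.s4 (Cert.s5 Cert.c (Cert.L 184)) (Cert.s5 Cert.c (Cert.L 184)))) (Cert.s2 (Cert.s3 (Cert.s4 (Cert.s5 (Cert.s6 Cert.c Cert.c) (Cert.L 184)) (Cert.s5 (Cert.s6 Cert.c Cert.c) (Cert.L 188))) (Cert.s4 (Cert.s5 Cert.c (Cert.L 188)) (Cert.s5 Cert.c (Cert.L 188)))) (Cert.s3 (Cert.s4 (Cert.s5 Cert.c (Cert.L 188)) (Cert.s5 Cert.c (Cert.L 188))) (Cert.s4 (Cert.s5 Cert.c Cert.c) (Cert.s5 Cert.c Cert.c))))) (Cert.L 188))) (Cert.s5 (Cert.s1 (Cert.s3 (Cert.s4 (Cert.s5 Cert.c Cert.c) (Cert.s5 Cert.c Cert.c)) (Cert.s4 (Cert.s5 Cert.c Cert.c) (Cert.s5 Cert.c Cert.c))) (Cert.s2 (Cert.s3 (Cert.s4 (Cert.s5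 Cert.c Cert.c) (Cert.s5 Cert.c Cert.c)) (Cert.s4 (Cert.s5 Cert.c Cert.c) (Cert.s5 Cert.c Cert.c))) (Cert.s3 (Cert.s4 (Cert.s5 Cert.c Cert.c) (Cert.s5 Cert.c Cert.c)) Cert.c))) (Cert.s6 (Cert.s1 (Cert.s3 (Cert.s4 (Cert.s5 (Cert.s6 Cert.c Cert.c) (Cert.s6 Cert.c Cert.c)) (Cert.s5 (Cert.s6 Cert.c Cert.c) (Cert.s6 Cert.c Cert.c))) (Cert.s4 (Cert.s5 Cert.c (Cert.L 188)) (Cert.s5 Cert.c (Cert.L 192)))) (Cert.s2 (Cert.s3 (Cert.s4 (Cert.s5 (Cert.s6 Cert.c Cert.c) (Cert.L 192)) (Cert.s5 Cert.d (Cert.L 192))) (Cert.s4 (Cert.s5 Cert.c (Cert.L 192)) (Cert.L 224))) (Cert.s3 (Cert.s4 (Cert.s5 Cert.c (Cert.L 224)) (Cert.L 224)) (Cert.L 224)))) (Cert.L 184)))) (Cert.s4 (Cert.s5 (Cert.s1 (Cert.s4 (Cert.s5 Cert.c Cert.c) (Cert.s5 Cert.c Cert.c)) (Cert.s2 (Cert.s4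 (Cert.s5 Cert.c Cert.c) (Cert.s5 Cert.c Cert.c)) Cert.c)) (Cert.s6 (Cert.s1 (Cert.s4 (Cert.s5 Cert.c Cert.c) (Cert.s5 Cert.c Cert.c)) (Cert.s2 (Cert.s4 (Cert.s5 Cert.c Cert.c) (Cert.s5 Cert.c Cert.c)) (Cert.L 196))) (Cert.L 196))) (Cert.s5 (Cert.s1 (Cert.s4 (Cert.s5 Cert.c Cert.c) (Cert.s5 Cert.c Cert.c)) (Cert.s2 (Cert.s4 (Cert.s5 Cert.c Cert.c) (Cert.L 244)) Cert.c)) (Cert.s6 (Cert.s1 (Cert.s4 (Cert.s5 Cert.c Cert.c) (Cert.L 244)) (Cert.L 244)) (Cert.L 244))))))))))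

def t6 : Cert := Cert.s6 (Cert.s1 (Cert.s2 (Cert.s3 (Cert.s4 (Cert.s5 (Cert.s6 (Cert.s1 Cert.d Cert.d) (Cert.s1 (Cert.L 64) (Cert.s2 (Cert.L 64) (Cert.s3 (Cert.L 64) (Cert.s4 (Cert.L 64) Cert.d))))) (Cert.s6 (Cert.s1 (Cert.L 64) (Cert.s2 (Cert.L 64) (Cert.s3 (Cert.L 64) (Cert.s4 (Cert.L 64) (Cert.s5 Cert.c Cert.d))))) (Cert.s1 (Cert.L 64) (Cert.s2 (Cert.L 64) (Cert.s3 (Cert.L 64) (Cert.s4 (Cert.L 64) (Cert.s5 Cert.d Cert.d))))))) (Cert.s5 (Cert.s6 Cert.d Cert.d) (Cert.s6 (Cert.s1 (Cert.s2 (Cert.L 64) (Cert.s3 (Cert.L 64) (Cert.s4 (Cert.L 64) Cert.b))) Cert.b) (Cert.s1 (Cert.s2 (Cert.L 64) (Cert.s3 (Cert.L 64) (Cert.s4 (Cert.L 68) (Cert.s5 Cert.d Cert.d)))) (Cert.s2 (Cert.s3 (Cert.L 72) (Cert.s4 (Cert.s5 Cert.d Cert.d) Cert.d)) (Cert.s3 (Cert.s4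 (Cert.s5 Cert.d Cert.d) Cert.d) (Cert.s4 (Cert.s5 Cert.d Cert.d) Cert.d))))))) (Cert.s4 (Cert.s5 (Cert.s6 (Cert.s1 Cert.d Cert.d) (Cert.s1 (Cert.s2 (Cert.L 72) (Cert.s3 (Cert.L 72) (Cert.s4 (Cert.s5 Cert.c Cert.c) (Cert.s5 Cert.c Cert.c)))) (Cert.s2 (Cert.s3 (Cert.s4 (Cert.L 72) Cert.d) (Cert.s4 (Cert.s5 Cert.c Cert.c) Cert.d)) (Cert.s3 (Cert.s4 (Cert.s5 Cert.c Cert.c) Cert.d) (Cert.s4 (Cert.s5 Cert.c Cert.c) Cert.d))))) (Cert.s6 (Cert.s1 (Cert.s2 (Cert.s3 (Cert.L 72) (Cert.s4 (Cert.L 72) (Cert.s5 Cert.c Cert.d))) (Cert.s3 (Cert.s4 (Cert.L 72) (Cert.s5 Cert.c Cert.d)) (Cert.s4 (Cert.s5 Cert.c Cert.c) (Cert.s5 Cert.c Cert.c)))) (Cert.s2 (Cert.s3 (Cert.s4 (Cert.L 72) (Cert.s5 Cert.c Cert.d)) (Cert.s4 (Cert.s5 Cert.c Cert.d) (Cert.s5 Cert.c Cert.d)))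 (Cert.s3 (Cert.s4 (Cert.s5 Cert.c Cert.d) (Cert.s5 Cert.c Cert.d)) (Cert.s4 (Cert.s5 Cert.c Cert.c) (Cert.s5 Cert.c Cert.c))))) (Cert.s1 (Cert.s2 (Cert.s3 (Cert.L 72) (Cert.s4 (Cert.L 72) (Cert.s5 Cert.d (Cert.s6 Cert.c Cert.d)))) (Cert.s3 (Cert.s4 (Cert.L 72) (Cert.s5 Cert.d (Cert.s6 Cert.c Cert.c))) (Cert.s4 (Cert.s5 Cert.c (Cert.s6 Cert.c Cert.c)) (Cert.s5 Cert.c (Cert.s6 Cert.c Cert.c))))) (Cert.s2 (Cert.s3 (Cert.s4 (Cert.L 72) (Cert.s5 Cert.d Cert.d)) (Cert.s4 (Cert.s5 Cert.d (Cert.s6 Cert.c Cert.d)) (Cert.s5 Cert.d Cert.d))) (Cert.s3 (Cert.s4 (Cert.s5 Cert.d (Cert.s6 Cert.c Cert.c)) (Cert.s5 Cert.d Cert.d)) (Cert.s4 (Cert.s5 Cert.c (Cert.s6 Cert.c Cert.c)) (Cert.s5 Cert.c Cert.d))))))) (Cert.s5 (Cert.s6 Cert.d Cert.d) (Cert.s6 (Cert.s1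 (Cert.s2 (Cert.s3 (Cert.s4 (Cert.L 72) Cert.b) (Cert.s4 (Cert.s5 Cert.c Cert.d) Cert.b)) (Cert.s3 (Cert.s4 (Cert.s5 Cert.c Cert.d) Cert.b) (Cert.s4 (Cert.s5 Cert.c Cert.c) Cert.b))) Cert.b) (Cert.s1 (Cert.s2 (Cert.s3 (Cert.s4 (Cert.L 72) (Cert.s5 Cert.d Cert.d)) (Cert.s4 (Cert.s5 Cert.d Cert.d) (Cert.s5 Cert.d Cert.d))) (Cert.s3 (Cert.s4 (Cert.s5 Cert.d Cert.d) (Cert.s5 Cert.d Cert.d)) (Cert.s4 (Cert.s5 Cert.c Cert.d) (Cert.s5 Cert.c Cert.d)))) (Cert.s2 (Cert.s3 (Cert.s4 (Cert.s5 Cert.d Cert.d) Cert.d) (Cert.s4 (Cert.s5 Cert.d Cert.d) Cert.d)) (Cert.s3 (Cert.s4 (Cert.s5 Cert.d Cert.d) Cert.d) (Cert.s4 (Cert.s5 Cert.c Cert.d) Cert.d)))))))) (Cert.s3 (Cert.s4 (Cert.s5 (Cert.s6 (Cert.s1 Cert.d Cert.d) (Cert.s1 (Cert.s2 (Cert.s3 (Cert.L 72) (Cert.s4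 (Cert.L 72) (Cert.s5 Cert.c Cert.c))) (Cert.s3 (Cert.s4 (Cert.L 72) (Cert.s5 Cert.c Cert.c)) (Cert.s4 (Cert.s5 Cert.c Cert.c) (Cert.s5 Cert.c Cert.c)))) (Cert.s2 (Cert.s3 (Cert.s4 (Cert.L 72) Cert.d) (Cert.s4 (Cert.s5 Cert.c Cert.c) Cert.d)) (Cert.s3 (Cert.s4 (Cert.s5 Cert.c Cert.c) Cert.d) (Cert.s4 (Cert.s5 Cert.c Cert.c) Cert.d))))) (Cert.s6 (Cert.s1 (Cert.s2 (Cert.s3 (Cert.L 72) (Cert.s4 (Cert.L 72) (Cert.s5 Cert.c Cert.c))) (Cert.s3 (Cert.s4 (Cert.L 72) (Cert.s5 Cert.c Cert.c)) (Cert.s4 (Cert.s5 Cert.c Cert.c) (Cert.s5 Cert.c Cert.c)))) (Cert.s2 (Cert.s3 (Cert.s4 (Cert.L 72) (Cert.s5 Cert.c Cert.d)) (Cert.s4 (Cert.s5 Cert.c Cert.c) (Cert.s5 Cert.c Cert.c))) (Cert.s3 (Cert.s4 (Cert.s5 Cert.c Cert.c) (Cert.s5 Cert.c Cert.c)) (Cert.s4 (Cert.s5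 Cert.c Cert.c) (Cert.s5 Cert.c Cert.c))))) (Cert.s1 (Cert.s2 (Cert.s3 (Cert.L 72) (Cert.s4 (Cert.L 72) (Cert.s5 Cert.d (Cert.s6 Cert.c Cert.c)))) (Cert.s3 (Cert.s4 (Cert.L 72) (Cert.s5 Cert.c (Cert.s6 Cert.c Cert.c))) (Cert.s4 (Cert.s5 Cert.c (Cert.s6 Cert.c Cert.c)) (Cert.s5 Cert.c (Cert.s6 Cert.c Cert.c))))) (Cert.s2 (Cert.s3 (Cert.s4 (Cert.L 72) (Cert.s5 Cert.d Cert.d)) (Cert.s4 (Cert.s5 Cert.d (Cert.s6 Cert.c Cert.c)) (Cert.s5 Cert.d Cert.d))) (Cert.s3 (Cert.s4 (Cert.s5 Cert.c (Cert.s6 Cert.c Cert.c)) (Cert.s5 Cert.c Cert.d)) (Cert.s4 (Cert.s5 Cert.c (Cert.s6 Cert.c Cert.c)) (Cert.s5 Cert.c Cert.d))))))) (Cert.s5 (Cert.s6 Cert.d Cert.d) (Cert.s6 (Cert.s1 (Cert.s2 (Cert.s3 (Cert.s4 (Cert.s5 Cert.c Cert.d) Cert.b) (Cert.s4 (Cert.s5 Cert.c Cert.c)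 Cert.b)) (Cert.s3 (Cert.s4 (Cert.s5 Cert.c Cert.c) Cert.b) (Cert.s4 (Cert.s5 Cert.c Cert.c) Cert.b))) Cert.b) (Cert.s1 (Cert.s2 (Cert.s3 (Cert.s4 (Cert.s5 Cert.d Cert.d) (Cert.s5 Cert.d Cert.d)) (Cert.s4 (Cert.s5 Cert.d Cert.d) (Cert.s5 Cert.d Cert.d))) (Cert.s3 (Cert.s4 (Cert.s5 Cert.c Cert.d) (Cert.s5 Cert.c Cert.d)) (Cert.s4 (Cert.s5 Cert.c Cert.d) (Cert.s5 Cert.c Cert.d)))) (Cert.s2 (Cert.s3 (Cert.s4 (Cert.s5 Cert.d Cert.d) Cert.d) (Cert.s4 (Cert.s5 Cert.d Cert.d) Cert.d)) (Cert.s3 (Cert.s4 (Cert.s5 Cert.c Cert.d) Cert.d) (Cert.s4 (Cert.s5 Cert.c Cert.d) Cert.d))))))) (Cert.s4 (Cert.s5 (Cert.s6 Cert.c (Cert.s1 (Cert.s2 (Cert.s3 (Cert.s4 (Cert.s5 Cert.c Cert.c) (Cert.s5 Cert.c Cert.c)) (Cert.s4 (Cert.s5 Cert.c Cert.c) (Cert.s5 Cert.c Cert.c)))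 (Cert.s3 Cert.c Cert.c)) (Cert.s2 (Cert.s3 (Cert.s4 (Cert.s5 Cert.c Cert.c) Cert.d) (Cert.s4 (Cert.s5 Cert.c Cert.c) Cert.d)) (Cert.s3 Cert.c Cert.c)))) (Cert.s6 (Cert.s1 (Cert.s2 (Cert.s3 (Cert.s4 (Cert.s5 Cert.c Cert.c) (Cert.s5 Cert.c Cert.c)) (Cert.s4 (Cert.s5 Cert.c Cert.c) (Cert.s5 Cert.c Cert.c))) (Cert.s3 (Cert.s4 (Cert.s5 Cert.c Cert.c) (Cert.s5 Cert.c Cert.c)) Cert.c)) (Cert.s2 (Cert.s3 (Cert.s4 (Cert.s5 Cert.c Cert.c) (Cert.s5 Cert.c Cert.c)) (Cert.s4 (Cert.s5 Cert.c Cert.c) (Cert.s5 Cert.c Cert.c))) (Cert.s3 (Cert.s4 (Cert.s5 Cert.c Cert.c) (Cert.s5 Cert.c Cert.c)) Cert.c))) (Cert.s1 (Cert.s2 (Cert.s3 (Cert.s4 (Cert.s5 Cert.c (Cert.s6 Cert.c Cert.c)) (Cert.s5 Cert.c (Cert.s6 Cert.c Cert.c))) (Cert.s4 (Cert.s5 Cert.c (Cert.s6 Cert.c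 Cert.c)) (Cert.s5 Cert.c (Cert.s6 Cert.c Cert.c)))) (Cert.s3 (Cert.s4 (Cert.s5 Cert.c Cert.c) (Cert.s5 Cert.c Cert.c)) (Cert.s4 (Cert.s5 Cert.c Cert.c) (Cert.s5 Cert.c Cert.c)))) (Cert.s2 (Cert.s3 (Cert.s4 (Cert.s5 Cert.c (Cert.s6 Cert.c Cert.c)) (Cert.s5 Cert.c Cert.d)) (Cert.s4 (Cert.s5 Cert.c (Cert.s6 Cert.c Cert.c)) (Cert.s5 Cert.c Cert.d))) (Cert.s3 (Cert.s4 (Cert.s5 Cert.c Cert.c) (Cert.s5 Cert.c Cert.c)) (Cert.s4 (Cert.s5 Cert.c Cert.c) (Cert.s5 Cert.c Cert.c))))))) (Cert.s5 (Cert.s6 Cert.c Cert.d) (Cert.s6 (Cert.s1 (Cert.s2 (Cert.s3 (Cert.s4 (Cert.s5 Cert.c Cert.c) Cert.b) (Cert.s4 (Cert.s5 Cert.c Cert.c) Cert.b)) (Cert.s3 (Cert.s4 (Cert.s5 Cert.c Cert.c) Cert.b) Cert.c)) Cert.b) (Cert.s1 (Cert.s2 (Cert.s3 (Cert.s4 (Cert.s5 Cert.c Cert.d)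 (Cert.s5 Cert.c Cert.d)) (Cert.s4 (Cert.s5 Cert.c Cert.d) (Cert.s5 Cert.c Cert.d))) (Cert.s3 (Cert.s4 (Cert.s5 Cert.c Cert.c) (Cert.s5 Cert.c Cert.c)) (Cert.s4 (Cert.s5 Cert.c Cert.c) (Cert.s5 Cert.c Cert.c)))) (Cert.s2 (Cert.s3 (Cert.s4 (Cert.s5 Cert.c Cert.d) Cert.d) (Cert.s4 (Cert.s5 Cert.c Cert.d) Cert.d)) (Cert.s3 (Cert.s4 (Cert.s5 Cert.c Cert.c) Cert.d) (Cert.s4 (Cert.s5 Cert.c Cert.c) Cert.d))))))))) (Cert.s2 (Cert.s3 (Cert.s4 (Cert.s5 (Cert.s6 Cert.d (Cert.s1 (Cert.s2 (Cert.s3 (Cert.L 72) (Cert.s4 (Cert.L 72) Cert.d)) (Cert.s3 (Cert.s4 (Cert.L 72) Cert.d) (Cert.s4 (Cert.s5 Cert.c Cert.d) Cert.d))) Cert.d)) (Cert.s6 (Cert.s1 (Cert.s2 (Cert.s3 (Cert.L 72) (Cert.s4 (Cert.L 72) (Cert.s5 Cert.d Cert.d))) (Cert.s3 (Cert.s4 (Cert.L 72) (Cert.s5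 Cert.d Cert.d)) (Cert.s4 (Cert.s5 Cert.c Cert.d) (Cert.s5 Cert.c Cert.d)))) (Cert.s2 (Cert.s3 (Cert.s4 (Cert.L 72) Cert.b) (Cert.s4 (Cert.s5 Cert.d Cert.d) Cert.b)) (Cert.s3 (Cert.s4 (Cert.s5 Cert.d Cert.d) Cert.b) (Cert.s4 (Cert.s5 Cert.c Cert.d) Cert.b)))) (Cert.s1 (Cert.s2 (Cert.s3 (Cert.L 72) (Cert.s4 (Cert.L 72) (Cert.s5 Cert.d Cert.d))) (Cert.s3 (Cert.s4 (Cert.L 72) (Cert.s5 Cert.d Cert.d)) (Cert.s4 (Cert.s5 Cert.d (Cert.s6 Cert.c Cert.d)) (Cert.s5 Cert.d Cert.d)))) (Cert.s2 (Cert.s3 (Cert.s4 (Cert.L 72) (Cert.s5 Cert.d Cert.d)) (Cert.s4 (Cert.s5 Cert.d Cert.d) (Cert.s5 Cert.d Cert.d))) (Cert.s3 (Cert.s4 (Cert.s5 Cert.d Cert.d) (Cert.s5 Cert.d Cert.d)) (Cert.s4 (Cert.s5 Cert.d Cert.d) (Cert.s5 Cert.d Cert.d))))))) (Cert.s5 (Cert.s6 Cert.b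 Cert.d) (Cert.s6 Cert.b (Cert.s1 (Cert.s2 (Cert.s3 (Cert.s4 (Cert.s5 Cert.d Cert.d) Cert.d) (Cert.s4 (Cert.s5 Cert.d Cert.d) Cert.d)) (Cert.s3 (Cert.s4 (Cert.s5 Cert.d Cert.d) Cert.d) (Cert.s4 (Cert.s5 Cert.d Cert.d) Cert.d))) Cert.d)))) (Cert.s4 (Cert.s5 (Cert.s6 Cert.d (Cert.s1 (Cert.s2 (Cert.s3 (Cert.s4 (Cert.s5 Cert.c Cert.d) Cert.d) (Cert.s4 (Cert.s5 Cert.c Cert.c) Cert.d)) (Cert.s3 (Cert.s4 (Cert.s5 Cert.c Cert.c) Cert.d) (Cert.s4 (Cert.s5 Cert.c Cert.c) Cert.d))) Cert.d)) (Cert.s6 (Cert.s1 (Cert.s2 (Cert.s3 (Cert.s4 (Cert.s5 Cert.c Cert.d) (Cert.s5 Cert.c Cert.d)) (Cert.s4 (Cert.s5 Cert.c Cert.d) (Cert.s5 Cert.c Cert.d))) (Cert.s3 (Cert.s4 (Cert.s5 Cert.c Cert.d) (Cert.s5 Cert.c Cert.d)) (Cert.s4 (Cert.s5 Cert.c Cert.c) (Cert.s5 Cert.c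 Cert.c)))) (Cert.s2 (Cert.s3 (Cert.s4 (Cert.s5 Cert.c Cert.d) Cert.b) (Cert.s4 (Cert.s5 Cert.c Cert.d) Cert.b)) (Cert.s3 (Cert.s4 (Cert.s5 Cert.c Cert.d) Cert.b) (Cert.s4 (Cert.s5 Cert.c Cert.c) Cert.b)))) (Cert.s1 (Cert.s2 (Cert.s3 (Cert.s4 (Cert.s5 Cert.d (Cert.s6 Cert.d Cert.d)) (Cert.s5 Cert.d Cert.d)) (Cert.s4 (Cert.s5 Cert.d (Cert.s6 Cert.c Cert.d)) (Cert.s5 Cert.d Cert.d))) (Cert.s3 (Cert.s4 (Cert.s5 Cert.d (Cert.s6 Cert.c Cert.c)) (Cert.s5 Cert.d Cert.d)) (Cert.s4 (Cert.s5 Cert.c (Cert.s6 Cert.c Cert.c)) (Cert.s5 Cert.c Cert.d)))) (Cert.s2 (Cert.s3 (Cert.s4 (Cert.s5 Cert.d Cert.d) (Cert.s5 Cert.d Cert.d)) (Cert.s4 (Cert.s5 Cert.d Cert.d) (Cert.s5 Cert.d Cert.d))) (Cert.s3 (Cert.s4 (Cert.s5 Cert.d Cert.d) (Cert.s5 Cert.d Cert.d)) (Cert.s4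 (Cert.s5 Cert.c Cert.d) (Cert.s5 Cert.c Cert.d))))))) (Cert.s5 (Cert.s6 Cert.b Cert.d) (Cert.s6 Cert.b (Cert.s1 (Cert.s2 (Cert.s3 (Cert.s4 (Cert.s5 Cert.d Cert.d) Cert.d) (Cert.s4 (Cert.s5 Cert.d Cert.d) Cert.d)) (Cert.s3 (Cert.s4 (Cert.s5 Cert.d Cert.d) Cert.d) (Cert.s4 (Cert.s5 Cert.c Cert.d) Cert.d))) Cert.d))))) (Cert.s3 (Cert.s4 (Cert.s5 (Cert.s6 Cert.d (Cert.s1 (Cert.s2 (Cert.s3 (Cert.s4 (Cert.s5 Cert.c Cert.c) Cert.d) (Cert.s4 (Cert.s5 Cert.c Cert.c) Cert.d)) (Cert.s3 (Cert.s4 (Cert.s5 Cert.c Cert.c) Cert.d) (Cert.s4 (Cert.s5 Cert.c Cert.c) Cert.d))) Cert.d)) (Cert.s6 (Cert.s1 (Cert.s2 (Cert.s3 (Cert.s4 (Cert.s5 Cert.c Cert.d) (Cert.s5 Cert.c Cert.d)) (Cert.s4 (Cert.s5 Cert.c Cert.c) (Cert.s5 Cert.c Cert.c))) (Cert.s3 (Cert.s4 (Cert.s5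 Cert.c Cert.c) (Cert.s5 Cert.c Cert.c)) (Cert.s4 (Cert.s5 Cert.c Cert.c) (Cert.s5 Cert.c Cert.c)))) (Cert.s2 (Cert.s3 (Cert.s4 (Cert.s5 Cert.c Cert.d) Cert.b) (Cert.s4 (Cert.s5 Cert.c Cert.c) Cert.b)) (Cert.s3 (Cert.s4 (Cert.s5 Cert.c Cert.c) Cert.b) (Cert.s4 (Cert.s5 Cert.c Cert.c) Cert.b)))) (Cert.s1 (Cert.s2 (Cert.s3 (Cert.s4 (Cert.s5 Cert.d (Cert.L 172)) (Cert.s5 Cert.d Cert.d)) (Cert.s4 (Cert.s5 Cert.d (Cert.s6 Cert.c Cert.c)) (Cert.s5 Cert.d Cert.d))) (Cert.s3 (Cert.s4 (Cert.s5 Cert.c (Cert.s6 Cert.c Cert.c)) (Cert.s5 Cert.c Cert.d)) (Cert.s4 (Cert.s5 Cert.c (Cert.s6 Cert.c Cert.c)) (Cert.s5 Cert.c Cert.d)))) (Cert.s2 (Cert.s3 (Cert.s4 (Cert.s5 Cert.d Cert.d) (Cert.s5 Cert.d Cert.d)) (Cert.s4 (Cert.s5 Cert.d Cert.d) (Cert.s5 Cert.d Cert.d)))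 (Cert.s3 (Cert.s4 (Cert.s5 Cert.c Cert.d) (Cert.s5 Cert.c Cert.d)) (Cert.s4 (Cert.s5 Cert.c Cert.d) (Cert.s5 Cert.c Cert.d))))))) (Cert.s5 (Cert.s6 Cert.b Cert.d) (Cert.s6 Cert.b (Cert.s1 (Cert.s2 (Cert.s3 (Cert.s4 (Cert.s5 Cert.d Cert.d) Cert.d) (Cert.s4 (Cert.s5 Cert.d Cert.d) Cert.d)) (Cert.s3 (Cert.s4 (Cert.s5 Cert.c Cert.d) Cert.d) (Cert.s4 (Cert.s5 Cert.c Cert.d) Cert.d))) Cert.d)))) (Cert.s4 (Cert.s5 (Cert.s6 Cert.c (Cert.s1 (Cert.s2 (Cert.s3 (Cert.s4 (Cert.s5 Cert.c Cert.c) Cert.d) (Cert.s4 (Cert.s5 Cert.c Cert.c) Cert.d)) (Cert.s3 Cert.c Cert.c)) Cert.d)) (Cert.s6 (Cert.s1 (Cert.s2 (Cert.s3 (Cert.s4 (Cert.s5 Cert.c Cert.c) (Cert.s5 Cert.c Cert.c)) (Cert.s4 (Cert.s5 Cert.c Cert.c) (Cert.s5 Cert.c Cert.c))) (Cert.s3 (Cert.s4 (Cert.s5 Cert.c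 Cert.c) (Cert.s5 Cert.c Cert.c)) Cert.c)) (Cert.s2 (Cert.s3 (Cert.s4 (Cert.s5 Cert.c Cert.c) Cert.b) (Cert.s4 (Cert.s5 Cert.c Cert.c) Cert.b)) (Cert.s3 (Cert.s4 (Cert.s5 Cert.c Cert.c) Cert.b) Cert.c))) (Cert.s1 (Cert.s2 (Cert.s3 (Cert.s4 (Cert.s5 Cert.c (Cert.s6 Cert.c Cert.c)) (Cert.s5 Cert.c Cert.d)) (Cert.s4 (Cert.s5 Cert.c (Cert.s6 Cert.c Cert.c)) (Cert.s5 Cert.c Cert.d))) (Cert.s3 (Cert.s4 (Cert.s5 Cert.c Cert.c) (Cert.s5 Cert.c Cert.c)) (Cert.s4 (Cert.s5 Cert.c Cert.c) (Cert.L 232)))) (Cert.s2 (Cert.s3 (Cert.s4 (Cert.s5 Cert.c Cert.d) (Cert.s5 Cert.c Cert.d)) (Cert.s4 (Cert.s5 Cert.c Cert.d) (Cert.L 232))) (Cert.s3 (Cert.s4 (Cert.s5 Cert.c Cert.c) (Cert.L 232)) (Cert.L 232)))))) (Cert.s5 (Cert.s6 Cert.b Cert.d) (Cert.s6 Cert.b (Cert.s1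 (Cert.s2 (Cert.s3 (Cert.s4 (Cert.s5 Cert.c Cert.d) Cert.d) (Cert.L 256)) (Cert.L 256)) Cert.d))))))) (Cert.s1 (Cert.s2 (Cert.s3 (Cert.s4 (Cert.s5 (Cert.s1 (Cert.L 64) (Cert.s2 (Cert.L 64) (Cert.s3 (Cert.L 64) (Cert.s4 (Cert.L 64) (Cert.s5 Cert.c Cert.d))))) (Cert.L 108)) (Cert.s5 (Cert.s1 (Cert.s2 (Cert.L 64) (Cert.s3 (Cert.L 64) (Cert.s4 (Cert.L 64) (Cert.s5 Cert.c Cert.d)))) (Cert.s2 (Cert.s3 (Cert.L 64) (Cert.s4 (Cert.L 72) Cert.d)) (Cert.s3 (Cert.s4 (Cert.s5 Cert.c Cert.d) Cert.d) (Cert.s4 (Cert.s5 Cert.c Cert.d) Cert.d)))) (Cert.s6 (Cert.s1 (Cert.s2 (Cert.L 72) (Cert.s3 (Cert.L 72) (Cert.s4 (Cert.L 76) (Cert.s5 Cert.d Cert.d)))) (Cert.s2 (Cert.s3 (Cert.L 76) (Cert.s4 (Cert.L 80) (Cert.s5 Cert.d Cert.d))) (Cert.s3 (Cert.s4 (Cert.L 84) (Cert.s5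 Cert.d Cert.d)) (Cert.s4 (Cert.s5 Cert.d (Cert.L 164)) (Cert.s5 Cert.d Cert.d))))) (Cert.L 168)))) (Cert.s4 (Cert.s5 (Cert.s1 (Cert.s2 (Cert.L 76) (Cert.s3 (Cert.L 76) (Cert.s4 (Cert.s5 Cert.c (Cert.s6 Cert.c Cert.c)) (Cert.s5 Cert.c (Cert.s6 Cert.c Cert.c))))) (Cert.s2 (Cert.s3 (Cert.s4 (Cert.L 76) (Cert.s5 Cert.c Cert.d)) (Cert.s4 (Cert.s5 Cert.c (Cert.s6 Cert.c Cert.c)) (Cert.s5 Cert.c Cert.d))) (Cert.s3 (Cert.s4 (Cert.s5 Cert.c (Cert.s6 Cert.c Cert.c)) (Cert.s5 Cert.c Cert.d)) (Cert.s4 (Cert.s5 Cert.c (Cert.s6 Cert.c Cert.c)) (Cert.s5 Cert.c Cert.d))))) (Cert.s6 (Cert.s1 (Cert.s2 (Cert.L 80) (Cert.s3 (Cert.L 80) (Cert.s4 (Cert.L 132) (Cert.s5 (Cert.s6 Cert.c Cert.c) (Cert.L 172))))) (Cert.s2 (Cert.s3 (Cert.L 172) (Cert.s4 (Cert.L 172) (Cert.s5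 (Cert.s6 Cert.c Cert.d) (Cert.L 172)))) (Cert.s3 (Cert.L 180) (Cert.s4 (Cert.L 180) (Cert.s5 (Cert.s6 Cert.c Cert.c) (Cert.L 180)))))) (Cert.L 180))) (Cert.s5 (Cert.s1 (Cert.s2 (Cert.s3 (Cert.s4 (Cert.L 64) (Cert.s5 Cert.c Cert.d)) (Cert.s4 (Cert.s5 Cert.c Cert.d) (Cert.s5 Cert.c Cert.d))) (Cert.s3 (Cert.s4 (Cert.s5 Cert.c Cert.d) (Cert.s5 Cert.c Cert.d)) (Cert.s4 (Cert.s5 Cert.c Cert.d) (Cert.s5 Cert.c Cert.d)))) (Cert.s2 (Cert.s3 (Cert.s4 (Cert.s5 Cert.c Cert.d) Cert.d) (Cert.s4 (Cert.s5 Cert.c Cert.d) Cert.d)) (Cert.s3 (Cert.s4 (Cert.s5 Cert.c Cert.d) Cert.d) (Cert.s4 (Cert.s5 Cert.c Cert.d) Cert.d)))) (Cert.s6 (Cert.s1 (Cert.s2 (Cert.s3 (Cert.s4 (Cert.L 72) (Cert.s5 Cert.d Cert.d)) (Cert.s4 (Cert.s5 (Cert.s6 Cert.c Cert.d) (Cert.L 176)) (Cert.s5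 Cert.d Cert.d))) (Cert.s3 (Cert.s4 (Cert.s5 (Cert.s6 Cert.c Cert.d) (Cert.L 176)) (Cert.s5 Cert.d Cert.d)) (Cert.s4 (Cert.s5 (Cert.s6 Cert.c Cert.c) (Cert.L 184)) (Cert.s5 Cert.d Cert.d)))) (Cert.s2 (Cert.s3 (Cert.s4 (Cert.s5 Cert.d (Cert.L 184)) (Cert.s5 Cert.d Cert.d)) (Cert.s4 (Cert.s5 Cert.d (Cert.L 184)) (Cert.s5 Cert.d Cert.d))) (Cert.s3 (Cert.s4 (Cert.s5 Cert.d (Cert.L 184)) (Cert.s5 Cert.d Cert.d)) (Cert.s4 (Cert.s5 Cert.d (Cert.L 184)) (Cert.s5 Cert.d Cert.d))))) (Cert.L 184))))) (Cert.s3 (Cert.s4 (Cert.s5 (Cert.s1 (Cert.s2 (Cert.s3 (Cert.L 64) (Cert.s4 (Cert.L 64) (Cert.s5 Cert.c (Cert.s6 Cert.c Cert.c)))) (Cert.s3 (Cert.s4 (Cert.L 64) (Cert.s5 Cert.c (Cert.s6 Cert.c Cert.c))) (Cert.s4 (Cert.s5 Cert.c Cert.c) (Cert.s5 Cert.c Cert.c))))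 (Cert.s2 (Cert.s3 (Cert.s4 (Cert.L 64) (Cert.s5 Cert.c Cert.d)) (Cert.s4 (Cert.s5 Cert.c (Cert.s6 Cert.c Cert.c)) (Cert.s5 Cert.c Cert.d))) (Cert.s3 (Cert.s4 (Cert.s5 Cert.c (Cert.s6 Cert.c Cert.c)) (Cert.s5 Cert.c Cert.d)) (Cert.s4 (Cert.s5 Cert.c Cert.c) (Cert.s5 Cert.c Cert.c))))) (Cert.s6 (Cert.s1 (Cert.s2 (Cert.L 140) (Cert.s3 (Cert.L 152) (Cert.s4 (Cert.L 152) (Cert.s5 (Cert.s6 Cert.c Cert.c) (Cert.L 168))))) (Cert.s2 (Cert.L 180) (Cert.L 188))) (Cert.L 188))) (Cert.s5 (Cert.s1 (Cert.s2 (Cert.s3 (Cert.s4 (Cert.L 76) (Cert.s5 Cert.c Cert.d)) (Cert.s4 (Cert.s5 Cert.c Cert.d) (Cert.s5 Cert.c Cert.d))) (Cert.s3 (Cert.s4 (Cert.s5 Cert.c Cert.d) (Cert.s5 Cert.c Cert.d)) (Cert.s4 (Cert.s5 Cert.c Cert.c) (Cert.s5 Cert.c Cert.c)))) (Cert.s2 (Cert.s3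 (Cert.s4 (Cert.s5 Cert.c Cert.d) Cert.d) (Cert.s4 (Cert.s5 Cert.c Cert.d) Cert.d)) (Cert.s3 (Cert.s4 (Cert.s5 Cert.c Cert.d) Cert.d) (Cert.s4 (Cert.s5 Cert.c Cert.c) Cert.d)))) (Cert.s6 (Cert.s1 (Cert.s2 (Cert.s3 (Cert.s4 (Cert.L 80) (Cert.s5 Cert.d Cert.d)) (Cert.s4 (Cert.s5 (Cert.s6 Cert.c Cert.d) (Cert.L 172)) (Cert.s5 Cert.d Cert.d))) (Cert.s3 (Cert.s4 (Cert.s5 (Cert.s6 Cert.c Cert.c) (Cert.L 172)) (Cert.s5 Cert.d Cert.d)) (Cert.s4 (Cert.s5 (Cert.s6 Cert.c Cert.c) (Cert.L 180)) (Cert.s5 Cert.d Cert.d)))) (Cert.s2 (Cert.s3 (Cert.s4 (Cert.L 180) (Cert.s5 Cert.d Cert.d)) (Cert.s4 (Cert.s5 Cert.d (Cert.L 180)) (Cert.s5 Cert.d Cert.d))) (Cert.s3 (Cert.L 192) (Cert.s4 (Cert.s5 Cert.d (Cert.L 192)) (Cert.L 196))))) (Cert.L 196)))) (Cert.s4 (Cert.s5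 (Cert.s1 (Cert.s2 (Cert.s3 (Cert.s4 (Cert.s5 Cert.c (Cert.s6 Cert.c Cert.c)) (Cert.s5 Cert.c (Cert.s6 Cert.c Cert.c))) (Cert.s4 (Cert.s5 Cert.c Cert.c) (Cert.s5 Cert.c Cert.c))) (Cert.s3 (Cert.s4 (Cert.s5 Cert.c Cert.c) (Cert.s5 Cert.c Cert.c)) (Cert.s4 (Cert.s5 Cert.c Cert.c) (Cert.s5 Cert.c Cert.c)))) (Cert.s2 (Cert.s3 (Cert.s4 (Cert.s5 Cert.c (Cert.s6 Cert.c Cert.c)) (Cert.s5 Cert.c Cert.d)) (Cert.s4 (Cert.s5 Cert.c Cert.c) (Cert.s5 Cert.c Cert.c))) (Cert.s3 (Cert.s4 (Cert.s5 Cert.c Cert.c) (Cert.s5 Cert.c Cert.c)) (Cert.s4 (Cert.s5 Cert.c Cert.c) (Cert.s5 Cert.c Cert.c))))) (Cert.s6 (Cert.s1 (Cert.s2 (Cert.s3 (Cert.s4 (Cert.L 124) (Cert.s5 (Cert.s6 Cert.c Cert.c) (Cert.L 168))) (Cert.s4 (Cert.s5 (Cert.s6 Cert.c Cert.c) (Cert.L 168)) (Cert.s5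 (Cert.s6 Cert.c Cert.c) (Cert.L 180)))) (Cert.s3 (Cert.s4 (Cert.s5 (Cert.s6 Cert.c Cert.c) (Cert.L 180)) (Cert.s5 (Cert.s6 Cert.c Cert.c) (Cert.L 180))) (Cert.s4 (Cert.s5 Cert.c (Cert.L 180)) (Cert.s5 Cert.c (Cert.L 184))))) (Cert.s2 (Cert.s3 (Cert.L 188) (Cert.L 192)) (Cert.L 192))) (Cert.L 192))) (Cert.s5 (Cert.s1 (Cert.s2 (Cert.s3 (Cert.s4 (Cert.s5 Cert.c Cert.d) (Cert.s5 Cert.c Cert.d)) (Cert.s4 (Cert.s5 Cert.c Cert.c) (Cert.s5 Cert.c Cert.c))) (Cert.s3 (Cert.s4 (Cert.s5 Cert.c Cert.c) (Cert.s5 Cert.c Cert.c)) (Cert.s4 (Cert.s5 Cert.c Cert.c) (Cert.s5 Cert.c Cert.c)))) (Cert.s2 (Cert.s3 (Cert.s4 (Cert.s5 Cert.c Cert.d) Cert.d) (Cert.s4 (Cert.s5 Cert.c Cert.c) Cert.d)) (Cert.s3 (Cert.s4 (Cert.s5 Cert.c Cert.c) Cert.d) (Cert.s4 (Cert.s5 Cert.c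 Cert.c) Cert.d)))) (Cert.s6 (Cert.s1 (Cert.s2 (Cert.s3 (Cert.s4 (Cert.s5 (Cert.s6 Cert.c Cert.c) (Cert.L 192)) (Cert.s5 Cert.d Cert.d)) (Cert.s4 (Cert.s5 (Cert.s6 Cert.c Cert.c) (Cert.L 192)) (Cert.s5 Cert.d Cert.d))) (Cert.s3 (Cert.s4 (Cert.s5 (Cert.s6 Cert.c Cert.c) (Cert.L 192)) (Cert.s5 Cert.d Cert.d)) (Cert.s4 (Cert.s5 Cert.c (Cert.L 192)) (Cert.L 208)))) (Cert.s2 (Cert.s3 (Cert.s4 (Cert.s5 Cert.d (Cert.L 208)) (Cert.s5 Cert.d Cert.d)) (Cert.L 208)) (Cert.L 208))) (Cert.L 208)))))) (Cert.s2 (Cert.s3 (Cert.s4 (Cert.s5 (Cert.s1 (Cert.s2 (Cert.s3 (Cert.L 64) (Cert.s4 (Cert.L 64) (Cert.s5 Cert.c Cert.d))) (Cert.s3 (Cert.s4 (Cert.L 64) (Cert.s5 Cert.c Cert.d)) (Cert.s4 (Cert.s5 Cert.c (Cert.L 176)) (Cert.s5 Cert.c Cert.d)))) (Cert.s2 (Cert.s3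 (Cert.s4 (Cert.L 64) (Cert.s5 Cert.c Cert.d)) (Cert.s4 (Cert.s5 Cert.c Cert.d) (Cert.s5 Cert.c Cert.d))) (Cert.s3 (Cert.s4 (Cert.s5 Cert.c Cert.d) (Cert.s5 Cert.c Cert.d)) (Cert.s4 (Cert.s5 Cert.c Cert.d) (Cert.s5 Cert.c Cert.d))))) (Cert.L 176)) (Cert.s5 (Cert.s1 Cert.d Cert.d) (Cert.s6 (Cert.s1 (Cert.s2 (Cert.s3 (Cert.L 180) (Cert.s4 (Cert.L 180) (Cert.s5 Cert.d Cert.d))) (Cert.s3 (Cert.L 184) (Cert.s4 (Cert.L 184) (Cert.L 192)))) (Cert.L 192)) (Cert.L 192)))) (Cert.s4 (Cert.s5 (Cert.s1 (Cert.s2 (Cert.s3 (Cert.s4 (Cert.s5 Cert.c (Cert.s6 Cert.c Cert.d)) (Cert.s5 Cert.c Cert.d)) (Cert.s4 (Cert.s5 Cert.c (Cert.s6 Cert.c Cert.c)) (Cert.s5 Cert.c Cert.d))) (Cert.s3 (Cert.s4 (Cert.s5 Cert.c (Cert.s6 Cert.c Cert.c)) (Cert.s5 Cert.c Cert.d)) (Cert.s4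 (Cert.s5 Cert.c (Cert.s6 Cert.c Cert.c)) (Cert.s5 Cert.c Cert.d)))) (Cert.s2 (Cert.s3 (Cert.s4 (Cert.s5 Cert.c Cert.d) (Cert.s5 Cert.c Cert.d)) (Cert.s4 (Cert.s5 Cert.c Cert.d) (Cert.s5 Cert.c Cert.d))) (Cert.s3 (Cert.s4 (Cert.s5 Cert.c Cert.d) (Cert.s5 Cert.c Cert.d)) (Cert.s4 (Cert.s5 Cert.c Cert.d) (Cert.s5 Cert.c Cert.d))))) (Cert.L 188)) (Cert.s5 (Cert.s1 Cert.d Cert.d) (Cert.s6 (Cert.s1 (Cert.s2 (Cert.s3 (Cert.s4 (Cert.s5 Cert.d Cert.d) (Cert.s5 Cert.d Cert.d)) (Cert.L 192)) (Cert.L 192)) (Cert.L 192)) (Cert.L 192))))) (Cert.s3 (Cert.s4 (Cert.s5 (Cert.s1 (Cert.s2 (Cert.s3 (Cert.s4 (Cert.s5 Cert.c (Cert.L 160)) (Cert.s5 Cert.c Cert.d)) (Cert.s4 (Cert.s5 Cert.c (Cert.s6 Cert.c Cert.c)) (Cert.s5 Cert.c Cert.d))) (Cert.s3 (Cert.s4 (Cert.s5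 Cert.c (Cert.s6 Cert.c Cert.c)) (Cert.s5 Cert.c Cert.d)) (Cert.s4 (Cert.s5 Cert.c Cert.c) (Cert.s5 Cert.c Cert.c)))) (Cert.s2 (Cert.s3 (Cert.s4 (Cert.s5 Cert.c Cert.d) (Cert.s5 Cert.c Cert.d)) (Cert.s4 (Cert.s5 Cert.c Cert.d) (Cert.s5 Cert.c Cert.d))) (Cert.s3 (Cert.s4 (Cert.s5 Cert.c Cert.d) (Cert.s5 Cert.c Cert.d)) (Cert.s4 (Cert.s5 Cert.c Cert.c) (Cert.s5 Cert.c Cert.c))))) (Cert.L 184)) (Cert.s5 (Cert.s1 Cert.d Cert.d) (Cert.L 188))) (Cert.s4 (Cert.s5 (Cert.s1 (Cert.s2 (Cert.s3 (Cert.s4 (Cert.s5 Cert.c (Cert.s6 Cert.c Cert.c)) (Cert.s5 Cert.c Cert.d)) (Cert.s4 (Cert.s5 Cert.c Cert.c) (Cert.s5 Cert.c Cert.c))) (Cert.s3 (Cert.s4 (Cert.s5 Cert.c Cert.c) (Cert.s5 Cert.c Cert.c)) (Cert.s4 (Cert.s5 Cert.c Cert.c) (Cert.L 228)))) (Cert.s2 (Cert.s3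 (Cert.s4 (Cert.s5 Cert.c Cert.d) (Cert.s5 Cert.c Cert.d)) (Cert.s4 (Cert.s5 Cert.c Cert.c) (Cert.L 228))) (Cert.s3 (Cert.s4 (Cert.s5 Cert.c Cert.c) (Cert.L 228)) (Cert.L 228)))) (Cert.L 188)) (Cert.s5 (Cert.s1 Cert.d Cert.d) (Cert.L 188))))))

def t7 : Cert := Cert.s4 (Cert.s5 (Cert.s1 (Cert.s2 (Cert.s4 (Cert.s5 Cert.c (Cert.s6 Cert.c (Cert.s1 (Cert.L 64) (Cert.s2 Cert.c Cert.c)))) (Cert.s5 Cert.c (Cert.s6 Cert.c (Cert.s1 (Cert.s2 Cert.c Cert.c) (Cert.s2 Cert.c Cert.c))))) (Cert.s3 (Cert.s4 (Cert.s5 Cert.c (Cert.s6 Cert.c Cert.c)) (Cert.s5 Cert.c (Cert.s6 Cert.c Cert.c))) (Cert.s4 (Cert.s5 Cert.c (Cert.s6 Cert.c Cert.c)) (Cert.s5 Cert.c (Cert.s6 Cert.c Cert.c))))) (Cert.s2 (Cert.s4 (Cert.s5 Cert.c (Cert.s6 Cert.c (Cert.s1 (Cert.s2 Cert.c Cert.c)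 (Cert.s2 Cert.c Cert.c)))) (Cert.s5 Cert.c (Cert.s6 Cert.c (Cert.s1 (Cert.s2 Cert.c Cert.c) (Cert.s2 Cert.c Cert.c))))) (Cert.s3 (Cert.s4 (Cert.s5 Cert.c (Cert.s6 Cert.c Cert.c)) (Cert.s5 Cert.c (Cert.s6 Cert.c Cert.c))) (Cert.s4 (Cert.s5 Cert.c (Cert.s6 Cert.c Cert.c)) (Cert.s5 Cert.c (Cert.s6 Cert.c Cert.c)))))) (Cert.s6 (Cert.s1 (Cert.s2 (Cert.s4 (Cert.s5 (Cert.s6 (Cert.s1 (Cert.L 64) (Cert.s2 Cert.c Cert.c)) (Cert.s1 (Cert.L 64) (Cert.s2 (Cert.L 64) (Cert.s3 (Cert.L 64) Cert.c)))) (Cert.s6 (Cert.s1 (Cert.L 64) (Cert.s2 (Cert.L 64) (Cert.s3 (Cert.L 64) (Cert.s4 (Cert.L 64) (Cert.s5 Cert.c Cert.c))))) (Cert.s1 (Cert.L 64) (Cert.s2 (Cert.L 64) (Cert.s3 (Cert.L 64) (Cert.s4 (Cert.L 64) (Cert.s5 Cert.c Cert.c))))))) (Cert.s5 (Cert.s6 (Cert.s1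 (Cert.s2 Cert.c Cert.c) (Cert.s2 Cert.c Cert.c)) (Cert.s1 (Cert.s2 (Cert.L 64) (Cert.s3 (Cert.s4 (Cert.L 64) (Cert.s5 Cert.c Cert.c)) Cert.c)) (Cert.s2 (Cert.s4 (Cert.L 64) (Cert.s5 Cert.c Cert.c)) (Cert.s3 (Cert.s4 (Cert.s5 Cert.c Cert.c) (Cert.s5 Cert.c Cert.c)) Cert.c)))) (Cert.s6 (Cert.s1 (Cert.s2 (Cert.L 64) (Cert.s3 (Cert.s4 (Cert.L 64) (Cert.s5 Cert.c Cert.c)) (Cert.s4 (Cert.s5 Cert.c Cert.c) (Cert.s5 Cert.c Cert.c)))) (Cert.s2 (Cert.s4 (Cert.L 64) (Cert.s5 Cert.c (Cert.s6 Cert.c Cert.c))) (Cert.s3 (Cert.s4 (Cert.s5 Cert.c Cert.c) (Cert.s5 Cert.c Cert.c)) (Cert.s4 (Cert.s5 Cert.c Cert.c) (Cert.s5 Cert.c Cert.c))))) (Cert.s1 (Cert.s2 (Cert.L 64) (Cert.s3 (Cert.s4 (Cert.L 64) (Cert.s5 Cert.c (Cert.s6 Cert.c Cert.c))) (Cert.s4 (Cert.s5 Cert.c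 Cert.c) (Cert.s5 Cert.c Cert.c)))) (Cert.s2 (Cert.s4 (Cert.L 64) (Cert.s5 (Cert.s6 Cert.c Cert.c) (Cert.s6 Cert.c Cert.c))) (Cert.s3 (Cert.s4 (Cert.s5 Cert.c (Cert.s6 Cert.c Cert.c)) (Cert.s5 Cert.c (Cert.s6 Cert.c Cert.c))) (Cert.s4 (Cert.s5 Cert.c Cert.c) (Cert.s5 Cert.c Cert.c)))))))) (Cert.s3 (Cert.s4 (Cert.s5 (Cert.s6 Cert.c (Cert.s1 (Cert.s2 (Cert.s3 Cert.c Cert.c) Cert.c) (Cert.s2 (Cert.s3 Cert.c Cert.c) Cert.c))) (Cert.s6 (Cert.s1 (Cert.s2 (Cert.s3 (Cert.L 64) Cert.c) Cert.c) (Cert.s2 (Cert.s3 (Cert.s4 (Cert.L 64) (Cert.s5 Cert.c Cert.c)) Cert.c) Cert.c)) (Cert.s1 (Cert.s2 (Cert.s3 (Cert.L 64) (Cert.s4 (Cert.L 64) (Cert.s5 Cert.c Cert.c))) (Cert.s3 (Cert.s4 (Cert.L 64) (Cert.s5 Cert.c Cert.c)) (Cert.s4 (Cert.s5 Cert.c Cert.c) (Cert.s5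 Cert.c Cert.c)))) (Cert.s2 (Cert.s3 (Cert.s4 (Cert.L 64) (Cert.s5 Cert.c Cert.c)) (Cert.s4 (Cert.s5 Cert.c Cert.c) (Cert.s5 Cert.c Cert.c))) (Cert.s3 (Cert.s4 (Cert.s5 Cert.c Cert.c) (Cert.s5 Cert.c Cert.c)) (Cert.s4 (Cert.s5 Cert.c Cert.c) (Cert.s5 Cert.c Cert.c))))))) (Cert.s5 (Cert.s6 Cert.c (Cert.s1 (Cert.s2 (Cert.s3 Cert.c Cert.c) Cert.c) (Cert.s2 (Cert.s3 Cert.c Cert.c) Cert.c))) (Cert.s6 (Cert.s1 (Cert.s2 (Cert.s3 (Cert.s4 (Cert.s5 Cert.c Cert.c) (Cert.s5 Cert.c Cert.c)) Cert.c) Cert.c) (Cert.s2 (Cert.s3 (Cert.s4 (Cert.s5 Cert.c Cert.c) (Cert.s5 Cert.c Cert.c)) Cert.c) Cert.c)) (Cert.s1 (Cert.s2 (Cert.s3 (Cert.s4 (Cert.s5 Cert.c Cert.c) (Cert.s5 Cert.c Cert.c)) (Cert.s4 (Cert.s5 Cert.c Cert.c) (Cert.s5 Cert.c Cert.c))) (Cert.s3 (Cert.s4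 (Cert.s5 Cert.c Cert.c) (Cert.s5 Cert.c Cert.c)) (Cert.s4 (Cert.s5 Cert.c Cert.c) (Cert.s5 Cert.c Cert.c)))) (Cert.s2 (Cert.s3 (Cert.s4 (Cert.s5 Cert.c Cert.c) (Cert.s5 Cert.c Cert.c)) (Cert.s4 (Cert.s5 Cert.c Cert.c) (Cert.s5 Cert.c Cert.c))) (Cert.s3 (Cert.s4 (Cert.s5 Cert.c Cert.c) (Cert.s5 Cert.c Cert.c)) (Cert.s4 (Cert.s5 Cert.c Cert.c) (Cert.s5 Cert.c Cert.c)))))))) (Cert.s4 (Cert.s5 (Cert.s6 Cert.c Cert.c) (Cert.s6 Cert.c (Cert.s1 (Cert.s2 (Cert.s4 (Cert.s5 Cert.c Cert.c) (Cert.s5 Cert.c Cert.c)) (Cert.s3 Cert.c Cert.c)) (Cert.s2 (Cert.s4 (Cert.s5 Cert.c Cert.c) (Cert.s5 Cert.c Cert.c)) (Cert.s3 Cert.c Cert.c))))) (Cert.s5 (Cert.s6 Cert.c Cert.c) (Cert.s6 Cert.c (Cert.s1 (Cert.s2 (Cert.s4 (Cert.s5 Cert.c Cert.c) (Cert.s5 Cert.c Cert.c))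 (Cert.s3 Cert.c Cert.c)) (Cert.s2 (Cert.s4 (Cert.s5 Cert.c Cert.c) (Cert.s5 Cert.c Cert.c)) (Cert.s3 Cert.c Cert.c)))))))) (Cert.s2 (Cert.s4 (Cert.s5 (Cert.s6 (Cert.s1 (Cert.s2 Cert.c Cert.c) (Cert.s2 Cert.c Cert.c)) (Cert.s1 (Cert.s2 (Cert.L 64) (Cert.s3 (Cert.s4 (Cert.L 64) (Cert.s5 Cert.c Cert.c)) Cert.c)) (Cert.s2 (Cert.s4 (Cert.L 64) (Cert.s5 Cert.c Cert.c)) (Cert.s3 (Cert.s4 (Cert.s5 Cert.c Cert.c) (Cert.s5 Cert.c Cert.c)) Cert.c)))) (Cert.s6 (Cert.s1 (Cert.s2 (Cert.L 64) (Cert.s3 (Cert.s4 (Cert.L 64) (Cert.s5 Cert.c Cert.c)) (Cert.s4 (Cert.s5 Cert.c Cert.c) (Cert.s5 Cert.c Cert.c)))) (Cert.s2 (Cert.s4 (Cert.L 64) (Cert.s5 Cert.c (Cert.s6 Cert.c Cert.c))) (Cert.s3 (Cert.s4 (Cert.s5 Cert.c Cert.c) (Cert.s5 Cert.c Cert.c)) (Cert.s4 (Cert.s5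 Cert.c Cert.c) (Cert.s5 Cert.c Cert.c))))) (Cert.s1 (Cert.s2 (Cert.L 64) (Cert.s3 (Cert.s4 (Cert.L 64) (Cert.s5 Cert.c (Cert.L 168))) (Cert.s4 (Cert.s5 Cert.c Cert.c) (Cert.s5 Cert.c Cert.c)))) (Cert.s2 (Cert.s4 (Cert.L 168) (Cert.s5 (Cert.s6 Cert.c Cert.c) (Cert.L 168))) (Cert.s3 (Cert.s4 (Cert.s5 Cert.c (Cert.L 168)) (Cert.s5 Cert.c (Cert.L 172))) (Cert.s4 (Cert.s5 Cert.c Cert.c) (Cert.s5 Cert.c Cert.c))))))) (Cert.s5 (Cert.s6 (Cert.s1 (Cert.s2 Cert.c Cert.c) (Cert.s2 Cert.c Cert.c)) (Cert.s1 (Cert.s2 (Cert.s4 (Cert.s5 Cert.c Cert.c) (Cert.s5 Cert.c Cert.c)) (Cert.s3 (Cert.s4 (Cert.s5 Cert.c Cert.c) (Cert.s5 Cert.c Cert.c)) Cert.c)) (Cert.s2 (Cert.s4 (Cert.s5 Cert.c Cert.c) (Cert.s5 Cert.c Cert.c)) (Cert.s3 (Cert.s4 (Cert.s5 Cert.c Cert.c)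 (Cert.s5 Cert.c Cert.c)) Cert.c)))) (Cert.s6 (Cert.s1 (Cert.s2 (Cert.s4 (Cert.s5 Cert.c (Cert.s6 Cert.c Cert.c)) (Cert.s5 Cert.c (Cert.s6 Cert.c Cert.c))) (Cert.s3 (Cert.s4 (Cert.s5 Cert.c Cert.c) (Cert.s5 Cert.c Cert.c)) (Cert.s4 (Cert.s5 Cert.c Cert.c) (Cert.s5 Cert.c Cert.c)))) (Cert.s2 (Cert.s4 (Cert.s5 Cert.c (Cert.s6 Cert.c Cert.c)) (Cert.s5 Cert.c Cert.d)) (Cert.s3 (Cert.s4 (Cert.s5 Cert.c Cert.c) (Cert.s5 Cert.c Cert.c)) (Cert.s4 (Cert.s5 Cert.c Cert.c) (Cert.s5 Cert.c Cert.c))))) (Cert.s1 (Cert.s2 (Cert.s4 (Cert.s5 (Cert.s6 Cert.c Cert.c) (Cert.s6 Cert.c Cert.c)) (Cert.s5 (Cert.s6 Cert.c Cert.c) (Cert.s6 Cert.c Cert.c))) (Cert.s3 (Cert.s4 (Cert.s5 Cert.c (Cert.s6 Cert.c Cert.c)) (Cert.s5 Cert.c (Cert.s6 Cert.c Cert.c))) (Cert.s4 (Cert.s5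 Cert.c Cert.c) (Cert.s5 Cert.c Cert.c)))) (Cert.s2 (Cert.s4 (Cert.s5 (Cert.s6 Cert.c Cert.c) (Cert.s6 Cert.c Cert.c)) (Cert.s5 Cert.d (Cert.s6 Cert.c Cert.c))) (Cert.s3 (Cert.s4 (Cert.s5 Cert.c (Cert.s6 Cert.c Cert.c)) (Cert.s5 Cert.c (Cert.s6 Cert.c Cert.c))) (Cert.s4 (Cert.s5 Cert.c Cert.c) (Cert.s5 Cert.c Cert.c)))))))) (Cert.s3 (Cert.s4 (Cert.s5 (Cert.s6 Cert.c (Cert.s1 (Cert.s2 (Cert.s3 Cert.c Cert.c) Cert.c) (Cert.s2 (Cert.s3 Cert.c Cert.c) Cert.c))) (Cert.s6 (Cert.s1 (Cert.s2 (Cert.s3 (Cert.s4 (Cert.s5 Cert.c Cert.c) (Cert.s5 Cert.c Cert.c)) Cert.c) Cert.c) (Cert.s2 (Cert.s3 (Cert.s4 (Cert.s5 Cert.c Cert.c) (Cert.s5 Cert.c Cert.c)) Cert.c) Cert.c)) (Cert.s1 (Cert.s2 (Cert.s3 (Cert.s4 (Cert.s5 Cert.c Cert.c) (Cert.s5 Cert.c Cert.c)) (Cert.s4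 (Cert.s5 Cert.c Cert.c) (Cert.s5 Cert.c Cert.c))) (Cert.s3 (Cert.s4 (Cert.s5 Cert.c Cert.c) (Cert.s5 Cert.c Cert.c)) (Cert.s4 (Cert.s5 Cert.c Cert.c) (Cert.s5 Cert.c Cert.c)))) (Cert.s2 (Cert.s3 (Cert.s4 (Cert.s5 Cert.c Cert.c) (Cert.s5 Cert.c Cert.c)) (Cert.s4 (Cert.s5 Cert.c Cert.c) (Cert.s5 Cert.c Cert.c))) (Cert.s3 (Cert.s4 (Cert.s5 Cert.c Cert.c) (Cert.s5 Cert.c Cert.c)) (Cert.s4 (Cert.s5 Cert.c Cert.c) (Cert.L 200))))))) (Cert.s5 (Cert.s6 Cert.c (Cert.s1 (Cert.s2 (Cert.s3 Cert.c Cert.c) Cert.c) (Cert.s2 (Cert.s3 Cert.c Cert.c) Cert.c))) (Cert.s6 (Cert.s1 (Cert.s2 (Cert.s3 (Cert.s4 (Cert.s5 Cert.c Cert.c) (Cert.s5 Cert.c Cert.c)) Cert.c) Cert.c) (Cert.s2 (Cert.s3 (Cert.s4 (Cert.s5 Cert.c Cert.c) (Cert.s5 Cert.c Cert.c)) Cert.c) Cert.c))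 (Cert.s1 (Cert.s2 (Cert.s3 (Cert.s4 (Cert.s5 Cert.c Cert.c) (Cert.s5 Cert.c Cert.c)) (Cert.s4 (Cert.s5 Cert.c Cert.c) (Cert.s5 Cert.c Cert.c))) (Cert.s3 (Cert.s4 (Cert.s5 Cert.c Cert.c) (Cert.s5 Cert.c Cert.c)) (Cert.s4 (Cert.s5 Cert.c Cert.c) (Cert.L 216)))) (Cert.s2 (Cert.s3 (Cert.s4 (Cert.s5 Cert.c Cert.c) (Cert.s5 Cert.c Cert.c)) (Cert.L 228)) (Cert.L 228)))))) (Cert.s4 (Cert.s5 (Cert.s6 Cert.c Cert.c) (Cert.s6 Cert.c (Cert.s1 (Cert.s2 (Cert.s4 (Cert.s5 Cert.c Cert.c) (Cert.s5 Cert.c Cert.c)) (Cert.s3 Cert.c Cert.c)) (Cert.s2 (Cert.s4 (Cert.s5 Cert.c Cert.c) (Cert.L 228)) (Cert.L 228))))) (Cert.s5 (Cert.s6 Cert.c Cert.c) (Cert.s6 Cert.c (Cert.s1 (Cert.s2 (Cert.s4 (Cert.s5 Cert.c Cert.c) (Cert.L 228)) (Cert.L 228)) (Cert.L 228)))))))) (Cert.s1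 (Cert.s2 (Cert.s4 (Cert.s5 (Cert.s1 (Cert.L 64) (Cert.s2 (Cert.L 64) (Cert.s3 (Cert.L 64) (Cert.s4 (Cert.L 64) (Cert.s5 Cert.c Cert.c))))) (Cert.L 136)) (Cert.s5 (Cert.s1 (Cert.s2 (Cert.L 136) (Cert.s3 (Cert.s4 (Cert.L 136) (Cert.s5 Cert.c (Cert.s6 Cert.c Cert.c))) (Cert.s4 (Cert.s5 Cert.c Cert.c) (Cert.s5 Cert.c Cert.c)))) (Cert.s2 (Cert.s4 (Cert.L 136) (Cert.s5 Cert.c (Cert.s6 Cert.c Cert.c))) (Cert.s3 (Cert.s4 (Cert.s5 Cert.c (Cert.s6 Cert.c Cert.c)) (Cert.s5 Cert.c (Cert.s6 Cert.c Cert.c))) (Cert.s4 (Cert.s5 Cert.c Cert.c) (Cert.s5 Cert.c Cert.c))))) (Cert.L 180))) (Cert.s3 (Cert.s4 (Cert.s5 (Cert.s1 (Cert.s2 (Cert.s3 (Cert.L 64) (Cert.s4 (Cert.L 64) (Cert.s5 Cert.c Cert.c))) (Cert.s3 (Cert.s4 (Cert.L 64) (Cert.s5 Cert.c Cert.c)) Cert.c))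 (Cert.s2 (Cert.s3 (Cert.s4 (Cert.L 64) (Cert.s5 Cert.c Cert.c)) (Cert.s4 (Cert.s5 Cert.c Cert.c) (Cert.s5 Cert.c Cert.c))) (Cert.s3 (Cert.s4 (Cert.s5 Cert.c Cert.c) (Cert.s5 Cert.c Cert.c)) Cert.c))) (Cert.L 176)) (Cert.s5 (Cert.s1 (Cert.s2 (Cert.s3 (Cert.s4 (Cert.s5 Cert.c Cert.c) (Cert.s5 Cert.c Cert.c)) (Cert.s4 (Cert.s5 Cert.c Cert.c) (Cert.s5 Cert.c Cert.c))) (Cert.s3 (Cert.s4 (Cert.s5 Cert.c Cert.c) (Cert.s5 Cert.c Cert.c)) Cert.c)) (Cert.s2 (Cert.s3 (Cert.s4 (Cert.s5 Cert.c Cert.c) (Cert.s5 Cert.c Cert.c)) (Cert.s4 (Cert.s5 Cert.c Cert.c) (Cert.s5 Cert.c Cert.c))) (Cert.s3 (Cert.s4 (Cert.s5 Cert.c Cert.c) (Cert.s5 Cert.c Cert.c)) Cert.c))) (Cert.s6 (Cert.s1 (Cert.s2 (Cert.s3 (Cert.s4 (Cert.L 176) (Cert.s5 (Cert.s6 Cert.c Cert.c) (Cert.L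 176))) (Cert.s4 (Cert.L 176) (Cert.s5 Cert.c (Cert.L 176)))) (Cert.s3 (Cert.s4 (Cert.L 184) (Cert.s5 Cert.c (Cert.L 184))) (Cert.s4 (Cert.L 184) (Cert.s5 Cert.c Cert.c)))) (Cert.L 184)) (Cert.L 184)))) (Cert.s4 (Cert.s5 (Cert.s1 (Cert.s2 (Cert.s4 (Cert.s5 Cert.c Cert.c) (Cert.s5 Cert.c Cert.c)) Cert.c) (Cert.s2 (Cert.s4 (Cert.s5 Cert.c Cert.c) (Cert.s5 Cert.c Cert.c)) Cert.c)) (Cert.L 184)) (Cert.s5 (Cert.s1 (Cert.s2 (Cert.s4 (Cert.s5 Cert.c Cert.c) (Cert.s5 Cert.c Cert.c)) Cert.c) (Cert.s2 (Cert.s4 (Cert.s5 Cert.c Cert.c) (Cert.s5 Cert.c Cert.c)) Cert.c)) (Cert.L 188))))) (Cert.s2 (Cert.s4 (Cert.s5 (Cert.s1 (Cert.s2 (Cert.L 64) (Cert.s3 (Cert.s4 (Cert.L 64) (Cert.s5 Cert.c (Cert.L 160))) (Cert.s4 (Cert.s5 Cert.c Cert.c) (Cert.s5 Cert.c Cert.c))))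 (Cert.s2 (Cert.s4 (Cert.L 160) (Cert.s5 Cert.c (Cert.L 160))) (Cert.s3 (Cert.s4 (Cert.L 164) (Cert.s5 Cert.c (Cert.L 168))) (Cert.s4 (Cert.s5 Cert.c Cert.c) (Cert.s5 Cert.c Cert.c))))) (Cert.L 168)) (Cert.s5 (Cert.s1 (Cert.s2 (Cert.s4 (Cert.s5 Cert.c (Cert.s6 Cert.c Cert.c)) (Cert.s5 Cert.c (Cert.s6 Cert.c Cert.c))) (Cert.s3 (Cert.s4 (Cert.s5 Cert.c (Cert.s6 Cert.c Cert.c)) (Cert.s5 Cert.c (Cert.s6 Cert.c Cert.c))) (Cert.s4 (Cert.s5 Cert.c Cert.c) (Cert.s5 Cert.c Cert.c)))) (Cert.s2 (Cert.s4 (Cert.s5 Cert.c (Cert.s6 Cert.c Cert.c)) (Cert.s5 Cert.c (Cert.s6 Cert.c Cert.c))) (Cert.s3 (Cert.s4 (Cert.s5 Cert.c (Cert.L 184)) (Cert.s5 Cert.c (Cert.L 192))) (Cert.s4 (Cert.s5 Cert.c Cert.c) (Cert.s5 Cert.c Cert.c))))) (Cert.L 192))) (Cert.s3 (Cert.s4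 (Cert.s5 (Cert.s1 (Cert.s2 (Cert.s3 (Cert.s4 (Cert.s5 Cert.c Cert.c) (Cert.s5 Cert.c Cert.c)) (Cert.s4 (Cert.s5 Cert.c Cert.c) (Cert.s5 Cert.c Cert.c))) (Cert.s3 (Cert.s4 (Cert.s5 Cert.c Cert.c) (Cert.s5 Cert.c Cert.c)) Cert.c)) (Cert.s2 (Cert.s3 (Cert.s4 (Cert.s5 Cert.c Cert.c) (Cert.s5 Cert.c Cert.c)) (Cert.s4 (Cert.s5 Cert.c Cert.c) (Cert.s5 Cert.c Cert.c))) (Cert.s3 (Cert.s4 (Cert.s5 Cert.c Cert.c) (Cert.s5 Cert.c Cert.c)) Cert.c))) (Cert.L 192)) (Cert.s5 (Cert.s1 (Cert.s2 (Cert.s3 (Cert.s4 (Cert.s5 Cert.c Cert.c) (Cert.s5 Cert.c Cert.c)) (Cert.s4 (Cert.s5 Cert.c Cert.c) (Cert.s5 Cert.c Cert.c))) (Cert.s3 (Cert.s4 (Cert.s5 Cert.c Cert.c) (Cert.s5 Cert.c Cert.c)) Cert.c)) (Cert.s2 (Cert.s3 (Cert.s4 (Cert.s5 Cert.c Cert.c) (Cert.s5 Cert.c Cert.c))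 (Cert.L 220)) (Cert.L 220))) (Cert.L 184))) (Cert.s4 (Cert.s5 (Cert.s1 (Cert.s2 (Cert.s4 (Cert.s5 Cert.c Cert.c) (Cert.s5 Cert.c Cert.c)) Cert.c) (Cert.L 196)) (Cert.L 196)) (Cert.L 248))))))) (Cert.s5 (Cert.s1 (Cert.s2 (Cert.s4 (Cert.s5 Cert.c (Cert.s6 Cert.c Cert.d)) (Cert.s5 Cert.c (Cert.s6 Cert.c Cert.d))) (Cert.s3 (Cert.s4 (Cert.s5 Cert.c (Cert.s6 Cert.c Cert.c)) (Cert.s5 Cert.c (Cert.s6 Cert.c Cert.c))) (Cert.s4 (Cert.s5 Cert.c (Cert.s6 Cert.c Cert.c)) (Cert.s5 Cert.c (Cert.s6 Cert.c Cert.c))))) (Cert.s2 (Cert.s4 (Cert.s5 Cert.c (Cert.s6 Cert.c Cert.d)) (Cert.s5 Cert.b (Cert.s6 Cert.b Cert.d))) (Cert.s3 (Cert.s4 (Cert.s5 Cert.c (Cert.s6 Cert.c Cert.c)) (Cert.s5 Cert.b (Cert.s6 Cert.b Cert.c))) (Cert.s4 (Cert.s5 Cert.c (Cert.s6 Cert.c Cert.c))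 (Cert.s5 Cert.b (Cert.s6 Cert.b Cert.c)))))) (Cert.s6 (Cert.s1 (Cert.s2 (Cert.s4 (Cert.s5 (Cert.s6 (Cert.s1 Cert.d Cert.d) (Cert.s1 (Cert.s2 (Cert.s4 (Cert.s5 Cert.c Cert.c) (Cert.s5 Cert.c Cert.c)) (Cert.s3 (Cert.s4 (Cert.s5 Cert.c Cert.c) (Cert.s5 Cert.c Cert.c)) Cert.c)) (Cert.s2 (Cert.s4 (Cert.s5 Cert.c Cert.c) Cert.d) (Cert.s3 (Cert.s4 (Cert.s5 Cert.c Cert.c) Cert.d) Cert.c)))) (Cert.s6 (Cert.s1 (Cert.s2 (Cert.s4 (Cert.s5 Cert.c (Cert.s6 Cert.c Cert.c)) (Cert.s5 Cert.c Cert.d)) (Cert.s3 (Cert.s4 (Cert.s5 Cert.c Cert.c) (Cert.s5 Cert.c Cert.c)) (Cert.s4 (Cert.s5 Cert.c Cert.c) (Cert.s5 Cert.c Cert.c)))) (Cert.s2 (Cert.s4 (Cert.s5 Cert.c Cert.d) (Cert.s5 Cert.c Cert.d)) (Cert.s3 (Cert.s4 (Cert.s5 Cert.c Cert.c) (Cert.s5 Cert.c Cert.c)) (Cert.s4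 (Cert.s5 Cert.c Cert.c) (Cert.s5 Cert.c Cert.c))))) (Cert.s1 (Cert.s2 (Cert.s4 (Cert.s5 (Cert.s6 Cert.c Cert.c) (Cert.s6 Cert.c Cert.c)) (Cert.s5 Cert.d (Cert.s6 Cert.c Cert.c))) (Cert.s3 (Cert.s4 (Cert.s5 Cert.c (Cert.s6 Cert.c Cert.c)) (Cert.s5 Cert.c (Cert.s6 Cert.c Cert.c))) (Cert.s4 (Cert.s5 Cert.c Cert.c) (Cert.s5 Cert.c Cert.c)))) (Cert.s2 (Cert.s4 (Cert.s5 Cert.d (Cert.s6 Cert.c Cert.c)) (Cert.s5 Cert.d Cert.d)) (Cert.s3 (Cert.s4 (Cert.s5 Cert.c (Cert.s6 Cert.c Cert.c)) (Cert.s5 Cert.c Cert.d)) (Cert.s4 (Cert.s5 Cert.c Cert.c) (Cert.s5 Cert.c Cert.c))))))) (Cert.s5 (Cert.s6 Cert.d Cert.d) (Cert.s6 (Cert.s1 (Cert.s2 (Cert.s4 (Cert.s5 Cert.c Cert.d) Cert.b) (Cert.s3 (Cert.s4 (Cert.s5 Cert.c Cert.c) Cert.b) (Cert.s4 (Cert.s5 Cert.c Cert.c)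 Cert.b))) Cert.b) (Cert.s1 (Cert.s2 (Cert.s4 (Cert.s5 Cert.d Cert.d) (Cert.s5 Cert.d Cert.d)) (Cert.s3 (Cert.s4 (Cert.s5 Cert.c Cert.d) (Cert.s5 Cert.c Cert.d)) (Cert.s4 (Cert.s5 Cert.c Cert.c) (Cert.s5 Cert.c Cert.c)))) (Cert.s2 (Cert.s4 (Cert.s5 Cert.d Cert.d) Cert.d) (Cert.s3 (Cert.s4 (Cert.s5 Cert.c Cert.d) Cert.d) (Cert.s4 (Cert.s5 Cert.c Cert.c) Cert.d))))))) (Cert.s3 (Cert.s4 (Cert.s5 (Cert.s6 Cert.c (Cert.s1 (Cert.s2 (Cert.s3 Cert.c Cert.c) Cert.c) (Cert.s2 (Cert.s3 Cert.c Cert.c) Cert.c))) (Cert.s6 (Cert.s1 (Cert.s2 (Cert.s3 (Cert.s4 (Cert.s5 Cert.c Cert.c) (Cert.s5 Cert.c Cert.c)) Cert.c) Cert.c) (Cert.s2 (Cert.s3 (Cert.s4 (Cert.s5 Cert.c Cert.c) (Cert.s5 Cert.c Cert.c)) Cert.c) Cert.c)) (Cert.s1 (Cert.s2 (Cert.s3 (Cert.s4 (Cert.s5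 Cert.c Cert.c) (Cert.s5 Cert.c Cert.c)) (Cert.s4 (Cert.s5 Cert.c Cert.c) (Cert.s5 Cert.c Cert.c))) (Cert.s3 (Cert.s4 (Cert.s5 Cert.c Cert.c) (Cert.s5 Cert.c Cert.c)) (Cert.s4 (Cert.s5 Cert.c Cert.c) (Cert.s5 Cert.c Cert.c)))) (Cert.s2 (Cert.s3 (Cert.s4 (Cert.s5 Cert.c Cert.c) (Cert.s5 Cert.c Cert.c)) (Cert.s4 (Cert.s5 Cert.c Cert.c) (Cert.s5 Cert.c Cert.c))) (Cert.s3 (Cert.s4 (Cert.s5 Cert.c Cert.c) (Cert.s5 Cert.c Cert.c)) (Cert.L 248)))))) (Cert.s5 (Cert.s6 Cert.c Cert.d) (Cert.s6 (Cert.s1 (Cert.s2 (Cert.s3 (Cert.s4 (Cert.s5 Cert.c Cert.c) Cert.b) Cert.c) Cert.c) Cert.b) (Cert.s1 (Cert.s2 (Cert.s3 (Cert.s4 (Cert.s5 Cert.c Cert.c) (Cert.s5 Cert.c Cert.c)) (Cert.s4 (Cert.s5 Cert.c Cert.c) (Cert.L 248))) (Cert.s3 (Cert.s4 (Cert.s5 Cert.c Cert.c)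 (Cert.L 248)) (Cert.L 248))) (Cert.s2 (Cert.s3 (Cert.s4 (Cert.s5 Cert.c Cert.c) Cert.d) (Cert.L 248)) (Cert.L 248)))))) (Cert.s4 (Cert.s5 (Cert.s6 Cert.c Cert.c) (Cert.s6 Cert.c (Cert.s1 (Cert.s2 (Cert.s4 (Cert.s5 Cert.c Cert.c) (Cert.s5 Cert.c Cert.c)) (Cert.s3 Cert.c Cert.c)) (Cert.L 248)))) (Cert.s5 (Cert.s6 Cert.c Cert.c) (Cert.s6 Cert.c (Cert.L 248)))))) (Cert.s2 (Cert.s4 (Cert.s5 (Cert.s6 Cert.d (Cert.s1 (Cert.s2 (Cert.s4 (Cert.s5 Cert.c Cert.c) Cert.d) (Cert.s3 (Cert.s4 (Cert.s5 Cert.c Cert.c) Cert.d) Cert.c)) Cert.d)) (Cert.s6 (Cert.s1 (Cert.s2 (Cert.s4 (Cert.s5 Cert.c Cert.d) (Cert.s5 Cert.c Cert.d)) (Cert.s3 (Cert.s4 (Cert.s5 Cert.c Cert.c) (Cert.s5 Cert.c Cert.c)) (Cert.s4 (Cert.s5 Cert.c Cert.c) (Cert.s5 Cert.c Cert.c)))) (Cert.s2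 (Cert.s4 (Cert.s5 Cert.c Cert.d) Cert.b) (Cert.s3 (Cert.s4 (Cert.s5 Cert.c Cert.c) Cert.b) (Cert.s4 (Cert.s5 Cert.c Cert.c) Cert.b)))) (Cert.s1 (Cert.s2 (Cert.s4 (Cert.s5 Cert.d (Cert.s6 Cert.c Cert.c)) (Cert.s5 Cert.d Cert.d)) (Cert.s3 (Cert.s4 (Cert.s5 Cert.c (Cert.s6 Cert.c Cert.c)) (Cert.s5 Cert.c Cert.d)) (Cert.s4 (Cert.s5 Cert.c Cert.c) (Cert.L 252)))) (Cert.s2 (Cert.s4 (Cert.s5 Cert.d Cert.d) (Cert.s5 Cert.d Cert.d)) (Cert.s3 (Cert.s4 (Cert.s5 Cert.c Cert.d) (Cert.L 252)) (Cert.L 252)))))) (Cert.s5 (Cert.s6 Cert.b Cert.d) (Cert.s6 Cert.b (Cert.s1 (Cert.s2 (Cert.s4 (Cert.s5 Cert.d Cert.d) Cert.d) (Cert.s3 (Cert.s4 (Cert.s5 Cert.c Cert.d) Cert.d) (Cert.L 252))) Cert.d)))) (Cert.s3 (Cert.s4 (Cert.s5 (Cert.s6 Cert.c (Cert.s1 (Cert.s2 (Cert.s3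 Cert.c Cert.c) Cert.c) Cert.d)) (Cert.s6 (Cert.s1 (Cert.s2 (Cert.s3 (Cert.s4 (Cert.s5 Cert.c Cert.c) (Cert.s5 Cert.c Cert.c)) Cert.c) Cert.c) (Cert.s2 (Cert.s3 (Cert.s4 (Cert.s5 Cert.c Cert.c) Cert.b) Cert.c) Cert.c)) (Cert.s1 (Cert.s2 (Cert.s3 (Cert.s4 (Cert.s5 Cert.c Cert.c) (Cert.L 252)) (Cert.L 252)) (Cert.L 252)) (Cert.L 252)))) (Cert.s5 (Cert.s6 Cert.b Cert.d) (Cert.s6 Cert.b (Cert.L 252)))) (Cert.s4 (Cert.s5 (Cert.s6 Cert.c Cert.c) (Cert.L 252)) (Cert.L 252))))) (Cert.s1 (Cert.s2 (Cert.s4 (Cert.s5 (Cert.s1 (Cert.s2 (Cert.s4 (Cert.s5 Cert.c (Cert.s6 Cert.c Cert.c)) (Cert.s5 Cert.c (Cert.s6 Cert.c Cert.c))) (Cert.s3 (Cert.s4 (Cert.s5 Cert.c (Cert.s6 Cert.c Cert.c)) (Cert.s5 Cert.c (Cert.s6 Cert.c Cert.c))) (Cert.s4 (Cert.s5 Cert.c Cert.c)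 (Cert.s5 Cert.c Cert.c)))) (Cert.s2 (Cert.s4 (Cert.s5 Cert.c (Cert.s6 Cert.c Cert.c)) (Cert.s5 Cert.c Cert.d)) (Cert.s3 (Cert.s4 (Cert.s5 Cert.c (Cert.s6 Cert.c Cert.c)) (Cert.s5 Cert.c Cert.d)) (Cert.s4 (Cert.s5 Cert.c Cert.c) (Cert.s5 Cert.c Cert.c))))) (Cert.s6 (Cert.s1 (Cert.s2 (Cert.s4 (Cert.s5 (Cert.s6 Cert.c (Cert.L 96)) (Cert.L 100)) (Cert.s5 (Cert.s6 Cert.c Cert.d) (Cert.L 176))) (Cert.s3 (Cert.s4 (Cert.s5 (Cert.s6 Cert.c Cert.c) (Cert.L 176)) (Cert.s5 (Cert.s6 Cert.c Cert.c) (Cert.L 184))) (Cert.s4 (Cert.s5 (Cert.s6 Cert.c Cert.c) (Cert.L 184)) (Cert.s5 (Cert.s6 Cert.c Cert.c) (Cert.L 184))))) (Cert.s2 (Cert.s4 (Cert.s5 (Cert.s6 Cert.c Cert.d) (Cert.L 184)) (Cert.s5 (Cert.s6 Cert.c Cert.d) (Cert.L 184))) (Cert.s3 (Cert.s4 (Cert.s5 (Cert.s6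 Cert.c Cert.c) (Cert.L 184)) (Cert.s5 (Cert.s6 Cert.c Cert.c) (Cert.L 184))) (Cert.s4 (Cert.L 188) (Cert.L 200))))) (Cert.L 200))) (Cert.s5 (Cert.s1 (Cert.s2 (Cert.s4 (Cert.s5 Cert.c Cert.d) (Cert.s5 Cert.c Cert.d)) (Cert.s3 (Cert.s4 (Cert.s5 Cert.c Cert.d) (Cert.s5 Cert.c Cert.d)) (Cert.s4 (Cert.s5 Cert.c Cert.c) (Cert.s5 Cert.c Cert.c)))) (Cert.s2 (Cert.s4 (Cert.s5 Cert.c Cert.d) Cert.d) (Cert.s3 (Cert.s4 (Cert.s5 Cert.c Cert.d) Cert.d) (Cert.s4 (Cert.s5 Cert.c Cert.c) Cert.d)))) (Cert.s6 (Cert.s1 (Cert.s2 (Cert.s4 (Cert.s5 (Cert.s6 Cert.c Cert.d) (Cert.s6 Cert.d Cert.d)) (Cert.s5 Cert.d Cert.d)) (Cert.s3 (Cert.s4 (Cert.s5 (Cert.s6 Cert.c Cert.c) (Cert.s6 Cert.c Cert.d)) (Cert.s5 Cert.d Cert.d)) (Cert.s4 (Cert.s5 (Cert.s6 Cert.c Cert.c) (Cert.L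 200)) (Cert.L 228)))) (Cert.s2 (Cert.s4 (Cert.s5 Cert.d (Cert.L 184)) (Cert.s5 Cert.d Cert.d)) (Cert.s3 (Cert.s4 (Cert.s5 Cert.d (Cert.L 184)) (Cert.L 204)) (Cert.L 204)))) (Cert.L 204)))) (Cert.s3 (Cert.s4 (Cert.s5 (Cert.s1 (Cert.s2 (Cert.s3 (Cert.s4 (Cert.s5 Cert.c Cert.c) (Cert.s5 Cert.c Cert.c)) (Cert.s4 (Cert.s5 Cert.c Cert.c) (Cert.s5 Cert.c Cert.c))) (Cert.s3 (Cert.s4 (Cert.s5 Cert.c Cert.c) (Cert.s5 Cert.c Cert.c)) Cert.c)) (Cert.s2 (Cert.s3 (Cert.s4 (Cert.s5 Cert.c Cert.c) (Cert.s5 Cert.c Cert.c)) (Cert.s4 (Cert.s5 Cert.c Cert.c) (Cert.s5 Cert.c Cert.c))) (Cert.s3 (Cert.s4 (Cert.s5 Cert.c Cert.c) (Cert.L 256)) Cert.c))) (Cert.s6 (Cert.s1 (Cert.s2 (Cert.s3 (Cert.s4 (Cert.s5 (Cert.s6 Cert.c Cert.c) (Cert.L 176)) (Cert.s5 (Cert.s6 Cert.c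 Cert.c) (Cert.L 184))) (Cert.s4 (Cert.s5 Cert.c (Cert.L 184)) (Cert.s5 Cert.c (Cert.L 184)))) (Cert.s3 (Cert.s4 (Cert.s5 Cert.c (Cert.L 184)) (Cert.s5 Cert.c (Cert.L 188))) (Cert.L 200))) (Cert.L 200)) (Cert.L 200))) (Cert.s5 (Cert.s1 (Cert.s2 (Cert.s3 (Cert.s4 (Cert.s5 Cert.c Cert.c) (Cert.s5 Cert.c Cert.c)) (Cert.s4 (Cert.s5 Cert.c Cert.c) (Cert.L 248))) (Cert.s3 (Cert.s4 (Cert.s5 Cert.c Cert.c) (Cert.L 248)) Cert.c)) (Cert.s2 (Cert.s3 (Cert.s4 (Cert.s5 Cert.c Cert.c) Cert.d) (Cert.L 248)) (Cert.L 248))) (Cert.s6 (Cert.s1 (Cert.s2 (Cert.s3 (Cert.s4 (Cert.s5 (Cert.s6 Cert.c Cert.c) (Cert.L 248)) (Cert.L 248)) (Cert.L 248)) (Cert.L 248)) (Cert.L 248)) (Cert.L 248)))) (Cert.s4 (Cert.s5 (Cert.s1 (Cert.s2 (Cert.s4 (Cert.s5 Cert.c Cert.c) (Cert.s5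 Cert.c Cert.c)) Cert.c) (Cert.L 248)) (Cert.L 248)) (Cert.L 248)))) (Cert.s2 (Cert.s4 (Cert.s5 (Cert.s1 (Cert.s2 (Cert.s4 (Cert.s5 Cert.c (Cert.s6 Cert.c Cert.c)) (Cert.s5 Cert.c Cert.d)) (Cert.s3 (Cert.s4 (Cert.s5 Cert.c (Cert.s6 Cert.c Cert.c)) (Cert.s5 Cert.c Cert.d)) (Cert.s4 (Cert.s5 Cert.c Cert.c) (Cert.L 248)))) (Cert.s2 (Cert.s4 (Cert.s5 Cert.c Cert.d) (Cert.s5 Cert.c Cert.d)) (Cert.s3 (Cert.s4 (Cert.s5 Cert.c Cert.d) (Cert.L 248)) (Cert.L 248)))) (Cert.L 192)) (Cert.s5 (Cert.s1 Cert.d Cert.d) (Cert.L 192))) (Cert.s3 (Cert.s4 (Cert.s5 (Cert.s1 (Cert.s2 (Cert.s3 (Cert.s4 (Cert.s5 Cert.c Cert.c) (Cert.L 236)) (Cert.L 236)) (Cert.L 236)) (Cert.L 236)) (Cert.L 236)) (Cert.L 236)) (Cert.L 236))))))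

def t8 : Cert := Cert.s2 (Cert.s4 (Cert.s5 (Cert.s1 (Cert.L 64) (Cert.s2 (Cert.L 64) (Cert.s3 (Cert.L 64) (Cert.s4 (Cert.L 64) (Cert.s5 Cert.c (Cert.s6 Cert.d (Cert.s1 (Cert.L 64) (Cert.s2 (Cert.L 64) (Cert.s3 (Cert.L 64) (Cert.s4 (Cert.L 64) Cert.d)))))))))) (Cert.s6 (Cert.s1 (Cert.L 64) (Cert.s2 (Cert.L 64) (Cert.s3 (Cert.L 64) (Cert.s4 (Cert.L 64) (Cert.s5 (Cert.s6 (Cert.s1 (Cert.L 64) (Cert.s2 (Cert.L 64) (Cert.s3 (Cert.L 64) (Cert.s4 (Cert.L 64) Cert.d)))) (Cert.s1 (Cert.L 64) (Cert.s2 (Cert.L 64) (Cert.s3 (Cert.L 64) (Cert.s4 (Cert.L 64) (Cert.s5 Cert.c Cert.d)))))) (Cert.s6 (Cert.s1 (Cert.L 64) (Cert.s2 (Cert.L 64) (Cert.s3 (Cert.L 64) (Cert.s4 (Cert.L 64) (Cert.s5 Cert.d Cert.d))))) (Cert.s1 (Cert.L 64) (Cert.s2 (Cert.L 64) (Cert.s3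 (Cert.L 64) (Cert.s4 (Cert.L 64) (Cert.s5 Cert.d (Cert.L 144)))))))))))) (Cert.s1 (Cert.L 144) (Cert.s2 (Cert.L 144) (Cert.s3 (Cert.L 144) (Cert.s4 (Cert.L 144) (Cert.s5 (Cert.s1 (Cert.L 144) (Cert.s2 (Cert.L 144) (Cert.s3 (Cert.L 144) (Cert.s4 (Cert.L 144) (Cert.s5 Cert.c (Cert.L 144)))))) (Cert.L 144)))))))) (Cert.s5 (Cert.s1 (Cert.s2 (Cert.L 64) (Cert.s3 (Cert.L 64) (Cert.s4 (Cert.L 64) (Cert.s5 Cert.c (Cert.s6 Cert.d Cert.d))))) (Cert.s2 (Cert.L 64) (Cert.s3 (Cert.s4 (Cert.s5 Cert.d (Cert.s6 Cert.d Cert.d)) (Cert.s5 Cert.b (Cert.s6 Cert.b Cert.d))) (Cert.s4 (Cert.s5 Cert.c (Cert.s6 Cert.d Cert.d)) (Cert.s5 Cert.b (Cert.s6 Cert.b Cert.d)))))) (Cert.s6 (Cert.s1 (Cert.s2 (Cert.L 64) (Cert.s3 (Cert.L 64) (Cert.s4 (Cert.s5 (Cert.s6 (Cert.L 64)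 (Cert.s1 (Cert.L 64) (Cert.s2 (Cert.L 64) (Cert.s3 (Cert.L 64) (Cert.s4 (Cert.L 64) Cert.d))))) (Cert.s6 (Cert.s1 (Cert.L 64) (Cert.s2 (Cert.L 64) (Cert.s3 (Cert.L 64) (Cert.s4 (Cert.L 64) (Cert.s5 Cert.d Cert.d))))) (Cert.s1 (Cert.L 64) (Cert.s2 (Cert.L 64) (Cert.s3 (Cert.L 64) (Cert.s4 (Cert.L 64) (Cert.s5 Cert.d Cert.d))))))) (Cert.s5 (Cert.s6 Cert.d Cert.d) (Cert.s6 (Cert.s1 (Cert.s2 (Cert.L 64) (Cert.s3 (Cert.L 64) (Cert.s4 (Cert.L 64) Cert.b))) Cert.b) (Cert.s1 (Cert.s2 (Cert.L 64) (Cert.s3 (Cert.L 64) (Cert.s4 (Cert.L 64) (Cert.s5 Cert.d Cert.d)))) (Cert.s2 (Cert.L 64) (Cert.s3 (Cert.s4 (Cert.L 72) Cert.d) (Cert.s4 (Cert.s5 Cert.d Cert.d) Cert.d))))))))) (Cert.s2 (Cert.s4 (Cert.L 72) (Cert.s5 (Cert.s6 Cert.b Cert.d) (Cert.s6 Cert.b (Cert.s1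 (Cert.L 72) Cert.d)))) (Cert.s3 (Cert.s4 (Cert.s5 (Cert.s6 Cert.d (Cert.s1 (Cert.L 72) Cert.d)) (Cert.s6 (Cert.s1 (Cert.L 72) (Cert.s2 (Cert.L 72) (Cert.s3 (Cert.L 72) (Cert.s4 (Cert.L 72) Cert.b)))) (Cert.s1 (Cert.L 72) (Cert.s2 (Cert.L 72) (Cert.s3 (Cert.L 72) (Cert.s4 (Cert.L 72) (Cert.s5 Cert.d Cert.d))))))) (Cert.s5 (Cert.s6 Cert.b Cert.d) (Cert.s6 Cert.b (Cert.s1 (Cert.s2 (Cert.s3 (Cert.L 72) (Cert.s4 (Cert.L 72) Cert.d)) (Cert.s3 (Cert.s4 (Cert.L 72) Cert.d) (Cert.s4 (Cert.s5 Cert.d Cert.d) Cert.d))) Cert.d)))) (Cert.s4 (Cert.s5 (Cert.s6 Cert.d (Cert.s1 (Cert.s2 (Cert.L 72) (Cert.s3 (Cert.s4 (Cert.L 72) Cert.d) (Cert.s4 (Cert.s5 Cert.c Cert.d) Cert.d))) Cert.d)) (Cert.s6 (Cert.s1 (Cert.s2 (Cert.L 72) (Cert.s3 (Cert.s4 (Cert.L 72) (Cert.s5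 Cert.d Cert.d)) (Cert.s4 (Cert.s5 Cert.d Cert.d) (Cert.s5 Cert.d Cert.d)))) (Cert.s2 (Cert.s4 (Cert.L 72) Cert.b) (Cert.s3 (Cert.s4 (Cert.s5 Cert.d Cert.d) Cert.b) (Cert.s4 (Cert.s5 Cert.d Cert.d) Cert.b)))) (Cert.s1 (Cert.s2 (Cert.L 72) (Cert.s3 (Cert.s4 (Cert.L 72) (Cert.s5 Cert.d Cert.d)) (Cert.s4 (Cert.s5 Cert.d (Cert.s6 Cert.d Cert.d)) (Cert.s5 Cert.d Cert.d)))) (Cert.s2 (Cert.s4 (Cert.L 72) (Cert.s5 Cert.d Cert.d)) (Cert.s3 (Cert.s4 (Cert.s5 Cert.d Cert.d) (Cert.s5 Cert.d Cert.d)) (Cert.s4 (Cert.s5 Cert.d Cert.d) (Cert.s5 Cert.d Cert.d))))))) (Cert.s5 (Cert.s6 Cert.b Cert.d) (Cert.s6 Cert.b (Cert.s1 (Cert.s2 (Cert.s4 (Cert.s5 Cert.d Cert.d) Cert.d) (Cert.s3 (Cert.s4 (Cert.s5 Cert.d Cert.d) Cert.d) (Cert.s4 (Cert.s5 Cert.d Cert.d) Cert.d)))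 Cert.d))))))) (Cert.s1 (Cert.s2 (Cert.L 72) (Cert.s3 (Cert.L 76) (Cert.s4 (Cert.s5 (Cert.s1 (Cert.L 76) (Cert.s2 (Cert.L 76) (Cert.s3 (Cert.L 76) (Cert.s4 (Cert.L 76) (Cert.s5 Cert.c Cert.d))))) (Cert.L 92)) (Cert.s5 (Cert.s1 (Cert.s2 (Cert.L 92) (Cert.s3 (Cert.L 92) (Cert.s4 (Cert.L 64) (Cert.s5 Cert.c Cert.d)))) (Cert.s2 (Cert.L 64) (Cert.s3 (Cert.s4 (Cert.L 64) Cert.d) (Cert.s4 (Cert.s5 Cert.c Cert.d) Cert.d)))) (Cert.s6 (Cert.s1 (Cert.s2 (Cert.L 64) (Cert.s3 (Cert.L 64) (Cert.s4 (Cert.L 68) (Cert.s5 Cert.d Cert.d)))) (Cert.s2 (Cert.L 68) (Cert.s3 (Cert.s4 (Cert.L 76) (Cert.s5 Cert.d Cert.d)) (Cert.s4 (Cert.s5 Cert.d (Cert.L 168)) (Cert.s5 Cert.d Cert.d))))) (Cert.L 168)))))) (Cert.s2 (Cert.s4 (Cert.L 168) (Cert.s5 (Cert.s1 Cert.d Cert.d)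 (Cert.L 168))) (Cert.s3 (Cert.s4 (Cert.s5 (Cert.s1 (Cert.L 64) (Cert.s2 (Cert.L 64) (Cert.s3 (Cert.L 64) (Cert.s4 (Cert.L 64) (Cert.s5 Cert.c Cert.d))))) (Cert.L 104)) (Cert.s5 (Cert.s1 Cert.d Cert.d) (Cert.L 180))) (Cert.s4 (Cert.s5 (Cert.s1 (Cert.s2 (Cert.L 64) (Cert.s3 (Cert.s4 (Cert.L 64) (Cert.s5 Cert.c Cert.d)) (Cert.s4 (Cert.s5 Cert.c (Cert.s6 Cert.c Cert.d)) (Cert.s5 Cert.c Cert.d)))) (Cert.s2 (Cert.s4 (Cert.L 64) (Cert.s5 Cert.d Cert.d)) (Cert.s3 (Cert.s4 (Cert.s5 Cert.c Cert.d) (Cert.s5 Cert.c Cert.d)) (Cert.s4 (Cert.s5 Cert.c Cert.d) (Cert.s5 Cert.c Cert.d))))) (Cert.L 180)) (Cert.s5 (Cert.s1 Cert.d Cert.d) (Cert.s6 (Cert.s1 (Cert.s2 (Cert.L 180) (Cert.s3 (Cert.L 188) (Cert.L 192))) (Cert.L 192)) (Cert.L 192)))))))))) (Cert.s3 (Cert.s4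 (Cert.s5 (Cert.s1 (Cert.s2 (Cert.s3 (Cert.L 64) (Cert.s4 (Cert.L 64) (Cert.s5 Cert.c (Cert.s6 Cert.c (Cert.s1 (Cert.L 64) (Cert.s2 (Cert.L 64) (Cert.s3 Cert.c Cert.c))))))) (Cert.s3 (Cert.s4 (Cert.L 64) (Cert.s5 Cert.c (Cert.s6 Cert.c (Cert.s1 (Cert.L 64) (Cert.s2 (Cert.L 64) Cert.c))))) (Cert.s4 (Cert.s5 Cert.c (Cert.s6 Cert.c Cert.c)) (Cert.s5 Cert.c (Cert.s6 Cert.c Cert.c))))) (Cert.s2 (Cert.s3 (Cert.s4 (Cert.L 64) (Cert.s5 Cert.c (Cert.s6 Cert.d (Cert.s1 (Cert.L 64) (Cert.s2 (Cert.L 64) (Cert.s3 (Cert.L 64) (Cert.s4 (Cert.L 64) Cert.d))))))) (Cert.s4 (Cert.s5 Cert.c (Cert.s6 Cert.c (Cert.s1 (Cert.L 64) (Cert.s2 (Cert.L 64) (Cert.s3 Cert.c Cert.c))))) (Cert.s5 Cert.c (Cert.s6 Cert.c (Cert.s1 (Cert.s2 (Cert.s3 (Cert.L 64) (Cert.s4 (Cert.L 64)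 Cert.d)) (Cert.s3 Cert.c Cert.c)) (Cert.s2 (Cert.s3 (Cert.s4 (Cert.L 64) Cert.d) (Cert.s4 (Cert.s5 Cert.c Cert.c) Cert.d)) (Cert.s3 Cert.c Cert.c))))))) (Cert.s3 (Cert.s4 (Cert.s5 Cert.c (Cert.s6 Cert.c (Cert.s1 (Cert.L 64) (Cert.s2 (Cert.L 64) Cert.c)))) (Cert.s5 Cert.c (Cert.s6 Cert.c (Cert.s1 (Cert.s2 (Cert.s3 Cert.c Cert.c) Cert.c) (Cert.s2 (Cert.s3 Cert.c Cert.c) Cert.c))))) (Cert.s4 (Cert.s5 Cert.c (Cert.s6 Cert.c Cert.c)) (Cert.s5 Cert.c (Cert.s6 Cert.c Cert.c)))))) (Cert.s6 (Cert.s1 (Cert.s2 (Cert.s3 (Cert.L 64) (Cert.s4 (Cert.L 64) (Cert.s5 (Cert.s6 (Cert.s1 (Cert.L 64) (Cert.s2 (Cert.L 64) (Cert.s3 (Cert.L 64) Cert.c))) (Cert.s1 (Cert.L 64) (Cert.s2 (Cert.L 64) (Cert.s3 (Cert.L 64) (Cert.s4 (Cert.L 64) (Cert.s5 Cert.c Cert.c)))))) (Cert.s6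 (Cert.s1 (Cert.L 64) (Cert.s2 (Cert.L 64) (Cert.s3 (Cert.L 64) (Cert.s4 (Cert.L 64) (Cert.s5 Cert.c Cert.c))))) (Cert.s1 (Cert.L 64) (Cert.s2 (Cert.L 64) (Cert.s3 (Cert.L 64) (Cert.s4 (Cert.L 64) (Cert.s5 Cert.c (Cert.s6 Cert.c Cert.c)))))))))) (Cert.s3 (Cert.s4 (Cert.L 64) (Cert.s5 (Cert.s6 (Cert.s1 (Cert.L 64) (Cert.s2 (Cert.L 64) Cert.c)) (Cert.s1 (Cert.L 64) (Cert.s2 (Cert.L 64) (Cert.s3 (Cert.L 64) (Cert.s4 (Cert.L 64) (Cert.s5 Cert.c Cert.c)))))) (Cert.s6 (Cert.s1 (Cert.L 64) (Cert.s2 (Cert.L 64) (Cert.s3 (Cert.L 64) (Cert.s4 (Cert.L 64) (Cert.s5 Cert.c Cert.c))))) (Cert.s1 (Cert.L 64) (Cert.s2 (Cert.L 64) (Cert.s3 (Cert.L 64) (Cert.s4 (Cert.L 64) (Cert.s5 Cert.c (Cert.s6 Cert.c Cert.c))))))))) (Cert.s4 (Cert.s5 (Cert.s6 Cert.c (Cert.s1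 (Cert.L 64) (Cert.s2 (Cert.L 64) (Cert.s3 Cert.c Cert.c)))) (Cert.s6 (Cert.s1 (Cert.L 64) (Cert.s2 (Cert.L 64) (Cert.s3 (Cert.L 64) Cert.c))) (Cert.s1 (Cert.L 64) (Cert.s2 (Cert.L 64) (Cert.s3 (Cert.L 64) (Cert.s4 (Cert.L 64) (Cert.s5 Cert.c Cert.c))))))) (Cert.s5 (Cert.s6 Cert.c (Cert.s1 (Cert.s2 (Cert.s3 (Cert.L 64) (Cert.s4 (Cert.L 64) (Cert.s5 Cert.c Cert.c))) (Cert.s3 Cert.c Cert.c)) (Cert.s2 (Cert.s3 (Cert.s4 (Cert.L 64) (Cert.s5 Cert.c Cert.c)) (Cert.s4 (Cert.s5 Cert.c Cert.c) (Cert.s5 Cert.c Cert.c))) (Cert.s3 Cert.c Cert.c)))) (Cert.s6 (Cert.s1 (Cert.s2 (Cert.s3 (Cert.L 64) (Cert.s4 (Cert.L 64) (Cert.s5 Cert.c Cert.c))) (Cert.s3 (Cert.s4 (Cert.L 64) (Cert.s5 Cert.c Cert.c)) Cert.c)) (Cert.s2 (Cert.s3 (Cert.s4 (Cert.L 64) (Cert.s5 Cert.c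 Cert.c)) (Cert.s4 (Cert.s5 Cert.c Cert.c) (Cert.s5 Cert.c Cert.c))) (Cert.s3 (Cert.s4 (Cert.s5 Cert.c Cert.c) (Cert.s5 Cert.c Cert.c)) Cert.c))) (Cert.s1 (Cert.s2 (Cert.s3 (Cert.L 64) (Cert.s4 (Cert.L 64) (Cert.s5 Cert.c (Cert.s6 Cert.c Cert.c)))) (Cert.s3 (Cert.s4 (Cert.L 64) (Cert.s5 Cert.c Cert.c)) (Cert.s4 (Cert.s5 Cert.c Cert.c) (Cert.s5 Cert.c Cert.c)))) (Cert.s2 (Cert.s3 (Cert.s4 (Cert.L 64) (Cert.s5 Cert.c (Cert.s6 Cert.c Cert.c))) (Cert.s4 (Cert.s5 Cert.c (Cert.s6 Cert.c Cert.c)) (Cert.s5 Cert.c (Cert.s6 Cert.c Cert.c)))) (Cert.s3 (Cert.s4 (Cert.s5 Cert.c Cert.c) (Cert.s5 Cert.c Cert.c)) (Cert.s4 (Cert.s5 Cert.c Cert.c) (Cert.s5 Cert.c Cert.c)))))))))) (Cert.s2 (Cert.s3 (Cert.s4 (Cert.L 64) (Cert.s5 (Cert.s6 (Cert.s1 (Cert.L 64) (Cert.s2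 (Cert.L 64) (Cert.s3 (Cert.L 64) (Cert.s4 (Cert.L 64) Cert.d)))) (Cert.s1 (Cert.L 64) (Cert.s2 (Cert.L 64) (Cert.s3 (Cert.L 64) (Cert.s4 (Cert.L 64) (Cert.s5 Cert.c Cert.d)))))) (Cert.s6 (Cert.s1 (Cert.L 64) (Cert.s2 (Cert.L 64) (Cert.s3 (Cert.L 64) (Cert.s4 (Cert.L 64) (Cert.s5 Cert.c Cert.d))))) (Cert.s1 (Cert.L 64) (Cert.s2 (Cert.L 64) (Cert.s3 (Cert.L 64) (Cert.s4 (Cert.L 64) (Cert.s5 Cert.d (Cert.L 140))))))))) (Cert.s4 (Cert.s5 (Cert.s6 (Cert.s1 (Cert.L 64) (Cert.s2 (Cert.L 64) (Cert.s3 (Cert.L 64) Cert.c))) (Cert.s1 (Cert.L 64) (Cert.s2 (Cert.L 64) (Cert.s3 (Cert.L 64) (Cert.s4 (Cert.L 64) (Cert.s5 Cert.c Cert.c)))))) (Cert.s6 (Cert.s1 (Cert.L 64) (Cert.s2 (Cert.L 64) (Cert.s3 (Cert.L 64) (Cert.s4 (Cert.L 64) (Cert.s5 Cert.c Cert.c)))))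 (Cert.s1 (Cert.L 64) (Cert.s2 (Cert.L 64) (Cert.s3 (Cert.L 64) (Cert.s4 (Cert.L 64) (Cert.s5 Cert.c (Cert.L 144)))))))) (Cert.s5 (Cert.s6 (Cert.s1 (Cert.s2 (Cert.s3 (Cert.L 64) (Cert.s4 (Cert.L 64) Cert.d)) (Cert.s3 (Cert.s4 (Cert.L 64) Cert.d) Cert.c)) (Cert.s2 (Cert.s3 (Cert.s4 (Cert.L 64) Cert.d) (Cert.s4 (Cert.s5 Cert.c Cert.c) Cert.d)) (Cert.s3 (Cert.s4 (Cert.s5 Cert.c Cert.c) Cert.d) Cert.c))) (Cert.s1 (Cert.s2 (Cert.s3 (Cert.L 64) (Cert.s4 (Cert.L 64) (Cert.s5 Cert.c Cert.c))) (Cert.s3 (Cert.s4 (Cert.L 64) (Cert.s5 Cert.c Cert.c)) (Cert.s4 (Cert.s5 Cert.c Cert.c) (Cert.s5 Cert.c Cert.c)))) (Cert.s2 (Cert.s3 (Cert.s4 (Cert.L 64) (Cert.s5 Cert.c Cert.d)) (Cert.s4 (Cert.s5 Cert.c Cert.c) (Cert.s5 Cert.c Cert.c))) (Cert.s3 (Cert.s4 (Cert.s5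 Cert.c Cert.c) (Cert.s5 Cert.c Cert.c)) (Cert.s4 (Cert.s5 Cert.c Cert.c) (Cert.s5 Cert.c Cert.c)))))) (Cert.s6 (Cert.s1 (Cert.s2 (Cert.s3 (Cert.L 64) (Cert.s4 (Cert.L 64) (Cert.s5 Cert.c (Cert.s6 Cert.c Cert.c)))) (Cert.s3 (Cert.s4 (Cert.L 64) (Cert.s5 Cert.c (Cert.s6 Cert.c Cert.c))) (Cert.s4 (Cert.s5 Cert.c Cert.c) (Cert.s5 Cert.c Cert.c)))) (Cert.s2 (Cert.s3 (Cert.s4 (Cert.L 64) (Cert.s5 Cert.c Cert.d)) (Cert.s4 (Cert.s5 Cert.c (Cert.s6 Cert.c Cert.c)) (Cert.s5 Cert.c Cert.d))) (Cert.s3 (Cert.s4 (Cert.s5 Cert.c (Cert.s6 Cert.c Cert.c)) (Cert.s5 Cert.c Cert.d)) (Cert.s4 (Cert.s5 Cert.c Cert.c) (Cert.s5 Cert.c Cert.c))))) (Cert.s1 (Cert.s2 (Cert.s3 (Cert.L 64) (Cert.s4 (Cert.L 64) (Cert.s5 (Cert.s6 Cert.c Cert.c) (Cert.s6 Cert.c Cert.d)))) (Cert.s3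 (Cert.s4 (Cert.L 64) (Cert.s5 (Cert.s6 Cert.c Cert.c) (Cert.L 176))) (Cert.s4 (Cert.s5 Cert.c (Cert.L 176)) (Cert.s5 Cert.c (Cert.s6 Cert.c Cert.c))))) (Cert.s2 (Cert.s3 (Cert.s4 (Cert.L 64) (Cert.s5 Cert.d (Cert.L 144))) (Cert.s4 (Cert.s5 (Cert.s6 Cert.c Cert.c) (Cert.L 148)) (Cert.s5 Cert.d (Cert.s6 Cert.c Cert.d)))) (Cert.s3 (Cert.s4 (Cert.s5 (Cert.s6 Cert.c Cert.c) (Cert.L 148)) (Cert.s5 Cert.d (Cert.L 180))) (Cert.s4 (Cert.s5 Cert.c (Cert.L 180)) (Cert.s5 Cert.c (Cert.s6 Cert.c Cert.c)))))))))) (Cert.s3 (Cert.s4 (Cert.s5 (Cert.s6 (Cert.s1 (Cert.L 64) (Cert.s2 (Cert.L 64) Cert.c)) (Cert.s1 (Cert.L 64) (Cert.s2 (Cert.L 64) (Cert.s3 (Cert.L 64) (Cert.s4 (Cert.L 64) (Cert.s5 Cert.c Cert.c)))))) (Cert.s6 (Cert.s1 (Cert.L 64) (Cert.s2 (Cert.L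 64) (Cert.s3 (Cert.L 64) (Cert.s4 (Cert.L 64) (Cert.s5 Cert.c Cert.c))))) (Cert.L 168))) (Cert.s5 (Cert.s6 (Cert.s1 (Cert.s2 (Cert.s3 (Cert.L 64) Cert.c) Cert.c) (Cert.s2 (Cert.s3 (Cert.s4 (Cert.L 64) Cert.d) Cert.c) Cert.c)) (Cert.s1 (Cert.s2 (Cert.s3 (Cert.L 64) (Cert.s4 (Cert.L 64) (Cert.s5 Cert.c Cert.c))) (Cert.s3 (Cert.s4 (Cert.L 64) (Cert.s5 Cert.c Cert.c)) (Cert.s4 (Cert.s5 Cert.c Cert.c) (Cert.s5 Cert.c Cert.c)))) (Cert.s2 (Cert.s3 (Cert.s4 (Cert.L 64) (Cert.s5 Cert.c Cert.c)) (Cert.s4 (Cert.s5 Cert.c Cert.c) (Cert.s5 Cert.c Cert.c))) (Cert.s3 (Cert.s4 (Cert.s5 Cert.c Cert.c) (Cert.s5 Cert.c Cert.c)) (Cert.s4 (Cert.s5 Cert.c Cert.c) (Cert.s5 Cert.c Cert.c)))))) (Cert.s6 (Cert.s1 (Cert.s2 (Cert.s3 (Cert.L 64) (Cert.s4 (Cert.L 64) (Cert.s5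 Cert.c Cert.c))) (Cert.s3 (Cert.s4 (Cert.L 64) (Cert.s5 Cert.c Cert.c)) (Cert.s4 (Cert.s5 Cert.c Cert.c) (Cert.s5 Cert.c Cert.c)))) (Cert.s2 (Cert.s3 (Cert.s4 (Cert.L 64) (Cert.s5 Cert.c Cert.d)) (Cert.s4 (Cert.s5 Cert.c Cert.c) (Cert.s5 Cert.c Cert.c))) (Cert.s3 (Cert.s4 (Cert.s5 Cert.c Cert.c) (Cert.s5 Cert.c Cert.c)) (Cert.s4 (Cert.s5 Cert.c Cert.c) (Cert.s5 Cert.c Cert.c))))) (Cert.s1 (Cert.s2 (Cert.s3 (Cert.L 64) (Cert.s4 (Cert.L 64) (Cert.s5 (Cert.s6 Cert.c Cert.c) (Cert.L 172)))) (Cert.s3 (Cert.s4 (Cert.L 64) (Cert.s5 Cert.c (Cert.L 168))) (Cert.s4 (Cert.s5 Cert.c (Cert.L 168)) (Cert.s5 Cert.c (Cert.s6 Cert.c Cert.c))))) (Cert.s2 (Cert.s3 (Cert.s4 (Cert.L 168) (Cert.s5 Cert.d (Cert.L 168))) (Cert.s4 (Cert.s5 (Cert.s6 Cert.c Cert.c) (Cert.L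 168)) (Cert.s5 Cert.d (Cert.L 176)))) (Cert.s3 (Cert.s4 (Cert.s5 Cert.c (Cert.L 176)) (Cert.s5 Cert.c (Cert.L 176))) (Cert.s4 (Cert.s5 Cert.c (Cert.L 176)) (Cert.s5 Cert.c (Cert.L 184))))))))) (Cert.s4 (Cert.s5 (Cert.s6 Cert.c (Cert.s1 (Cert.s2 (Cert.s3 (Cert.L 64) (Cert.s4 (Cert.L 64) (Cert.s5 Cert.c Cert.c))) (Cert.s3 Cert.c Cert.c)) (Cert.s2 (Cert.s3 (Cert.s4 (Cert.L 64) (Cert.s5 Cert.c Cert.c)) (Cert.s4 (Cert.s5 Cert.c Cert.c) (Cert.s5 Cert.c Cert.c))) (Cert.s3 Cert.c Cert.c)))) (Cert.s6 (Cert.s1 (Cert.s2 (Cert.s3 (Cert.L 64) (Cert.s4 (Cert.L 64) (Cert.s5 Cert.c Cert.c))) (Cert.s3 (Cert.s4 (Cert.L 64) (Cert.s5 Cert.c Cert.c)) Cert.c)) (Cert.s2 (Cert.s3 (Cert.s4 (Cert.L 64) (Cert.s5 Cert.c Cert.c)) (Cert.s4 (Cert.s5 Cert.c Cert.c) (Cert.s5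 Cert.c Cert.c))) (Cert.s3 (Cert.s4 (Cert.s5 Cert.c Cert.c) (Cert.s5 Cert.c Cert.c)) Cert.c))) (Cert.s1 (Cert.s2 (Cert.s3 (Cert.L 64) (Cert.s4 (Cert.L 64) (Cert.s5 Cert.c (Cert.L 164)))) (Cert.s3 (Cert.s4 (Cert.L 164) (Cert.s5 Cert.c Cert.c)) (Cert.s4 (Cert.s5 Cert.c Cert.c) (Cert.s5 Cert.c Cert.c)))) (Cert.s2 (Cert.s3 (Cert.L 164) (Cert.s4 (Cert.L 168) (Cert.s5 Cert.c (Cert.L 168)))) (Cert.s3 (Cert.s4 (Cert.L 168) (Cert.s5 Cert.c Cert.c)) (Cert.s4 (Cert.s5 Cert.c Cert.c) (Cert.s5 Cert.c Cert.c))))))) (Cert.s5 (Cert.s6 Cert.c (Cert.s1 (Cert.s2 (Cert.s3 (Cert.s4 (Cert.s5 Cert.c Cert.c) (Cert.s5 Cert.c Cert.c)) (Cert.s4 (Cert.s5 Cert.c Cert.c) (Cert.s5 Cert.c Cert.c))) (Cert.s3 Cert.c Cert.c)) (Cert.s2 (Cert.s3 (Cert.s4 (Cert.s5 Cert.c Cert.c) (Cert.s5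 Cert.c Cert.c)) (Cert.s4 (Cert.s5 Cert.c Cert.c) (Cert.s5 Cert.c Cert.c))) (Cert.s3 Cert.c Cert.c)))) (Cert.s6 (Cert.s1 (Cert.s2 (Cert.s3 (Cert.s4 (Cert.s5 Cert.c Cert.c) (Cert.s5 Cert.c Cert.c)) (Cert.s4 (Cert.s5 Cert.c Cert.c) (Cert.s5 Cert.c Cert.c))) (Cert.s3 (Cert.s4 (Cert.s5 Cert.c Cert.c) (Cert.s5 Cert.c Cert.c)) Cert.c)) (Cert.s2 (Cert.s3 (Cert.s4 (Cert.s5 Cert.c Cert.c) (Cert.s5 Cert.c Cert.c)) (Cert.s4 (Cert.s5 Cert.c Cert.c) (Cert.s5 Cert.c Cert.c))) (Cert.s3 (Cert.s4 (Cert.s5 Cert.c Cert.c) (Cert.s5 Cert.c Cert.c)) Cert.c))) (Cert.s1 (Cert.s2 (Cert.s3 (Cert.s4 (Cert.s5 Cert.c (Cert.L 168)) (Cert.s5 Cert.c (Cert.s6 Cert.c Cert.c))) (Cert.s4 (Cert.s5 Cert.c (Cert.s6 Cert.c Cert.c)) (Cert.s5 Cert.c (Cert.s6 Cert.c Cert.c)))) (Cert.s3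 (Cert.s4 (Cert.s5 Cert.c Cert.c) (Cert.s5 Cert.c Cert.c)) (Cert.s4 (Cert.s5 Cert.c Cert.c) (Cert.s5 Cert.c Cert.c)))) (Cert.s2 (Cert.s3 (Cert.s4 (Cert.s5 Cert.c (Cert.L 172)) (Cert.s5 Cert.c (Cert.L 184))) (Cert.s4 (Cert.s5 Cert.c (Cert.L 184)) (Cert.s5 Cert.c (Cert.L 188)))) (Cert.s3 (Cert.s4 (Cert.s5 Cert.c Cert.c) (Cert.s5 Cert.c Cert.c)) (Cert.s4 (Cert.s5 Cert.c Cert.c) (Cert.L 256))))))))))) (Cert.s1 (Cert.s2 (Cert.s3 (Cert.L 64) (Cert.s4 (Cert.L 64) (Cert.s5 (Cert.s1 (Cert.L 64) (Cert.s2 (Cert.L 64) (Cert.s3 (Cert.L 64) (Cert.s4 (Cert.L 64) (Cert.s5 Cert.c (Cert.s6 Cert.c Cert.c)))))) (Cert.L 128)))) (Cert.s3 (Cert.s4 (Cert.L 128) (Cert.s5 (Cert.s1 (Cert.L 128) (Cert.s2 (Cert.L 128) (Cert.s3 (Cert.L 128) (Cert.s4 (Cert.L 128) (Cert.s5 Cert.c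 Cert.c))))) (Cert.L 136))) (Cert.s4 (Cert.s5 (Cert.s1 (Cert.L 136) (Cert.s2 (Cert.L 136) (Cert.s3 (Cert.L 136) (Cert.s4 (Cert.L 136) (Cert.s5 Cert.c Cert.c))))) (Cert.L 140)) (Cert.s5 (Cert.s1 (Cert.s2 (Cert.s3 (Cert.L 140) (Cert.s4 (Cert.L 140) (Cert.s5 Cert.c Cert.c))) (Cert.s3 (Cert.s4 (Cert.L 140) (Cert.s5 Cert.c Cert.c)) (Cert.s4 (Cert.s5 Cert.c Cert.c) (Cert.s5 Cert.c Cert.c)))) (Cert.s2 (Cert.s3 (Cert.s4 (Cert.L 140) (Cert.s5 Cert.c (Cert.s6 Cert.c Cert.c))) (Cert.s4 (Cert.s5 Cert.c Cert.c) (Cert.s5 Cert.c Cert.c))) (Cert.s3 (Cert.s4 (Cert.s5 Cert.c Cert.c) (Cert.s5 Cert.c Cert.c)) (Cert.s4 (Cert.s5 Cert.c Cert.c) (Cert.s5 Cert.c Cert.c))))) (Cert.s6 (Cert.s1 (Cert.s2 (Cert.L 140) (Cert.s3 (Cert.L 144) (Cert.s4 (Cert.L 152) (Cert.s5 Cert.c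 (Cert.L 164))))) (Cert.L 180)) (Cert.L 180)))))) (Cert.s2 (Cert.s3 (Cert.s4 (Cert.L 180) (Cert.s5 (Cert.s1 (Cert.L 64) (Cert.s2 (Cert.L 64) (Cert.s3 (Cert.L 64) (Cert.s4 (Cert.L 64) (Cert.s5 Cert.c (Cert.L 132)))))) (Cert.L 132))) (Cert.s4 (Cert.L 164) (Cert.s5 (Cert.s1 (Cert.s2 (Cert.s3 (Cert.L 164) (Cert.s4 (Cert.L 164) (Cert.s5 Cert.c (Cert.s6 Cert.c Cert.c)))) (Cert.s3 (Cert.s4 (Cert.L 164) (Cert.s5 Cert.c (Cert.L 164))) (Cert.s4 (Cert.s5 Cert.c (Cert.L 164)) (Cert.s5 Cert.c (Cert.s6 Cert.c Cert.c))))) (Cert.s2 (Cert.s3 (Cert.s4 (Cert.L 164) (Cert.s5 Cert.c (Cert.L 164))) (Cert.s4 (Cert.s5 Cert.c (Cert.L 164)) (Cert.s5 Cert.c (Cert.s6 Cert.c Cert.c)))) (Cert.s3 (Cert.s4 (Cert.s5 Cert.c (Cert.L 164)) (Cert.s5 Cert.c (Cert.L 172))) (Cert.s4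 (Cert.s5 Cert.c (Cert.L 172)) (Cert.s5 Cert.c (Cert.L 188)))))) (Cert.L 188)))) (Cert.s3 (Cert.s4 (Cert.L 164) (Cert.s5 (Cert.s1 (Cert.s2 (Cert.s3 (Cert.L 164) (Cert.s4 (Cert.L 164) (Cert.s5 Cert.c (Cert.L 164)))) (Cert.s3 (Cert.s4 (Cert.L 164) (Cert.s5 Cert.c (Cert.L 164))) (Cert.s4 (Cert.s5 Cert.c Cert.c) (Cert.s5 Cert.c Cert.c)))) (Cert.s2 (Cert.s3 (Cert.L 168) (Cert.s4 (Cert.L 168) (Cert.s5 Cert.c (Cert.L 172)))) (Cert.s3 (Cert.s4 (Cert.L 164) (Cert.s5 Cert.c (Cert.L 168))) (Cert.s4 (Cert.s5 Cert.c Cert.c) (Cert.s5 Cert.c Cert.c))))) (Cert.L 172))) (Cert.s4 (Cert.s5 (Cert.s1 (Cert.s2 (Cert.s3 (Cert.L 172) (Cert.s4 (Cert.L 172) (Cert.s5 Cert.c Cert.c))) (Cert.s3 (Cert.s4 (Cert.L 172) (Cert.s5 Cert.c Cert.c)) (Cert.s4 (Cert.s5 Cert.c Cert.c)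 (Cert.s5 Cert.c Cert.c)))) (Cert.s2 (Cert.s3 (Cert.L 172) (Cert.s4 (Cert.L 172) (Cert.s5 Cert.c Cert.c))) (Cert.s3 (Cert.s4 (Cert.L 172) (Cert.s5 Cert.c Cert.c)) (Cert.s4 (Cert.s5 Cert.c Cert.c) (Cert.s5 Cert.c Cert.c))))) (Cert.L 172)) (Cert.s5 (Cert.s1 (Cert.s2 (Cert.s3 (Cert.s4 (Cert.s5 Cert.c (Cert.L 172)) (Cert.s5 Cert.c (Cert.L 184))) (Cert.s4 (Cert.s5 Cert.c Cert.c) (Cert.s5 Cert.c Cert.c))) (Cert.s3 (Cert.s4 (Cert.s5 Cert.c Cert.c) (Cert.s5 Cert.c Cert.c)) (Cert.s4 (Cert.s5 Cert.c Cert.c) (Cert.s5 Cert.c Cert.c)))) (Cert.s2 (Cert.s3 (Cert.s4 (Cert.s5 Cert.c (Cert.L 184)) (Cert.s5 Cert.c (Cert.L 184))) (Cert.s4 (Cert.s5 Cert.c Cert.c) (Cert.s5 Cert.c Cert.c))) (Cert.s3 (Cert.s4 (Cert.s5 Cert.c Cert.c) (Cert.s5 Cert.c Cert.c)) (Cert.s4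 (Cert.s5 Cert.c Cert.c) (Cert.L 244))))) (Cert.L 180)))))))) (Cert.s5 (Cert.s1 (Cert.s2 (Cert.s3 (Cert.s4 (Cert.s5 Cert.c (Cert.s6 Cert.d Cert.d)) (Cert.s5 Cert.c (Cert.s6 Cert.d Cert.d))) (Cert.s4 (Cert.s5 Cert.c (Cert.s6 Cert.c Cert.d)) (Cert.s5 Cert.c (Cert.s6 Cert.c Cert.d)))) (Cert.s3 (Cert.s4 (Cert.s5 Cert.c (Cert.s6 Cert.c Cert.d)) (Cert.s5 Cert.c (Cert.s6 Cert.c Cert.d))) (Cert.s4 (Cert.s5 Cert.c (Cert.s6 Cert.c Cert.c)) (Cert.s5 Cert.c (Cert.s6 Cert.c Cert.c))))) (Cert.s2 (Cert.s3 (Cert.s4 (Cert.s5 Cert.c (Cert.s6 Cert.d Cert.d)) (Cert.s5 Cert.b (Cert.s6 Cert.b Cert.d))) (Cert.s4 (Cert.s5 Cert.c (Cert.s6 Cert.c Cert.d)) (Cert.s5 Cert.b (Cert.s6 Cert.b Cert.d)))) (Cert.s3 (Cert.s4 (Cert.s5 Cert.c (Cert.s6 Cert.c Cert.d)) (Cert.s5 Cert.b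 (Cert.s6 Cert.b Cert.d))) (Cert.s4 (Cert.s5 Cert.c (Cert.s6 Cert.c Cert.c)) (Cert.s5 Cert.b (Cert.s6 Cert.b Cert.c)))))) t6)) t7)

def t9 : Cert := Cert.s3 (Cert.s4 (Cert.s5 (Cert.s1 (Cert.s2 (Cert.s3 (Cert.s4 (Cert.s5 Cert.c (Cert.s6 (Cert.s1 (Cert.L 64) Cert.d) (Cert.s1 (Cert.L 64) (Cert.s2 (Cert.L 64) (Cert.s3 (Cert.L 64) (Cert.s4 (Cert.L 64) (Cert.s5 Cert.c Cert.c))))))) (Cert.s5 Cert.c (Cert.s6 Cert.d (Cert.s1 Cert.d Cert.d)))) (Cert.s4 (Cert.s5 Cert.c (Cert.s6 Cert.c (Cert.s1 (Cert.s2 (Cert.s3 (Cert.L 64) (Cert.s4 (Cert.L 64) (Cert.s5 Cert.c Cert.c))) (Cert.s3 Cert.c Cert.c)) (Cert.s2 (Cert.s3 (Cert.s4 (Cert.L 64) (Cert.s5 Cert.c Cert.c)) (Cert.s4 (Cert.s5 Cert.c Cert.c) (Cert.s5 Cert.c Cert.c))) (Cert.s3 Cert.c Cert.c))))) (Cert.s5 Cert.c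 (Cert.s6 Cert.c (Cert.s1 Cert.d Cert.d))))) (Cert.s3 (Cert.s4 (Cert.s5 Cert.c (Cert.s6 Cert.c (Cert.s1 (Cert.s2 (Cert.s3 Cert.c Cert.c) Cert.c) (Cert.s2 (Cert.s3 Cert.c Cert.c) Cert.c)))) (Cert.s5 Cert.c (Cert.s6 Cert.c (Cert.s1 Cert.d Cert.d)))) (Cert.s4 (Cert.s5 Cert.c (Cert.s6 Cert.c Cert.c)) (Cert.s5 Cert.c (Cert.s6 Cert.c Cert.c))))) (Cert.s2 (Cert.s3 (Cert.s4 (Cert.s5 Cert.c (Cert.s6 Cert.d (Cert.s1 (Cert.s2 (Cert.s3 (Cert.L 64) (Cert.s4 (Cert.L 64) Cert.d)) (Cert.s3 (Cert.s4 (Cert.L 64) Cert.d) (Cert.s4 (Cert.s5 Cert.c Cert.c) Cert.d))) (Cert.s2 (Cert.s3 (Cert.s4 (Cert.L 64) Cert.d) (Cert.s4 (Cert.s5 Cert.c Cert.c) Cert.d)) (Cert.s3 (Cert.s4 (Cert.L 156) Cert.d) (Cert.s4 (Cert.s5 Cert.c Cert.c) Cert.d)))))) (Cert.s5 Cert.c (Cert.s6 Cert.d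 Cert.d))) (Cert.s4 (Cert.s5 Cert.c (Cert.s6 Cert.c (Cert.s1 (Cert.s2 (Cert.s3 (Cert.s4 (Cert.s5 Cert.c Cert.c) Cert.d) (Cert.s4 (Cert.s5 Cert.c Cert.c) Cert.d)) (Cert.s3 Cert.c Cert.c)) (Cert.s2 (Cert.s3 (Cert.s4 (Cert.s5 Cert.c Cert.c) Cert.d) (Cert.s4 (Cert.s5 Cert.c Cert.c) Cert.d)) (Cert.s3 Cert.c Cert.c))))) (Cert.s5 Cert.c (Cert.s6 Cert.c Cert.d)))) (Cert.s3 (Cert.s4 (Cert.s5 Cert.c (Cert.s6 Cert.c (Cert.s1 (Cert.s2 (Cert.s3 Cert.c Cert.c) Cert.c) (Cert.s2 (Cert.s3 Cert.c Cert.c) Cert.c)))) (Cert.s5 Cert.c (Cert.s6 Cert.c Cert.d))) (Cert.s4 (Cert.s5 Cert.c (Cert.s6 Cert.c Cert.c)) (Cert.s5 Cert.c (Cert.s6 Cert.c Cert.c)))))) (Cert.s6 (Cert.s1 (Cert.s2 (Cert.s3 (Cert.s4 (Cert.s5 (Cert.s6 (Cert.s1 (Cert.L 64) (Cert.s2 (Cert.L 64) (Cert.s3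 (Cert.L 64) (Cert.s4 (Cert.L 64) (Cert.s5 Cert.c Cert.c))))) (Cert.s1 (Cert.L 64) (Cert.s2 (Cert.L 64) (Cert.s3 (Cert.L 64) (Cert.s4 (Cert.L 64) (Cert.s5 Cert.c (Cert.L 152))))))) (Cert.s6 (Cert.s1 (Cert.L 152) (Cert.s2 (Cert.L 152) (Cert.s3 (Cert.L 152) (Cert.s4 (Cert.L 152) (Cert.s5 Cert.c (Cert.L 156)))))) (Cert.L 156))) (Cert.s5 (Cert.s6 (Cert.s1 (Cert.s2 (Cert.s3 (Cert.L 64) (Cert.s4 (Cert.L 64) Cert.d)) (Cert.s3 (Cert.s4 (Cert.L 64) Cert.d) (Cert.s4 (Cert.s5 Cert.c Cert.c) Cert.d))) Cert.d) (Cert.s1 (Cert.s2 (Cert.s3 (Cert.L 64) (Cert.s4 (Cert.L 64) (Cert.s5 Cert.c Cert.d))) (Cert.s3 (Cert.s4 (Cert.L 64) (Cert.s5 Cert.c Cert.d)) (Cert.s4 (Cert.s5 Cert.c Cert.d) (Cert.s5 Cert.c Cert.d)))) (Cert.s2 (Cert.s3 (Cert.s4 (Cert.L 64) (Cert.s5 Cert.d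 Cert.d)) (Cert.s4 (Cert.s5 Cert.c Cert.d) (Cert.s5 Cert.c Cert.d))) (Cert.s3 (Cert.s4 (Cert.s5 Cert.c Cert.d) (Cert.s5 Cert.c Cert.d)) (Cert.s4 (Cert.s5 Cert.c Cert.d) (Cert.s5 Cert.c Cert.d)))))) (Cert.s6 (Cert.s1 (Cert.s2 (Cert.s3 (Cert.L 64) (Cert.s4 (Cert.L 64) (Cert.s5 Cert.d Cert.d))) (Cert.s3 (Cert.s4 (Cert.L 64) (Cert.s5 Cert.d Cert.d)) (Cert.s4 (Cert.s5 Cert.c (Cert.s6 Cert.c Cert.c)) (Cert.s5 Cert.c Cert.d)))) (Cert.s2 (Cert.s3 (Cert.s4 (Cert.L 64) (Cert.s5 Cert.d Cert.d)) (Cert.s4 (Cert.s5 Cert.d Cert.d) (Cert.s5 Cert.d Cert.d))) (Cert.s3 (Cert.s4 (Cert.s5 Cert.d Cert.d) (Cert.s5 Cert.d Cert.d)) (Cert.s4 (Cert.s5 Cert.c Cert.d) (Cert.s5 Cert.c Cert.d))))) (Cert.s1 (Cert.s2 (Cert.L 148) (Cert.s3 (Cert.L 148) (Cert.s4 (Cert.L 148) (Cert.s5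 Cert.d (Cert.L 164))))) (Cert.L 176))))) (Cert.s4 (Cert.s5 (Cert.s6 (Cert.s1 (Cert.s2 (Cert.s3 (Cert.L 64) (Cert.s4 (Cert.L 64) (Cert.s5 Cert.c Cert.c))) (Cert.s3 (Cert.s4 (Cert.L 64) (Cert.s5 Cert.c Cert.c)) Cert.c)) (Cert.s2 (Cert.s3 (Cert.s4 (Cert.L 64) (Cert.s5 Cert.c Cert.c)) (Cert.s4 (Cert.s5 Cert.c Cert.c) (Cert.s5 Cert.c Cert.c))) (Cert.s3 (Cert.s4 (Cert.s5 Cert.c Cert.c) (Cert.s5 Cert.c Cert.c)) Cert.c))) (Cert.s1 (Cert.s2 (Cert.s3 (Cert.L 64) (Cert.s4 (Cert.L 64) (Cert.s5 Cert.c Cert.c))) (Cert.s3 (Cert.s4 (Cert.L 64) (Cert.s5 Cert.c Cert.c)) (Cert.s4 (Cert.s5 Cert.c Cert.c) (Cert.s5 Cert.c Cert.c)))) (Cert.s2 (Cert.s3 (Cert.s4 (Cert.L 64) (Cert.s5 Cert.c (Cert.L 156))) (Cert.s4 (Cert.s5 Cert.c Cert.c) (Cert.s5 Cert.c Cert.c))) (Cert.s3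 (Cert.s4 (Cert.s5 Cert.c Cert.c) (Cert.s5 Cert.c Cert.c)) (Cert.s4 (Cert.s5 Cert.c Cert.c) (Cert.s5 Cert.c Cert.c)))))) (Cert.s6 (Cert.s1 (Cert.s2 (Cert.s3 (Cert.L 64) (Cert.s4 (Cert.L 64) (Cert.s5 Cert.c (Cert.s6 Cert.c Cert.c)))) (Cert.s3 (Cert.s4 (Cert.L 64) (Cert.s5 Cert.c (Cert.s6 Cert.c Cert.c))) (Cert.s4 (Cert.s5 Cert.c Cert.c) (Cert.s5 Cert.c Cert.c)))) (Cert.s2 (Cert.s3 (Cert.s4 (Cert.L 64) (Cert.s5 Cert.c (Cert.L 160))) (Cert.s4 (Cert.s5 Cert.c (Cert.L 164)) (Cert.s5 Cert.c (Cert.s6 Cert.c Cert.c)))) (Cert.s3 (Cert.s4 (Cert.s5 Cert.c (Cert.L 164)) (Cert.s5 Cert.c (Cert.L 180))) (Cert.s4 (Cert.s5 Cert.c Cert.c) (Cert.s5 Cert.c Cert.c))))) (Cert.L 180))) (Cert.s5 (Cert.s6 (Cert.s1 (Cert.s2 (Cert.s3 (Cert.s4 (Cert.s5 Cert.c Cert.c) Cert.d)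 (Cert.s4 (Cert.s5 Cert.c Cert.c) Cert.d)) (Cert.s3 (Cert.s4 (Cert.s5 Cert.c Cert.c) Cert.d) Cert.c)) Cert.d) (Cert.s1 (Cert.s2 (Cert.s3 (Cert.s4 (Cert.s5 Cert.c Cert.d) (Cert.s5 Cert.c Cert.d)) (Cert.s4 (Cert.s5 Cert.c Cert.c) (Cert.s5 Cert.c Cert.c))) (Cert.s3 (Cert.s4 (Cert.s5 Cert.c Cert.c) (Cert.s5 Cert.c Cert.c)) (Cert.s4 (Cert.s5 Cert.c Cert.c) (Cert.s5 Cert.c Cert.c)))) (Cert.s2 (Cert.s3 (Cert.s4 (Cert.s5 Cert.c Cert.d) (Cert.s5 Cert.c Cert.d)) (Cert.s4 (Cert.s5 Cert.c Cert.c) (Cert.s5 Cert.c Cert.c))) (Cert.s3 (Cert.s4 (Cert.s5 Cert.c Cert.c) (Cert.s5 Cert.c Cert.c)) (Cert.s4 (Cert.s5 Cert.c Cert.c) (Cert.s5 Cert.c Cert.c)))))) (Cert.s6 (Cert.s1 (Cert.s2 (Cert.s3 (Cert.s4 (Cert.s5 Cert.c (Cert.s6 Cert.c Cert.c)) (Cert.s5 Cert.c Cert.d))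 (Cert.s4 (Cert.s5 Cert.c (Cert.s6 Cert.c Cert.c)) (Cert.s5 Cert.c Cert.d))) (Cert.s3 (Cert.s4 (Cert.s5 Cert.c (Cert.s6 Cert.c Cert.c)) (Cert.s5 Cert.c Cert.d)) (Cert.s4 (Cert.s5 Cert.c Cert.c) (Cert.s5 Cert.c Cert.c)))) (Cert.s2 (Cert.s3 (Cert.s4 (Cert.s5 Cert.c Cert.d) (Cert.s5 Cert.c Cert.d)) (Cert.s4 (Cert.s5 Cert.c Cert.d) (Cert.s5 Cert.c Cert.d))) (Cert.s3 (Cert.s4 (Cert.s5 Cert.c Cert.d) (Cert.s5 Cert.c Cert.d)) (Cert.s4 (Cert.s5 Cert.c Cert.c) (Cert.s5 Cert.c Cert.c))))) (Cert.s1 (Cert.s2 (Cert.s3 (Cert.s4 (Cert.L 180) (Cert.s5 Cert.d (Cert.L 180))) (Cert.s4 (Cert.s5 (Cert.s6 Cert.c Cert.c) (Cert.L 180)) (Cert.s5 Cert.d (Cert.L 180)))) (Cert.s3 (Cert.s4 (Cert.L 180) (Cert.s5 Cert.d (Cert.L 180))) (Cert.s4 (Cert.s5 Cert.c (Cert.L 180))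 (Cert.s5 Cert.c (Cert.L 180))))) (Cert.L 184)))))) (Cert.s3 (Cert.s4 (Cert.s5 (Cert.s6 (Cert.s1 (Cert.s2 (Cert.s3 (Cert.L 64) Cert.c) Cert.c) (Cert.s2 (Cert.s3 (Cert.s4 (Cert.L 64) (Cert.s5 Cert.c Cert.c)) Cert.c) Cert.c)) (Cert.s1 (Cert.s2 (Cert.s3 (Cert.L 64) (Cert.s4 (Cert.L 64) (Cert.s5 Cert.c Cert.c))) (Cert.s3 (Cert.s4 (Cert.L 64) (Cert.s5 Cert.c Cert.c)) (Cert.s4 (Cert.s5 Cert.c Cert.c) (Cert.s5 Cert.c Cert.c)))) (Cert.s2 (Cert.s3 (Cert.s4 (Cert.L 64) (Cert.s5 Cert.c Cert.c)) (Cert.s4 (Cert.s5 Cert.c Cert.c) (Cert.s5 Cert.c Cert.c))) (Cert.s3 (Cert.s4 (Cert.L 172) (Cert.s5 Cert.c Cert.c)) (Cert.s4 (Cert.s5 Cert.c Cert.c) (Cert.s5 Cert.c Cert.c)))))) (Cert.s6 (Cert.s1 (Cert.s2 (Cert.s3 (Cert.L 64) (Cert.s4 (Cert.L 64) (Cert.s5 Cert.c Cert.c)))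 (Cert.s3 (Cert.s4 (Cert.L 64) (Cert.s5 Cert.c Cert.c)) (Cert.s4 (Cert.s5 Cert.c Cert.c) (Cert.s5 Cert.c Cert.c)))) (Cert.s2 (Cert.s3 (Cert.s4 (Cert.L 64) (Cert.s5 Cert.c (Cert.L 156))) (Cert.s4 (Cert.s5 Cert.c Cert.c) (Cert.s5 Cert.c Cert.c))) (Cert.s3 (Cert.s4 (Cert.s5 Cert.c Cert.c) (Cert.s5 Cert.c Cert.c)) (Cert.s4 (Cert.s5 Cert.c Cert.c) (Cert.s5 Cert.c Cert.c))))) (Cert.L 172))) (Cert.s5 (Cert.s6 (Cert.s1 (Cert.s2 (Cert.s3 (Cert.s4 (Cert.s5 Cert.c Cert.c) Cert.d) Cert.c) Cert.c) Cert.d) (Cert.s1 (Cert.s2 (Cert.s3 (Cert.s4 (Cert.s5 Cert.c Cert.c) (Cert.s5 Cert.c Cert.c)) (Cert.s4 (Cert.s5 Cert.c Cert.c) (Cert.s5 Cert.c Cert.c))) (Cert.s3 (Cert.s4 (Cert.s5 Cert.c Cert.c) (Cert.s5 Cert.c Cert.c)) (Cert.s4 (Cert.s5 Cert.c Cert.c) (Cert.s5 Cert.c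 Cert.c)))) (Cert.s2 (Cert.s3 (Cert.s4 (Cert.s5 Cert.c Cert.c) (Cert.s5 Cert.c Cert.c)) (Cert.s4 (Cert.s5 Cert.c Cert.c) (Cert.s5 Cert.c Cert.c))) (Cert.s3 (Cert.s4 (Cert.s5 Cert.c Cert.c) (Cert.s5 Cert.c Cert.c)) (Cert.s4 (Cert.s5 Cert.c Cert.c) (Cert.s5 Cert.c Cert.c)))))) (Cert.s6 (Cert.s1 (Cert.s2 (Cert.s3 (Cert.s4 (Cert.s5 Cert.c (Cert.s6 Cert.c Cert.c)) (Cert.s5 Cert.c Cert.d)) (Cert.s4 (Cert.s5 Cert.c Cert.c) (Cert.s5 Cert.c Cert.c))) (Cert.s3 (Cert.s4 (Cert.s5 Cert.c Cert.c) (Cert.s5 Cert.c Cert.c)) (Cert.s4 (Cert.s5 Cert.c Cert.c) (Cert.s5 Cert.c Cert.c)))) (Cert.s2 (Cert.s3 (Cert.s4 (Cert.s5 Cert.c Cert.d) (Cert.s5 Cert.c Cert.d)) (Cert.s4 (Cert.s5 Cert.c Cert.c) (Cert.s5 Cert.c Cert.c))) (Cert.s3 (Cert.s4 (Cert.s5 Cert.c Cert.c) (Cert.s5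 Cert.c Cert.c)) (Cert.s4 (Cert.s5 Cert.c Cert.c) (Cert.s5 Cert.c Cert.c))))) (Cert.s1 (Cert.s2 (Cert.s3 (Cert.L 172) (Cert.s4 (Cert.L 172) (Cert.s5 Cert.d (Cert.L 172)))) (Cert.L 188)) (Cert.L 188))))) (Cert.s4 (Cert.s5 (Cert.s6 Cert.c (Cert.s1 (Cert.s2 (Cert.s3 (Cert.s4 (Cert.s5 Cert.c Cert.c) (Cert.s5 Cert.c Cert.c)) (Cert.s4 (Cert.s5 Cert.c Cert.c) (Cert.s5 Cert.c Cert.c))) (Cert.s3 Cert.c Cert.c)) (Cert.s2 (Cert.s3 (Cert.s4 (Cert.s5 Cert.c Cert.c) (Cert.s5 Cert.c Cert.c)) (Cert.s4 (Cert.s5 Cert.c Cert.c) (Cert.s5 Cert.c Cert.c))) (Cert.s3 Cert.c Cert.c)))) (Cert.s6 (Cert.s1 (Cert.s2 (Cert.s3 (Cert.s4 (Cert.s5 Cert.c Cert.c) (Cert.s5 Cert.c Cert.c)) (Cert.s4 (Cert.s5 Cert.c Cert.c) (Cert.s5 Cert.c Cert.c))) (Cert.s3 (Cert.s4 (Cert.s5 Cert.c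 Cert.c) (Cert.s5 Cert.c Cert.c)) Cert.c)) (Cert.s2 (Cert.s3 (Cert.s4 (Cert.s5 Cert.c Cert.c) (Cert.s5 Cert.c Cert.c)) (Cert.s4 (Cert.s5 Cert.c Cert.c) (Cert.s5 Cert.c Cert.c))) (Cert.s3 (Cert.s4 (Cert.s5 Cert.c Cert.c) (Cert.s5 Cert.c Cert.c)) Cert.c))) (Cert.L 188))) (Cert.s5 (Cert.s6 Cert.c (Cert.s1 (Cert.s2 (Cert.s3 (Cert.s4 (Cert.s5 Cert.c Cert.c) (Cert.s5 Cert.c Cert.c)) (Cert.s4 (Cert.s5 Cert.c Cert.c) (Cert.s5 Cert.c Cert.c))) (Cert.s3 Cert.c Cert.c)) (Cert.s2 (Cert.s3 (Cert.s4 (Cert.s5 Cert.c Cert.c) (Cert.s5 Cert.c Cert.c)) (Cert.L 240)) (Cert.L 240)))) (Cert.s6 (Cert.s1 (Cert.s2 (Cert.s3 (Cert.s4 (Cert.s5 Cert.c Cert.c) (Cert.s5 Cert.c Cert.c)) (Cert.s4 (Cert.s5 Cert.c Cert.c) (Cert.s5 Cert.c Cert.c))) (Cert.s3 (Cert.s4 (Cert.s5 Cert.c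 Cert.c) (Cert.s5 Cert.c Cert.c)) Cert.c)) (Cert.s2 (Cert.s3 (Cert.s4 (Cert.s5 Cert.c Cert.c) (Cert.s5 Cert.c Cert.c)) (Cert.L 244)) (Cert.L 244))) (Cert.L 192)))))) (Cert.s2 (Cert.s3 (Cert.s4 (Cert.s5 (Cert.s6 (Cert.s1 (Cert.s2 (Cert.s3 (Cert.L 64) (Cert.s4 (Cert.L 64) (Cert.s5 Cert.c Cert.c))) (Cert.s3 (Cert.s4 (Cert.L 64) (Cert.s5 Cert.c Cert.c)) (Cert.s4 (Cert.s5 Cert.c Cert.c) (Cert.s5 Cert.c Cert.c)))) (Cert.s2 (Cert.s3 (Cert.s4 (Cert.L 64) Cert.d) (Cert.s4 (Cert.s5 Cert.c Cert.c) Cert.d)) (Cert.s3 (Cert.s4 (Cert.L 156) Cert.d) (Cert.s4 (Cert.s5 Cert.c Cert.c) Cert.d)))) (Cert.s1 (Cert.s2 (Cert.L 156) (Cert.L 184)) (Cert.L 184))) (Cert.s6 (Cert.s1 (Cert.s2 (Cert.L 156) (Cert.s3 (Cert.L 156) (Cert.s4 (Cert.L 156) (Cert.s5 Cert.c (Cert.L 164)))))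 (Cert.L 172)) (Cert.L 172))) (Cert.s5 (Cert.s6 Cert.d (Cert.s1 (Cert.s2 (Cert.s3 (Cert.s4 (Cert.L 172) Cert.d) (Cert.s4 (Cert.s5 Cert.c Cert.d) Cert.d)) (Cert.s3 (Cert.s4 (Cert.s5 Cert.c Cert.d) Cert.d) (Cert.s4 (Cert.s5 Cert.c Cert.d) Cert.d))) (Cert.L 184))) (Cert.s6 (Cert.s1 (Cert.s2 (Cert.s3 (Cert.s4 (Cert.L 156) (Cert.s5 Cert.d Cert.d)) (Cert.s4 (Cert.s5 Cert.d Cert.d) (Cert.s5 Cert.d Cert.d))) (Cert.s3 (Cert.s4 (Cert.s5 Cert.d Cert.d) (Cert.s5 Cert.d Cert.d)) (Cert.s4 (Cert.s5 Cert.c Cert.d) (Cert.s5 Cert.c Cert.d)))) (Cert.L 184)) (Cert.L 184)))) (Cert.s4 (Cert.s5 (Cert.s6 (Cert.s1 (Cert.s2 (Cert.s3 (Cert.s4 (Cert.s5 Cert.c Cert.c) (Cert.s5 Cert.c Cert.c)) (Cert.s4 (Cert.s5 Cert.c Cert.c) (Cert.s5 Cert.c Cert.c))) (Cert.s3 (Cert.s4 (Cert.s5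 Cert.c Cert.c) (Cert.s5 Cert.c Cert.c)) Cert.c)) (Cert.s2 (Cert.s3 (Cert.s4 (Cert.s5 Cert.c Cert.c) Cert.d) (Cert.s4 (Cert.s5 Cert.c Cert.c) Cert.d)) (Cert.s3 (Cert.s4 (Cert.s5 Cert.c Cert.c) Cert.d) Cert.c))) (Cert.s1 (Cert.s2 (Cert.s3 (Cert.s4 (Cert.L 184) (Cert.s5 Cert.c Cert.d)) (Cert.s4 (Cert.s5 Cert.c Cert.c) (Cert.s5 Cert.c Cert.c))) (Cert.s3 (Cert.s4 (Cert.L 184) (Cert.s5 Cert.c Cert.c)) (Cert.L 192))) (Cert.L 192))) (Cert.s6 (Cert.s1 (Cert.s2 (Cert.s3 (Cert.s4 (Cert.L 156) (Cert.s5 Cert.c (Cert.L 168))) (Cert.s4 (Cert.s5 Cert.c (Cert.L 168)) (Cert.s5 Cert.c (Cert.L 180)))) (Cert.s3 (Cert.s4 (Cert.L 180) (Cert.s5 Cert.c (Cert.L 180))) (Cert.s4 (Cert.L 192) (Cert.L 196)))) (Cert.L 196)) (Cert.L 196))) (Cert.s5 (Cert.s6 Cert.d (Cert.s1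 (Cert.s2 (Cert.s3 (Cert.s4 (Cert.s5 Cert.c Cert.d) Cert.d) (Cert.s4 (Cert.s5 Cert.c Cert.c) Cert.d)) (Cert.s3 (Cert.s4 (Cert.s5 Cert.c Cert.c) Cert.d) (Cert.L 196))) (Cert.L 196))) (Cert.s6 (Cert.s1 (Cert.s2 (Cert.s3 (Cert.s4 (Cert.s5 Cert.c Cert.d) (Cert.s5 Cert.c Cert.d)) (Cert.s4 (Cert.s5 Cert.c Cert.d) (Cert.L 216))) (Cert.s3 (Cert.s4 (Cert.s5 Cert.c Cert.d) (Cert.L 216)) (Cert.L 216))) (Cert.L 216)) (Cert.L 216))))) (Cert.s3 (Cert.s4 (Cert.s5 (Cert.s6 (Cert.s1 (Cert.s2 (Cert.s3 (Cert.s4 (Cert.s5 Cert.c Cert.c) (Cert.s5 Cert.c Cert.c)) Cert.c) Cert.c) (Cert.s2 (Cert.s3 (Cert.s4 (Cert.s5 Cert.c Cert.c) Cert.d) Cert.c) Cert.c)) (Cert.L 188)) (Cert.L 188)) (Cert.s5 (Cert.s6 Cert.d (Cert.L 196)) (Cert.s6 (Cert.s1 (Cert.s2 (Cert.s3 (Cert.s4 (Cert.L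 196) (Cert.s5 Cert.c Cert.d)) (Cert.L 196)) (Cert.L 196)) (Cert.L 196)) (Cert.L 196)))) (Cert.s4 (Cert.s5 (Cert.s6 Cert.c (Cert.L 196)) (Cert.L 196)) (Cert.s5 (Cert.s6 Cert.c (Cert.L 196)) (Cert.L 196)))))) (Cert.s1 (Cert.s2 (Cert.s3 (Cert.L 180) (Cert.s4 (Cert.L 180) (Cert.s5 (Cert.s1 (Cert.s2 (Cert.s3 (Cert.s4 (Cert.L 180) (Cert.s5 Cert.c (Cert.L 180))) (Cert.s4 (Cert.s5 Cert.c (Cert.L 180)) (Cert.s5 Cert.c (Cert.L 180)))) (Cert.s3 (Cert.s4 (Cert.L 180) (Cert.s5 Cert.c (Cert.L 180))) (Cert.s4 (Cert.L 188) (Cert.s5 Cert.c (Cert.L 188))))) (Cert.L 188)) (Cert.L 188)))) (Cert.L 188)) (Cert.L 188)))) (Cert.s5 (Cert.s1 (Cert.s2 (Cert.s3 (Cert.s4 (Cert.s5 Cert.c (Cert.s6 Cert.d Cert.d)) (Cert.s5 Cert.b Cert.d)) (Cert.s4 (Cert.s5 Cert.c (Cert.s6 Cert.c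 Cert.d)) (Cert.s5 Cert.b Cert.d))) (Cert.s3 (Cert.s4 (Cert.s5 Cert.c (Cert.s6 Cert.c Cert.d)) (Cert.s5 Cert.b Cert.d)) (Cert.s4 (Cert.s5 Cert.c (Cert.s6 Cert.c Cert.c)) (Cert.s5 Cert.b Cert.d)))) (Cert.s2 (Cert.s3 (Cert.s4 (Cert.s5 Cert.b (Cert.s6 Cert.b Cert.d)) (Cert.s5 Cert.b Cert.d)) (Cert.s4 (Cert.s5 Cert.b (Cert.s6 Cert.b Cert.d)) (Cert.s5 Cert.b Cert.d))) (Cert.s3 (Cert.s4 (Cert.s5 Cert.b (Cert.s6 Cert.b Cert.d)) (Cert.s5 Cert.b Cert.d)) (Cert.s4 (Cert.s5 Cert.b (Cert.s6 Cert.b Cert.c)) (Cert.s5 Cert.b Cert.d))))) (Cert.s6 (Cert.s1 (Cert.s2 (Cert.s3 (Cert.s4 (Cert.s5 (Cert.s6 Cert.d Cert.d) (Cert.s6 (Cert.s1 (Cert.s2 (Cert.s3 (Cert.s4 (Cert.s5 Cert.d Cert.d) Cert.b) (Cert.s4 (Cert.s5 Cert.d Cert.d) Cert.b)) (Cert.s3 (Cert.s4 (Cert.s5 Cert.d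 Cert.d) Cert.b) (Cert.s4 (Cert.s5 Cert.c Cert.d) Cert.b))) Cert.b) (Cert.s1 (Cert.s2 (Cert.s3 (Cert.s4 (Cert.L 148) (Cert.s5 Cert.d Cert.d)) (Cert.s4 (Cert.s5 Cert.d Cert.d) (Cert.s5 Cert.d Cert.d))) (Cert.s3 (Cert.s4 (Cert.s5 Cert.d Cert.d) (Cert.s5 Cert.d Cert.d)) (Cert.s4 (Cert.s5 Cert.d Cert.d) (Cert.s5 Cert.d Cert.d)))) (Cert.L 188)))) (Cert.s5 (Cert.s6 Cert.b Cert.d) (Cert.s6 Cert.b Cert.d))) (Cert.s4 (Cert.s5 (Cert.s6 Cert.d Cert.d) (Cert.s6 (Cert.s1 (Cert.s2 (Cert.s3 (Cert.s4 (Cert.s5 Cert.c Cert.d) Cert.b) (Cert.s4 (Cert.s5 Cert.c Cert.d) Cert.b)) (Cert.s3 (Cert.s4 (Cert.s5 Cert.c Cert.d) Cert.b) (Cert.s4 (Cert.s5 Cert.c Cert.c) Cert.b))) Cert.b) (Cert.s1 (Cert.s2 (Cert.s3 (Cert.s4 (Cert.s5 Cert.d Cert.d) (Cert.s5 Cert.d Cert.d)) (Cert.s4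 (Cert.s5 Cert.d Cert.d) (Cert.s5 Cert.d Cert.d))) (Cert.s3 (Cert.s4 (Cert.s5 Cert.d Cert.d) (Cert.s5 Cert.d Cert.d)) (Cert.L 212))) (Cert.L 212)))) (Cert.s5 (Cert.s6 Cert.b Cert.d) (Cert.s6 Cert.b Cert.d)))) (Cert.s3 (Cert.s4 (Cert.s5 (Cert.s6 Cert.d Cert.d) (Cert.s6 (Cert.s1 (Cert.s2 (Cert.s3 (Cert.s4 (Cert.s5 Cert.c Cert.d) Cert.b) (Cert.s4 (Cert.s5 Cert.c Cert.c) Cert.b)) (Cert.s3 (Cert.s4 (Cert.s5 Cert.c Cert.c) Cert.b) (Cert.s4 (Cert.s5 Cert.c Cert.c) Cert.b))) Cert.b) (Cert.s1 (Cert.s2 (Cert.s3 (Cert.s4 (Cert.s5 Cert.d Cert.d) (Cert.s5 Cert.d Cert.d)) (Cert.s4 (Cert.s5 Cert.d Cert.d) (Cert.L 212))) (Cert.L 196)) (Cert.L 196)))) (Cert.s5 (Cert.s6 Cert.b Cert.d) (Cert.s6 Cert.b Cert.d))) (Cert.s4 (Cert.s5 (Cert.s6 Cert.c Cert.d) (Cert.s6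 (Cert.s1 (Cert.s2 (Cert.s3 (Cert.s4 (Cert.s5 Cert.c Cert.c) Cert.b) (Cert.s4 (Cert.s5 Cert.c Cert.c) Cert.b)) (Cert.L 252)) Cert.b) (Cert.L 252))) (Cert.s5 (Cert.s6 Cert.b Cert.d) (Cert.L 252))))) (Cert.s2 (Cert.s3 (Cert.s4 (Cert.s5 (Cert.s6 Cert.b Cert.d) (Cert.s6 Cert.b (Cert.L 184))) (Cert.s5 (Cert.s6 Cert.b Cert.d) (Cert.s6 Cert.b Cert.d))) (Cert.s4 (Cert.s5 (Cert.s6 Cert.b Cert.d) (Cert.L 248)) (Cert.L 248))) (Cert.s3 (Cert.s4 (Cert.s5 (Cert.s6 Cert.b Cert.d) (Cert.L 248)) (Cert.L 248)) (Cert.L 248)))) (Cert.s1 (Cert.s2 (Cert.s3 (Cert.s4 (Cert.s5 (Cert.s1 (Cert.s2 (Cert.s3 (Cert.s4 (Cert.L 140) (Cert.s5 Cert.c Cert.d)) (Cert.s4 (Cert.s5 Cert.c Cert.d) (Cert.s5 Cert.c Cert.d))) (Cert.s3 (Cert.s4 (Cert.s5 Cert.c Cert.d) (Cert.s5 Cert.c Cert.d))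 (Cert.s4 (Cert.s5 Cert.c Cert.d) (Cert.s5 Cert.c Cert.d)))) (Cert.L 188)) (Cert.L 188)) (Cert.s5 Cert.d (Cert.L 188))) (Cert.s4 (Cert.s5 (Cert.s1 (Cert.s2 (Cert.s3 (Cert.s4 (Cert.s5 Cert.c Cert.d) (Cert.s5 Cert.c Cert.d)) (Cert.s4 (Cert.s5 Cert.c Cert.d) (Cert.s5 Cert.c Cert.d))) (Cert.s3 (Cert.s4 (Cert.s5 Cert.c Cert.d) (Cert.s5 Cert.c Cert.d)) (Cert.L 200))) (Cert.L 200)) (Cert.L 200)) (Cert.s5 Cert.d (Cert.L 200)))) (Cert.s3 (Cert.s4 (Cert.s5 (Cert.s1 (Cert.s2 (Cert.s3 (Cert.s4 (Cert.L 188) (Cert.L 196)) (Cert.L 196)) (Cert.L 196)) (Cert.L 196)) (Cert.L 196)) (Cert.L 200)) (Cert.L 200))) (Cert.L 200))))) (Cert.s4 (Cert.s5 (Cert.s1 (Cert.s2 (Cert.s4 (Cert.s5 Cert.c (Cert.s6 Cert.c (Cert.s1 (Cert.s2 Cert.c Cert.c) (Cert.s2 Cert.c Cert.c))))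 (Cert.s5 Cert.c (Cert.s6 Cert.c (Cert.s1 Cert.d Cert.d)))) (Cert.s3 (Cert.s4 (Cert.s5 Cert.c (Cert.s6 Cert.c Cert.c)) (Cert.s5 Cert.c (Cert.s6 Cert.c Cert.c))) (Cert.s4 (Cert.s5 Cert.c (Cert.s6 Cert.c Cert.c)) (Cert.s5 Cert.c (Cert.s6 Cert.c Cert.c))))) (Cert.s2 (Cert.s4 (Cert.s5 Cert.c (Cert.s6 Cert.c (Cert.s1 (Cert.s2 Cert.c Cert.c) (Cert.s2 Cert.c Cert.c)))) (Cert.s5 Cert.c (Cert.s6 Cert.c Cert.d))) (Cert.s3 (Cert.s4 (Cert.s5 Cert.c (Cert.s6 Cert.c Cert.c)) (Cert.s5 Cert.c (Cert.L 256))) (Cert.s4 (Cert.s5 Cert.c (Cert.L 256)) (Cert.L 256))))) (Cert.s6 (Cert.s1 (Cert.s2 (Cert.s4 (Cert.s5 (Cert.s6 (Cert.s1 (Cert.s2 Cert.c Cert.c) (Cert.s2 Cert.c Cert.c)) (Cert.s1 (Cert.s2 (Cert.s4 (Cert.s5 Cert.c Cert.c) (Cert.s5 Cert.c Cert.c)) (Cert.s3 (Cert.s4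 (Cert.s5 Cert.c Cert.c) (Cert.s5 Cert.c Cert.c)) Cert.c)) (Cert.s2 (Cert.s4 (Cert.s5 Cert.c Cert.c) (Cert.s5 Cert.c Cert.c)) (Cert.s3 (Cert.s4 (Cert.s5 Cert.c Cert.c) (Cert.s5 Cert.c Cert.c)) Cert.c)))) (Cert.s6 (Cert.s1 (Cert.s2 (Cert.s4 (Cert.s5 Cert.c (Cert.s6 Cert.c Cert.c)) (Cert.s5 Cert.c (Cert.s6 Cert.c Cert.c))) (Cert.s3 (Cert.s4 (Cert.s5 Cert.c Cert.c) (Cert.s5 Cert.c Cert.c)) (Cert.s4 (Cert.s5 Cert.c Cert.c) (Cert.s5 Cert.c Cert.c)))) (Cert.s2 (Cert.s4 (Cert.s5 Cert.c (Cert.s6 Cert.c Cert.c)) (Cert.s5 Cert.c (Cert.s6 Cert.c Cert.c))) (Cert.s3 (Cert.s4 (Cert.s5 Cert.c Cert.c) (Cert.s5 Cert.c Cert.c)) (Cert.s4 (Cert.s5 Cert.c Cert.c) (Cert.L 256))))) (Cert.s1 (Cert.s2 (Cert.s4 (Cert.L 152) (Cert.s5 (Cert.s6 Cert.c Cert.c) (Cert.L 164)))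 (Cert.L 184)) (Cert.L 184)))) (Cert.s5 (Cert.s6 (Cert.s1 (Cert.s2 Cert.c Cert.c) Cert.d) (Cert.s1 (Cert.s2 (Cert.s4 (Cert.s5 Cert.c Cert.c) (Cert.s5 Cert.c Cert.c)) (Cert.s3 (Cert.s4 (Cert.s5 Cert.c Cert.c) (Cert.s5 Cert.c Cert.c)) Cert.c)) (Cert.s2 (Cert.s4 (Cert.s5 Cert.c Cert.c) (Cert.s5 Cert.c Cert.c)) (Cert.s3 (Cert.s4 (Cert.s5 Cert.c Cert.c) (Cert.L 220)) Cert.c)))) (Cert.s6 (Cert.s1 (Cert.s2 (Cert.s4 (Cert.s5 Cert.c (Cert.s6 Cert.c Cert.c)) (Cert.s5 Cert.c Cert.d)) (Cert.s3 (Cert.s4 (Cert.s5 Cert.c Cert.c) (Cert.s5 Cert.c Cert.c)) (Cert.s4 (Cert.s5 Cert.c Cert.c) (Cert.L 256)))) (Cert.s2 (Cert.s4 (Cert.s5 Cert.c Cert.d) (Cert.s5 Cert.c Cert.d)) (Cert.s3 (Cert.s4 (Cert.s5 Cert.c Cert.c) (Cert.L 256)) (Cert.L 256)))) (Cert.s1 (Cert.s2 (Cert.s4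 (Cert.s5 (Cert.s6 Cert.c Cert.c) (Cert.L 176)) (Cert.s5 Cert.d (Cert.L 184))) (Cert.s3 (Cert.s4 (Cert.L 196) (Cert.L 200)) (Cert.L 200))) (Cert.L 200))))) (Cert.s3 (Cert.s4 (Cert.s5 (Cert.s6 Cert.c (Cert.s1 (Cert.s2 (Cert.s3 Cert.c Cert.c) Cert.c) (Cert.s2 (Cert.s3 Cert.c Cert.c) Cert.c))) (Cert.s6 (Cert.s1 (Cert.s2 (Cert.s3 (Cert.s4 (Cert.s5 Cert.c Cert.c) (Cert.s5 Cert.c Cert.c)) Cert.c) Cert.c) (Cert.s2 (Cert.s3 (Cert.s4 (Cert.s5 Cert.c Cert.c) (Cert.L 224)) Cert.c) Cert.c)) (Cert.L 188))) (Cert.s5 (Cert.s6 Cert.c (Cert.s1 (Cert.s2 (Cert.s3 Cert.c Cert.c) Cert.c) (Cert.L 204))) (Cert.s6 (Cert.s1 (Cert.s2 (Cert.s3 (Cert.s4 (Cert.s5 Cert.c Cert.c) (Cert.L 248)) Cert.c) Cert.c) (Cert.L 248)) (Cert.L 248)))) (Cert.s4 (Cert.s5 (Cert.s6 Cert.c Cert.c)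 (Cert.s6 Cert.c (Cert.L 248))) (Cert.L 248)))) (Cert.s2 (Cert.s4 (Cert.s5 (Cert.s6 (Cert.s1 (Cert.s2 Cert.c Cert.c) (Cert.s2 Cert.c Cert.c)) (Cert.s1 (Cert.s2 (Cert.s4 (Cert.s5 Cert.c Cert.c) (Cert.L 196)) (Cert.L 196)) (Cert.L 196))) (Cert.s6 (Cert.s1 (Cert.s2 (Cert.s4 (Cert.s5 Cert.c (Cert.L 196)) (Cert.s5 Cert.c (Cert.L 196))) (Cert.L 196)) (Cert.L 196)) (Cert.L 196))) (Cert.s5 (Cert.s6 Cert.d (Cert.L 200)) (Cert.L 200))) (Cert.s3 (Cert.s4 (Cert.s5 (Cert.s6 Cert.c (Cert.L 200)) (Cert.L 200)) (Cert.L 216)) (Cert.L 216)))) (Cert.s1 (Cert.s2 (Cert.s4 (Cert.L 184) (Cert.s5 (Cert.s1 (Cert.s2 (Cert.s4 (Cert.s5 Cert.c (Cert.L 184)) (Cert.s5 Cert.c (Cert.L 184))) (Cert.L 196)) (Cert.L 196)) (Cert.L 196))) (Cert.L 196)) (Cert.L 196)))) (Cert.s5 (Cert.s1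 (Cert.s2 (Cert.s4 (Cert.s5 Cert.c (Cert.s6 Cert.c Cert.d)) (Cert.s5 Cert.b Cert.d)) (Cert.s3 (Cert.s4 (Cert.s5 Cert.c (Cert.s6 Cert.c Cert.c)) (Cert.s5 Cert.b Cert.d)) (Cert.s4 (Cert.s5 Cert.c (Cert.L 244)) (Cert.L 244)))) (Cert.s2 (Cert.s4 (Cert.s5 Cert.b (Cert.s6 Cert.b Cert.d)) (Cert.s5 Cert.b Cert.d)) (Cert.L 252))) (Cert.s6 (Cert.s1 (Cert.s2 (Cert.s4 (Cert.s5 (Cert.s6 Cert.d Cert.d) (Cert.s6 (Cert.s1 (Cert.s2 (Cert.s4 (Cert.s5 Cert.c Cert.d) Cert.b) (Cert.s3 (Cert.s4 (Cert.s5 Cert.c Cert.c) Cert.b) (Cert.L 252))) Cert.b) (Cert.L 252))) (Cert.s5 (Cert.s6 Cert.b Cert.d) (Cert.L 252))) (Cert.s3 (Cert.s4 (Cert.s5 (Cert.s6 Cert.c Cert.d) (Cert.L 252)) (Cert.L 252)) (Cert.L 252))) (Cert.L 252)) (Cert.L 252))))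

def t10 : Cert := Cert.s3 (Cert.s5 (Cert.s1 (Cert.s2 (Cert.s3 (Cert.L 112) (Cert.s4 (Cert.L 112) Cert.b)) (Cert.s3 (Cert.L 64) (Cert.s4 (Cert.s5 Cert.a (Cert.s6 Cert.a (Cert.s1 (Cert.L 64) (Cert.s2 (Cert.L 64) (Cert.s3 (Cert.L 64) Cert.a))))) Cert.b))) (Cert.s2 (Cert.s3 (Cert.L 64) (Cert.s4 (Cert.s5 Cert.a (Cert.s6 Cert.a (Cert.s1 (Cert.L 64) Cert.b))) Cert.b)) (Cert.s3 (Cert.s5 Cert.a (Cert.s6 Cert.a (Cert.s1 (Cert.L 64) Cert.b))) (Cert.s4 (Cert.s5 Cert.a (Cert.s6 Cert.a (Cert.s1 (Cert.s2 (Cert.s3 (Cert.L 64) (Cert.s4 (Cert.L 64) Cert.b)) (Cert.s3 (Cert.s4 (Cert.L 64) Cert.b) Cert.a)) Cert.b))) Cert.b)))) (Cert.s6 (Cert.s1 (Cert.s2 (Cert.s3 (Cert.L 64) (Cert.s4 (Cert.L 64) Cert.b)) (Cert.s3 (Cert.L 64) (Cert.s4 (Cert.s5 (Cert.s6 Cert.a (Cert.s1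 (Cert.L 64) (Cert.s2 (Cert.L 64) (Cert.s3 (Cert.L 64) Cert.a)))) (Cert.s6 Cert.a (Cert.s1 (Cert.L 64) (Cert.s2 (Cert.L 64) (Cert.s3 (Cert.L 64) Cert.a))))) Cert.b))) (Cert.s2 (Cert.s3 (Cert.L 64) (Cert.s4 (Cert.s5 (Cert.s6 Cert.a (Cert.s1 (Cert.L 64) Cert.b)) (Cert.s6 Cert.a (Cert.s1 (Cert.L 64) Cert.b))) Cert.b)) (Cert.s3 (Cert.s5 (Cert.s6 Cert.a (Cert.s1 (Cert.L 64) Cert.b)) (Cert.s6 Cert.a (Cert.s1 (Cert.L 64) Cert.b))) (Cert.s4 (Cert.s5 (Cert.s6 Cert.a (Cert.s1 (Cert.s2 (Cert.s3 (Cert.L 64) (Cert.s4 (Cert.L 64) Cert.b)) (Cert.s3 (Cert.s4 (Cert.L 64) Cert.b) Cert.a)) Cert.b)) (Cert.s6 Cert.a (Cert.s1 (Cert.s2 (Cert.s3 (Cert.L 64) (Cert.s4 (Cert.L 64) Cert.b)) (Cert.s3 (Cert.s4 (Cert.L 64) Cert.b) Cert.a)) Cert.b))) Cert.b)))) (Cert.s1 (Cert.s2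 (Cert.s3 (Cert.L 64) (Cert.s4 (Cert.L 64) (Cert.s5 (Cert.s1 (Cert.L 64) (Cert.s2 (Cert.L 64) (Cert.s3 (Cert.L 64) (Cert.s4 (Cert.L 64) (Cert.s5 Cert.b (Cert.s6 Cert.b Cert.d)))))) (Cert.s6 (Cert.s1 (Cert.L 64) (Cert.s2 (Cert.L 64) (Cert.s3 (Cert.L 64) (Cert.s4 (Cert.L 64) (Cert.s5 (Cert.s6 Cert.b Cert.d) (Cert.s6 Cert.b (Cert.s1 (Cert.L 64) Cert.d))))))) (Cert.s1 (Cert.L 64) (Cert.s2 (Cert.L 64) (Cert.s3 (Cert.L 64) (Cert.s4 (Cert.L 64) (Cert.s5 (Cert.s1 Cert.d Cert.d) (Cert.L 88)))))))))) (Cert.s3 (Cert.L 88) (Cert.s4 (Cert.s5 (Cert.s1 (Cert.L 88) (Cert.s2 (Cert.L 88) (Cert.s3 (Cert.L 88) (Cert.s4 (Cert.L 88) (Cert.s5 Cert.c (Cert.s6 Cert.c (Cert.s1 (Cert.L 88) (Cert.s2 (Cert.L 88) (Cert.s3 (Cert.L 88) Cert.c))))))))) (Cert.s6 (Cert.s1 (Cert.L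 88) (Cert.s2 (Cert.L 88) (Cert.s3 (Cert.L 88) (Cert.s4 (Cert.L 88) (Cert.s5 (Cert.s6 (Cert.s1 (Cert.L 88) (Cert.s2 (Cert.L 88) (Cert.s3 (Cert.L 88) Cert.c))) (Cert.s1 (Cert.L 88) (Cert.s2 (Cert.L 88) (Cert.s3 (Cert.L 88) (Cert.s4 (Cert.L 88) (Cert.s5 Cert.c Cert.c)))))) (Cert.s6 (Cert.s1 (Cert.L 88) (Cert.s2 (Cert.L 88) (Cert.s3 (Cert.L 88) (Cert.s4 (Cert.L 88) (Cert.s5 Cert.c Cert.d))))) (Cert.L 164))))))) (Cert.L 164))) (Cert.s5 (Cert.s1 (Cert.s2 (Cert.L 64) (Cert.s3 (Cert.L 64) (Cert.s4 (Cert.s5 Cert.c (Cert.s6 Cert.c Cert.d)) (Cert.s5 Cert.c (Cert.s6 Cert.c Cert.d))))) (Cert.s2 (Cert.s3 (Cert.L 64) (Cert.s4 (Cert.s5 Cert.c (Cert.s6 Cert.d Cert.d)) (Cert.s5 Cert.b (Cert.s6 Cert.b Cert.d)))) (Cert.s3 (Cert.s5 Cert.c (Cert.s6 Cert.d Cert.d))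 (Cert.s4 (Cert.s5 Cert.c (Cert.s6 Cert.c Cert.d)) (Cert.s5 Cert.b (Cert.s6 Cert.b Cert.d)))))) (Cert.s6 (Cert.s1 (Cert.s2 (Cert.s3 (Cert.L 64) (Cert.s4 (Cert.L 64) (Cert.s5 (Cert.L 64) (Cert.s6 (Cert.s1 (Cert.L 64) Cert.b) (Cert.s1 (Cert.L 64) (Cert.s2 (Cert.L 64) (Cert.s3 (Cert.L 64) (Cert.s4 (Cert.L 64) Cert.d)))))))) (Cert.s3 (Cert.L 64) (Cert.s4 (Cert.s5 (Cert.s6 (Cert.s1 Cert.d Cert.d) (Cert.s1 (Cert.L 64) (Cert.s2 (Cert.L 64) (Cert.s3 (Cert.L 64) (Cert.s4 (Cert.L 64) Cert.d))))) (Cert.s6 (Cert.s1 (Cert.L 64) (Cert.s2 (Cert.L 64) (Cert.s3 (Cert.L 64) (Cert.s4 (Cert.L 64) (Cert.s5 Cert.c Cert.d))))) (Cert.s1 (Cert.L 64) (Cert.s2 (Cert.L 64) (Cert.s3 (Cert.L 64) (Cert.s4 (Cert.L 64) (Cert.s5 Cert.d Cert.d))))))) (Cert.s5 (Cert.s6 Cert.d Cert.d)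 (Cert.s6 (Cert.s1 (Cert.s2 (Cert.s3 (Cert.L 64) (Cert.s4 (Cert.L 64) Cert.b)) (Cert.s3 (Cert.L 64) (Cert.s4 (Cert.s5 Cert.c Cert.d) Cert.b))) Cert.b) (Cert.s1 (Cert.s2 (Cert.s3 (Cert.L 64) (Cert.s4 (Cert.L 64) (Cert.s5 Cert.d Cert.d))) (Cert.s3 (Cert.L 64) (Cert.s4 (Cert.s5 Cert.d Cert.d) (Cert.s5 Cert.d Cert.d)))) (Cert.s2 (Cert.s3 (Cert.L 64) (Cert.s4 (Cert.s5 Cert.d Cert.d) Cert.d)) (Cert.s3 (Cert.s5 Cert.d Cert.d) (Cert.s4 (Cert.s5 Cert.d Cert.d) Cert.d))))))))) (Cert.s2 (Cert.s3 (Cert.L 64) (Cert.s4 (Cert.s5 (Cert.s6 Cert.d (Cert.s1 (Cert.L 64) Cert.d)) (Cert.s6 (Cert.s1 (Cert.L 64) (Cert.s2 (Cert.L 64) (Cert.s3 (Cert.L 64) (Cert.s4 (Cert.L 64) Cert.b)))) (Cert.s1 (Cert.L 64) (Cert.s2 (Cert.L 64) (Cert.s3 (Cert.L 64) (Cert.s4 (Cert.L 64)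 (Cert.s5 Cert.d Cert.d))))))) (Cert.s5 (Cert.s6 Cert.b Cert.d) (Cert.s6 Cert.b (Cert.s1 (Cert.s2 (Cert.s3 (Cert.L 64) (Cert.s4 (Cert.L 64) Cert.d)) (Cert.s3 (Cert.L 64) (Cert.s4 (Cert.s5 Cert.d Cert.d) Cert.d))) Cert.d))))) (Cert.s3 (Cert.s5 (Cert.s6 Cert.d (Cert.s1 (Cert.L 64) Cert.d)) (Cert.s6 (Cert.s1 (Cert.L 64) (Cert.s2 (Cert.L 64) (Cert.s3 (Cert.L 64) (Cert.s4 (Cert.L 64) Cert.b)))) (Cert.s1 (Cert.L 64) (Cert.s2 (Cert.L 64) (Cert.s3 (Cert.L 64) (Cert.s4 (Cert.L 64) (Cert.s5 Cert.d Cert.d))))))) (Cert.s4 (Cert.s5 (Cert.s6 Cert.d (Cert.s1 (Cert.s2 (Cert.s3 (Cert.L 64) (Cert.s4 (Cert.L 64) Cert.d)) (Cert.s3 (Cert.s4 (Cert.L 64) Cert.d) (Cert.s4 (Cert.s5 Cert.c Cert.c) Cert.d))) Cert.d)) (Cert.s6 (Cert.s1 (Cert.s2 (Cert.s3 (Cert.L 64) (Cert.s4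 (Cert.L 64) (Cert.s5 Cert.c Cert.d))) (Cert.s3 (Cert.s4 (Cert.L 64) (Cert.s5 Cert.c Cert.d)) (Cert.s4 (Cert.s5 Cert.c Cert.d) (Cert.s5 Cert.c Cert.d)))) (Cert.s2 (Cert.s3 (Cert.s4 (Cert.L 64) Cert.b) (Cert.s4 (Cert.s5 Cert.c Cert.d) Cert.b)) (Cert.s3 (Cert.s4 (Cert.s5 Cert.c Cert.d) Cert.b) (Cert.s4 (Cert.s5 Cert.c Cert.d) Cert.b)))) (Cert.s1 (Cert.s2 (Cert.s3 (Cert.L 64) (Cert.s4 (Cert.L 64) (Cert.s5 Cert.d Cert.d))) (Cert.s3 (Cert.s4 (Cert.L 64) (Cert.s5 Cert.d Cert.d)) (Cert.s4 (Cert.s5 Cert.d (Cert.L 164)) (Cert.s5 Cert.d Cert.d)))) (Cert.s2 (Cert.s3 (Cert.s4 (Cert.L 164) (Cert.s5 Cert.d Cert.d)) (Cert.s4 (Cert.s5 Cert.d Cert.d) (Cert.s5 Cert.d Cert.d))) (Cert.s3 (Cert.s4 (Cert.L 168) (Cert.s5 Cert.d Cert.d)) (Cert.s4 (Cert.s5 Cert.d Cert.d)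 (Cert.s5 Cert.d Cert.d))))))) (Cert.s5 (Cert.s6 Cert.b Cert.d) (Cert.s6 Cert.b (Cert.s1 (Cert.s2 (Cert.s3 (Cert.s5 Cert.d Cert.d) (Cert.s4 (Cert.s5 Cert.d Cert.d) Cert.d)) (Cert.s3 (Cert.s5 Cert.d Cert.d) (Cert.s4 (Cert.s5 Cert.d Cert.d) Cert.d))) Cert.d))))))) (Cert.s1 (Cert.s2 (Cert.L 80) (Cert.s3 (Cert.L 80) (Cert.s4 (Cert.s5 (Cert.s1 (Cert.L 80) (Cert.s2 (Cert.L 80) (Cert.s3 (Cert.L 80) (Cert.s4 (Cert.L 80) (Cert.s5 Cert.c Cert.d))))) (Cert.L 128)) (Cert.s5 (Cert.s1 (Cert.s2 (Cert.L 72) (Cert.s3 (Cert.L 72) (Cert.s4 (Cert.s5 Cert.c Cert.d) (Cert.s5 Cert.c Cert.d)))) (Cert.s2 (Cert.s3 (Cert.L 72) (Cert.s4 (Cert.s5 Cert.c Cert.d) Cert.d)) (Cert.s3 (Cert.s5 Cert.c Cert.d) (Cert.s4 (Cert.s5 Cert.c Cert.d) Cert.d)))) (Cert.s6 (Cert.s1 (Cert.s2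 (Cert.L 76) (Cert.s3 (Cert.L 76) (Cert.s4 (Cert.L 132) (Cert.s5 Cert.d Cert.d)))) (Cert.L 184)) (Cert.L 184)))))) (Cert.s2 (Cert.s3 (Cert.L 64) (Cert.s4 (Cert.s5 (Cert.s1 (Cert.L 64) (Cert.s2 (Cert.L 64) (Cert.s3 (Cert.L 64) (Cert.s4 (Cert.L 64) (Cert.s5 Cert.c Cert.d))))) (Cert.L 108)) (Cert.s5 (Cert.s1 Cert.d Cert.d) (Cert.L 172)))) (Cert.s3 (Cert.s5 (Cert.s1 (Cert.L 64) (Cert.s2 (Cert.L 64) (Cert.s3 (Cert.L 64) (Cert.s4 (Cert.L 64) (Cert.s5 Cert.c Cert.d))))) (Cert.L 120)) (Cert.s4 (Cert.s5 (Cert.s1 (Cert.s2 (Cert.s3 (Cert.L 120) (Cert.s4 (Cert.L 120) (Cert.s5 Cert.c Cert.d))) (Cert.s3 (Cert.s4 (Cert.L 120) (Cert.s5 Cert.c Cert.d)) (Cert.s4 (Cert.s5 Cert.c (Cert.L 156)) (Cert.s5 Cert.c Cert.d)))) (Cert.s2 (Cert.s3 (Cert.s4 (Cert.L 156) (Cert.s5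 Cert.c Cert.d)) (Cert.s4 (Cert.L 160) (Cert.s5 Cert.c Cert.d))) (Cert.s3 (Cert.s4 (Cert.L 164) (Cert.s5 Cert.c Cert.d)) (Cert.s4 (Cert.s5 Cert.c Cert.d) (Cert.s5 Cert.c Cert.d))))) (Cert.L 172)) (Cert.s5 (Cert.s1 Cert.d Cert.d) (Cert.L 184))))))))))) (Cert.s2 (Cert.s3 (Cert.L 64) (Cert.s4 (Cert.s5 (Cert.s1 (Cert.L 64) (Cert.s2 (Cert.L 64) (Cert.s3 (Cert.L 64) (Cert.s4 (Cert.L 64) (Cert.s5 Cert.d (Cert.s6 Cert.d Cert.d)))))) (Cert.s6 (Cert.s1 (Cert.L 64) (Cert.s2 (Cert.L 64) (Cert.s3 (Cert.L 64) (Cert.s4 (Cert.L 64) (Cert.s5 (Cert.s6 Cert.d (Cert.L 120)) (Cert.L 124)))))) (Cert.L 124))) (Cert.s5 (Cert.s1 (Cert.s2 (Cert.s3 (Cert.L 124) (Cert.s4 (Cert.L 124) (Cert.s5 Cert.b Cert.d))) (Cert.s3 (Cert.L 124) (Cert.s4 (Cert.s5 Cert.d (Cert.s6 Cert.d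 Cert.d)) (Cert.s5 Cert.b Cert.d)))) (Cert.s2 (Cert.s3 (Cert.L 124) (Cert.s4 (Cert.s5 Cert.b (Cert.s6 Cert.b Cert.d)) (Cert.s5 Cert.b Cert.d))) (Cert.s3 (Cert.s5 Cert.b (Cert.s6 Cert.b Cert.d)) (Cert.s4 (Cert.s5 Cert.b (Cert.s6 Cert.b Cert.d)) (Cert.s5 Cert.b Cert.d))))) (Cert.s6 (Cert.s1 (Cert.s2 (Cert.s3 (Cert.L 124) (Cert.s4 (Cert.L 124) (Cert.s5 (Cert.s6 Cert.b Cert.d) (Cert.s6 Cert.b Cert.d)))) (Cert.s3 (Cert.L 124) (Cert.s4 (Cert.s5 (Cert.s6 Cert.d Cert.d) (Cert.s6 (Cert.s1 (Cert.L 124) Cert.b) (Cert.L 124))) (Cert.s5 (Cert.s6 Cert.b Cert.d) (Cert.s6 Cert.b Cert.d))))) (Cert.s2 (Cert.s3 (Cert.L 124) (Cert.s4 (Cert.s5 (Cert.s6 Cert.b Cert.d) (Cert.L 124)) (Cert.s5 (Cert.s6 Cert.b Cert.d) (Cert.s6 Cert.b Cert.d)))) (Cert.s3 (Cert.s5 (Cert.s6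 Cert.b Cert.d) (Cert.L 124)) (Cert.s4 (Cert.s5 (Cert.s6 Cert.b Cert.d) (Cert.s6 Cert.b (Cert.L 156))) (Cert.s5 (Cert.s6 Cert.b Cert.d) (Cert.s6 Cert.b Cert.d)))))) (Cert.s1 (Cert.s2 (Cert.L 156) (Cert.s3 (Cert.L 156) (Cert.s4 (Cert.L 156) (Cert.s5 Cert.d (Cert.L 160))))) (Cert.L 176)))))) (Cert.s3 (Cert.s5 (Cert.s1 (Cert.L 64) (Cert.s2 (Cert.L 64) (Cert.s3 (Cert.L 64) (Cert.s4 (Cert.L 64) (Cert.s5 Cert.d (Cert.s6 Cert.d Cert.d)))))) (Cert.L 152)) (Cert.s4 (Cert.s5 (Cert.s1 (Cert.s2 (Cert.s3 (Cert.L 64) (Cert.s4 (Cert.L 64) (Cert.s5 Cert.c (Cert.s6 Cert.d (Cert.s1 Cert.d Cert.d))))) (Cert.s3 (Cert.s4 (Cert.L 64) (Cert.s5 Cert.c (Cert.s6 Cert.d (Cert.s1 Cert.d Cert.d)))) (Cert.s4 (Cert.s5 Cert.c (Cert.s6 Cert.c (Cert.s1 (Cert.L 64) (Cert.s2 (Cert.L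 64) (Cert.s3 (Cert.L 64) Cert.c))))) (Cert.s5 Cert.c (Cert.s6 Cert.c (Cert.s1 Cert.d Cert.d)))))) (Cert.s2 (Cert.s3 (Cert.s4 (Cert.L 64) (Cert.s5 Cert.d (Cert.s6 Cert.d Cert.d))) (Cert.s4 (Cert.s5 Cert.c (Cert.s6 Cert.d (Cert.L 152))) (Cert.s5 Cert.c (Cert.s6 Cert.d Cert.d)))) (Cert.s3 (Cert.s4 (Cert.s5 Cert.c (Cert.s6 Cert.d (Cert.L 156))) (Cert.s5 Cert.c (Cert.s6 Cert.d Cert.d))) (Cert.s4 (Cert.s5 Cert.c (Cert.s6 Cert.c (Cert.s1 (Cert.s2 (Cert.s3 (Cert.L 156) (Cert.s4 (Cert.L 156) Cert.d)) (Cert.s3 (Cert.s4 (Cert.L 156) Cert.d) Cert.c)) (Cert.s2 (Cert.s3 (Cert.L 156) (Cert.s4 (Cert.L 156) Cert.d)) (Cert.s3 (Cert.s4 (Cert.L 156) Cert.d) Cert.c))))) (Cert.s5 Cert.c (Cert.s6 Cert.c Cert.d)))))) (Cert.s6 (Cert.s1 (Cert.s2 (Cert.s3 (Cert.L 156)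 (Cert.s4 (Cert.L 156) (Cert.s5 (Cert.s6 (Cert.s1 (Cert.L 64) Cert.d) (Cert.s1 (Cert.L 64) (Cert.s2 (Cert.L 64) (Cert.s3 (Cert.L 64) (Cert.s4 (Cert.L 64) (Cert.s5 Cert.d Cert.d)))))) (Cert.s6 (Cert.s1 (Cert.L 64) (Cert.s2 (Cert.L 64) (Cert.s3 (Cert.L 64) (Cert.s4 (Cert.L 64) (Cert.s5 Cert.d Cert.d))))) (Cert.L 128))))) (Cert.s3 (Cert.s4 (Cert.L 128) (Cert.s5 (Cert.s6 (Cert.s1 (Cert.L 64) Cert.d) (Cert.s1 (Cert.L 64) (Cert.s2 (Cert.L 64) (Cert.s3 (Cert.L 64) (Cert.s4 (Cert.L 64) (Cert.s5 Cert.c Cert.d)))))) (Cert.s6 (Cert.s1 (Cert.L 64) (Cert.s2 (Cert.L 64) (Cert.s3 (Cert.L 64) (Cert.s4 (Cert.L 64) (Cert.s5 Cert.d Cert.d))))) (Cert.L 136)))) (Cert.s4 (Cert.s5 (Cert.s6 (Cert.s1 (Cert.L 64) (Cert.s2 (Cert.L 64) (Cert.s3 (Cert.L 64) Cert.c))) (Cert.s1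 (Cert.L 64) (Cert.L 172))) (Cert.s6 (Cert.s1 (Cert.L 64) (Cert.s2 (Cert.L 64) (Cert.s3 (Cert.L 64) (Cert.s4 (Cert.L 64) (Cert.s5 Cert.c (Cert.L 152)))))) (Cert.L 152))) (Cert.s5 (Cert.s6 (Cert.s1 (Cert.s2 (Cert.s3 (Cert.L 64) (Cert.s4 (Cert.L 64) Cert.d)) (Cert.s3 (Cert.s4 (Cert.L 64) Cert.d) Cert.c)) Cert.d) (Cert.s1 (Cert.s2 (Cert.s3 (Cert.L 64) (Cert.s4 (Cert.L 64) (Cert.s5 Cert.c Cert.d))) (Cert.s3 (Cert.s4 (Cert.L 64) (Cert.s5 Cert.c Cert.d)) (Cert.s4 (Cert.s5 Cert.c Cert.c) (Cert.s5 Cert.c Cert.c)))) (Cert.s2 (Cert.s3 (Cert.s4 (Cert.L 64) (Cert.s5 Cert.c Cert.d)) (Cert.s4 (Cert.s5 Cert.c Cert.d) (Cert.s5 Cert.c Cert.d))) (Cert.s3 (Cert.s4 (Cert.s5 Cert.c Cert.d) (Cert.s5 Cert.c Cert.d)) (Cert.s4 (Cert.s5 Cert.c Cert.c) (Cert.s5 Cert.c Cert.c))))))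 (Cert.s6 (Cert.s1 (Cert.s2 (Cert.s3 (Cert.L 64) (Cert.s4 (Cert.L 64) (Cert.s5 Cert.c Cert.d))) (Cert.s3 (Cert.s4 (Cert.L 64) (Cert.s5 Cert.c Cert.d)) (Cert.s4 (Cert.s5 Cert.c (Cert.s6 Cert.c Cert.c)) (Cert.s5 Cert.c Cert.d)))) (Cert.s2 (Cert.s3 (Cert.s4 (Cert.L 64) (Cert.s5 Cert.d Cert.d)) (Cert.s4 (Cert.s5 Cert.c Cert.d) (Cert.s5 Cert.c Cert.d))) (Cert.s3 (Cert.s4 (Cert.s5 Cert.c Cert.d) (Cert.s5 Cert.c Cert.d)) (Cert.s4 (Cert.s5 Cert.c Cert.d) (Cert.s5 Cert.c Cert.d))))) (Cert.L 172)))))) (Cert.s2 (Cert.s3 (Cert.L 156) (Cert.s4 (Cert.L 156) (Cert.s5 (Cert.s6 Cert.d (Cert.s1 (Cert.s2 (Cert.L 156) (Cert.s3 (Cert.L 156) (Cert.s4 (Cert.L 156) Cert.d))) (Cert.L 172))) (Cert.s6 (Cert.s1 (Cert.s2 (Cert.L 172) (Cert.s3 (Cert.L 172) (Cert.s4 (Cert.L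 172) (Cert.s5 Cert.d Cert.d)))) (Cert.L 172)) (Cert.L 172))))) (Cert.s3 (Cert.s4 (Cert.L 156) (Cert.s5 (Cert.s6 Cert.d (Cert.L 176)) (Cert.L 180))) (Cert.s4 (Cert.s5 (Cert.s6 (Cert.s1 (Cert.s2 (Cert.s3 (Cert.L 64) (Cert.s4 (Cert.L 64) (Cert.s5 Cert.c Cert.c))) (Cert.s3 (Cert.s4 (Cert.L 64) (Cert.s5 Cert.c Cert.c)) Cert.c)) (Cert.s2 (Cert.s3 (Cert.L 152) (Cert.s4 (Cert.L 156) Cert.d)) (Cert.s3 (Cert.s4 (Cert.L 156) Cert.d) Cert.c))) (Cert.L 172)) (Cert.L 176)) (Cert.s5 (Cert.s6 Cert.d (Cert.L 188)) (Cert.s6 (Cert.s1 (Cert.s2 (Cert.s3 (Cert.L 188) (Cert.L 192)) (Cert.L 192)) (Cert.L 192)) (Cert.L 192))))))) (Cert.L 172))) (Cert.s5 (Cert.s1 (Cert.s2 (Cert.s3 (Cert.s5 Cert.d (Cert.s6 Cert.d Cert.d)) (Cert.s4 (Cert.s5 Cert.c (Cert.s6 Cert.d Cert.d))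 (Cert.s5 Cert.b Cert.d))) (Cert.s3 (Cert.s5 Cert.c (Cert.s6 Cert.d Cert.d)) (Cert.s4 (Cert.s5 Cert.c (Cert.s6 Cert.c Cert.d)) (Cert.s5 Cert.b Cert.d)))) (Cert.s2 (Cert.s3 (Cert.s5 Cert.b (Cert.s6 Cert.b Cert.d)) (Cert.s4 (Cert.s5 Cert.b (Cert.s6 Cert.b Cert.d)) (Cert.s5 Cert.b Cert.d))) (Cert.s3 (Cert.s5 Cert.b (Cert.s6 Cert.b Cert.d)) (Cert.s4 (Cert.s5 Cert.b (Cert.s6 Cert.b Cert.d)) (Cert.s5 Cert.b Cert.d))))) (Cert.s6 (Cert.s1 (Cert.s2 (Cert.s3 (Cert.s5 (Cert.s6 Cert.d Cert.d) (Cert.s6 (Cert.s1 (Cert.L 64) Cert.b) (Cert.L 128))) (Cert.s4 (Cert.s5 (Cert.s6 Cert.d Cert.d) (Cert.s6 (Cert.s1 (Cert.s2 (Cert.s3 (Cert.L 128) (Cert.s4 (Cert.L 128) Cert.b)) (Cert.s3 (Cert.s4 (Cert.L 128) Cert.b) (Cert.s4 (Cert.s5 Cert.d Cert.d) Cert.b))) Cert.b) (Cert.s1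 (Cert.s2 (Cert.L 144) (Cert.s3 (Cert.L 144) (Cert.s4 (Cert.L 144) (Cert.s5 Cert.d Cert.d)))) (Cert.L 176)))) (Cert.s5 (Cert.s6 Cert.b Cert.d) (Cert.s6 Cert.b Cert.d)))) (Cert.s3 (Cert.s5 (Cert.s6 Cert.d Cert.d) (Cert.s6 (Cert.s1 (Cert.s2 (Cert.s3 (Cert.L 176) (Cert.s4 (Cert.L 64) Cert.b)) (Cert.s3 (Cert.L 64) (Cert.s4 (Cert.s5 Cert.d Cert.d) Cert.b))) Cert.b) (Cert.L 176))) (Cert.s4 (Cert.s5 (Cert.s6 Cert.d Cert.d) (Cert.s6 (Cert.s1 (Cert.s2 (Cert.s3 (Cert.s4 (Cert.s5 Cert.d Cert.d) Cert.b) (Cert.s4 (Cert.s5 Cert.c Cert.d) Cert.b)) (Cert.s3 (Cert.s4 (Cert.s5 Cert.c Cert.d) Cert.b) (Cert.s4 (Cert.s5 Cert.c Cert.d) Cert.b))) Cert.b) (Cert.s1 (Cert.s2 (Cert.s3 (Cert.L 184) (Cert.s4 (Cert.L 184) (Cert.s5 Cert.d Cert.d))) (Cert.L 192)) (Cert.L 192))))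 (Cert.s5 (Cert.s6 Cert.b Cert.d) (Cert.s6 Cert.b Cert.d))))) (Cert.s2 (Cert.s3 (Cert.s5 (Cert.s6 Cert.b Cert.d) (Cert.s6 Cert.b (Cert.L 192))) (Cert.s4 (Cert.s5 (Cert.s6 Cert.b Cert.d) (Cert.s6 Cert.b (Cert.L 192))) (Cert.s5 (Cert.s6 Cert.b Cert.d) (Cert.s6 Cert.b Cert.d)))) (Cert.s3 (Cert.s5 (Cert.s6 Cert.b Cert.d) (Cert.s6 Cert.b (Cert.L 192))) (Cert.s4 (Cert.s5 (Cert.s6 Cert.b Cert.d) (Cert.s6 Cert.b (Cert.L 192))) (Cert.s5 (Cert.s6 Cert.b Cert.d) (Cert.L 212)))))) (Cert.s1 (Cert.s2 (Cert.s3 (Cert.L 128) (Cert.s4 (Cert.s5 (Cert.s1 (Cert.s2 (Cert.L 140) (Cert.s3 (Cert.L 140) (Cert.s4 (Cert.L 140) (Cert.s5 Cert.c Cert.d)))) (Cert.L 176)) (Cert.L 176)) (Cert.s5 Cert.d (Cert.L 176)))) (Cert.s3 (Cert.L 176) (Cert.s4 (Cert.s5 (Cert.s1 (Cert.s2 (Cert.s3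 (Cert.L 176) (Cert.s4 (Cert.L 176) (Cert.s5 Cert.c Cert.d))) (Cert.L 188)) (Cert.L 188)) (Cert.L 188)) (Cert.s5 Cert.d (Cert.L 188))))) (Cert.L 188)))))))))) (Cert.s4 (Cert.s5 (Cert.s1 (Cert.s2 (Cert.s4 (Cert.s5 Cert.a (Cert.s6 Cert.a (Cert.s1 (Cert.L 64) (Cert.s2 (Cert.L 64) (Cert.s3 (Cert.L 64) (Cert.s4 (Cert.L 64) Cert.b)))))) Cert.b) (Cert.s3 (Cert.s4 (Cert.s5 Cert.a (Cert.s6 Cert.a (Cert.s1 (Cert.s2 (Cert.s3 (Cert.L 64) Cert.a) Cert.a) (Cert.s2 (Cert.s3 (Cert.s4 (Cert.L 64) Cert.b) Cert.a) Cert.a)))) Cert.b) Cert.a)) (Cert.s2 (Cert.s4 (Cert.s5 Cert.a (Cert.s6 Cert.a (Cert.s1 (Cert.s2 (Cert.L 64) (Cert.s3 (Cert.s4 (Cert.L 64) Cert.b) (Cert.s4 (Cert.s5 Cert.a Cert.d) Cert.b))) Cert.b))) Cert.b) (Cert.s3 (Cert.s4 (Cert.s5 Cert.a (Cert.s6 Cert.a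 (Cert.s1 (Cert.s2 (Cert.s3 (Cert.s4 (Cert.s5 Cert.a Cert.c) Cert.b) Cert.a) Cert.a) Cert.b))) Cert.b) Cert.a))) (Cert.s6 (Cert.s1 (Cert.s2 (Cert.s4 (Cert.s5 (Cert.s6 Cert.a (Cert.s1 (Cert.L 64) (Cert.s2 (Cert.L 64) (Cert.s3 (Cert.L 64) (Cert.s4 (Cert.L 64) Cert.b))))) (Cert.s6 Cert.a (Cert.s1 (Cert.L 64) (Cert.s2 (Cert.L 64) (Cert.s3 (Cert.L 64) (Cert.s4 (Cert.L 64) Cert.b)))))) Cert.b) (Cert.s3 (Cert.s4 (Cert.s5 (Cert.s6 Cert.a (Cert.s1 (Cert.s2 (Cert.s3 (Cert.L 64) Cert.a) Cert.a) (Cert.s2 (Cert.s3 (Cert.s4 (Cert.L 64) Cert.b) Cert.a) Cert.a))) (Cert.s6 Cert.a (Cert.s1 (Cert.s2 (Cert.s3 (Cert.L 64) Cert.a) Cert.a) (Cert.s2 (Cert.s3 (Cert.s4 (Cert.L 64) Cert.b) Cert.a) Cert.a)))) Cert.b) Cert.a)) (Cert.s2 (Cert.s4 (Cert.s5 (Cert.s6 Cert.a (Cert.s1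 (Cert.s2 (Cert.L 64) (Cert.s3 (Cert.s4 (Cert.L 64) Cert.b) (Cert.s4 (Cert.s5 (Cert.s6 Cert.a Cert.c) (Cert.s6 Cert.a Cert.c)) Cert.b))) Cert.b)) (Cert.s6 Cert.a (Cert.s1 (Cert.s2 (Cert.L 64) (Cert.s3 (Cert.s4 (Cert.L 64) Cert.b) (Cert.s4 (Cert.s5 (Cert.s6 Cert.a (Cert.s1 Cert.b Cert.b)) (Cert.s6 Cert.a (Cert.s1 Cert.b Cert.b))) Cert.b))) Cert.b))) Cert.b) (Cert.s3 (Cert.s4 (Cert.s5 (Cert.s6 Cert.a (Cert.s1 (Cert.s2 (Cert.s3 (Cert.s4 (Cert.s5 (Cert.s6 Cert.a Cert.c) (Cert.s6 Cert.a Cert.c)) Cert.b) Cert.a) Cert.a) Cert.b)) (Cert.s6 Cert.a (Cert.s1 (Cert.s2 (Cert.s3 (Cert.s4 (Cert.s5 (Cert.s6 Cert.a (Cert.s1 Cert.b Cert.b)) (Cert.s6 Cert.a (Cert.s1 Cert.b Cert.b))) Cert.b) Cert.a) Cert.a) Cert.b))) Cert.b) Cert.a))) (Cert.s1 t8 (Cert.s2 (Cert.s4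 (Cert.s5 (Cert.s1 (Cert.s2 (Cert.L 64) (Cert.s3 (Cert.s4 (Cert.L 64) (Cert.s5 Cert.d (Cert.s6 Cert.d (Cert.s1 Cert.d Cert.d)))) (Cert.s4 (Cert.s5 Cert.c (Cert.s6 (Cert.s1 (Cert.L 64) Cert.d) (Cert.s1 (Cert.L 64) (Cert.s2 (Cert.L 64) (Cert.s3 (Cert.L 64) (Cert.s4 (Cert.L 64) (Cert.s5 Cert.c Cert.c))))))) (Cert.s5 Cert.c (Cert.s6 Cert.d (Cert.s1 Cert.d Cert.d)))))) (Cert.s2 (Cert.s4 (Cert.L 64) (Cert.s5 Cert.d (Cert.s6 Cert.d Cert.d))) (Cert.s3 (Cert.s4 (Cert.s5 Cert.d (Cert.s6 Cert.d (Cert.s1 (Cert.L 64) (Cert.s2 (Cert.L 64) (Cert.s3 (Cert.L 64) (Cert.s4 (Cert.L 64) Cert.d)))))) (Cert.s5 Cert.d (Cert.s6 Cert.d Cert.d))) (Cert.s4 (Cert.s5 Cert.c (Cert.s6 Cert.d (Cert.s1 (Cert.s2 (Cert.L 64) (Cert.s3 (Cert.s4 (Cert.L 64) Cert.d) (Cert.s4 (Cert.s5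 Cert.c Cert.c) Cert.d))) (Cert.s2 (Cert.s4 (Cert.L 64) Cert.d) (Cert.s3 (Cert.s4 (Cert.s5 Cert.c Cert.c) Cert.d) (Cert.s4 (Cert.s5 Cert.c Cert.c) Cert.d)))))) (Cert.s5 Cert.c (Cert.s6 Cert.d Cert.d)))))) (Cert.s6 (Cert.s1 (Cert.s2 (Cert.L 64) (Cert.s3 (Cert.s4 (Cert.L 64) (Cert.s5 (Cert.s6 (Cert.s1 (Cert.L 64) Cert.d) (Cert.s1 (Cert.L 64) (Cert.s2 (Cert.L 64) (Cert.s3 (Cert.L 64) (Cert.s4 (Cert.L 64) (Cert.s5 Cert.d Cert.d)))))) (Cert.s6 (Cert.s1 (Cert.L 64) (Cert.s2 (Cert.L 64) (Cert.s3 (Cert.L 64) (Cert.s4 (Cert.L 64) (Cert.s5 Cert.d Cert.d))))) (Cert.L 132)))) (Cert.s4 (Cert.s5 (Cert.s6 (Cert.s1 (Cert.L 64) (Cert.s2 (Cert.L 64) (Cert.s3 (Cert.L 64) (Cert.s4 (Cert.L 64) (Cert.s5 Cert.c Cert.c))))) (Cert.s1 (Cert.L 64) (Cert.s2 (Cert.L 64) (Cert.s3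 (Cert.L 64) (Cert.s4 (Cert.L 64) (Cert.s5 Cert.c (Cert.L 156))))))) (Cert.s6 (Cert.s1 (Cert.L 64) (Cert.s2 (Cert.L 64) (Cert.s3 (Cert.L 64) (Cert.s4 (Cert.L 64) (Cert.s5 Cert.d (Cert.L 160)))))) (Cert.L 160))) (Cert.s5 (Cert.s6 (Cert.s1 (Cert.s2 (Cert.L 64) (Cert.s3 (Cert.s4 (Cert.L 64) Cert.d) (Cert.s4 (Cert.s5 Cert.c Cert.c) Cert.d))) Cert.d) (Cert.s1 (Cert.s2 (Cert.L 64) (Cert.s3 (Cert.s4 (Cert.L 64) (Cert.s5 Cert.d Cert.d)) (Cert.s4 (Cert.s5 Cert.c Cert.d) (Cert.s5 Cert.c Cert.d)))) (Cert.s2 (Cert.s4 (Cert.L 64) (Cert.s5 Cert.d Cert.d)) (Cert.s3 (Cert.s4 (Cert.s5 Cert.d Cert.d) (Cert.s5 Cert.d Cert.d)) (Cert.s4 (Cert.s5 Cert.c Cert.d) (Cert.s5 Cert.c Cert.d)))))) (Cert.s6 (Cert.s1 (Cert.s2 (Cert.L 64) (Cert.s3 (Cert.s4 (Cert.L 64) (Cert.s5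 Cert.d Cert.d)) (Cert.s4 (Cert.s5 Cert.d (Cert.s6 Cert.c Cert.c)) (Cert.s5 Cert.d Cert.d)))) (Cert.s2 (Cert.s4 (Cert.L 64) (Cert.s5 Cert.d Cert.d)) (Cert.s3 (Cert.s4 (Cert.s5 Cert.d Cert.d) (Cert.s5 Cert.d Cert.d)) (Cert.s4 (Cert.s5 Cert.d Cert.d) (Cert.s5 Cert.d Cert.d))))) (Cert.s1 (Cert.s2 (Cert.L 64) (Cert.s3 (Cert.L 144) (Cert.s4 (Cert.L 152) (Cert.s5 Cert.d (Cert.L 164))))) (Cert.L 176))))))) (Cert.s2 (Cert.s4 (Cert.L 64) (Cert.s5 (Cert.s6 Cert.d (Cert.L 120)) (Cert.L 124))) (Cert.s3 (Cert.s4 (Cert.s5 (Cert.s6 (Cert.s1 (Cert.L 124) (Cert.s2 (Cert.L 124) (Cert.s3 (Cert.L 124) (Cert.s4 (Cert.L 124) Cert.d)))) (Cert.L 128)) (Cert.L 132)) (Cert.s5 (Cert.s6 Cert.d (Cert.s1 (Cert.s2 (Cert.L 148) (Cert.s3 (Cert.L 148) (Cert.s4 (Cert.L 152) Cert.d)))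 (Cert.L 176))) (Cert.s6 (Cert.s1 (Cert.s2 (Cert.L 152) (Cert.s3 (Cert.L 152) (Cert.s4 (Cert.L 156) (Cert.s5 Cert.d Cert.d)))) (Cert.L 180)) (Cert.L 180)))) (Cert.s4 (Cert.s5 (Cert.s6 (Cert.s1 (Cert.s2 (Cert.L 64) (Cert.s3 (Cert.s4 (Cert.L 64) (Cert.s5 Cert.c Cert.c)) (Cert.s4 (Cert.s5 Cert.c Cert.c) (Cert.s5 Cert.c Cert.c)))) (Cert.s2 (Cert.s4 (Cert.L 64) Cert.d) (Cert.s3 (Cert.s4 (Cert.s5 Cert.c Cert.c) Cert.d) (Cert.s4 (Cert.s5 Cert.c Cert.c) Cert.d)))) (Cert.s1 (Cert.s2 (Cert.L 64) (Cert.s3 (Cert.L 152) (Cert.s4 (Cert.L 152) (Cert.s5 Cert.c Cert.d)))) (Cert.L 172))) (Cert.s6 (Cert.s1 (Cert.s2 (Cert.L 172) (Cert.s3 (Cert.L 172) (Cert.s4 (Cert.L 172) (Cert.s5 Cert.d (Cert.L 172))))) (Cert.L 176)) (Cert.L 176))) (Cert.s5 (Cert.s6 Cert.d (Cert.s1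 (Cert.s2 (Cert.s4 (Cert.L 176) Cert.d) (Cert.s3 (Cert.s4 (Cert.s5 Cert.d Cert.d) Cert.d) (Cert.s4 (Cert.s5 Cert.c Cert.d) Cert.d))) (Cert.L 184))) (Cert.s6 (Cert.s1 (Cert.s2 (Cert.s4 (Cert.L 152) (Cert.s5 Cert.d Cert.d)) (Cert.s3 (Cert.s4 (Cert.s5 Cert.d Cert.d) (Cert.s5 Cert.d Cert.d)) (Cert.s4 (Cert.s5 Cert.d Cert.d) (Cert.s5 Cert.d Cert.d)))) (Cert.L 184)) (Cert.L 184))))))) (Cert.s1 (Cert.s2 (Cert.L 184) (Cert.s3 (Cert.L 184) (Cert.s4 (Cert.L 184) (Cert.s5 (Cert.s1 (Cert.s2 (Cert.L 184) (Cert.s3 (Cert.L 184) (Cert.s4 (Cert.L 184) (Cert.s5 Cert.c (Cert.L 184))))) (Cert.L 184)) (Cert.L 184))))) (Cert.L 184)))) (Cert.s5 (Cert.s1 (Cert.s2 (Cert.s4 (Cert.s5 Cert.d (Cert.s6 Cert.d Cert.d)) (Cert.s5 Cert.b Cert.d)) (Cert.s3 (Cert.s4 (Cert.s5 Cert.d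 (Cert.s6 Cert.d Cert.d)) (Cert.s5 Cert.b Cert.d)) (Cert.s4 (Cert.s5 Cert.c (Cert.s6 Cert.d Cert.d)) (Cert.s5 Cert.b Cert.d)))) (Cert.s2 (Cert.s4 (Cert.s5 Cert.b (Cert.s6 Cert.b Cert.d)) (Cert.s5 Cert.b Cert.d)) (Cert.s3 (Cert.s4 (Cert.s5 Cert.b (Cert.s6 Cert.b Cert.d)) (Cert.s5 Cert.b Cert.d)) (Cert.s4 (Cert.s5 Cert.b (Cert.s6 Cert.b Cert.d)) (Cert.s5 Cert.b Cert.d))))) (Cert.s6 (Cert.s1 (Cert.s2 (Cert.s4 (Cert.s5 (Cert.s6 Cert.d Cert.d) (Cert.s6 (Cert.s1 (Cert.L 64) Cert.b) (Cert.L 128))) (Cert.s5 (Cert.s6 Cert.b Cert.d) (Cert.s6 Cert.b Cert.d))) (Cert.s3 (Cert.s4 (Cert.s5 (Cert.s6 Cert.d Cert.d) (Cert.s6 (Cert.s1 (Cert.s2 (Cert.s3 (Cert.L 128) (Cert.s4 (Cert.L 128) Cert.b)) (Cert.s3 (Cert.s4 (Cert.L 128) Cert.b) (Cert.s4 (Cert.s5 Cert.d Cert.d)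 Cert.b))) Cert.b) (Cert.s1 (Cert.s2 (Cert.L 152) (Cert.s3 (Cert.L 152) (Cert.s4 (Cert.L 152) (Cert.s5 Cert.d Cert.d)))) (Cert.L 184)))) (Cert.s5 (Cert.s6 Cert.b Cert.d) (Cert.s6 Cert.b Cert.d))) (Cert.s4 (Cert.s5 (Cert.s6 Cert.d Cert.d) (Cert.s6 (Cert.s1 (Cert.s2 (Cert.s4 (Cert.s5 Cert.d Cert.d) Cert.b) (Cert.s3 (Cert.s4 (Cert.s5 Cert.d Cert.d) Cert.b) (Cert.s4 (Cert.s5 Cert.d Cert.d) Cert.b))) Cert.b) (Cert.s1 (Cert.s2 (Cert.s4 (Cert.L 140) (Cert.s5 Cert.d Cert.d)) (Cert.s3 (Cert.s4 (Cert.s5 Cert.d Cert.d) (Cert.s5 Cert.d Cert.d)) (Cert.s4 (Cert.s5 Cert.d Cert.d) (Cert.s5 Cert.d Cert.d)))) (Cert.L 188)))) (Cert.s5 (Cert.s6 Cert.b Cert.d) (Cert.s6 Cert.b Cert.d))))) (Cert.s2 (Cert.s4 (Cert.s5 (Cert.s6 Cert.b Cert.d) (Cert.s6 Cert.b (Cert.L 188)))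 (Cert.s5 (Cert.s6 Cert.b Cert.d) (Cert.s6 Cert.b Cert.d))) (Cert.s3 (Cert.s4 (Cert.s5 (Cert.s6 Cert.b Cert.d) (Cert.s6 Cert.b (Cert.L 188))) (Cert.s5 (Cert.s6 Cert.b Cert.d) (Cert.s6 Cert.b Cert.d))) (Cert.s4 (Cert.s5 (Cert.s6 Cert.b Cert.d) (Cert.s6 Cert.b (Cert.L 188))) (Cert.s5 (Cert.s6 Cert.b Cert.d) (Cert.s6 Cert.b Cert.d)))))) (Cert.s1 (Cert.s2 (Cert.s4 (Cert.L 124) (Cert.s5 Cert.d (Cert.L 164))) (Cert.s3 (Cert.s4 (Cert.s5 (Cert.s1 (Cert.s2 (Cert.L 164) (Cert.s3 (Cert.L 164) (Cert.s4 (Cert.L 164) (Cert.s5 Cert.c Cert.d)))) (Cert.L 184)) (Cert.L 184)) (Cert.s5 Cert.d (Cert.L 184))) (Cert.s4 (Cert.s5 (Cert.s1 (Cert.s2 (Cert.s4 (Cert.L 184) (Cert.s5 Cert.d Cert.d)) (Cert.s3 (Cert.s4 (Cert.s5 Cert.c Cert.d) (Cert.s5 Cert.c Cert.d)) (Cert.s4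 (Cert.s5 Cert.c Cert.d) (Cert.s5 Cert.c Cert.d)))) (Cert.L 188)) (Cert.L 188)) (Cert.s5 Cert.d (Cert.L 188))))) (Cert.L 188))))) t9)))) (Cert.s5 Cert.b (Cert.s6 Cert.b (Cert.s1 (Cert.s2 (Cert.s5 (Cert.s1 (Cert.s2 (Cert.L 64) (Cert.s3 (Cert.s5 Cert.b Cert.d) (Cert.s4 (Cert.s5 Cert.b Cert.d) (Cert.s5 Cert.b Cert.d)))) (Cert.s2 (Cert.s5 Cert.b Cert.d) (Cert.s3 (Cert.s5 Cert.b Cert.d) (Cert.s4 (Cert.s5 Cert.b Cert.d) (Cert.s5 Cert.b Cert.d))))) (Cert.s6 (Cert.s1 (Cert.s2 (Cert.L 64) (Cert.s3 (Cert.s5 (Cert.s6 Cert.b Cert.d) (Cert.s6 Cert.b Cert.d)) (Cert.s4 (Cert.s5 (Cert.s6 Cert.b Cert.d) (Cert.s6 Cert.b Cert.d)) (Cert.s5 Cert.d (Cert.s6 Cert.b Cert.d))))) (Cert.s2 (Cert.s5 (Cert.s6 Cert.b Cert.d) (Cert.s6 Cert.b Cert.d)) (Cert.s3 (Cert.s5 (Cert.s6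 Cert.b Cert.d) (Cert.s6 Cert.b Cert.d)) (Cert.s4 (Cert.s5 (Cert.s6 Cert.b Cert.d) (Cert.s6 Cert.b Cert.d)) (Cert.s5 Cert.d (Cert.s6 Cert.b Cert.d)))))) (Cert.s1 (Cert.s2 (Cert.L 72) (Cert.s3 (Cert.s5 Cert.d (Cert.s6 (Cert.s1 (Cert.s2 (Cert.L 72) (Cert.s3 (Cert.L 72) (Cert.s4 (Cert.L 72) Cert.d))) (Cert.s2 (Cert.s3 (Cert.L 72) (Cert.s4 (Cert.L 72) Cert.d)) (Cert.s3 (Cert.L 72) (Cert.s4 (Cert.s5 Cert.d Cert.d) Cert.d)))) (Cert.L 172))) (Cert.s4 (Cert.s5 Cert.d (Cert.s6 (Cert.s1 (Cert.s2 (Cert.s4 (Cert.L 64) Cert.d) (Cert.s3 (Cert.s4 (Cert.s5 Cert.d Cert.d) Cert.d) (Cert.s4 (Cert.s5 Cert.d Cert.d) Cert.d))) (Cert.s2 (Cert.s4 (Cert.s5 Cert.d Cert.d) Cert.d) (Cert.s3 (Cert.s4 (Cert.s5 Cert.d Cert.d) Cert.d) (Cert.s4 (Cert.s5 Cert.d Cert.d) Cert.d))))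 (Cert.L 180))) (Cert.s5 Cert.d (Cert.s6 Cert.d (Cert.L 188)))))) (Cert.s2 (Cert.s5 Cert.d (Cert.s6 (Cert.s1 Cert.d Cert.d) (Cert.L 188))) (Cert.s3 (Cert.s5 Cert.d (Cert.s6 (Cert.s1 Cert.d Cert.d) (Cert.L 188))) (Cert.s4 (Cert.s5 Cert.d (Cert.s6 (Cert.s1 Cert.d Cert.d) (Cert.L 188))) (Cert.s5 Cert.d (Cert.s6 Cert.d Cert.d)))))))) (Cert.s3 (Cert.s5 (Cert.s1 (Cert.s2 (Cert.s3 (Cert.s5 Cert.b Cert.d) (Cert.s4 (Cert.s5 Cert.b Cert.d) (Cert.s5 Cert.b Cert.d))) (Cert.s3 (Cert.s5 Cert.b Cert.d) (Cert.s4 (Cert.s5 Cert.b Cert.d) (Cert.s5 Cert.b Cert.d)))) (Cert.s2 (Cert.s3 (Cert.s5 Cert.b Cert.d) (Cert.s4 (Cert.s5 Cert.b Cert.d) (Cert.s5 Cert.b Cert.d))) (Cert.s3 (Cert.s5 Cert.b Cert.d) (Cert.s4 (Cert.s5 Cert.b Cert.d) (Cert.s5 Cert.b Cert.d))))) (Cert.s6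 (Cert.s1 (Cert.s2 (Cert.s3 (Cert.s5 (Cert.s6 Cert.b Cert.d) (Cert.s6 Cert.b Cert.d)) (Cert.s4 (Cert.s5 (Cert.s6 Cert.b Cert.d) (Cert.s6 Cert.b Cert.d)) (Cert.s5 Cert.d (Cert.s6 Cert.b Cert.d)))) (Cert.s3 (Cert.s5 (Cert.s6 Cert.b Cert.d) (Cert.s6 Cert.b Cert.d)) (Cert.s4 (Cert.s5 (Cert.s6 Cert.b Cert.d) (Cert.s6 Cert.b Cert.d)) (Cert.s5 Cert.d (Cert.s6 Cert.b Cert.d))))) (Cert.s2 (Cert.s3 (Cert.s5 (Cert.s6 Cert.b Cert.d) (Cert.s6 Cert.b Cert.d)) (Cert.s4 (Cert.s5 (Cert.s6 Cert.b Cert.d) (Cert.s6 Cert.b Cert.d)) (Cert.s5 Cert.d (Cert.s6 Cert.b Cert.d)))) (Cert.s3 (Cert.s5 (Cert.s6 Cert.b Cert.d) (Cert.s6 Cert.b Cert.d)) (Cert.s4 (Cert.s5 (Cert.s6 Cert.b Cert.d) (Cert.s6 Cert.b Cert.d)) (Cert.s5 Cert.d (Cert.L 228)))))) (Cert.s1 (Cert.s2 (Cert.s3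 (Cert.s5 Cert.d (Cert.s6 (Cert.s1 (Cert.s2 (Cert.s3 (Cert.L 64) (Cert.s4 (Cert.s5 Cert.d Cert.d) Cert.d)) (Cert.s3 (Cert.s5 Cert.d Cert.d) (Cert.s4 (Cert.s5 Cert.d Cert.d) Cert.d))) (Cert.s2 (Cert.s3 (Cert.s5 Cert.d Cert.d) (Cert.s4 (Cert.s5 Cert.d Cert.d) Cert.d)) (Cert.s3 (Cert.s5 Cert.d Cert.d) (Cert.s4 (Cert.s5 Cert.d Cert.d) Cert.d)))) (Cert.L 180))) (Cert.s4 (Cert.s5 Cert.d (Cert.s6 (Cert.s1 (Cert.s2 (Cert.s3 (Cert.s4 (Cert.s5 Cert.d Cert.d) Cert.d) (Cert.s4 (Cert.s5 Cert.d Cert.d) Cert.d)) (Cert.s3 (Cert.s4 (Cert.s5 Cert.d Cert.d) Cert.d) (Cert.s4 (Cert.s5 Cert.d Cert.d) Cert.d))) (Cert.s2 (Cert.s3 (Cert.s4 (Cert.s5 Cert.d Cert.d) Cert.d) (Cert.s4 (Cert.s5 Cert.d Cert.d) Cert.d)) (Cert.s3 (Cert.s4 (Cert.s5 Cert.d Cert.d) Cert.d) (Cert.L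 204)))) (Cert.L 184))) (Cert.s5 Cert.d (Cert.s6 Cert.d (Cert.L 188))))) (Cert.s3 (Cert.s5 Cert.d (Cert.s6 (Cert.s1 (Cert.s2 (Cert.s3 (Cert.s5 Cert.d Cert.d) (Cert.s4 (Cert.s5 Cert.d Cert.d) Cert.d)) (Cert.s3 (Cert.s5 Cert.d Cert.d) (Cert.s4 (Cert.s5 Cert.d Cert.d) Cert.d))) (Cert.s2 (Cert.s3 (Cert.s5 Cert.d Cert.d) (Cert.s4 (Cert.s5 Cert.d Cert.d) Cert.d)) (Cert.L 196))) (Cert.L 196))) (Cert.s4 (Cert.s5 Cert.d (Cert.s6 (Cert.s1 (Cert.s2 (Cert.s3 (Cert.s4 (Cert.s5 Cert.d Cert.d) Cert.d) (Cert.L 220)) (Cert.L 220)) (Cert.L 220)) (Cert.L 220))) (Cert.s5 Cert.d (Cert.L 220))))) (Cert.s2 (Cert.s3 (Cert.s5 Cert.d (Cert.s6 (Cert.s1 Cert.d Cert.d) (Cert.L 220))) (Cert.s4 (Cert.s5 Cert.d (Cert.s6 (Cert.s1 Cert.d Cert.d) (Cert.L 220))) (Cert.L 236))) (Cert.s3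 (Cert.s5 Cert.d (Cert.L 236)) (Cert.L 236)))))) (Cert.s4 (Cert.s5 (Cert.s1 (Cert.s2 (Cert.s4 (Cert.s5 Cert.b Cert.d) (Cert.s5 Cert.b Cert.d)) (Cert.s3 (Cert.s4 (Cert.s5 Cert.b Cert.d) (Cert.s5 Cert.b Cert.d)) (Cert.s4 (Cert.s5 Cert.b Cert.d) (Cert.s5 Cert.b Cert.d)))) (Cert.s2 (Cert.s4 (Cert.s5 Cert.b Cert.d) (Cert.s5 Cert.b Cert.d)) (Cert.s3 (Cert.s4 (Cert.s5 Cert.b Cert.d) (Cert.s5 Cert.b Cert.d)) (Cert.s4 (Cert.s5 Cert.b Cert.d) (Cert.L 240))))) (Cert.s6 (Cert.s1 (Cert.s2 (Cert.s4 (Cert.s5 (Cert.s6 Cert.b Cert.d) (Cert.s6 Cert.b Cert.d)) (Cert.s5 Cert.d (Cert.s6 Cert.b Cert.d))) (Cert.s3 (Cert.s4 (Cert.s5 (Cert.s6 Cert.b Cert.d) (Cert.s6 Cert.b Cert.d)) (Cert.s5 Cert.d (Cert.L 244))) (Cert.s4 (Cert.s5 (Cert.s6 Cert.b Cert.c) (Cert.L 244))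 (Cert.L 244)))) (Cert.s2 (Cert.s4 (Cert.s5 (Cert.s6 Cert.b Cert.d) (Cert.s6 Cert.b Cert.d)) (Cert.s5 Cert.d (Cert.L 244))) (Cert.L 252))) (Cert.s1 (Cert.s2 (Cert.s4 (Cert.s5 Cert.d (Cert.s6 (Cert.s1 (Cert.s2 (Cert.s4 (Cert.s5 Cert.d Cert.d) Cert.d) (Cert.L 252)) (Cert.L 252)) (Cert.L 252))) (Cert.s5 Cert.d (Cert.L 252))) (Cert.L 252)) (Cert.L 252)))) (Cert.s5 Cert.b (Cert.s6 Cert.b (Cert.L 252)))))) (Cert.s2 (Cert.s5 (Cert.s1 (Cert.s2 (Cert.s5 Cert.b Cert.d) (Cert.s3 (Cert.s5 Cert.b Cert.d) (Cert.s4 (Cert.s5 Cert.b Cert.d) Cert.b))) Cert.b) (Cert.s6 (Cert.s1 (Cert.s2 (Cert.s5 Cert.d (Cert.s6 Cert.b Cert.d)) (Cert.s3 (Cert.s5 Cert.d (Cert.s6 Cert.b Cert.d)) (Cert.s4 (Cert.s5 Cert.d (Cert.s6 Cert.b Cert.d)) Cert.b))) Cert.b) (Cert.s1 (Cert.s2 (Cert.s5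 Cert.d (Cert.L 180)) (Cert.s3 (Cert.s5 Cert.d (Cert.L 184)) (Cert.s4 (Cert.s5 Cert.d (Cert.L 188)) (Cert.L 208)))) (Cert.L 208)))) (Cert.s3 (Cert.s5 (Cert.s1 (Cert.s2 (Cert.s3 (Cert.s5 Cert.b Cert.d) (Cert.s4 (Cert.s5 Cert.b Cert.d) Cert.b)) (Cert.s3 (Cert.s5 Cert.b Cert.d) (Cert.s4 (Cert.s5 Cert.b Cert.d) Cert.b))) Cert.b) (Cert.s6 (Cert.s1 (Cert.s2 (Cert.s3 (Cert.s5 Cert.d (Cert.s6 Cert.b Cert.d)) (Cert.s4 (Cert.s5 Cert.d (Cert.L 248)) Cert.b)) (Cert.s3 (Cert.s5 Cert.d (Cert.L 248)) (Cert.L 248))) Cert.b) (Cert.s1 (Cert.s2 (Cert.s3 (Cert.s5 Cert.d (Cert.L 248)) (Cert.L 248)) (Cert.L 248)) (Cert.L 248)))) (Cert.s4 (Cert.s5 (Cert.s1 (Cert.s2 (Cert.s4 (Cert.s5 Cert.b Cert.d) Cert.b) (Cert.L 252)) Cert.b) (Cert.L 252)) (Cert.L 252))))))))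

def t11 : Cert := Cert.s1 (Cert.s3 (Cert.s5 (Cert.s1 (Cert.L 64) (Cert.s2 (Cert.L 64) (Cert.s3 (Cert.L 64) (Cert.s4 (Cert.L 64) (Cert.s5 Cert.c (Cert.s6 Cert.c (Cert.s1 (Cert.L 64) (Cert.s2 (Cert.L 64) Cert.c)))))))) (Cert.s6 (Cert.s1 (Cert.L 64) (Cert.s2 (Cert.L 64) (Cert.s3 (Cert.L 64) (Cert.s4 (Cert.L 64) (Cert.s5 (Cert.s6 (Cert.s1 (Cert.L 64) (Cert.s2 (Cert.L 64) (Cert.s3 (Cert.L 64) Cert.c))) (Cert.L 156)) (Cert.L 156)))))) (Cert.L 156))) (Cert.s4 (Cert.s5 (Cert.s1 (Cert.s3 (Cert.L 64) (Cert.s4 (Cert.L 64) (Cert.s5 Cert.c (Cert.s6 Cert.c Cert.c)))) (Cert.s2 (Cert.s3 (Cert.s4 (Cert.L 64) (Cert.s5 Cert.c (Cert.s6 Cert.c (Cert.s1 (Cert.L 64) (Cert.s2 (Cert.L 64) (Cert.s3 Cert.c Cert.c)))))) (Cert.s4 (Cert.s5 Cert.c (Cert.s6 Cert.c Cert.c))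 (Cert.s5 Cert.c (Cert.s6 Cert.c Cert.c)))) (Cert.s3 (Cert.s4 (Cert.s5 Cert.c (Cert.s6 Cert.c Cert.c)) (Cert.s5 Cert.c (Cert.s6 Cert.c Cert.c))) (Cert.s4 (Cert.s5 Cert.c (Cert.s6 Cert.c Cert.c)) (Cert.s5 Cert.c (Cert.s6 Cert.c Cert.c)))))) (Cert.s6 (Cert.s1 (Cert.s3 (Cert.L 64) (Cert.s4 (Cert.L 64) (Cert.s5 (Cert.s6 (Cert.s1 (Cert.L 64) (Cert.s2 (Cert.L 64) Cert.c)) (Cert.s1 (Cert.L 64) (Cert.s2 (Cert.L 64) (Cert.s3 (Cert.L 64) Cert.c)))) (Cert.s6 (Cert.s1 (Cert.L 64) (Cert.s2 (Cert.L 64) (Cert.s3 (Cert.L 64) (Cert.s4 (Cert.L 64) (Cert.s5 Cert.c Cert.c))))) (Cert.L 172))))) (Cert.s2 (Cert.s3 (Cert.s4 (Cert.L 64) (Cert.s5 (Cert.s6 (Cert.s1 (Cert.L 64) (Cert.s2 (Cert.L 64) (Cert.s3 (Cert.L 64) Cert.c))) (Cert.s1 (Cert.L 64) (Cert.s2 (Cert.L 64)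 (Cert.s3 (Cert.L 64) (Cert.s4 (Cert.L 64) (Cert.s5 Cert.c Cert.c)))))) (Cert.s6 (Cert.s1 (Cert.L 64) (Cert.s2 (Cert.L 64) (Cert.s3 (Cert.L 64) (Cert.s4 (Cert.L 64) (Cert.s5 Cert.c Cert.c))))) (Cert.L 140)))) (Cert.s4 (Cert.s5 (Cert.s6 (Cert.s1 (Cert.L 64) (Cert.s2 (Cert.L 64) Cert.c)) (Cert.s1 (Cert.L 64) (Cert.s2 (Cert.L 64) (Cert.s3 (Cert.L 64) Cert.c)))) (Cert.s6 (Cert.s1 (Cert.L 64) (Cert.s2 (Cert.L 64) (Cert.s3 (Cert.L 64) (Cert.s4 (Cert.L 64) (Cert.s5 Cert.c Cert.c))))) (Cert.L 144))) (Cert.s5 (Cert.s6 (Cert.s1 (Cert.s2 (Cert.s3 Cert.c Cert.c) Cert.c) (Cert.s2 (Cert.s3 Cert.c Cert.c) Cert.c)) (Cert.s1 (Cert.s2 (Cert.s3 (Cert.L 64) (Cert.s4 (Cert.L 64) (Cert.s5 Cert.c Cert.c))) (Cert.s3 (Cert.s4 (Cert.L 64) (Cert.s5 Cert.c Cert.c)) Cert.c))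 (Cert.s2 (Cert.s3 (Cert.s4 (Cert.L 64) (Cert.s5 Cert.c Cert.c)) (Cert.s4 (Cert.s5 Cert.c Cert.c) (Cert.s5 Cert.c Cert.c))) (Cert.s3 (Cert.s4 (Cert.s5 Cert.c Cert.c) (Cert.s5 Cert.c Cert.c)) Cert.c)))) (Cert.s6 (Cert.s1 (Cert.s2 (Cert.s3 (Cert.L 64) (Cert.s4 (Cert.L 64) (Cert.s5 Cert.c Cert.c))) (Cert.s3 (Cert.s4 (Cert.L 64) (Cert.s5 Cert.c Cert.c)) (Cert.s4 (Cert.s5 Cert.c Cert.c) (Cert.s5 Cert.c Cert.c)))) (Cert.s2 (Cert.s3 (Cert.s4 (Cert.L 64) (Cert.s5 Cert.c Cert.c)) (Cert.s4 (Cert.s5 Cert.c Cert.c) (Cert.s5 Cert.c Cert.c))) (Cert.s3 (Cert.s4 (Cert.s5 Cert.c Cert.c) (Cert.s5 Cert.c Cert.c)) (Cert.s4 (Cert.s5 Cert.c Cert.c) (Cert.s5 Cert.c Cert.c))))) (Cert.s1 (Cert.s2 (Cert.L 176) (Cert.L 180)) (Cert.s2 (Cert.s3 (Cert.L 180) (Cert.s4 (Cert.L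 180) (Cert.s5 Cert.c (Cert.L 180)))) (Cert.L 180))))))) (Cert.s3 (Cert.s4 (Cert.s5 (Cert.s6 Cert.c (Cert.L 180)) (Cert.L 160)) (Cert.s5 (Cert.s6 Cert.c (Cert.s1 (Cert.s3 (Cert.L 160) (Cert.s4 (Cert.L 64) (Cert.s5 Cert.c Cert.c))) (Cert.s2 (Cert.s3 (Cert.s4 (Cert.L 64) (Cert.s5 Cert.c Cert.c)) (Cert.s4 (Cert.s5 Cert.c Cert.c) (Cert.s5 Cert.c Cert.c))) (Cert.s3 (Cert.s4 (Cert.L 156) (Cert.s5 Cert.c Cert.c)) Cert.c)))) (Cert.s6 (Cert.s1 (Cert.s3 (Cert.L 156) (Cert.s4 (Cert.L 64) (Cert.s5 Cert.c Cert.c))) (Cert.s2 (Cert.s3 (Cert.s4 (Cert.L 64) (Cert.s5 Cert.c Cert.c)) (Cert.s4 (Cert.s5 Cert.c Cert.c) (Cert.s5 Cert.c Cert.c))) (Cert.s3 (Cert.s4 (Cert.L 160) (Cert.s5 Cert.c Cert.c)) (Cert.s4 (Cert.s5 Cert.c Cert.c) (Cert.s5 Cert.c Cert.c))))) (Cert.L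 168)))) (Cert.s4 (Cert.s5 (Cert.s6 Cert.c Cert.c) (Cert.s6 (Cert.s1 (Cert.s3 (Cert.L 64) Cert.a) (Cert.s2 (Cert.s3 (Cert.s4 (Cert.L 64) (Cert.s5 Cert.c Cert.c)) Cert.a) Cert.a)) (Cert.L 168))) (Cert.s5 (Cert.s6 Cert.c Cert.c) (Cert.s6 (Cert.s1 (Cert.s3 (Cert.s4 (Cert.s5 Cert.c Cert.c) (Cert.s5 Cert.c Cert.c)) Cert.a) (Cert.s2 (Cert.s3 (Cert.s4 (Cert.s5 Cert.c Cert.c) (Cert.s5 Cert.c Cert.c)) Cert.a) Cert.a)) (Cert.L 180))))))) (Cert.s1 (Cert.L 168) (Cert.s2 (Cert.s3 (Cert.L 168) (Cert.s4 (Cert.L 168) (Cert.s5 (Cert.s1 (Cert.s2 (Cert.L 172) (Cert.L 180)) (Cert.s2 (Cert.L 176) (Cert.L 180))) (Cert.L 180)))) (Cert.L 180))))) (Cert.s5 (Cert.s1 (Cert.s3 (Cert.s5 Cert.c (Cert.s6 Cert.c Cert.d)) (Cert.s4 (Cert.s5 Cert.c (Cert.s6 Cert.c Cert.c)) (Cert.s5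 Cert.c (Cert.s6 Cert.c Cert.c)))) (Cert.s2 (Cert.s3 (Cert.s5 Cert.c (Cert.s6 Cert.c Cert.d)) (Cert.s4 (Cert.s5 Cert.c (Cert.s6 Cert.c Cert.c)) (Cert.s5 Cert.b (Cert.s6 Cert.b Cert.c)))) (Cert.s3 (Cert.s5 Cert.c (Cert.s6 Cert.c Cert.c)) (Cert.s4 (Cert.s5 Cert.c (Cert.s6 Cert.c Cert.c)) (Cert.s5 Cert.b (Cert.s6 Cert.b Cert.c)))))) (Cert.s6 (Cert.s1 (Cert.s3 (Cert.s5 (Cert.s6 (Cert.s1 Cert.d Cert.d) (Cert.s1 (Cert.L 64) (Cert.s2 (Cert.L 64) (Cert.s3 (Cert.L 64) (Cert.s4 (Cert.L 64) Cert.d))))) (Cert.s6 (Cert.s1 (Cert.L 64) (Cert.s2 (Cert.L 64) (Cert.s3 (Cert.L 64) (Cert.s4 (Cert.L 64) (Cert.s5 Cert.c Cert.c))))) (Cert.s1 (Cert.L 64) (Cert.s2 (Cert.L 64) (Cert.s3 (Cert.L 64) (Cert.s4 (Cert.L 64) (Cert.s5 Cert.c Cert.d))))))) (Cert.s4 (Cert.s5 (Cert.s6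 (Cert.s1 Cert.d Cert.d) (Cert.s1 (Cert.s3 (Cert.L 64) (Cert.s4 (Cert.L 64) (Cert.s5 Cert.c Cert.c))) (Cert.s2 (Cert.s3 (Cert.s4 (Cert.L 64) Cert.d) (Cert.s4 (Cert.s5 Cert.c Cert.c) Cert.d)) (Cert.s3 (Cert.s4 (Cert.s5 Cert.c Cert.c) Cert.d) Cert.c)))) (Cert.s6 (Cert.s1 (Cert.s3 (Cert.L 64) (Cert.s4 (Cert.L 64) (Cert.s5 Cert.c Cert.c))) (Cert.s2 (Cert.s3 (Cert.s4 (Cert.L 64) (Cert.s5 Cert.c Cert.c)) (Cert.s4 (Cert.s5 Cert.c Cert.c) (Cert.s5 Cert.c Cert.c))) (Cert.s3 (Cert.s4 (Cert.s5 Cert.c Cert.c) (Cert.s5 Cert.c Cert.c)) (Cert.s4 (Cert.s5 Cert.c Cert.c) (Cert.s5 Cert.c Cert.c))))) (Cert.s1 (Cert.s3 (Cert.L 64) (Cert.s4 (Cert.L 64) (Cert.s5 Cert.c (Cert.s6 Cert.c Cert.c)))) (Cert.s2 (Cert.s3 (Cert.s4 (Cert.L 64) (Cert.s5 Cert.d Cert.d)) (Cert.s4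 (Cert.s5 Cert.c (Cert.L 148)) (Cert.s5 Cert.c Cert.d))) (Cert.s3 (Cert.s4 (Cert.L 176) (Cert.s5 Cert.c Cert.d)) (Cert.s4 (Cert.s5 Cert.c Cert.c) (Cert.s5 Cert.c Cert.c))))))) (Cert.s5 (Cert.s6 Cert.d Cert.d) (Cert.s6 (Cert.s1 (Cert.s3 (Cert.s5 Cert.c Cert.c) (Cert.s4 (Cert.s5 Cert.c Cert.c) Cert.b)) Cert.b) (Cert.s1 (Cert.s3 (Cert.s5 Cert.d Cert.d) (Cert.s4 (Cert.s5 Cert.c Cert.d) (Cert.s5 Cert.c Cert.d))) (Cert.s2 (Cert.s3 (Cert.s5 Cert.d Cert.d) (Cert.s4 (Cert.s5 Cert.c Cert.d) Cert.d)) (Cert.s3 (Cert.s5 Cert.c Cert.d) (Cert.s4 (Cert.s5 Cert.c Cert.c) Cert.d)))))))) (Cert.s2 (Cert.s3 (Cert.s5 (Cert.s6 Cert.d (Cert.s1 (Cert.s2 (Cert.s3 (Cert.L 64) (Cert.s4 (Cert.L 64) Cert.d)) (Cert.s3 (Cert.L 64) (Cert.s4 (Cert.s5 Cert.c Cert.c) Cert.d))) Cert.d))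 (Cert.s6 (Cert.s1 (Cert.s2 (Cert.s3 (Cert.L 64) (Cert.s4 (Cert.L 64) (Cert.s5 Cert.c Cert.d))) (Cert.s3 (Cert.L 64) (Cert.s4 (Cert.s5 Cert.c Cert.c) (Cert.s5 Cert.c Cert.c)))) (Cert.s2 (Cert.s3 (Cert.L 64) (Cert.s4 (Cert.s5 Cert.c Cert.d) Cert.b)) (Cert.s3 (Cert.s5 Cert.c Cert.d) (Cert.s4 (Cert.s5 Cert.c Cert.c) Cert.b)))) (Cert.s1 (Cert.s2 (Cert.s3 (Cert.L 64) (Cert.s4 (Cert.L 64) (Cert.s5 Cert.d Cert.d))) (Cert.s3 (Cert.L 64) (Cert.s4 (Cert.L 160) (Cert.s5 Cert.c Cert.d)))) (Cert.s2 (Cert.s3 (Cert.L 160) (Cert.s4 (Cert.L 160) (Cert.s5 Cert.d Cert.d))) (Cert.L 192))))) (Cert.s4 (Cert.s5 (Cert.s6 Cert.d (Cert.s1 (Cert.s2 (Cert.s3 (Cert.s4 (Cert.s5 Cert.c Cert.c) Cert.d) (Cert.s4 (Cert.s5 Cert.c Cert.c) Cert.d)) (Cert.s3 (Cert.s4 (Cert.s5 Cert.c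 Cert.c) Cert.d) Cert.c)) Cert.d)) (Cert.s6 (Cert.s1 (Cert.s2 (Cert.s3 (Cert.s4 (Cert.s5 Cert.c Cert.c) (Cert.s5 Cert.c Cert.c)) (Cert.s4 (Cert.s5 Cert.c Cert.c) (Cert.s5 Cert.c Cert.c))) (Cert.s3 (Cert.s4 (Cert.s5 Cert.c Cert.c) (Cert.s5 Cert.c Cert.c)) (Cert.s4 (Cert.s5 Cert.c Cert.c) (Cert.s5 Cert.c Cert.c)))) (Cert.s2 (Cert.s3 (Cert.s4 (Cert.s5 Cert.c Cert.c) Cert.b) (Cert.s4 (Cert.s5 Cert.c Cert.c) Cert.b)) (Cert.s3 (Cert.s4 (Cert.s5 Cert.c Cert.c) Cert.b) (Cert.s4 (Cert.s5 Cert.c Cert.c) Cert.b)))) (Cert.s1 (Cert.s2 (Cert.s3 (Cert.s4 (Cert.s5 Cert.d (Cert.L 144)) (Cert.s5 Cert.d Cert.d)) (Cert.s4 (Cert.s5 Cert.c (Cert.L 172)) (Cert.s5 Cert.c Cert.d))) (Cert.s3 (Cert.s4 (Cert.s5 Cert.c (Cert.L 172)) (Cert.s5 Cert.c Cert.d)) (Cert.s4 (Cert.s5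 Cert.c Cert.c) (Cert.s5 Cert.c Cert.c)))) (Cert.s2 (Cert.s3 (Cert.s4 (Cert.s5 Cert.d Cert.d) (Cert.s5 Cert.d Cert.d)) (Cert.s4 (Cert.s5 Cert.c Cert.d) (Cert.s5 Cert.c Cert.d))) (Cert.L 196))))) (Cert.s5 (Cert.s6 Cert.b Cert.d) (Cert.s6 Cert.b (Cert.s1 (Cert.s2 (Cert.s3 (Cert.s5 Cert.d Cert.d) (Cert.s4 (Cert.s5 Cert.c Cert.d) Cert.d)) (Cert.s3 (Cert.s5 Cert.c Cert.d) (Cert.s4 (Cert.s5 Cert.c Cert.c) Cert.d))) Cert.d))))) (Cert.s3 (Cert.s5 (Cert.s6 Cert.c (Cert.s1 (Cert.s3 (Cert.s5 Cert.c Cert.c) (Cert.s4 (Cert.s5 Cert.c Cert.c) Cert.d)) Cert.d)) (Cert.s6 (Cert.s1 (Cert.s3 (Cert.s5 Cert.c Cert.c) (Cert.s4 (Cert.s5 Cert.c Cert.c) (Cert.s5 Cert.c Cert.c))) (Cert.s2 (Cert.s3 (Cert.s5 Cert.c Cert.c) (Cert.s4 (Cert.s5 Cert.c Cert.c) Cert.b)) (Cert.s3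 (Cert.s5 Cert.c Cert.c) (Cert.s4 (Cert.s5 Cert.c Cert.c) Cert.b)))) (Cert.L 196))) (Cert.s4 (Cert.s5 (Cert.s6 Cert.c Cert.c) (Cert.s6 (Cert.s1 (Cert.s3 (Cert.s4 (Cert.s5 Cert.c Cert.c) (Cert.s5 Cert.c Cert.c)) Cert.a) (Cert.s2 (Cert.s3 (Cert.s4 (Cert.s5 Cert.c Cert.c) Cert.b) Cert.a) Cert.a)) (Cert.L 196))) (Cert.s5 (Cert.s6 Cert.b Cert.c) (Cert.s6 Cert.b (Cert.L 196))))))) (Cert.s1 (Cert.s3 (Cert.s5 (Cert.s1 (Cert.L 64) (Cert.s2 (Cert.L 64) (Cert.s3 (Cert.L 64) (Cert.s4 (Cert.L 64) (Cert.s5 Cert.c Cert.d))))) (Cert.L 120)) (Cert.s4 (Cert.s5 (Cert.s1 (Cert.s3 (Cert.L 120) (Cert.s4 (Cert.L 120) (Cert.s5 Cert.c (Cert.s6 Cert.c Cert.c)))) (Cert.s2 (Cert.s3 (Cert.s4 (Cert.L 120) (Cert.s5 Cert.c Cert.d)) (Cert.s4 (Cert.s5 Cert.c (Cert.L 140)) (Cert.s5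 Cert.c Cert.d))) (Cert.s3 (Cert.s4 (Cert.L 168) (Cert.s5 Cert.c Cert.d)) (Cert.s4 (Cert.s5 Cert.c Cert.c) (Cert.s5 Cert.c Cert.c))))) (Cert.L 172)) (Cert.s5 (Cert.s1 (Cert.s3 (Cert.s5 Cert.c Cert.d) (Cert.s4 (Cert.s5 Cert.c Cert.d) (Cert.s5 Cert.c Cert.d))) (Cert.s2 (Cert.s3 (Cert.s5 Cert.c Cert.d) (Cert.s4 (Cert.s5 Cert.c Cert.d) Cert.d)) (Cert.s3 (Cert.s5 Cert.c Cert.d) (Cert.s4 (Cert.s5 Cert.c Cert.c) Cert.d)))) (Cert.s6 (Cert.s1 (Cert.s3 (Cert.L 172) (Cert.s4 (Cert.L 172) (Cert.s5 Cert.d Cert.d))) (Cert.L 184)) (Cert.L 184))))) (Cert.s2 (Cert.s3 (Cert.s5 (Cert.s1 (Cert.s2 (Cert.s3 (Cert.L 184) (Cert.s4 (Cert.L 64) (Cert.s5 Cert.c Cert.d))) (Cert.s3 (Cert.L 64) (Cert.s4 (Cert.L 156) (Cert.s5 Cert.c Cert.d)))) (Cert.s2 (Cert.s3 (Cert.L 156)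 (Cert.s4 (Cert.L 156) (Cert.s5 Cert.c Cert.d))) (Cert.L 184))) (Cert.L 184)) (Cert.s4 (Cert.s5 (Cert.s1 (Cert.s2 (Cert.s3 (Cert.s4 (Cert.L 176) (Cert.s5 Cert.c Cert.d)) (Cert.s4 (Cert.s5 Cert.c (Cert.L 176)) (Cert.s5 Cert.c Cert.d))) (Cert.s3 (Cert.s4 (Cert.L 180) (Cert.s5 Cert.c Cert.d)) (Cert.s4 (Cert.s5 Cert.c Cert.c) (Cert.s5 Cert.c Cert.c)))) (Cert.s2 (Cert.s3 (Cert.s4 (Cert.s5 Cert.c Cert.d) (Cert.s5 Cert.c Cert.d)) (Cert.s4 (Cert.s5 Cert.c Cert.d) (Cert.s5 Cert.c Cert.d))) (Cert.L 192))) (Cert.L 192)) (Cert.s5 (Cert.s1 Cert.d Cert.d) (Cert.L 192)))) (Cert.L 192))))))) (Cert.s2 (Cert.s3 (Cert.s5 (Cert.s1 (Cert.s2 (Cert.s3 (Cert.L 64) (Cert.s4 (Cert.L 64) (Cert.s5 Cert.c (Cert.s6 Cert.d (Cert.s1 Cert.d Cert.d))))) (Cert.s3 (Cert.L 64) (Cert.s4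 (Cert.s5 Cert.c (Cert.s6 Cert.c (Cert.L 164))) (Cert.s5 Cert.c (Cert.s6 Cert.c (Cert.s1 Cert.d Cert.d)))))) (Cert.s2 (Cert.s3 (Cert.L 64) (Cert.s4 (Cert.s5 Cert.c (Cert.s6 Cert.d (Cert.L 140))) (Cert.s5 Cert.c (Cert.s6 Cert.d Cert.d)))) (Cert.s3 (Cert.s5 Cert.c (Cert.L 152)) (Cert.s4 (Cert.s5 Cert.c (Cert.s6 Cert.c (Cert.L 168))) (Cert.s5 Cert.c (Cert.s6 Cert.c Cert.d)))))) (Cert.s6 (Cert.s1 (Cert.s2 (Cert.s3 (Cert.L 168) (Cert.s4 (Cert.L 168) (Cert.s5 (Cert.s6 (Cert.s1 (Cert.L 64) Cert.d) (Cert.L 148)) (Cert.L 152)))) (Cert.s3 (Cert.L 152) (Cert.s4 (Cert.L 164) (Cert.s5 (Cert.s6 (Cert.s1 (Cert.s2 (Cert.s3 (Cert.L 164) (Cert.s4 (Cert.L 64) Cert.d)) (Cert.s3 (Cert.L 76) Cert.c)) Cert.d) (Cert.L 168)) (Cert.L 168))))) (Cert.s2 (Cert.s3 (Cert.L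 168) (Cert.s4 (Cert.L 168) (Cert.s5 (Cert.s6 Cert.d (Cert.L 168)) (Cert.L 168)))) (Cert.s3 (Cert.L 168) (Cert.s4 (Cert.L 168) (Cert.s5 (Cert.s6 Cert.d (Cert.L 168)) (Cert.L 168)))))) (Cert.L 168))) (Cert.s4 (Cert.s5 (Cert.s1 (Cert.s2 (Cert.s3 (Cert.s4 (Cert.s5 Cert.c (Cert.s6 Cert.c (Cert.s1 (Cert.L 64) (Cert.s2 (Cert.L 64) (Cert.s3 Cert.c Cert.c))))) (Cert.s5 Cert.c (Cert.s6 Cert.c (Cert.s1 Cert.d Cert.d)))) (Cert.s4 (Cert.s5 Cert.c (Cert.s6 Cert.c Cert.c)) (Cert.s5 Cert.c (Cert.s6 Cert.c Cert.c)))) (Cert.s3 (Cert.s4 (Cert.s5 Cert.c (Cert.s6 Cert.c Cert.c)) (Cert.s5 Cert.c (Cert.s6 Cert.c Cert.c))) (Cert.s4 (Cert.s5 Cert.c (Cert.s6 Cert.c Cert.c)) (Cert.s5 Cert.c (Cert.s6 Cert.c Cert.c))))) (Cert.s2 (Cert.s3 (Cert.s4 (Cert.s5 Cert.c (Cert.s6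 Cert.c (Cert.s1 (Cert.s2 (Cert.s3 (Cert.L 64) Cert.c) (Cert.s3 Cert.c Cert.c)) (Cert.L 176)))) (Cert.s5 Cert.c (Cert.s6 Cert.c Cert.d))) (Cert.s4 (Cert.s5 Cert.c (Cert.s6 Cert.c Cert.c)) (Cert.s5 Cert.c (Cert.s6 Cert.c Cert.c)))) (Cert.s3 (Cert.s4 (Cert.s5 Cert.c (Cert.s6 Cert.c Cert.c)) (Cert.s5 Cert.c (Cert.s6 Cert.c Cert.c))) (Cert.s4 (Cert.s5 Cert.c (Cert.s6 Cert.c Cert.c)) (Cert.s5 Cert.c (Cert.s6 Cert.c Cert.c)))))) (Cert.s6 (Cert.s1 (Cert.s2 (Cert.s3 (Cert.s4 (Cert.s5 (Cert.s6 (Cert.s1 (Cert.L 64) (Cert.s2 (Cert.L 64) (Cert.s3 (Cert.L 64) Cert.c))) (Cert.L 152)) (Cert.L 152)) (Cert.s5 (Cert.s6 (Cert.s1 (Cert.s2 (Cert.s3 (Cert.L 64) (Cert.s4 (Cert.L 64) Cert.d)) (Cert.s3 (Cert.s4 (Cert.L 64) Cert.d) Cert.c)) Cert.d) (Cert.s1 (Cert.s2 (Cert.s3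 (Cert.L 64) (Cert.s4 (Cert.L 64) (Cert.s5 Cert.c Cert.c))) (Cert.s3 (Cert.L 160) (Cert.s4 (Cert.L 164) (Cert.s5 Cert.c Cert.c)))) (Cert.s2 (Cert.s3 (Cert.L 164) (Cert.s4 (Cert.L 164) (Cert.s5 Cert.c Cert.c))) (Cert.L 180)))) (Cert.s6 (Cert.s1 (Cert.s2 (Cert.s3 (Cert.L 64) (Cert.s4 (Cert.L 64) (Cert.s5 Cert.c Cert.d))) (Cert.s3 (Cert.L 164) (Cert.s4 (Cert.L 168) (Cert.s5 Cert.c Cert.c)))) (Cert.s2 (Cert.s3 (Cert.L 168) (Cert.s4 (Cert.L 168) (Cert.s5 Cert.c Cert.d))) (Cert.L 184))) (Cert.L 184)))) (Cert.s4 (Cert.s5 (Cert.s6 (Cert.s1 (Cert.s2 (Cert.s3 Cert.c Cert.c) Cert.c) (Cert.s2 (Cert.s3 Cert.c Cert.c) Cert.c)) (Cert.s1 (Cert.s2 (Cert.s3 (Cert.L 64) (Cert.s4 (Cert.L 64) (Cert.s5 Cert.c Cert.c))) (Cert.s3 (Cert.L 164) Cert.c)) (Cert.s2 (Cert.L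 176) (Cert.L 180)))) (Cert.s6 (Cert.s1 (Cert.s2 (Cert.s3 (Cert.L 64) (Cert.s4 (Cert.L 64) (Cert.s5 Cert.c Cert.c))) (Cert.s3 (Cert.L 164) (Cert.s4 (Cert.L 168) (Cert.s5 Cert.c Cert.c)))) (Cert.s2 (Cert.s3 (Cert.L 168) (Cert.s4 (Cert.L 168) (Cert.s5 Cert.c Cert.c))) (Cert.L 180))) (Cert.L 180))) (Cert.s5 (Cert.s6 (Cert.s1 (Cert.s2 (Cert.s3 Cert.c Cert.c) Cert.c) Cert.d) (Cert.s1 (Cert.s2 (Cert.s3 (Cert.s4 (Cert.s5 Cert.c Cert.c) (Cert.s5 Cert.c Cert.c)) (Cert.s4 (Cert.s5 Cert.c Cert.c) (Cert.s5 Cert.c Cert.c))) (Cert.s3 (Cert.s4 (Cert.s5 Cert.c Cert.c) (Cert.s5 Cert.c Cert.c)) Cert.c)) (Cert.s2 (Cert.s3 (Cert.s4 (Cert.s5 Cert.c Cert.c) (Cert.s5 Cert.c Cert.c)) (Cert.s4 (Cert.s5 Cert.c Cert.c) (Cert.s5 Cert.c Cert.c))) (Cert.L 192)))) (Cert.s6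 (Cert.s1 (Cert.s2 (Cert.s3 (Cert.s4 (Cert.s5 Cert.c Cert.c) (Cert.s5 Cert.c Cert.c)) (Cert.s4 (Cert.s5 Cert.c Cert.c) (Cert.s5 Cert.c Cert.c))) (Cert.s3 (Cert.s4 (Cert.s5 Cert.c Cert.c) (Cert.s5 Cert.c Cert.c)) (Cert.s4 (Cert.s5 Cert.c Cert.c) (Cert.s5 Cert.c Cert.c)))) (Cert.s2 (Cert.s3 (Cert.s4 (Cert.s5 Cert.c Cert.c) (Cert.s5 Cert.c Cert.c)) (Cert.s4 (Cert.s5 Cert.c Cert.c) (Cert.s5 Cert.c Cert.c))) (Cert.L 192))) (Cert.L 192))))) (Cert.s3 (Cert.s4 (Cert.s5 (Cert.s6 Cert.c (Cert.L 192)) (Cert.L 168)) (Cert.s5 (Cert.s6 Cert.c (Cert.s1 (Cert.s2 (Cert.s3 (Cert.L 176) (Cert.s4 (Cert.L 180) (Cert.s5 Cert.c Cert.c))) (Cert.L 188)) (Cert.L 188))) (Cert.s6 (Cert.s1 (Cert.s2 (Cert.s3 (Cert.L 180) (Cert.s4 (Cert.s5 Cert.c Cert.c) (Cert.s5 Cert.c Cert.c)))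 (Cert.L 192)) (Cert.L 192)) (Cert.L 192)))) (Cert.s4 (Cert.s5 (Cert.s6 Cert.c Cert.c) (Cert.s6 (Cert.s1 (Cert.s2 (Cert.s3 (Cert.L 180) Cert.a) Cert.a) (Cert.L 180)) (Cert.L 180))) (Cert.s5 (Cert.s6 Cert.c Cert.c) (Cert.s6 (Cert.s1 (Cert.s2 (Cert.s3 (Cert.s4 (Cert.s5 Cert.c Cert.c) (Cert.s5 Cert.c Cert.c)) Cert.a) Cert.a) (Cert.L 188)) (Cert.L 188)))))) (Cert.s2 (Cert.s3 (Cert.s4 (Cert.s5 (Cert.s6 (Cert.s1 (Cert.s2 (Cert.s3 (Cert.L 64) (Cert.s4 (Cert.L 68) (Cert.s5 Cert.c Cert.c))) (Cert.s3 (Cert.L 168) Cert.c)) (Cert.L 176)) (Cert.L 176)) (Cert.L 176)) (Cert.s5 (Cert.s6 Cert.d (Cert.L 176)) (Cert.L 180))) (Cert.s4 (Cert.s5 (Cert.s6 (Cert.s1 (Cert.s2 (Cert.s3 Cert.c Cert.c) Cert.c) (Cert.s2 (Cert.s3 Cert.c Cert.c) Cert.c)) (Cert.L 180)) (Cert.L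 180)) (Cert.s5 (Cert.s6 Cert.d (Cert.L 188)) (Cert.L 188)))) (Cert.s3 (Cert.s4 (Cert.s5 (Cert.s6 Cert.c (Cert.L 188)) (Cert.L 188)) (Cert.s5 (Cert.s6 Cert.c (Cert.L 188)) (Cert.L 188))) (Cert.s4 (Cert.s5 (Cert.s6 Cert.c Cert.c) (Cert.L 188)) (Cert.L 200))))) (Cert.L 176))) (Cert.s5 (Cert.s1 (Cert.s2 (Cert.s3 (Cert.s5 Cert.c (Cert.s6 Cert.c Cert.d)) (Cert.s4 (Cert.s5 Cert.c (Cert.s6 Cert.c Cert.c)) (Cert.s5 Cert.b Cert.d))) (Cert.s3 (Cert.s5 Cert.c (Cert.s6 Cert.c Cert.c)) (Cert.s4 (Cert.s5 Cert.c (Cert.s6 Cert.c Cert.c)) (Cert.s5 Cert.b Cert.d)))) (Cert.s2 (Cert.s3 (Cert.s5 Cert.b (Cert.s6 Cert.b Cert.d)) (Cert.s4 (Cert.s5 Cert.b (Cert.s6 Cert.b Cert.c)) (Cert.s5 Cert.b Cert.d))) (Cert.s3 (Cert.s5 Cert.b (Cert.s6 Cert.b Cert.c)) (Cert.s4 (Cert.s5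 Cert.b (Cert.L 228)) (Cert.L 232))))) (Cert.s6 (Cert.s1 (Cert.s2 (Cert.s3 (Cert.s5 (Cert.s6 Cert.d Cert.d) (Cert.s6 (Cert.s1 (Cert.s2 (Cert.s3 (Cert.s5 Cert.d Cert.d) (Cert.s4 (Cert.s5 Cert.c Cert.d) Cert.b)) (Cert.s3 (Cert.s5 Cert.c Cert.d) (Cert.s4 (Cert.s5 Cert.c Cert.c) Cert.b))) Cert.b) (Cert.L 180))) (Cert.s4 (Cert.s5 (Cert.s6 Cert.d Cert.d) (Cert.s6 (Cert.s1 (Cert.s2 (Cert.s3 (Cert.s4 (Cert.s5 Cert.c Cert.c) Cert.b) (Cert.s4 (Cert.s5 Cert.c Cert.c) Cert.b)) (Cert.s3 (Cert.s4 (Cert.s5 Cert.c Cert.c) Cert.b) (Cert.s4 (Cert.s5 Cert.c Cert.c) Cert.b))) Cert.b) (Cert.L 192))) (Cert.s5 (Cert.s6 Cert.b Cert.d) (Cert.s6 Cert.b Cert.d)))) (Cert.s3 (Cert.s5 (Cert.s6 Cert.c Cert.d) (Cert.s6 (Cert.s1 (Cert.s2 (Cert.s3 (Cert.s5 Cert.c Cert.c) (Cert.s4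 (Cert.s5 Cert.c Cert.c) Cert.b)) (Cert.L 196)) Cert.b) (Cert.L 196))) (Cert.s4 (Cert.s5 (Cert.s6 Cert.c Cert.c) (Cert.L 208)) (Cert.L 232)))) (Cert.s2 (Cert.s3 (Cert.s5 (Cert.s6 Cert.b Cert.d) (Cert.L 192)) (Cert.s4 (Cert.s5 (Cert.s6 Cert.b Cert.d) (Cert.L 192)) (Cert.L 220))) (Cert.L 220))) (Cert.L 192))))) (Cert.s3 (Cert.s5 (Cert.s1 (Cert.s3 (Cert.s5 Cert.c (Cert.L 168)) (Cert.s4 (Cert.s5 Cert.c (Cert.s6 Cert.c Cert.c)) (Cert.s5 Cert.c (Cert.s6 Cert.c Cert.c)))) (Cert.s2 (Cert.s3 (Cert.s5 Cert.c (Cert.L 168)) (Cert.s4 (Cert.s5 Cert.c (Cert.s6 Cert.c Cert.c)) (Cert.s5 Cert.c (Cert.s6 Cert.c Cert.c)))) (Cert.s3 (Cert.s5 Cert.c (Cert.L 172)) (Cert.s4 (Cert.s5 Cert.c (Cert.L 184)) (Cert.L 204))))) (Cert.s6 (Cert.s1 (Cert.s3 (Cert.L 148) (Cert.s4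 (Cert.L 168) (Cert.s5 (Cert.s6 Cert.c (Cert.L 168)) (Cert.L 168)))) (Cert.L 180)) (Cert.L 180))) (Cert.s4 (Cert.s5 (Cert.s1 (Cert.s3 (Cert.s4 (Cert.s5 Cert.c (Cert.s6 Cert.c Cert.c)) (Cert.s5 Cert.c (Cert.s6 Cert.c Cert.c))) (Cert.s4 (Cert.s5 Cert.a (Cert.s6 Cert.a Cert.c)) (Cert.s5 Cert.a (Cert.s6 Cert.a Cert.c)))) (Cert.s2 (Cert.s3 (Cert.s4 (Cert.s5 Cert.c (Cert.s6 Cert.c Cert.c)) (Cert.s5 Cert.c (Cert.L 208))) (Cert.s4 (Cert.s5 Cert.a (Cert.L 212)) (Cert.L 228))) (Cert.L 228))) (Cert.s6 (Cert.s1 (Cert.s3 (Cert.s4 (Cert.s5 (Cert.s6 Cert.c Cert.c) (Cert.L 172)) (Cert.s5 (Cert.s6 Cert.c Cert.c) (Cert.L 184))) (Cert.s4 (Cert.s5 (Cert.s6 Cert.a Cert.c) (Cert.L 184)) (Cert.L 220))) (Cert.L 220)) (Cert.L 220))) (Cert.s5 (Cert.s1 (Cert.s3 (Cert.s5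 Cert.c (Cert.s6 Cert.c Cert.c)) (Cert.s4 (Cert.s5 Cert.a (Cert.L 236)) (Cert.L 240))) (Cert.L 240)) (Cert.L 240)))))

def t12 : Cert := Cert.s1 (Cert.s3 (Cert.s4 (Cert.s5 (Cert.s1 (Cert.s3 (Cert.s4 (Cert.s5 Cert.c (Cert.s6 Cert.c Cert.c)) (Cert.s5 Cert.c (Cert.s6 Cert.c Cert.c))) (Cert.s4 (Cert.s5 Cert.c (Cert.s6 Cert.c Cert.c)) (Cert.s5 Cert.c (Cert.s6 Cert.c Cert.c)))) (Cert.s2 (Cert.s3 (Cert.s4 (Cert.s5 Cert.c (Cert.s6 Cert.c Cert.c)) (Cert.s5 Cert.c (Cert.s6 Cert.c Cert.c))) (Cert.s4 (Cert.s5 Cert.c (Cert.s6 Cert.c Cert.c)) (Cert.s5 Cert.c (Cert.s6 Cert.c Cert.c)))) (Cert.s3 (Cert.s4 (Cert.s5 Cert.a (Cert.s6 Cert.a Cert.c)) (Cert.s5 Cert.a (Cert.s6 Cert.a Cert.c))) (Cert.s4 (Cert.s5 Cert.a Cert.c) (Cert.s5 Cert.a Cert.c))))) (Cert.s6 (Cert.s1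 (Cert.s3 (Cert.s4 (Cert.s5 (Cert.s6 Cert.c (Cert.s1 (Cert.L 64) (Cert.s2 (Cert.L 64) Cert.c))) (Cert.s6 (Cert.s1 (Cert.L 64) (Cert.s2 (Cert.L 64) (Cert.s3 Cert.c Cert.a))) (Cert.L 172))) (Cert.s5 (Cert.s6 Cert.c (Cert.s1 (Cert.s3 Cert.c Cert.c) (Cert.s2 (Cert.s3 Cert.c Cert.c) Cert.c))) (Cert.s6 (Cert.s1 (Cert.s3 (Cert.L 64) (Cert.s4 (Cert.L 64) (Cert.s5 Cert.c Cert.c))) (Cert.s2 (Cert.s3 (Cert.s4 (Cert.L 64) (Cert.s5 Cert.c Cert.c)) (Cert.s4 (Cert.s5 Cert.c Cert.c) (Cert.s5 Cert.c Cert.c))) (Cert.s3 Cert.c Cert.a))) (Cert.s1 (Cert.s3 (Cert.L 64) (Cert.s4 (Cert.L 64) (Cert.s5 Cert.c Cert.c))) (Cert.s2 (Cert.s3 (Cert.s4 (Cert.L 64) (Cert.s5 Cert.c Cert.c)) (Cert.s4 (Cert.s5 Cert.c Cert.c) (Cert.s5 Cert.c Cert.c))) (Cert.s3 (Cert.s4 (Cert.L 176)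 (Cert.s5 Cert.c Cert.c)) (Cert.s4 (Cert.s5 Cert.c Cert.c) (Cert.s5 Cert.c Cert.c)))))))) (Cert.s4 (Cert.s5 (Cert.s6 Cert.c Cert.c) (Cert.s6 (Cert.s1 (Cert.s3 Cert.a Cert.a) (Cert.s2 (Cert.s3 Cert.a Cert.a) Cert.a)) (Cert.s1 (Cert.s3 (Cert.L 64) (Cert.s4 (Cert.L 64) (Cert.s5 Cert.c Cert.c))) (Cert.s2 (Cert.s3 (Cert.s4 (Cert.L 64) (Cert.s5 Cert.c Cert.c)) (Cert.s4 (Cert.s5 Cert.c Cert.c) (Cert.s5 Cert.c Cert.c))) (Cert.s3 Cert.c Cert.c))))) (Cert.s5 (Cert.s6 Cert.c Cert.c) (Cert.s6 (Cert.s1 (Cert.s3 Cert.a Cert.a) (Cert.s2 (Cert.s3 Cert.a Cert.a) Cert.a)) (Cert.s1 (Cert.s3 (Cert.s4 (Cert.s5 Cert.c Cert.c) (Cert.s5 Cert.c Cert.c)) (Cert.s4 (Cert.s5 Cert.c Cert.c) (Cert.s5 Cert.c Cert.c))) (Cert.s2 (Cert.s3 (Cert.s4 (Cert.s5 Cert.c Cert.c) (Cert.s5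 Cert.c Cert.c)) (Cert.s4 (Cert.s5 Cert.c Cert.c) (Cert.s5 Cert.c Cert.c))) (Cert.s3 Cert.c Cert.c))))))) (Cert.s2 (Cert.s3 (Cert.s4 (Cert.s5 (Cert.s6 Cert.c (Cert.s1 (Cert.s2 (Cert.s3 Cert.c Cert.c) Cert.c) (Cert.s2 (Cert.s3 Cert.c Cert.c) Cert.c))) (Cert.s6 (Cert.s1 (Cert.s2 (Cert.s3 (Cert.L 64) (Cert.s4 (Cert.L 64) (Cert.s5 Cert.c Cert.c))) (Cert.s3 Cert.c Cert.a)) (Cert.s2 (Cert.s3 (Cert.s4 (Cert.L 64) (Cert.s5 Cert.c Cert.c)) (Cert.s4 (Cert.s5 Cert.c Cert.c) (Cert.s5 Cert.c Cert.c))) (Cert.s3 Cert.c Cert.a))) (Cert.s1 (Cert.s2 (Cert.L 176) (Cert.L 180)) (Cert.s2 (Cert.s3 (Cert.L 180) (Cert.s4 (Cert.L 180) (Cert.s5 Cert.c Cert.c))) (Cert.L 180))))) (Cert.s5 (Cert.s6 Cert.c (Cert.s1 (Cert.s2 (Cert.s3 Cert.c Cert.c) Cert.c) (Cert.s2 (Cert.s3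 Cert.c Cert.c) Cert.c))) (Cert.s6 (Cert.s1 (Cert.s2 (Cert.s3 (Cert.s4 (Cert.s5 Cert.c Cert.c) (Cert.s5 Cert.c Cert.c)) (Cert.s4 (Cert.s5 Cert.c Cert.c) (Cert.s5 Cert.c Cert.c))) (Cert.s3 Cert.c Cert.a)) (Cert.s2 (Cert.s3 (Cert.s4 (Cert.s5 Cert.c Cert.c) (Cert.s5 Cert.c Cert.c)) (Cert.s4 (Cert.s5 Cert.c Cert.c) (Cert.s5 Cert.c Cert.c))) (Cert.s3 Cert.c Cert.a))) (Cert.s1 (Cert.s2 (Cert.s3 (Cert.s4 (Cert.s5 Cert.c Cert.c) (Cert.s5 Cert.c Cert.c)) (Cert.s4 (Cert.s5 Cert.c Cert.c) (Cert.s5 Cert.c Cert.c))) (Cert.s3 (Cert.s4 (Cert.L 180) (Cert.s5 Cert.c Cert.c)) (Cert.s4 (Cert.s5 Cert.c Cert.c) (Cert.s5 Cert.c Cert.c)))) (Cert.s2 (Cert.s3 (Cert.s4 (Cert.s5 Cert.c Cert.c) (Cert.s5 Cert.c Cert.c)) (Cert.s4 (Cert.s5 Cert.c Cert.c) (Cert.s5 Cert.c Cert.c)))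 (Cert.L 192)))))) (Cert.s4 (Cert.s5 (Cert.s6 Cert.c Cert.c) (Cert.s6 (Cert.s1 (Cert.s2 (Cert.s3 Cert.a Cert.a) Cert.a) (Cert.s2 (Cert.s3 Cert.a Cert.a) Cert.a)) (Cert.s1 (Cert.s2 (Cert.s3 (Cert.s4 (Cert.L 172) (Cert.s5 Cert.c Cert.c)) (Cert.s4 (Cert.s5 Cert.c Cert.c) (Cert.s5 Cert.c Cert.c))) (Cert.s3 Cert.c Cert.c)) (Cert.s2 (Cert.s3 (Cert.s4 (Cert.L 176) (Cert.s5 Cert.c Cert.c)) (Cert.s4 (Cert.s5 Cert.c Cert.c) (Cert.s5 Cert.c Cert.c))) (Cert.L 188))))) (Cert.s5 (Cert.s6 Cert.c Cert.c) (Cert.s6 (Cert.s1 (Cert.s2 (Cert.s3 Cert.a Cert.a) Cert.a) (Cert.s2 (Cert.s3 Cert.a Cert.a) Cert.a)) (Cert.s1 (Cert.s2 (Cert.s3 (Cert.s4 (Cert.s5 Cert.c Cert.c) (Cert.s5 Cert.c Cert.c)) (Cert.s4 (Cert.s5 Cert.c Cert.c) (Cert.s5 Cert.c Cert.c))) (Cert.s3 Cert.c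 Cert.c)) (Cert.s2 (Cert.s3 (Cert.s4 (Cert.s5 Cert.c Cert.c) (Cert.L 236)) (Cert.L 236)) (Cert.L 236))))))) (Cert.s3 (Cert.s4 (Cert.s5 (Cert.s6 Cert.a Cert.c) (Cert.s6 Cert.a (Cert.L 180))) (Cert.s5 (Cert.s6 Cert.a Cert.c) (Cert.s6 Cert.a (Cert.L 192)))) (Cert.s4 (Cert.s5 (Cert.s6 Cert.a Cert.c) (Cert.s6 Cert.a Cert.c)) (Cert.s5 (Cert.s6 Cert.a Cert.c) (Cert.s6 Cert.a Cert.c)))))) (Cert.s1 (Cert.s3 (Cert.s4 (Cert.L 168) (Cert.s5 (Cert.s1 (Cert.s3 (Cert.L 168) (Cert.s4 (Cert.L 168) (Cert.s5 Cert.c Cert.c))) (Cert.s2 (Cert.s3 (Cert.s4 (Cert.L 168) (Cert.s5 Cert.c Cert.c)) (Cert.s4 (Cert.s5 Cert.c Cert.c) (Cert.s5 Cert.c Cert.c))) (Cert.s3 (Cert.s4 (Cert.L 172) (Cert.s5 Cert.c Cert.c)) (Cert.s4 (Cert.s5 Cert.c Cert.c) (Cert.s5 Cert.c Cert.c)))))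 (Cert.L 172))) (Cert.s4 (Cert.s5 (Cert.s1 (Cert.s3 (Cert.L 172) Cert.c) (Cert.s2 (Cert.s3 (Cert.s4 (Cert.L 172) (Cert.s5 Cert.c Cert.c)) Cert.c) (Cert.s3 Cert.c Cert.c))) (Cert.L 172)) (Cert.s5 (Cert.s1 (Cert.s3 (Cert.s4 (Cert.s5 Cert.c Cert.c) (Cert.s5 Cert.c Cert.c)) Cert.c) (Cert.s2 (Cert.s3 (Cert.s4 (Cert.s5 Cert.c Cert.c) (Cert.s5 Cert.c Cert.c)) Cert.c) (Cert.s3 Cert.c Cert.c))) (Cert.L 184)))) (Cert.s2 (Cert.s3 (Cert.s4 (Cert.L 180) (Cert.s5 (Cert.s1 (Cert.s2 (Cert.s3 (Cert.s4 (Cert.L 176) (Cert.s5 Cert.c Cert.c)) (Cert.s4 (Cert.s5 Cert.c Cert.c) (Cert.s5 Cert.c Cert.c))) (Cert.s3 (Cert.s4 (Cert.L 180) (Cert.s5 Cert.c Cert.c)) (Cert.s4 (Cert.s5 Cert.c Cert.c) (Cert.s5 Cert.c Cert.c)))) (Cert.s2 (Cert.s3 (Cert.s4 (Cert.s5 Cert.c Cert.c)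 (Cert.s5 Cert.c Cert.c)) (Cert.s4 (Cert.s5 Cert.c Cert.c) (Cert.s5 Cert.c Cert.c))) (Cert.L 192))) (Cert.L 192))) (Cert.s4 (Cert.s5 (Cert.s1 (Cert.s2 (Cert.s3 (Cert.s4 (Cert.L 168) (Cert.s5 Cert.c Cert.c)) Cert.c) (Cert.s3 Cert.c Cert.c)) (Cert.s2 (Cert.s3 (Cert.s4 (Cert.L 172) (Cert.s5 Cert.c Cert.c)) Cert.c) (Cert.L 188))) (Cert.L 188)) (Cert.s5 (Cert.s1 (Cert.s2 (Cert.s3 (Cert.s4 (Cert.s5 Cert.c Cert.c) (Cert.s5 Cert.c Cert.c)) Cert.c) (Cert.s3 Cert.c Cert.c)) (Cert.s2 (Cert.s3 (Cert.s4 (Cert.s5 Cert.c Cert.c) (Cert.L 228)) Cert.c) (Cert.L 228))) (Cert.L 180)))) (Cert.L 192))))) (Cert.s5 (Cert.s1 (Cert.s3 (Cert.s4 (Cert.s5 Cert.c (Cert.s6 Cert.c Cert.c)) (Cert.s5 Cert.c (Cert.s6 Cert.c Cert.c))) (Cert.s4 (Cert.s5 Cert.c (Cert.s6 Cert.c Cert.c))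 (Cert.s5 Cert.c (Cert.s6 Cert.c Cert.c)))) (Cert.s2 (Cert.s3 (Cert.s4 (Cert.s5 Cert.c (Cert.s6 Cert.c Cert.c)) (Cert.s5 Cert.b (Cert.s6 Cert.b Cert.c))) (Cert.s4 (Cert.s5 Cert.c (Cert.s6 Cert.c Cert.c)) (Cert.s5 Cert.b (Cert.s6 Cert.b Cert.c)))) (Cert.s3 (Cert.s4 (Cert.s5 Cert.a (Cert.s6 Cert.a Cert.c)) (Cert.s5 Cert.a (Cert.s6 Cert.a Cert.c))) (Cert.s4 (Cert.s5 Cert.a Cert.c) (Cert.s5 Cert.a Cert.c))))) (Cert.s6 (Cert.s1 (Cert.s3 (Cert.s4 (Cert.s5 (Cert.s6 Cert.c (Cert.s1 (Cert.s3 Cert.c Cert.c) (Cert.s2 (Cert.s3 Cert.c Cert.c) Cert.c))) (Cert.s6 (Cert.s1 (Cert.s3 (Cert.s4 (Cert.s5 Cert.c Cert.c) (Cert.s5 Cert.c Cert.c)) (Cert.s4 (Cert.s5 Cert.c Cert.c) (Cert.s5 Cert.c Cert.c))) (Cert.s2 (Cert.s3 (Cert.s4 (Cert.s5 Cert.c Cert.c) (Cert.s5 Cert.c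 Cert.c)) (Cert.s4 (Cert.s5 Cert.c Cert.c) (Cert.s5 Cert.c Cert.c))) (Cert.s3 Cert.c Cert.a))) (Cert.s1 (Cert.s3 (Cert.s4 (Cert.s5 Cert.c Cert.c) (Cert.s5 Cert.c Cert.c)) (Cert.s4 (Cert.s5 Cert.c Cert.c) (Cert.s5 Cert.c Cert.c))) (Cert.s2 (Cert.s3 (Cert.s4 (Cert.s5 Cert.c Cert.c) (Cert.s5 Cert.c Cert.c)) (Cert.s4 (Cert.s5 Cert.c Cert.c) (Cert.s5 Cert.c Cert.c))) (Cert.s3 (Cert.s4 (Cert.s5 Cert.c Cert.c) (Cert.s5 Cert.c Cert.c)) (Cert.s4 (Cert.s5 Cert.c Cert.c) (Cert.s5 Cert.c Cert.c))))))) (Cert.s5 (Cert.s6 Cert.c Cert.d) (Cert.s6 (Cert.s1 (Cert.s3 (Cert.s4 (Cert.s5 Cert.c Cert.c) Cert.b) (Cert.s4 (Cert.s5 Cert.c Cert.c) Cert.b)) Cert.b) (Cert.s1 (Cert.s3 (Cert.s4 (Cert.s5 Cert.c Cert.c) (Cert.s5 Cert.c Cert.c)) (Cert.s4 (Cert.s5 Cert.c Cert.c)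 (Cert.s5 Cert.c Cert.c))) (Cert.s2 (Cert.s3 (Cert.s4 (Cert.s5 Cert.c Cert.c) Cert.d) (Cert.s4 (Cert.s5 Cert.c Cert.c) Cert.d)) (Cert.s3 (Cert.s4 (Cert.s5 Cert.c Cert.c) Cert.d) (Cert.L 232))))))) (Cert.s4 (Cert.s5 (Cert.s6 Cert.c Cert.c) (Cert.s6 (Cert.s1 (Cert.s3 Cert.a Cert.a) (Cert.s2 (Cert.s3 Cert.a Cert.a) Cert.a)) (Cert.s1 (Cert.s3 (Cert.s4 (Cert.s5 Cert.c Cert.c) (Cert.s5 Cert.c Cert.c)) (Cert.s4 (Cert.s5 Cert.c Cert.c) (Cert.s5 Cert.c Cert.c))) (Cert.s2 (Cert.s3 (Cert.s4 (Cert.s5 Cert.c Cert.c) (Cert.s5 Cert.c Cert.c)) (Cert.s4 (Cert.s5 Cert.c Cert.c) (Cert.L 248))) (Cert.s3 Cert.c Cert.c))))) (Cert.s5 (Cert.s6 Cert.c Cert.c) (Cert.s6 (Cert.s1 (Cert.s3 Cert.a Cert.a) Cert.b) (Cert.s1 (Cert.s3 (Cert.s4 (Cert.s5 Cert.c Cert.c) (Cert.s5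 Cert.c Cert.c)) (Cert.s4 (Cert.s5 Cert.c Cert.c) (Cert.L 248))) (Cert.s2 (Cert.s3 (Cert.s4 (Cert.s5 Cert.c Cert.c) Cert.d) (Cert.L 248)) (Cert.L 248))))))) (Cert.s2 (Cert.s3 (Cert.s4 (Cert.s5 (Cert.s6 Cert.c (Cert.s1 (Cert.s2 (Cert.s3 Cert.c Cert.c) Cert.c) Cert.d)) (Cert.s6 (Cert.s1 (Cert.s2 (Cert.s3 (Cert.s4 (Cert.s5 Cert.c Cert.c) (Cert.s5 Cert.c Cert.c)) (Cert.s4 (Cert.s5 Cert.c Cert.c) (Cert.s5 Cert.c Cert.c))) (Cert.s3 Cert.c Cert.a)) (Cert.s2 (Cert.s3 (Cert.s4 (Cert.s5 Cert.c Cert.c) Cert.b) (Cert.s4 (Cert.s5 Cert.c Cert.c) Cert.b)) (Cert.s3 Cert.c Cert.a))) (Cert.s1 (Cert.s2 (Cert.s3 (Cert.s4 (Cert.s5 Cert.c Cert.c) (Cert.s5 Cert.c Cert.c)) (Cert.s4 (Cert.s5 Cert.c Cert.c) (Cert.s5 Cert.c Cert.c))) (Cert.s3 (Cert.s4 (Cert.s5 Cert.c Cert.c)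 (Cert.L 248)) (Cert.L 248))) (Cert.s2 (Cert.s3 (Cert.s4 (Cert.s5 Cert.c Cert.c) (Cert.s5 Cert.c Cert.c)) (Cert.s4 (Cert.s5 Cert.c Cert.c) (Cert.L 248))) (Cert.L 248))))) (Cert.s5 (Cert.s6 Cert.b Cert.d) (Cert.s6 Cert.b (Cert.s1 (Cert.s2 (Cert.s3 (Cert.s4 (Cert.s5 Cert.c Cert.c) Cert.d) (Cert.L 248)) (Cert.L 248)) Cert.d)))) (Cert.s4 (Cert.s5 (Cert.s6 Cert.c Cert.c) (Cert.s6 (Cert.s1 (Cert.s2 (Cert.s3 Cert.a Cert.a) Cert.a) (Cert.s2 (Cert.s3 Cert.a Cert.a) Cert.a)) (Cert.s1 (Cert.s2 (Cert.s3 (Cert.s4 (Cert.s5 Cert.c Cert.c) (Cert.L 248)) (Cert.L 248)) (Cert.L 248)) (Cert.L 248)))) (Cert.s5 (Cert.s6 Cert.b Cert.c) (Cert.s6 Cert.b (Cert.L 248))))) (Cert.s3 (Cert.s4 (Cert.s5 (Cert.s6 Cert.a Cert.c) (Cert.s6 Cert.a (Cert.L 248))) (Cert.s5 (Cert.s6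 Cert.a Cert.c) (Cert.L 248))) (Cert.s4 (Cert.s5 (Cert.s6 Cert.a Cert.c) (Cert.L 248)) (Cert.L 248))))) (Cert.s1 (Cert.s3 (Cert.s4 (Cert.s5 (Cert.s1 (Cert.s3 (Cert.s4 (Cert.s5 Cert.c Cert.c) (Cert.s5 Cert.c Cert.c)) (Cert.s4 (Cert.s5 Cert.c Cert.c) (Cert.s5 Cert.c Cert.c))) (Cert.s2 (Cert.s3 (Cert.s4 (Cert.s5 Cert.c Cert.c) (Cert.s5 Cert.c Cert.c)) (Cert.s4 (Cert.s5 Cert.c Cert.c) (Cert.s5 Cert.c Cert.c))) (Cert.s3 (Cert.s4 (Cert.s5 Cert.c Cert.c) (Cert.s5 Cert.c Cert.c)) (Cert.s4 (Cert.s5 Cert.c Cert.c) (Cert.s5 Cert.c Cert.c))))) (Cert.s6 (Cert.s1 (Cert.s3 (Cert.L 172) (Cert.s4 (Cert.L 172) (Cert.s5 Cert.c (Cert.L 172)))) (Cert.L 188)) (Cert.L 188))) (Cert.s5 (Cert.s1 (Cert.s3 (Cert.s4 (Cert.s5 Cert.c Cert.c) (Cert.s5 Cert.c Cert.c)) (Cert.s4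 (Cert.s5 Cert.c Cert.c) (Cert.s5 Cert.c Cert.c))) (Cert.s2 (Cert.s3 (Cert.s4 (Cert.s5 Cert.c Cert.c) Cert.d) (Cert.s4 (Cert.s5 Cert.c Cert.c) Cert.d)) (Cert.s3 (Cert.s4 (Cert.s5 Cert.c Cert.c) Cert.d) (Cert.L 228)))) (Cert.s6 (Cert.s1 (Cert.s3 (Cert.s4 (Cert.s5 (Cert.s6 Cert.c Cert.c) (Cert.L 172)) (Cert.s5 Cert.d Cert.d)) (Cert.s4 (Cert.s5 Cert.c (Cert.L 180)) (Cert.s5 Cert.c Cert.d))) (Cert.L 192)) (Cert.L 192)))) (Cert.s4 (Cert.s5 (Cert.s1 (Cert.s3 (Cert.s4 (Cert.s5 Cert.c Cert.c) (Cert.s5 Cert.c Cert.c)) Cert.c) (Cert.s2 (Cert.s3 (Cert.s4 (Cert.s5 Cert.c Cert.c) (Cert.s5 Cert.c Cert.c)) Cert.c) (Cert.s3 Cert.c Cert.c))) (Cert.s6 (Cert.s1 (Cert.s3 (Cert.s4 (Cert.s5 Cert.c (Cert.L 192)) (Cert.s5 Cert.c (Cert.L 192))) (Cert.s4 (Cert.s5 Cert.c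 Cert.c) (Cert.L 212))) (Cert.L 212)) (Cert.L 212))) (Cert.s5 (Cert.s1 (Cert.s3 (Cert.s4 (Cert.s5 Cert.c Cert.c) (Cert.s5 Cert.c Cert.c)) Cert.c) (Cert.s2 (Cert.s3 (Cert.s4 (Cert.s5 Cert.c Cert.c) Cert.d) Cert.c) (Cert.L 212))) (Cert.s6 (Cert.s1 (Cert.s3 (Cert.s4 (Cert.s5 Cert.c (Cert.L 212)) (Cert.L 212)) (Cert.L 212)) (Cert.L 212)) (Cert.L 212))))) (Cert.s2 (Cert.s3 (Cert.s4 (Cert.s5 (Cert.s1 (Cert.s2 (Cert.s3 (Cert.s4 (Cert.s5 Cert.c Cert.c) (Cert.s5 Cert.c Cert.c)) (Cert.s4 (Cert.s5 Cert.c Cert.c) (Cert.s5 Cert.c Cert.c))) (Cert.s3 (Cert.s4 (Cert.s5 Cert.c Cert.c) (Cert.L 232)) (Cert.L 232))) (Cert.s2 (Cert.s3 (Cert.s4 (Cert.s5 Cert.c Cert.c) (Cert.s5 Cert.c Cert.c)) (Cert.L 248)) (Cert.L 248))) (Cert.L 184)) (Cert.s5 (Cert.s1 Cert.d Cert.d)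 (Cert.L 188))) (Cert.s4 (Cert.s5 (Cert.s1 (Cert.s2 (Cert.s3 (Cert.s4 (Cert.s5 Cert.c Cert.c) (Cert.L 224)) Cert.c) (Cert.L 224)) (Cert.L 224)) (Cert.L 224)) (Cert.L 224))) (Cert.L 224)))))) (Cert.s4 (Cert.s5 (Cert.s1 (Cert.s3 (Cert.s4 (Cert.s5 Cert.a (Cert.s6 Cert.a Cert.c)) (Cert.s5 Cert.a (Cert.s6 Cert.a Cert.c))) (Cert.s4 (Cert.s5 Cert.a Cert.c) (Cert.s5 Cert.a Cert.c))) (Cert.s2 (Cert.s3 (Cert.s4 (Cert.s5 Cert.a (Cert.s6 Cert.a Cert.c)) (Cert.s5 Cert.a (Cert.s6 Cert.a Cert.c))) (Cert.s4 (Cert.s5 Cert.a Cert.c) (Cert.s5 Cert.a Cert.c))) (Cert.s3 (Cert.s4 (Cert.s5 Cert.a Cert.c) (Cert.s5 Cert.a Cert.c)) (Cert.s4 (Cert.s5 Cert.a Cert.c) (Cert.s5 Cert.a Cert.c))))) (Cert.s6 (Cert.s1 (Cert.s3 (Cert.s4 (Cert.s5 (Cert.s6 Cert.a Cert.c) (Cert.s6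 Cert.a (Cert.s1 (Cert.s3 Cert.c Cert.c) (Cert.s2 (Cert.s3 Cert.c Cert.c) Cert.c)))) (Cert.s5 (Cert.s6 Cert.a Cert.c) (Cert.s6 Cert.a (Cert.s1 (Cert.s3 Cert.c Cert.c) (Cert.s2 (Cert.s3 Cert.c Cert.c) Cert.c))))) (Cert.s4 (Cert.s5 (Cert.s6 Cert.a Cert.c) (Cert.s6 Cert.a Cert.c)) (Cert.s5 (Cert.s6 Cert.a Cert.c) (Cert.s6 Cert.a Cert.c)))) (Cert.s2 (Cert.s3 (Cert.s4 (Cert.s5 (Cert.s6 Cert.a Cert.c) (Cert.s6 Cert.a (Cert.s1 (Cert.s2 (Cert.s3 Cert.c Cert.c) Cert.c) (Cert.s2 (Cert.s3 Cert.c Cert.c) Cert.c)))) (Cert.s5 (Cert.s6 Cert.a Cert.c) (Cert.s6 Cert.a (Cert.L 248)))) (Cert.s4 (Cert.s5 (Cert.s6 Cert.a Cert.c) (Cert.s6 Cert.a Cert.c)) (Cert.s5 (Cert.s6 Cert.a Cert.c) (Cert.L 248)))) (Cert.s3 (Cert.s4 (Cert.s5 (Cert.s6 Cert.a Cert.c) (Cert.s6 Cert.a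 Cert.c)) (Cert.L 252)) (Cert.L 252)))) (Cert.s1 (Cert.s3 (Cert.s4 (Cert.s5 Cert.c (Cert.L 176)) (Cert.s5 Cert.c (Cert.L 192))) (Cert.s4 (Cert.s5 Cert.c (Cert.L 192)) (Cert.s5 Cert.c (Cert.L 192)))) (Cert.s2 (Cert.s3 (Cert.s4 (Cert.s5 Cert.c (Cert.L 192)) (Cert.L 240)) (Cert.L 240)) (Cert.L 240))))) (Cert.s5 (Cert.s1 (Cert.s3 (Cert.s4 (Cert.s5 Cert.a (Cert.s6 Cert.a Cert.c)) (Cert.s5 Cert.a (Cert.s6 Cert.a Cert.c))) (Cert.s4 (Cert.s5 Cert.a Cert.c) (Cert.s5 Cert.a Cert.c))) (Cert.s2 (Cert.s3 (Cert.s4 (Cert.s5 Cert.a (Cert.s6 Cert.a Cert.c)) (Cert.s5 Cert.a (Cert.s6 Cert.a Cert.c))) (Cert.s4 (Cert.s5 Cert.a Cert.c) (Cert.L 256))) (Cert.s3 (Cert.s4 (Cert.s5 Cert.a Cert.c) (Cert.L 256)) (Cert.L 256)))) (Cert.s6 (Cert.s1 (Cert.s3 (Cert.s4 (Cert.s5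 (Cert.s6 Cert.a Cert.c) (Cert.s6 Cert.a (Cert.s1 (Cert.s3 Cert.c Cert.c) (Cert.L 256)))) (Cert.s5 (Cert.s6 Cert.a Cert.c) (Cert.s6 Cert.a (Cert.L 256)))) (Cert.s4 (Cert.s5 (Cert.s6 Cert.a Cert.c) (Cert.s6 Cert.a Cert.c)) (Cert.L 256))) (Cert.s2 (Cert.s3 (Cert.s4 (Cert.s5 (Cert.s6 Cert.a Cert.c) (Cert.L 256)) (Cert.L 256)) (Cert.L 256)) (Cert.L 256))) (Cert.s1 (Cert.s3 (Cert.s4 (Cert.s5 Cert.c (Cert.L 256)) (Cert.L 256)) (Cert.L 256)) (Cert.L 256)))))) (Cert.s2 (Cert.s3 (Cert.s4 (Cert.s5 (Cert.s1 (Cert.s2 (Cert.s3 (Cert.s4 (Cert.s5 Cert.c (Cert.s6 Cert.c Cert.c)) (Cert.s5 Cert.c (Cert.s6 Cert.c Cert.c))) (Cert.s4 (Cert.s5 Cert.c (Cert.s6 Cert.c Cert.c)) (Cert.s5 Cert.c (Cert.s6 Cert.c Cert.c)))) (Cert.s3 (Cert.s4 (Cert.s5 Cert.a (Cert.s6 Cert.a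 Cert.c)) (Cert.s5 Cert.a (Cert.s6 Cert.a Cert.c))) (Cert.s4 (Cert.s5 Cert.a Cert.c) (Cert.s5 Cert.a Cert.c)))) (Cert.s2 (Cert.s3 (Cert.s4 (Cert.s5 Cert.c (Cert.s6 Cert.c Cert.c)) (Cert.s5 Cert.c (Cert.s6 Cert.c Cert.c))) (Cert.s4 (Cert.s5 Cert.c (Cert.s6 Cert.c Cert.c)) (Cert.s5 Cert.c (Cert.L 256)))) (Cert.s3 (Cert.s4 (Cert.s5 Cert.a (Cert.s6 Cert.a Cert.c)) (Cert.s5 Cert.a (Cert.L 256))) (Cert.L 256)))) (Cert.s6 (Cert.s1 (Cert.s2 (Cert.s3 (Cert.s4 (Cert.s5 (Cert.s6 Cert.c (Cert.s1 (Cert.s2 (Cert.s3 Cert.c Cert.c) Cert.c) (Cert.s2 (Cert.s3 Cert.c Cert.c) Cert.c))) (Cert.s6 (Cert.s1 (Cert.s2 (Cert.s3 (Cert.s4 (Cert.s5 Cert.c Cert.c) (Cert.s5 Cert.c Cert.c)) (Cert.s4 (Cert.s5 Cert.c Cert.c) (Cert.s5 Cert.c Cert.c))) (Cert.s3 Cert.c Cert.a)) (Cert.s2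 (Cert.s3 (Cert.s4 (Cert.s5 Cert.c Cert.c) (Cert.s5 Cert.c Cert.c)) (Cert.s4 (Cert.s5 Cert.c Cert.c) (Cert.s5 Cert.c Cert.c))) (Cert.L 192))) (Cert.L 192))) (Cert.s5 (Cert.s6 Cert.c (Cert.s1 (Cert.s2 (Cert.s3 Cert.c Cert.c) Cert.c) (Cert.s2 (Cert.s3 Cert.c Cert.c) Cert.c))) (Cert.s6 (Cert.s1 (Cert.s2 (Cert.s3 (Cert.s4 (Cert.s5 Cert.c Cert.c) (Cert.s5 Cert.c Cert.c)) (Cert.s4 (Cert.s5 Cert.c Cert.c) (Cert.s5 Cert.c Cert.c))) (Cert.s3 Cert.c Cert.a)) (Cert.s2 (Cert.s3 (Cert.s4 (Cert.s5 Cert.c Cert.c) (Cert.L 224)) (Cert.L 224)) (Cert.L 224))) (Cert.L 188)))) (Cert.s4 (Cert.s5 (Cert.s6 Cert.c Cert.c) (Cert.s6 (Cert.s1 (Cert.s2 (Cert.s3 Cert.a Cert.a) Cert.a) (Cert.s2 (Cert.s3 Cert.a Cert.a) Cert.a)) (Cert.L 188))) (Cert.s5 (Cert.s6 Cert.c Cert.c)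 (Cert.s6 (Cert.s1 (Cert.s2 (Cert.s3 Cert.a Cert.a) Cert.a) (Cert.L 200)) (Cert.L 200))))) (Cert.s3 (Cert.s4 (Cert.s5 (Cert.s6 Cert.a Cert.c) (Cert.s6 Cert.a (Cert.L 200))) (Cert.s5 (Cert.s6 Cert.a Cert.c) (Cert.L 200))) (Cert.s4 (Cert.s5 (Cert.s6 Cert.a Cert.c) (Cert.L 200)) (Cert.L 224)))) (Cert.s2 (Cert.s3 (Cert.s4 (Cert.s5 (Cert.s6 Cert.c (Cert.L 188)) (Cert.L 188)) (Cert.s5 (Cert.s6 Cert.c (Cert.L 192)) (Cert.L 192))) (Cert.s4 (Cert.s5 (Cert.s6 Cert.c Cert.c) (Cert.L 192)) (Cert.L 212))) (Cert.L 212))) (Cert.L 188))) (Cert.s5 (Cert.s1 (Cert.s2 (Cert.s3 (Cert.s4 (Cert.s5 Cert.c (Cert.s6 Cert.c Cert.c)) (Cert.s5 Cert.b Cert.d)) (Cert.s4 (Cert.s5 Cert.c (Cert.s6 Cert.c Cert.c)) (Cert.s5 Cert.b Cert.d))) (Cert.s3 (Cert.s4 (Cert.s5 Cert.a (Cert.s6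 Cert.a Cert.c)) (Cert.s5 Cert.a Cert.d)) (Cert.L 256))) (Cert.s2 (Cert.s3 (Cert.s4 (Cert.s5 Cert.b (Cert.L 256)) (Cert.L 256)) (Cert.L 256)) (Cert.L 256))) (Cert.s6 (Cert.s1 (Cert.s2 (Cert.s3 (Cert.s4 (Cert.s5 (Cert.s6 Cert.c Cert.d) (Cert.s6 (Cert.s1 (Cert.s2 (Cert.s3 (Cert.s4 (Cert.s5 Cert.c Cert.c) Cert.b) (Cert.L 256)) (Cert.L 256)) Cert.b) (Cert.L 256))) (Cert.s5 (Cert.s6 Cert.b Cert.d) (Cert.L 256))) (Cert.s4 (Cert.s5 (Cert.s6 Cert.c Cert.c) (Cert.L 256)) (Cert.L 256))) (Cert.L 256)) (Cert.L 256)) (Cert.L 256)))) (Cert.s4 (Cert.s5 (Cert.s1 (Cert.s2 (Cert.s3 (Cert.s4 (Cert.s5 Cert.a (Cert.s6 Cert.a Cert.c)) (Cert.s5 Cert.a (Cert.s6 Cert.a Cert.c))) (Cert.s4 (Cert.s5 Cert.a Cert.c) (Cert.s5 Cert.a Cert.c))) (Cert.s3 (Cert.s4 (Cert.s5 Cert.a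 Cert.c) (Cert.L 256)) (Cert.L 256))) (Cert.s2 (Cert.s3 (Cert.s4 (Cert.s5 Cert.a (Cert.L 256)) (Cert.L 256)) (Cert.L 256)) (Cert.L 256))) (Cert.s6 (Cert.s1 (Cert.s2 (Cert.s3 (Cert.s4 (Cert.s5 (Cert.s6 Cert.a Cert.c) (Cert.L 256)) (Cert.L 256)) (Cert.L 256)) (Cert.L 256)) (Cert.L 256)) (Cert.L 256))) (Cert.s5 (Cert.s1 (Cert.s2 (Cert.s3 (Cert.s4 (Cert.s5 Cert.a (Cert.L 256)) (Cert.L 256)) (Cert.L 256)) (Cert.L 256)) (Cert.L 256)) (Cert.L 256)))) (Cert.s3 (Cert.s4 (Cert.s5 (Cert.s1 (Cert.s3 (Cert.s4 (Cert.s5 Cert.a Cert.c) (Cert.s5 Cert.a Cert.c)) (Cert.s4 (Cert.s5 Cert.a Cert.c) (Cert.L 256))) (Cert.L 256)) (Cert.L 256)) (Cert.L 256)) (Cert.L 256)))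

def t13 : Cert := Cert.s1 (Cert.s5 Cert.b (Cert.s6 Cert.b (Cert.s1 (Cert.L 64) (Cert.s2 (Cert.L 64) (Cert.s3 (Cert.s5 (Cert.s1 (Cert.L 64) (Cert.s2 (Cert.L 64) (Cert.s3 (Cert.L 64) (Cert.s4 (Cert.L 64) (Cert.s5 Cert.a (Cert.s6 Cert.a (Cert.L 64))))))) (Cert.s6 (Cert.s1 (Cert.L 64) (Cert.s2 (Cert.L 64) (Cert.s3 (Cert.L 64) (Cert.s4 (Cert.L 64) (Cert.s5 (Cert.s6 Cert.a (Cert.L 64)) (Cert.s6 Cert.a (Cert.s1 (Cert.L 64) Cert.b))))))) (Cert.s1 (Cert.L 64) (Cert.s2 (Cert.L 64) (Cert.s3 (Cert.L 64) (Cert.s4 (Cert.L 64) (Cert.s5 (Cert.L 64) (Cert.s6 (Cert.s1 (Cert.L 64) (Cert.s2 (Cert.L 64) (Cert.s3 (Cert.L 64) (Cert.s4 (Cert.L 64) (Cert.s5 (Cert.s6 Cert.d (Cert.s1 (Cert.L 64) Cert.d)) (Cert.s6 (Cert.s1 (Cert.L 64) (Cert.s2 (Cert.L 64) (Cert.s3 (Cert.L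 64) (Cert.s4 (Cert.L 64) Cert.d)))) (Cert.s1 (Cert.L 64) (Cert.s2 (Cert.L 64) (Cert.s3 (Cert.L 64) (Cert.s4 (Cert.L 64) (Cert.s5 Cert.d Cert.d))))))))))) (Cert.s1 (Cert.L 64) (Cert.s2 (Cert.L 64) (Cert.s3 (Cert.L 64) (Cert.s4 (Cert.L 64) (Cert.s5 (Cert.s1 (Cert.L 64) (Cert.s2 (Cert.L 64) (Cert.s3 (Cert.L 64) (Cert.s4 (Cert.L 64) (Cert.s5 Cert.c Cert.d))))) (Cert.s6 (Cert.s1 (Cert.L 64) (Cert.s2 (Cert.L 64) (Cert.s3 (Cert.L 64) (Cert.s4 (Cert.L 64) (Cert.s5 Cert.d (Cert.L 92)))))) (Cert.L 92))))))))))))))) (Cert.s4 (Cert.s5 (Cert.s1 (Cert.L 92) (Cert.s2 (Cert.L 64) (Cert.s3 (Cert.s4 (Cert.s5 Cert.a (Cert.s6 Cert.a (Cert.s1 (Cert.L 64) (Cert.s2 (Cert.L 64) Cert.a)))) (Cert.s5 Cert.a (Cert.s6 Cert.a (Cert.s1 (Cert.L 64) Cert.b)))) Cert.a))) (Cert.s6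 (Cert.s1 (Cert.L 64) (Cert.s2 (Cert.L 64) (Cert.s3 (Cert.s4 (Cert.s5 (Cert.s6 Cert.a (Cert.s1 (Cert.L 64) (Cert.s2 (Cert.L 64) Cert.a))) (Cert.s6 Cert.a (Cert.s1 (Cert.L 64) (Cert.s2 (Cert.L 64) Cert.a)))) (Cert.s5 (Cert.s6 Cert.a (Cert.s1 (Cert.L 64) Cert.b)) (Cert.s6 Cert.a (Cert.s1 (Cert.L 64) Cert.b)))) Cert.a))) (Cert.s1 (Cert.L 64) (Cert.s2 (Cert.L 68) t5)))) (Cert.s5 (Cert.s1 Cert.b Cert.b) (Cert.s6 (Cert.s1 Cert.b Cert.b) (Cert.s1 (Cert.L 64) (Cert.s2 (Cert.s5 (Cert.s1 (Cert.s2 (Cert.L 64) (Cert.s3 (Cert.L 64) (Cert.s4 (Cert.L 64) (Cert.s5 Cert.b (Cert.s6 Cert.b Cert.d))))) (Cert.s2 (Cert.L 64) (Cert.s3 (Cert.L 64) (Cert.s4 (Cert.s5 Cert.b (Cert.s6 Cert.b Cert.d)) (Cert.s5 Cert.b Cert.d))))) (Cert.s6 (Cert.s1 (Cert.s2 (Cert.L 64) (Cert.s3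 (Cert.L 64) (Cert.s4 (Cert.L 64) (Cert.s5 (Cert.s6 Cert.b Cert.d) (Cert.s6 Cert.b (Cert.s1 Cert.d Cert.d)))))) (Cert.s2 (Cert.L 64) (Cert.s3 (Cert.L 64) (Cert.s4 (Cert.s5 (Cert.s6 Cert.b Cert.d) (Cert.s6 Cert.b (Cert.s1 (Cert.s2 (Cert.L 64) (Cert.s3 (Cert.L 64) (Cert.s4 (Cert.L 64) Cert.d))) (Cert.s2 (Cert.L 64) (Cert.s3 (Cert.s4 (Cert.L 64) Cert.d) (Cert.s4 (Cert.s5 Cert.d Cert.d) Cert.d)))))) (Cert.s5 (Cert.s6 Cert.b Cert.d) (Cert.s6 Cert.b Cert.d)))))) (Cert.s1 (Cert.s2 (Cert.L 64) (Cert.s3 (Cert.L 64) (Cert.s4 (Cert.L 64) (Cert.s5 Cert.d (Cert.s6 (Cert.s1 (Cert.s2 (Cert.L 64) (Cert.s3 (Cert.L 64) (Cert.s4 (Cert.L 64) (Cert.s5 Cert.d Cert.d)))) (Cert.s2 (Cert.L 64) (Cert.s3 (Cert.L 64) (Cert.s4 (Cert.s5 Cert.d Cert.d) Cert.d)))) (Cert.L 184))))))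 (Cert.s2 (Cert.L 64) (Cert.s3 (Cert.L 64) (Cert.s4 (Cert.s5 (Cert.s1 (Cert.s2 (Cert.L 64) (Cert.s3 (Cert.L 64) (Cert.s4 (Cert.L 64) Cert.d))) Cert.d) (Cert.s6 (Cert.s1 (Cert.s2 (Cert.L 64) (Cert.s3 (Cert.L 64) (Cert.s4 (Cert.L 64) (Cert.s5 Cert.d Cert.d)))) (Cert.s2 (Cert.L 64) (Cert.s3 (Cert.s4 (Cert.L 64) (Cert.s5 Cert.d Cert.d)) (Cert.s4 (Cert.s5 Cert.d Cert.d) (Cert.s5 Cert.d Cert.d))))) (Cert.L 184))) (Cert.s5 Cert.d (Cert.s6 (Cert.s1 (Cert.s2 (Cert.L 64) (Cert.s3 (Cert.s5 Cert.d Cert.d) (Cert.s4 (Cert.s5 Cert.d Cert.d) Cert.d))) Cert.d) (Cert.L 188))))))))) (Cert.s3 (Cert.s5 (Cert.s1 (Cert.s3 (Cert.L 64) (Cert.s4 (Cert.s5 Cert.c (Cert.s6 Cert.c Cert.d)) (Cert.s5 Cert.b (Cert.s6 Cert.b Cert.d)))) (Cert.s2 (Cert.s3 (Cert.s5 Cert.b (Cert.s6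 Cert.b Cert.d)) (Cert.s4 (Cert.s5 Cert.b (Cert.s6 Cert.b Cert.d)) (Cert.s5 Cert.b Cert.d))) (Cert.s3 (Cert.s5 Cert.b (Cert.s6 Cert.b Cert.d)) (Cert.s4 (Cert.s5 Cert.b (Cert.s6 Cert.b Cert.c)) (Cert.s5 Cert.b Cert.d))))) (Cert.s6 (Cert.s1 (Cert.s3 (Cert.L 64) (Cert.s4 (Cert.s5 (Cert.s6 Cert.d Cert.d) (Cert.s6 (Cert.s1 (Cert.L 64) Cert.d) (Cert.s1 (Cert.L 64) (Cert.s2 (Cert.s3 (Cert.L 64) (Cert.s4 (Cert.L 64) (Cert.s5 Cert.d Cert.d))) (Cert.s3 (Cert.s4 (Cert.L 64) (Cert.s5 Cert.d Cert.d)) (Cert.s4 (Cert.s5 Cert.c Cert.d) (Cert.s5 Cert.c Cert.d))))))) (Cert.s5 (Cert.s6 Cert.b Cert.d) (Cert.s6 Cert.b (Cert.s1 Cert.d Cert.d))))) (Cert.s2 (Cert.s3 (Cert.s5 (Cert.s6 Cert.b Cert.d) (Cert.s6 Cert.b (Cert.s1 (Cert.s2 (Cert.L 64) (Cert.s3 (Cert.L 64) (Cert.s4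 (Cert.L 64) Cert.d))) (Cert.s2 (Cert.s3 (Cert.L 64) (Cert.s4 (Cert.L 64) Cert.d)) (Cert.s3 (Cert.L 64) (Cert.s4 (Cert.s5 Cert.d Cert.d) Cert.d)))))) (Cert.s4 (Cert.s5 (Cert.s6 Cert.b Cert.d) (Cert.s6 Cert.b (Cert.s1 (Cert.s2 (Cert.s3 (Cert.s4 (Cert.L 64) Cert.d) (Cert.s4 (Cert.s5 Cert.d Cert.d) Cert.d)) (Cert.s3 (Cert.s4 (Cert.s5 Cert.d Cert.d) Cert.d) (Cert.s4 (Cert.s5 Cert.c Cert.d) Cert.d))) (Cert.s2 (Cert.s3 (Cert.s4 (Cert.s5 Cert.d Cert.d) Cert.d) (Cert.s4 (Cert.s5 Cert.d Cert.d) Cert.d)) (Cert.s3 (Cert.s4 (Cert.s5 Cert.d Cert.d) Cert.d) (Cert.s4 (Cert.s5 Cert.c Cert.d) Cert.d)))))) (Cert.s5 (Cert.s6 Cert.b Cert.d) (Cert.s6 Cert.b Cert.d)))) (Cert.s3 (Cert.s5 (Cert.s6 Cert.b Cert.d) (Cert.s6 Cert.b (Cert.s1 (Cert.s3 (Cert.L 64) (Cert.s4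 (Cert.s5 Cert.d Cert.d) Cert.d)) (Cert.s2 (Cert.s3 (Cert.s5 Cert.d Cert.d) (Cert.s4 (Cert.s5 Cert.d Cert.d) Cert.d)) (Cert.s3 (Cert.s5 Cert.c Cert.d) (Cert.s4 (Cert.s5 Cert.c Cert.d) Cert.d)))))) (Cert.s4 (Cert.s5 (Cert.s6 Cert.b Cert.d) (Cert.s6 Cert.b (Cert.s1 (Cert.s3 (Cert.s4 (Cert.s5 Cert.c Cert.d) Cert.d) (Cert.s4 (Cert.s5 Cert.c Cert.d) Cert.d)) (Cert.s2 (Cert.s3 (Cert.s4 (Cert.s5 Cert.c Cert.d) Cert.d) (Cert.s4 (Cert.s5 Cert.c Cert.d) Cert.d)) (Cert.s3 (Cert.s4 (Cert.s5 Cert.c Cert.c) Cert.d) (Cert.s4 (Cert.s5 Cert.c Cert.c) Cert.d)))))) (Cert.s5 (Cert.s6 Cert.b Cert.d) (Cert.s6 Cert.b Cert.d)))))) (Cert.s1 (Cert.s3 (Cert.L 64) (Cert.s4 (Cert.s5 (Cert.s1 (Cert.L 64) (Cert.s2 (Cert.s3 (Cert.L 64) (Cert.s4 (Cert.L 64) Cert.d)) (Cert.s3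 (Cert.s4 (Cert.L 64) Cert.d) (Cert.s4 (Cert.s5 Cert.c Cert.d) Cert.d)))) (Cert.s6 (Cert.s1 (Cert.L 64) (Cert.s2 (Cert.s3 (Cert.L 64) (Cert.s4 (Cert.L 64) (Cert.s5 Cert.d Cert.d))) (Cert.s3 (Cert.s4 (Cert.L 64) (Cert.s5 Cert.d Cert.d)) (Cert.s4 (Cert.s5 Cert.d (Cert.s6 Cert.d Cert.d)) (Cert.s5 Cert.d Cert.d))))) (Cert.L 180))) (Cert.s5 Cert.d (Cert.s6 (Cert.s1 (Cert.s3 (Cert.L 64) (Cert.s4 (Cert.s5 Cert.d Cert.d) (Cert.s5 Cert.d Cert.d))) (Cert.s2 (Cert.s3 (Cert.s5 Cert.d Cert.d) (Cert.s4 (Cert.s5 Cert.d Cert.d) Cert.d)) (Cert.s3 (Cert.s5 Cert.d Cert.d) (Cert.s4 (Cert.s5 Cert.d Cert.d) Cert.d)))) (Cert.s1 (Cert.s3 (Cert.L 64) (Cert.s4 (Cert.L 184) (Cert.L 192))) (Cert.L 188)))))) (Cert.s2 (Cert.s3 (Cert.s5 (Cert.s1 (Cert.s2 (Cert.L 64) (Cert.s3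 (Cert.L 64) (Cert.s4 (Cert.L 64) Cert.d))) Cert.d) (Cert.s6 (Cert.s1 (Cert.s2 (Cert.L 64) (Cert.s3 (Cert.L 64) (Cert.s4 (Cert.L 64) (Cert.s5 Cert.d Cert.d)))) (Cert.s2 (Cert.s3 (Cert.L 64) (Cert.s4 (Cert.L 64) (Cert.s5 Cert.d Cert.d))) (Cert.s3 (Cert.L 64) (Cert.s4 (Cert.s5 Cert.d Cert.d) (Cert.s5 Cert.d Cert.d))))) (Cert.L 180))) (Cert.s4 (Cert.s5 (Cert.s1 (Cert.s2 (Cert.s3 (Cert.s4 (Cert.L 64) Cert.d) (Cert.s4 (Cert.s5 Cert.c Cert.d) Cert.d)) (Cert.s3 (Cert.s4 (Cert.s5 Cert.c Cert.d) Cert.d) (Cert.s4 (Cert.s5 Cert.c Cert.d) Cert.d))) Cert.d) (Cert.s6 (Cert.s1 (Cert.s2 (Cert.s3 (Cert.s4 (Cert.L 64) (Cert.s5 Cert.d Cert.d)) (Cert.s4 (Cert.s5 Cert.d (Cert.s6 Cert.d Cert.d)) (Cert.s5 Cert.d Cert.d))) (Cert.s3 (Cert.s4 (Cert.s5 Cert.d (Cert.s6 Cert.d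 Cert.d)) (Cert.s5 Cert.d Cert.d)) (Cert.s4 (Cert.s5 Cert.d (Cert.s6 Cert.d Cert.d)) (Cert.s5 Cert.d Cert.d)))) (Cert.s2 (Cert.s3 (Cert.s4 (Cert.s5 Cert.d Cert.d) (Cert.s5 Cert.d Cert.d)) (Cert.s4 (Cert.s5 Cert.d Cert.d) (Cert.s5 Cert.d Cert.d))) (Cert.s3 (Cert.s4 (Cert.s5 Cert.d Cert.d) (Cert.s5 Cert.d Cert.d)) (Cert.s4 (Cert.s5 Cert.d Cert.d) (Cert.s5 Cert.d Cert.d))))) (Cert.L 188))) (Cert.s5 Cert.d (Cert.s6 (Cert.s1 (Cert.s2 (Cert.s3 (Cert.s5 Cert.d Cert.d) (Cert.s4 (Cert.s5 Cert.d Cert.d) Cert.d)) (Cert.s3 (Cert.s5 Cert.d Cert.d) (Cert.s4 (Cert.s5 Cert.d Cert.d) Cert.d))) Cert.d) (Cert.L 188))))) (Cert.s3 (Cert.s5 (Cert.s1 (Cert.s3 (Cert.L 64) (Cert.s4 (Cert.s5 Cert.c Cert.d) Cert.d)) Cert.d) (Cert.s6 (Cert.s1 (Cert.s3 (Cert.L 64) (Cert.s4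 (Cert.s5 Cert.d (Cert.s6 Cert.d Cert.d)) (Cert.s5 Cert.d Cert.d))) (Cert.s2 (Cert.s3 (Cert.s5 Cert.d Cert.d) (Cert.s4 (Cert.s5 Cert.d Cert.d) (Cert.s5 Cert.d Cert.d))) (Cert.s3 (Cert.s5 Cert.d Cert.d) (Cert.s4 (Cert.s5 Cert.d Cert.d) (Cert.s5 Cert.d Cert.d))))) (Cert.L 184))) (Cert.s4 (Cert.s5 (Cert.s1 (Cert.s3 (Cert.s4 (Cert.s5 Cert.c Cert.d) Cert.d) (Cert.s4 (Cert.s5 Cert.c Cert.c) Cert.d)) Cert.d) (Cert.s6 (Cert.s1 (Cert.s3 (Cert.s4 (Cert.s5 Cert.d (Cert.s6 Cert.c Cert.d)) (Cert.s5 Cert.d Cert.d)) (Cert.s4 (Cert.s5 Cert.d (Cert.s6 Cert.c Cert.c)) (Cert.s5 Cert.d Cert.d))) (Cert.s2 (Cert.s3 (Cert.s4 (Cert.s5 Cert.d Cert.d) (Cert.s5 Cert.d Cert.d)) (Cert.s4 (Cert.s5 Cert.d Cert.d) (Cert.L 240))) (Cert.s3 (Cert.s4 (Cert.s5 Cert.d Cert.d) (Cert.L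 240)) (Cert.L 240)))) (Cert.L 188))) (Cert.s5 Cert.d (Cert.s6 (Cert.s1 (Cert.s3 (Cert.s5 Cert.d Cert.d) (Cert.s4 (Cert.s5 Cert.d Cert.d) Cert.d)) Cert.d) (Cert.L 188))))))))) (Cert.s4 (Cert.s5 (Cert.s1 (Cert.s4 (Cert.s5 Cert.c (Cert.s6 Cert.c Cert.d)) (Cert.s5 Cert.b (Cert.s6 Cert.b Cert.d))) (Cert.s2 (Cert.s4 (Cert.s5 Cert.b (Cert.s6 Cert.b Cert.d)) (Cert.s5 Cert.b Cert.d)) (Cert.s3 (Cert.s4 (Cert.s5 Cert.b (Cert.s6 Cert.b Cert.c)) (Cert.s5 Cert.b Cert.d)) (Cert.s4 (Cert.s5 Cert.b (Cert.s6 Cert.b Cert.c)) (Cert.s5 Cert.b Cert.d))))) (Cert.s6 (Cert.s1 (Cert.s4 (Cert.s5 (Cert.s6 Cert.d Cert.d) (Cert.s6 (Cert.s1 (Cert.s4 (Cert.L 64) Cert.b) Cert.d) (Cert.s1 (Cert.s4 (Cert.L 64) (Cert.s5 Cert.d Cert.d)) (Cert.s2 (Cert.s4 (Cert.s5 Cert.d Cert.d)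 (Cert.s5 Cert.d Cert.d)) (Cert.s3 (Cert.s4 (Cert.s5 Cert.c Cert.d) (Cert.s5 Cert.c Cert.d)) (Cert.s4 (Cert.s5 Cert.c Cert.c) (Cert.s5 Cert.c Cert.c))))))) (Cert.s5 (Cert.s6 Cert.b Cert.d) (Cert.s6 Cert.b (Cert.s1 Cert.d Cert.d)))) (Cert.s2 (Cert.s4 (Cert.s5 (Cert.s6 Cert.b Cert.d) (Cert.s6 Cert.b (Cert.s1 (Cert.s2 (Cert.s4 (Cert.s5 Cert.d Cert.d) Cert.d) (Cert.s3 (Cert.s4 (Cert.s5 Cert.c Cert.d) Cert.d) (Cert.s4 (Cert.s5 Cert.c Cert.c) Cert.d))) (Cert.s2 (Cert.s4 (Cert.s5 Cert.d Cert.d) Cert.d) (Cert.s3 (Cert.s4 (Cert.s5 Cert.c Cert.d) Cert.d) (Cert.s4 (Cert.s5 Cert.c Cert.c) Cert.d)))))) (Cert.s5 (Cert.s6 Cert.b Cert.d) (Cert.s6 Cert.b Cert.d))) (Cert.s3 (Cert.s4 (Cert.s5 (Cert.s6 Cert.b Cert.d) (Cert.s6 Cert.b (Cert.s1 (Cert.s3 (Cert.s4 (Cert.s5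 Cert.c Cert.c) Cert.d) (Cert.s4 (Cert.s5 Cert.c Cert.c) Cert.d)) (Cert.s2 (Cert.s3 (Cert.s4 (Cert.s5 Cert.c Cert.c) Cert.d) (Cert.s4 (Cert.s5 Cert.c Cert.c) Cert.d)) (Cert.L 256))))) (Cert.s5 (Cert.s6 Cert.b Cert.d) (Cert.s6 Cert.b Cert.d))) (Cert.s4 (Cert.s5 (Cert.s6 Cert.b Cert.c) (Cert.s6 Cert.b (Cert.s1 (Cert.s4 (Cert.s5 Cert.c Cert.c) Cert.d) (Cert.L 256)))) (Cert.s5 (Cert.s6 Cert.b Cert.c) (Cert.L 256)))))) (Cert.s1 (Cert.s4 (Cert.s5 (Cert.s1 (Cert.s4 (Cert.L 64) (Cert.s5 Cert.c Cert.d)) (Cert.s2 (Cert.s4 (Cert.s5 Cert.c Cert.d) Cert.d) (Cert.s3 (Cert.s4 (Cert.s5 Cert.c Cert.d) Cert.d) (Cert.s4 (Cert.s5 Cert.c Cert.c) Cert.d)))) (Cert.s6 (Cert.s1 (Cert.s4 (Cert.L 64) (Cert.s5 Cert.d (Cert.s6 Cert.d Cert.d))) (Cert.s2 (Cert.s4 (Cert.s5 Cert.d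 (Cert.s6 Cert.d Cert.d)) (Cert.s5 Cert.d Cert.d)) (Cert.s3 (Cert.s4 (Cert.s5 Cert.d (Cert.s6 Cert.c Cert.d)) (Cert.s5 Cert.d Cert.d)) (Cert.s4 (Cert.s5 Cert.d (Cert.s6 Cert.c Cert.c)) (Cert.s5 Cert.d Cert.d))))) (Cert.s1 (Cert.s4 (Cert.L 64) (Cert.s5 Cert.d (Cert.L 160))) (Cert.s2 (Cert.s4 (Cert.L 176) (Cert.s5 Cert.d (Cert.L 176))) (Cert.L 184))))) (Cert.s5 Cert.d (Cert.s6 (Cert.s1 (Cert.s4 (Cert.s5 Cert.d Cert.d) (Cert.s5 Cert.d Cert.d)) (Cert.s2 (Cert.s4 (Cert.s5 Cert.d Cert.d) Cert.d) (Cert.s3 (Cert.s4 (Cert.s5 Cert.d Cert.d) Cert.d) (Cert.s4 (Cert.s5 Cert.d Cert.d) Cert.d)))) (Cert.s1 (Cert.s4 (Cert.s5 Cert.d (Cert.L 184)) (Cert.L 192)) (Cert.L 192))))) (Cert.s2 (Cert.s4 (Cert.s5 (Cert.s1 (Cert.s2 (Cert.s4 (Cert.s5 Cert.c Cert.d) Cert.d)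 (Cert.s3 (Cert.s4 (Cert.s5 Cert.c Cert.d) Cert.d) (Cert.s4 (Cert.s5 Cert.c Cert.c) Cert.d))) Cert.d) (Cert.s6 (Cert.s1 (Cert.s2 (Cert.s4 (Cert.s5 Cert.d (Cert.s6 Cert.d Cert.d)) (Cert.s5 Cert.d Cert.d)) (Cert.s3 (Cert.s4 (Cert.s5 Cert.d (Cert.s6 Cert.c Cert.d)) (Cert.s5 Cert.d Cert.d)) (Cert.s4 (Cert.s5 Cert.d (Cert.s6 Cert.c Cert.c)) (Cert.s5 Cert.d Cert.d)))) (Cert.s2 (Cert.s4 (Cert.s5 Cert.d Cert.d) (Cert.s5 Cert.d Cert.d)) (Cert.s3 (Cert.s4 (Cert.s5 Cert.d Cert.d) (Cert.s5 Cert.d Cert.d)) (Cert.L 244)))) (Cert.L 188))) (Cert.s5 Cert.d (Cert.s6 (Cert.s1 (Cert.s2 (Cert.s4 (Cert.s5 Cert.d Cert.d) Cert.d) (Cert.s3 (Cert.s4 (Cert.s5 Cert.d Cert.d) Cert.d) (Cert.L 220))) Cert.d) (Cert.L 220)))) (Cert.s3 (Cert.s4 (Cert.s5 (Cert.s1 (Cert.s3 (Cert.s4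 (Cert.s5 Cert.c Cert.c) Cert.d) (Cert.s4 (Cert.s5 Cert.c Cert.c) Cert.d)) Cert.d) (Cert.s6 (Cert.s1 (Cert.s3 (Cert.s4 (Cert.s5 Cert.d (Cert.s6 Cert.c Cert.c)) (Cert.L 256)) (Cert.L 256)) (Cert.L 256)) (Cert.L 256))) (Cert.s5 Cert.d (Cert.L 256))) (Cert.L 256)))))) (Cert.s5 (Cert.s1 (Cert.s5 Cert.b Cert.d) (Cert.s2 (Cert.s5 Cert.b Cert.d) (Cert.s3 (Cert.s5 Cert.b Cert.d) (Cert.s4 (Cert.s5 Cert.b Cert.d) Cert.b)))) (Cert.s6 (Cert.s1 (Cert.s5 (Cert.s6 Cert.b Cert.d) (Cert.s6 Cert.b Cert.d)) (Cert.s2 (Cert.s5 Cert.d (Cert.s6 Cert.b Cert.d)) (Cert.s3 (Cert.s5 Cert.d (Cert.L 256)) (Cert.L 256)))) (Cert.s1 (Cert.s5 Cert.d (Cert.s6 Cert.d (Cert.L 192))) (Cert.s2 (Cert.s5 Cert.d (Cert.L 220)) (Cert.L 220))))))))))))))))) (Cert.s2 (Cert.s5 Cert.b (Cert.s6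 Cert.b (Cert.s1 (Cert.s2 (Cert.s5 (Cert.s1 (Cert.L 64) (Cert.s2 (Cert.L 64) (Cert.s3 (Cert.L 64) (Cert.s4 (Cert.L 64) Cert.b)))) (Cert.s6 (Cert.s1 (Cert.L 64) (Cert.s2 (Cert.L 64) (Cert.s3 (Cert.L 64) (Cert.s4 (Cert.L 64) Cert.b)))) (Cert.s1 (Cert.L 64) (Cert.s2 (Cert.L 64) (Cert.s3 (Cert.L 64) (Cert.s4 (Cert.L 64) (Cert.s5 (Cert.s1 (Cert.L 64) (Cert.s2 (Cert.L 64) (Cert.s3 (Cert.L 64) (Cert.s4 (Cert.L 64) (Cert.s5 Cert.b Cert.d))))) (Cert.s6 (Cert.s1 (Cert.L 64) (Cert.s2 (Cert.L 64) (Cert.s3 (Cert.L 64) (Cert.s4 (Cert.L 64) (Cert.s5 (Cert.s6 Cert.b Cert.d) (Cert.L 112)))))) (Cert.L 112))))))))) t10) (Cert.s2 (Cert.s5 (Cert.s1 Cert.b Cert.b) (Cert.s6 (Cert.s1 Cert.b Cert.b) (Cert.s1 (Cert.s2 (Cert.L 64) (Cert.s3 (Cert.L 64) (Cert.s4 (Cert.L 108)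 (Cert.s5 (Cert.s1 (Cert.s2 (Cert.L 108) (Cert.s3 (Cert.L 108) (Cert.s4 (Cert.s5 Cert.b (Cert.L 132)) (Cert.s5 Cert.b Cert.d)))) (Cert.s2 (Cert.L 132) (Cert.s3 (Cert.L 132) (Cert.s4 (Cert.s5 Cert.b Cert.d) Cert.b)))) (Cert.L 164))))) (Cert.L 168)))) (Cert.s3 (Cert.s5 (Cert.s1 Cert.b Cert.b) (Cert.s6 (Cert.s1 Cert.b Cert.b) (Cert.s1 (Cert.s2 (Cert.s3 (Cert.L 168) (Cert.s4 (Cert.s5 (Cert.s1 (Cert.s2 (Cert.s3 (Cert.L 168) (Cert.s4 (Cert.L 168) (Cert.s5 Cert.d (Cert.L 168)))) (Cert.s3 (Cert.s4 (Cert.L 168) (Cert.s5 Cert.d (Cert.L 168))) (Cert.s4 (Cert.s5 Cert.d (Cert.L 168)) (Cert.s5 Cert.d (Cert.s6 Cert.d Cert.d))))) (Cert.s2 (Cert.s3 (Cert.L 168) (Cert.s4 (Cert.L 168) (Cert.s5 Cert.b (Cert.L 168)))) (Cert.s3 (Cert.L 184) (Cert.s4 (Cert.L 184) (Cert.s5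 Cert.b (Cert.L 184)))))) (Cert.L 184)) (Cert.s5 (Cert.s1 (Cert.s2 (Cert.s3 (Cert.s5 Cert.b (Cert.L 136)) (Cert.s4 (Cert.s5 Cert.b (Cert.s6 Cert.b Cert.d)) (Cert.s5 Cert.b Cert.d))) (Cert.s3 (Cert.s5 Cert.b (Cert.s6 Cert.b Cert.d)) (Cert.s4 (Cert.s5 Cert.b (Cert.s6 Cert.b Cert.d)) (Cert.s5 Cert.b Cert.d)))) (Cert.s2 (Cert.s3 (Cert.s5 Cert.b Cert.d) (Cert.s4 (Cert.s5 Cert.b Cert.d) Cert.b)) (Cert.s3 (Cert.s5 Cert.b Cert.d) (Cert.s4 (Cert.s5 Cert.b Cert.d) Cert.b)))) (Cert.L 192)))) (Cert.s3 (Cert.s5 (Cert.s1 (Cert.s2 (Cert.s3 (Cert.L 64) (Cert.s4 (Cert.L 64) (Cert.s5 Cert.d (Cert.L 136)))) (Cert.s3 (Cert.L 136) (Cert.s4 (Cert.s5 Cert.d (Cert.L 140)) (Cert.s5 Cert.d (Cert.s6 Cert.d Cert.d))))) (Cert.L 184)) (Cert.L 184)) (Cert.s4 (Cert.s5 (Cert.s1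 (Cert.s2 (Cert.s3 (Cert.s4 (Cert.s5 Cert.d (Cert.L 140)) (Cert.s5 Cert.d (Cert.s6 Cert.d Cert.d))) (Cert.s4 (Cert.s5 Cert.c (Cert.s6 Cert.d (Cert.L 160))) (Cert.s5 Cert.c (Cert.s6 Cert.d Cert.d)))) (Cert.s3 (Cert.s4 (Cert.s5 Cert.c (Cert.s6 Cert.d (Cert.L 160))) (Cert.s5 Cert.c (Cert.s6 Cert.d Cert.d))) (Cert.s4 (Cert.s5 Cert.c (Cert.s6 Cert.c (Cert.L 180))) (Cert.s5 Cert.c (Cert.s6 Cert.c Cert.d))))) (Cert.L 192)) (Cert.L 192)) (Cert.s5 (Cert.s1 (Cert.s2 (Cert.s3 (Cert.s5 Cert.b (Cert.s6 Cert.b Cert.d)) (Cert.s4 (Cert.s5 Cert.b (Cert.s6 Cert.b Cert.d)) (Cert.s5 Cert.b Cert.d))) (Cert.s3 (Cert.s5 Cert.b (Cert.s6 Cert.b Cert.d)) (Cert.s4 (Cert.s5 Cert.b (Cert.s6 Cert.b Cert.d)) (Cert.L 248)))) (Cert.L 196)) (Cert.L 196))))) (Cert.L 196)))) (Cert.s4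 (Cert.s5 (Cert.s1 Cert.b Cert.b) (Cert.s6 (Cert.s1 Cert.b Cert.b) (Cert.s1 (Cert.s2 (Cert.s4 (Cert.s5 (Cert.s1 (Cert.s2 (Cert.s4 (Cert.s5 Cert.d (Cert.L 140)) (Cert.s5 Cert.d (Cert.s6 Cert.d Cert.d))) (Cert.s3 (Cert.s4 (Cert.s5 Cert.d (Cert.s6 Cert.d (Cert.L 164))) (Cert.s5 Cert.d (Cert.s6 Cert.d Cert.d))) (Cert.s4 (Cert.s5 Cert.c (Cert.s6 Cert.d (Cert.L 184))) (Cert.s5 Cert.c (Cert.s6 Cert.d Cert.d))))) (Cert.s2 (Cert.s4 (Cert.L 188) (Cert.s5 Cert.b (Cert.L 188))) (Cert.s3 (Cert.s4 (Cert.L 192) (Cert.L 196)) (Cert.L 196)))) (Cert.L 188)) (Cert.s5 (Cert.s1 (Cert.s2 (Cert.s4 (Cert.s5 Cert.b (Cert.s6 Cert.b Cert.d)) (Cert.s5 Cert.b Cert.d)) (Cert.s3 (Cert.s4 (Cert.s5 Cert.b (Cert.s6 Cert.b Cert.d)) (Cert.s5 Cert.b Cert.d)) (Cert.s4 (Cert.s5 Cert.b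 (Cert.s6 Cert.b Cert.d)) (Cert.s5 Cert.b Cert.d)))) (Cert.s2 (Cert.s4 (Cert.s5 Cert.b Cert.d) Cert.b) (Cert.L 196))) (Cert.L 196))) (Cert.s3 (Cert.s4 (Cert.s5 (Cert.s1 (Cert.s2 (Cert.s3 (Cert.s4 (Cert.s5 Cert.c (Cert.s6 Cert.d (Cert.L 196))) (Cert.s5 Cert.c (Cert.s6 Cert.d Cert.d))) (Cert.s4 (Cert.s5 Cert.c (Cert.s6 Cert.c (Cert.L 196))) (Cert.s5 Cert.c (Cert.s6 Cert.c Cert.d)))) (Cert.s3 (Cert.s4 (Cert.s5 Cert.c (Cert.s6 Cert.c (Cert.L 196))) (Cert.s5 Cert.c (Cert.L 236))) (Cert.s4 (Cert.s5 Cert.c (Cert.L 236)) (Cert.L 236)))) (Cert.L 192)) (Cert.L 192)) (Cert.s5 (Cert.s1 (Cert.s2 (Cert.s3 (Cert.s4 (Cert.s5 Cert.b (Cert.s6 Cert.b Cert.d)) (Cert.s5 Cert.b Cert.d)) (Cert.L 256)) (Cert.L 256)) (Cert.L 256)) (Cert.L 256))) (Cert.s4 (Cert.s5 (Cert.s1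 (Cert.s2 (Cert.s4 (Cert.s5 Cert.c (Cert.L 256)) (Cert.L 256)) (Cert.L 256)) (Cert.L 256)) (Cert.L 256)) (Cert.L 256)))) (Cert.L 256)))) (Cert.s5 Cert.b (Cert.s6 Cert.b (Cert.s1 (Cert.s2 (Cert.s5 Cert.b (Cert.L 256)) (Cert.L 256)) (Cert.L 256)))))))))) (Cert.s3 (Cert.s5 Cert.a (Cert.s6 Cert.a (Cert.s1 (Cert.s3 (Cert.s5 (Cert.s1 (Cert.s3 (Cert.s5 Cert.a (Cert.s6 Cert.a (Cert.s1 (Cert.L 64) (Cert.s2 (Cert.L 64) (Cert.s3 (Cert.L 64) Cert.a))))) (Cert.s4 (Cert.s5 Cert.a (Cert.s6 Cert.a (Cert.s1 (Cert.s3 Cert.a Cert.a) (Cert.s2 (Cert.s3 Cert.a Cert.a) Cert.a)))) Cert.b)) (Cert.s2 (Cert.s3 (Cert.s5 Cert.a (Cert.s6 Cert.a (Cert.s1 (Cert.s2 (Cert.s3 (Cert.L 64) (Cert.s4 (Cert.L 64) Cert.b)) (Cert.s3 (Cert.L 64) Cert.a)) Cert.b))) (Cert.s4 (Cert.s5 Cert.a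 (Cert.s6 Cert.a (Cert.s1 (Cert.s2 (Cert.s3 Cert.a Cert.a) Cert.a) Cert.b))) Cert.b)) (Cert.s3 Cert.a Cert.a))) (Cert.s6 (Cert.s1 (Cert.s3 (Cert.s5 (Cert.s6 Cert.a (Cert.s1 (Cert.L 64) (Cert.s2 (Cert.L 64) (Cert.s3 (Cert.L 64) Cert.a)))) (Cert.s6 Cert.a (Cert.s1 (Cert.L 64) (Cert.s2 (Cert.L 64) (Cert.s3 (Cert.L 64) Cert.a))))) (Cert.s4 (Cert.s5 (Cert.s6 Cert.a (Cert.s1 (Cert.s3 Cert.a Cert.a) (Cert.s2 (Cert.s3 Cert.a Cert.a) Cert.a))) (Cert.s6 Cert.a (Cert.s1 (Cert.s3 Cert.a Cert.a) (Cert.s2 (Cert.s3 Cert.a Cert.a) Cert.a)))) Cert.b)) (Cert.s2 (Cert.s3 (Cert.s5 (Cert.s6 Cert.a (Cert.s1 (Cert.s2 (Cert.s3 (Cert.L 64) (Cert.s4 (Cert.L 64) Cert.b)) (Cert.s3 (Cert.L 64) Cert.a)) Cert.b)) (Cert.s6 Cert.a (Cert.s1 (Cert.s2 (Cert.s3 (Cert.L 64) (Cert.s4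 (Cert.L 64) Cert.b)) (Cert.s3 (Cert.L 64) Cert.a)) Cert.b))) (Cert.s4 (Cert.s5 (Cert.s6 Cert.a (Cert.s1 (Cert.s2 (Cert.s3 Cert.a Cert.a) Cert.a) Cert.b)) (Cert.s6 Cert.a (Cert.s1 (Cert.s2 (Cert.s3 Cert.a Cert.a) Cert.a) Cert.b))) Cert.b)) (Cert.s3 Cert.a Cert.a))) t11)) (Cert.s4 (Cert.s5 (Cert.s1 (Cert.s3 Cert.a Cert.a) (Cert.s2 (Cert.s3 Cert.a Cert.a) Cert.a)) (Cert.s6 (Cert.s1 (Cert.s3 Cert.a Cert.a) (Cert.s2 (Cert.s3 Cert.a Cert.a) Cert.a)) t12)) (Cert.s5 Cert.b (Cert.s6 Cert.b (Cert.s1 (Cert.s3 (Cert.s5 (Cert.s1 (Cert.s3 (Cert.s5 Cert.b Cert.d) (Cert.s4 (Cert.s5 Cert.b Cert.d) (Cert.s5 Cert.b Cert.d))) (Cert.s2 (Cert.s3 (Cert.s5 Cert.b Cert.d) (Cert.s4 (Cert.s5 Cert.b Cert.d) (Cert.s5 Cert.b Cert.d))) (Cert.s3 (Cert.s5 Cert.a Cert.d) (Cert.L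 256)))) (Cert.s6 (Cert.s1 (Cert.s3 (Cert.s5 (Cert.s6 Cert.b Cert.d) (Cert.s6 Cert.b Cert.d)) (Cert.s4 (Cert.s5 (Cert.s6 Cert.b Cert.c) (Cert.s6 Cert.b Cert.d)) (Cert.s5 Cert.d (Cert.L 256)))) (Cert.s2 (Cert.s3 (Cert.s5 (Cert.s6 Cert.b Cert.d) (Cert.s6 Cert.b Cert.d)) (Cert.L 256)) (Cert.L 256))) (Cert.s1 (Cert.s3 (Cert.s5 Cert.d (Cert.s6 (Cert.s1 (Cert.s3 (Cert.s5 Cert.d Cert.d) (Cert.L 256)) (Cert.L 256)) (Cert.L 256))) (Cert.L 256)) (Cert.L 256)))) (Cert.s4 (Cert.s5 (Cert.s1 (Cert.s3 (Cert.s4 (Cert.s5 Cert.a Cert.d) (Cert.s5 Cert.a Cert.d)) (Cert.s4 (Cert.s5 Cert.a Cert.c) (Cert.L 256))) (Cert.s2 (Cert.s3 (Cert.s4 (Cert.s5 Cert.a Cert.d) (Cert.L 256)) (Cert.L 256)) (Cert.L 256))) (Cert.s6 (Cert.s1 (Cert.s3 (Cert.s4 (Cert.s5 (Cert.s6 Cert.a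 Cert.c) (Cert.L 256)) (Cert.L 256)) (Cert.L 256)) (Cert.L 256)) (Cert.L 256))) (Cert.L 256))) (Cert.s2 (Cert.s3 (Cert.s5 (Cert.s1 (Cert.s2 (Cert.s3 (Cert.s5 Cert.b Cert.d) (Cert.L 256)) (Cert.L 256)) Cert.b) (Cert.L 256)) (Cert.L 256)) (Cert.L 256))))))) (Cert.s2 (Cert.s3 (Cert.s5 (Cert.s1 Cert.b Cert.b) (Cert.s6 (Cert.s1 Cert.b Cert.b) (Cert.s1 (Cert.s2 (Cert.s3 (Cert.s5 (Cert.s1 (Cert.s2 (Cert.s3 (Cert.L 156) (Cert.s4 (Cert.s5 Cert.c (Cert.L 168)) (Cert.s5 Cert.c (Cert.s6 Cert.d Cert.d)))) (Cert.s3 (Cert.s5 Cert.c (Cert.L 168)) (Cert.s4 (Cert.s5 Cert.c (Cert.L 176)) (Cert.s5 Cert.c (Cert.L 184))))) (Cert.L 184)) (Cert.L 184)) (Cert.s4 (Cert.s5 (Cert.s1 (Cert.s2 (Cert.s3 (Cert.s4 (Cert.s5 Cert.c (Cert.s6 Cert.c (Cert.L 184))) (Cert.s5 Cert.c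 (Cert.s6 Cert.c Cert.d))) (Cert.s4 (Cert.s5 Cert.c (Cert.s6 Cert.c Cert.c)) (Cert.s5 Cert.c (Cert.L 204)))) (Cert.s3 (Cert.s4 (Cert.s5 Cert.c (Cert.L 204)) (Cert.L 224)) (Cert.L 228))) (Cert.L 228)) (Cert.L 184)) (Cert.s5 (Cert.s1 (Cert.s2 (Cert.s3 (Cert.s5 Cert.b (Cert.L 204)) (Cert.L 228)) (Cert.L 228)) (Cert.L 228)) (Cert.L 228)))) (Cert.L 196)) (Cert.L 196)))) (Cert.s4 (Cert.s5 (Cert.s1 Cert.b Cert.b) (Cert.s6 (Cert.s1 Cert.b Cert.b) (Cert.s1 (Cert.s2 (Cert.s3 (Cert.s4 (Cert.s5 (Cert.s1 (Cert.s2 (Cert.s3 (Cert.s4 (Cert.s5 Cert.c (Cert.L 200)) (Cert.L 224)) (Cert.L 224)) (Cert.L 224)) (Cert.L 224)) (Cert.L 224)) (Cert.L 224)) (Cert.L 224)) (Cert.L 224)) (Cert.L 224)))) (Cert.s5 Cert.b (Cert.L 252)))) (Cert.s3 (Cert.s5 Cert.a (Cert.L 252))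 (Cert.L 252)))))) (Cert.s4 (Cert.s5 Cert.a (Cert.s6 Cert.a (Cert.s1 (Cert.s4 (Cert.s5 Cert.a (Cert.s6 Cert.a (Cert.s1 (Cert.s4 (Cert.s5 (Cert.s1 (Cert.s4 (Cert.s5 Cert.a Cert.c) (Cert.s5 Cert.a Cert.c)) (Cert.s2 (Cert.s4 (Cert.s5 Cert.a Cert.c) (Cert.s5 Cert.a Cert.c)) (Cert.L 252))) (Cert.s6 (Cert.s1 (Cert.s4 (Cert.s5 Cert.c (Cert.s6 Cert.a Cert.c)) (Cert.s5 Cert.c (Cert.L 252))) (Cert.L 252)) (Cert.L 252))) (Cert.s5 (Cert.s1 (Cert.s4 (Cert.s5 Cert.a Cert.c) (Cert.s5 Cert.a Cert.c)) (Cert.L 252)) (Cert.L 252))) (Cert.L 252)))) (Cert.s5 Cert.a (Cert.s6 Cert.a (Cert.L 252)))) (Cert.s2 (Cert.s4 (Cert.s5 Cert.a (Cert.L 252)) (Cert.L 252)) (Cert.L 252))))) (Cert.s5 Cert.a (Cert.s6 Cert.a (Cert.s1 (Cert.s5 Cert.a (Cert.L 252)) (Cert.L 252)))))))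

def t14 : Cert := Cert.s3 (Cert.s4 (Cert.s5 (Cert.s6 (Cert.s1 (Cert.L 108) (Cert.s2 (Cert.L 108) (Cert.s3 (Cert.L 108) (Cert.s4 (Cert.L 108) (Cert.s5 (Cert.s6 (Cert.s1 (Cert.L 108) (Cert.s2 (Cert.L 108) (Cert.s3 (Cert.L 108) (Cert.s4 (Cert.L 108) (Cert.s5 Cert.c (Cert.s6 Cert.a Cert.c)))))) (Cert.s1 (Cert.L 108) (Cert.s2 (Cert.L 108) (Cert.s3 (Cert.L 108) (Cert.s4 (Cert.L 108) (Cert.s5 (Cert.s6 Cert.c Cert.c) (Cert.L 144))))))) (Cert.s6 (Cert.s1 (Cert.L 144) (Cert.s2 (Cert.L 144) (Cert.s3 (Cert.L 144) (Cert.s4 (Cert.L 144) (Cert.s5 (Cert.s6 Cert.a Cert.c) (Cert.L 160)))))) (Cert.L 160))))))) (Cert.L 160)) (Cert.L 160)) (Cert.s5 (Cert.s6 (Cert.s1 (Cert.L 68) (Cert.s2 (Cert.s3 (Cert.s4 (Cert.L 68) (Cert.s5 (Cert.L 72) (Cert.s6 (Cert.s1 (Cert.L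 72) (Cert.s2 (Cert.L 72) (Cert.s3 (Cert.L 72) (Cert.s4 (Cert.L 72) (Cert.s5 (Cert.s6 Cert.b Cert.d) (Cert.s6 Cert.b (Cert.L 92))))))) (Cert.L 92)))) (Cert.s4 (Cert.s5 (Cert.s6 (Cert.s1 (Cert.L 92) (Cert.s2 (Cert.L 92) (Cert.s3 (Cert.L 92) (Cert.s4 (Cert.L 92) (Cert.s5 (Cert.s6 Cert.a Cert.c) (Cert.s6 Cert.a (Cert.s1 (Cert.L 92) (Cert.s2 (Cert.L 92) (Cert.s3 Cert.c Cert.c))))))))) (Cert.s1 (Cert.L 92) (Cert.s2 (Cert.L 92) (Cert.s3 (Cert.L 92) (Cert.s4 (Cert.L 92) (Cert.s5 (Cert.s6 Cert.c (Cert.L 104)) (Cert.L 148))))))) (Cert.s6 (Cert.s1 (Cert.L 148) (Cert.s2 (Cert.L 148) (Cert.s3 (Cert.L 148) (Cert.s4 (Cert.L 148) (Cert.s5 (Cert.s6 Cert.a (Cert.L 180)) (Cert.s6 Cert.a (Cert.L 180))))))) (Cert.L 180))) (Cert.s5 (Cert.s6 (Cert.s1 (Cert.s2 (Cert.L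 64) (Cert.s3 (Cert.L 64) (Cert.s4 (Cert.L 64) (Cert.s5 Cert.d (Cert.s6 Cert.a Cert.d))))) (Cert.s2 (Cert.s3 (Cert.L 64) (Cert.s4 (Cert.s5 Cert.d (Cert.s6 Cert.b Cert.d)) (Cert.s5 Cert.d (Cert.s6 Cert.b Cert.d)))) (Cert.s3 (Cert.s4 (Cert.s5 Cert.d (Cert.s6 Cert.b Cert.d)) (Cert.s5 Cert.d (Cert.s6 Cert.b Cert.d))) (Cert.s4 (Cert.s5 Cert.d (Cert.s6 Cert.a Cert.d)) (Cert.s5 Cert.d (Cert.s6 Cert.a Cert.d)))))) (Cert.s1 (Cert.s2 (Cert.L 64) (Cert.s3 (Cert.L 64) (Cert.s4 (Cert.L 68) (Cert.s5 (Cert.s6 Cert.c Cert.d) (Cert.s6 Cert.d (Cert.L 168)))))) (Cert.s2 (Cert.s3 (Cert.L 64) (Cert.s4 (Cert.L 80) (Cert.s5 (Cert.s6 Cert.d Cert.d) (Cert.s6 Cert.d Cert.d)))) (Cert.s3 (Cert.s4 (Cert.L 80) (Cert.s5 (Cert.s6 Cert.d Cert.d) (Cert.s6 Cert.d Cert.d))) (Cert.s4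 (Cert.s5 (Cert.s6 Cert.c Cert.d) (Cert.s6 Cert.d (Cert.L 168))) (Cert.s5 (Cert.s6 Cert.c Cert.d) (Cert.s6 Cert.d Cert.d))))))) (Cert.s6 (Cert.s1 (Cert.s2 (Cert.L 76) (Cert.s3 (Cert.L 76) (Cert.s4 (Cert.s5 (Cert.s6 Cert.a (Cert.L 76)) (Cert.s6 Cert.a (Cert.L 84))) (Cert.s5 (Cert.s6 Cert.a (Cert.s1 (Cert.s2 (Cert.L 84) (Cert.s3 (Cert.L 84) (Cert.s4 (Cert.L 84) Cert.b))) Cert.d)) (Cert.s6 Cert.a (Cert.L 172)))))) (Cert.s2 (Cert.s3 (Cert.s4 (Cert.L 64) (Cert.s5 (Cert.s6 Cert.b Cert.d) (Cert.s6 Cert.b (Cert.L 84)))) (Cert.s4 (Cert.s5 (Cert.s6 Cert.b (Cert.s1 (Cert.L 84) (Cert.s2 (Cert.L 84) (Cert.s3 (Cert.L 84) (Cert.s4 (Cert.L 84) Cert.d))))) (Cert.s6 Cert.b (Cert.L 104))) (Cert.s5 (Cert.s6 Cert.b Cert.d) (Cert.s6 Cert.b (Cert.L 180))))) (Cert.s3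 (Cert.s4 (Cert.s5 (Cert.s6 Cert.b (Cert.s1 (Cert.L 180) (Cert.s2 (Cert.L 180) (Cert.s3 (Cert.L 180) (Cert.s4 (Cert.L 180) Cert.d))))) (Cert.s6 Cert.b (Cert.L 180))) (Cert.s5 (Cert.s6 Cert.b Cert.d) (Cert.s6 Cert.b (Cert.L 180)))) (Cert.s4 (Cert.s5 (Cert.s6 Cert.a (Cert.s1 (Cert.s2 (Cert.L 88) (Cert.s3 (Cert.L 88) (Cert.s4 (Cert.s5 Cert.c Cert.c) (Cert.s5 Cert.c Cert.c)))) (Cert.s2 (Cert.s3 (Cert.s4 (Cert.L 88) Cert.d) (Cert.s4 (Cert.s5 Cert.c Cert.d) Cert.d)) (Cert.s3 (Cert.s4 (Cert.s5 Cert.c Cert.d) Cert.d) (Cert.s4 (Cert.s5 Cert.c Cert.c) Cert.d))))) (Cert.s6 Cert.a (Cert.L 172))) (Cert.s5 (Cert.s6 Cert.a Cert.d) (Cert.s6 Cert.a (Cert.L 180))))))) (Cert.L 180))))) (Cert.s3 (Cert.s4 (Cert.s5 (Cert.s6 (Cert.s1 (Cert.L 64) (Cert.s2 (Cert.L 64)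 (Cert.s3 (Cert.L 64) (Cert.s4 (Cert.L 64) (Cert.s5 (Cert.s6 Cert.a Cert.c) (Cert.s6 Cert.a Cert.c)))))) (Cert.s1 (Cert.L 64) (Cert.s2 (Cert.L 64) (Cert.s3 (Cert.L 64) (Cert.s4 (Cert.L 64) (Cert.s5 (Cert.s6 Cert.c Cert.c) (Cert.L 152))))))) (Cert.s6 (Cert.s1 (Cert.L 152) (Cert.s2 (Cert.L 152) (Cert.s3 (Cert.L 152) (Cert.s4 (Cert.L 152) (Cert.s5 (Cert.s6 Cert.a (Cert.L 164)) (Cert.L 180)))))) (Cert.L 180))) (Cert.s5 (Cert.s6 (Cert.s1 (Cert.L 64) (Cert.s2 (Cert.s3 (Cert.s4 (Cert.L 64) (Cert.s5 Cert.d (Cert.s6 Cert.b Cert.d))) (Cert.s4 (Cert.s5 Cert.d (Cert.s6 Cert.a Cert.d)) (Cert.s5 Cert.d (Cert.s6 Cert.a Cert.d)))) (Cert.s3 (Cert.s4 (Cert.s5 Cert.d (Cert.s6 Cert.a Cert.d)) (Cert.s5 Cert.d (Cert.s6 Cert.a Cert.d))) (Cert.s4 (Cert.s5 Cert.d (Cert.s6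 Cert.a Cert.c)) (Cert.s5 Cert.d (Cert.s6 Cert.a Cert.c)))))) (Cert.s1 (Cert.L 68) (Cert.s2 (Cert.s3 (Cert.s4 (Cert.L 68) (Cert.s5 (Cert.L 80) (Cert.L 88))) (Cert.s4 (Cert.s5 (Cert.s6 Cert.c Cert.d) (Cert.L 128)) (Cert.s5 (Cert.s6 Cert.c Cert.d) (Cert.s6 Cert.d Cert.d)))) (Cert.s3 (Cert.s4 (Cert.s5 (Cert.s6 Cert.c Cert.d) (Cert.L 144)) (Cert.s5 (Cert.s6 Cert.c Cert.d) (Cert.L 188))) (Cert.s4 (Cert.s5 (Cert.s6 Cert.c Cert.c) (Cert.L 188)) (Cert.s5 (Cert.s6 Cert.c Cert.c) (Cert.s6 Cert.d Cert.d))))))) (Cert.s6 (Cert.s1 (Cert.s3 (Cert.L 64) (Cert.s4 (Cert.L 64) (Cert.s5 (Cert.s6 Cert.a (Cert.L 76)) (Cert.s6 Cert.a (Cert.L 84))))) (Cert.s2 (Cert.s3 (Cert.s4 (Cert.L 84) (Cert.s5 (Cert.s6 Cert.b Cert.d) (Cert.s6 Cert.b (Cert.L 100)))) (Cert.s4 (Cert.s5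 (Cert.s6 Cert.a (Cert.L 168)) (Cert.s6 Cert.a (Cert.L 168))) (Cert.s5 (Cert.s6 Cert.a Cert.d) (Cert.s6 Cert.a (Cert.L 172))))) (Cert.s3 (Cert.s4 (Cert.s5 (Cert.s6 Cert.a (Cert.L 172)) (Cert.L 180)) (Cert.s5 (Cert.s6 Cert.a Cert.d) (Cert.s6 Cert.a (Cert.L 180)))) (Cert.s4 (Cert.s5 (Cert.s6 Cert.a (Cert.L 188)) (Cert.s6 Cert.a (Cert.L 188))) (Cert.s5 (Cert.s6 Cert.a Cert.d) (Cert.s6 Cert.a (Cert.L 188))))))) (Cert.L 188)))) (Cert.s4 (Cert.s5 (Cert.s6 (Cert.s1 (Cert.s3 (Cert.L 64) (Cert.s4 (Cert.L 64) (Cert.s5 Cert.c (Cert.s6 Cert.a Cert.c)))) (Cert.s2 (Cert.s3 (Cert.s4 (Cert.L 64) (Cert.s5 (Cert.s6 Cert.a Cert.c) (Cert.s6 Cert.a (Cert.s1 (Cert.L 64) (Cert.s2 (Cert.L 64) Cert.c))))) (Cert.s4 (Cert.s5 Cert.c (Cert.s6 Cert.a Cert.c)) (Cert.s5 Cert.c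 (Cert.s6 Cert.a Cert.c)))) (Cert.s3 (Cert.s4 (Cert.s5 Cert.c (Cert.s6 Cert.a Cert.c)) (Cert.s5 Cert.c (Cert.s6 Cert.a Cert.c))) (Cert.s4 (Cert.s5 Cert.c (Cert.s6 Cert.a Cert.c)) (Cert.s5 Cert.c (Cert.s6 Cert.a Cert.c)))))) (Cert.s1 (Cert.s3 (Cert.L 64) (Cert.s4 (Cert.L 64) (Cert.s5 (Cert.s6 Cert.c Cert.c) (Cert.L 112)))) (Cert.s2 (Cert.s3 (Cert.s4 (Cert.L 112) (Cert.s5 (Cert.s6 Cert.c (Cert.L 112)) (Cert.L 132))) (Cert.s4 (Cert.s5 (Cert.s6 Cert.c Cert.c) (Cert.L 136)) (Cert.s5 (Cert.s6 Cert.c Cert.c) (Cert.L 184)))) (Cert.s3 (Cert.s4 (Cert.s5 (Cert.s6 Cert.c Cert.c) (Cert.L 184)) (Cert.s5 (Cert.s6 Cert.c Cert.c) (Cert.L 184))) (Cert.s4 (Cert.s5 (Cert.s6 Cert.c Cert.c) (Cert.L 184)) (Cert.s5 (Cert.s6 Cert.c Cert.c) (Cert.L 188))))))) (Cert.s6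 (Cert.s1 (Cert.s3 (Cert.L 64) (Cert.s4 (Cert.L 64) (Cert.s5 (Cert.s6 Cert.a (Cert.L 152)) (Cert.s6 Cert.a (Cert.L 152))))) (Cert.s2 (Cert.s3 (Cert.s4 (Cert.L 152) (Cert.s5 (Cert.s6 Cert.a (Cert.L 152)) (Cert.L 176))) (Cert.s4 (Cert.s5 (Cert.s6 Cert.a (Cert.L 176)) (Cert.L 176)) (Cert.s5 (Cert.s6 Cert.a (Cert.L 188)) (Cert.s6 Cert.a (Cert.L 188))))) (Cert.s3 (Cert.s4 (Cert.s5 (Cert.s6 Cert.a (Cert.L 188)) (Cert.L 188)) (Cert.s5 (Cert.s6 Cert.a (Cert.L 188)) (Cert.L 188))) (Cert.s4 (Cert.s5 (Cert.s6 Cert.a Cert.c) (Cert.L 188)) (Cert.s5 (Cert.s6 Cert.a Cert.c) (Cert.s6 Cert.a (Cert.L 188))))))) (Cert.L 188))) (Cert.s5 (Cert.s6 (Cert.s1 (Cert.s3 (Cert.s4 (Cert.L 68) (Cert.s5 Cert.d (Cert.s6 Cert.a Cert.d))) (Cert.s4 (Cert.s5 Cert.c (Cert.s6 Cert.a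 Cert.c)) (Cert.s5 Cert.c (Cert.s6 Cert.a Cert.c)))) (Cert.s2 (Cert.s3 (Cert.s4 (Cert.s5 Cert.d (Cert.s6 Cert.a Cert.d)) (Cert.s5 Cert.d (Cert.s6 Cert.a Cert.d))) (Cert.s4 (Cert.s5 Cert.c (Cert.s6 Cert.a Cert.c)) (Cert.s5 Cert.c (Cert.s6 Cert.a Cert.c)))) (Cert.s3 (Cert.s4 (Cert.s5 Cert.c (Cert.s6 Cert.a Cert.c)) (Cert.s5 Cert.c (Cert.s6 Cert.a Cert.c))) (Cert.s4 (Cert.s5 Cert.c (Cert.s6 Cert.a Cert.c)) (Cert.s5 Cert.c (Cert.s6 Cert.a Cert.c)))))) (Cert.s1 (Cert.s3 (Cert.s4 (Cert.L 72) (Cert.s5 (Cert.s6 Cert.c Cert.d) (Cert.s6 Cert.d (Cert.L 164)))) (Cert.s4 (Cert.s5 (Cert.s6 Cert.c Cert.c) (Cert.s6 (Cert.s1 (Cert.L 164) (Cert.s2 (Cert.s3 Cert.c Cert.c) Cert.c)) (Cert.L 164))) (Cert.s5 (Cert.s6 Cert.c Cert.c) (Cert.s6 Cert.d (Cert.L 176))))) (Cert.s2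 (Cert.s3 (Cert.s4 (Cert.s5 (Cert.s6 Cert.c Cert.d) (Cert.L 188)) (Cert.s5 (Cert.s6 Cert.c Cert.d) (Cert.s6 Cert.d Cert.d))) (Cert.s4 (Cert.s5 (Cert.s6 Cert.c Cert.c) (Cert.s6 Cert.d (Cert.L 188))) (Cert.s5 (Cert.s6 Cert.c Cert.c) (Cert.s6 Cert.d Cert.d)))) (Cert.s3 (Cert.s4 (Cert.s5 (Cert.s6 Cert.c Cert.c) (Cert.L 188)) (Cert.s5 (Cert.s6 Cert.c Cert.c) (Cert.L 192))) (Cert.s4 (Cert.s5 (Cert.s6 Cert.c Cert.c) (Cert.L 192)) (Cert.s5 (Cert.s6 Cert.c Cert.c) (Cert.L 192))))))) (Cert.s6 (Cert.s1 (Cert.s3 (Cert.s4 (Cert.s5 (Cert.s6 Cert.a (Cert.L 88)) (Cert.s6 Cert.a (Cert.L 88))) (Cert.s5 (Cert.s6 Cert.a (Cert.s1 (Cert.L 88) Cert.d)) (Cert.s6 Cert.a (Cert.L 172)))) (Cert.s4 (Cert.s5 (Cert.s6 Cert.a (Cert.s1 (Cert.L 72) (Cert.s2 (Cert.s3 (Cert.L 80)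 (Cert.s4 (Cert.s5 Cert.c Cert.c) (Cert.s5 Cert.c Cert.c))) (Cert.s3 (Cert.s4 (Cert.L 148) (Cert.s5 Cert.c Cert.c)) Cert.c)))) (Cert.s6 Cert.a (Cert.L 172))) (Cert.s5 (Cert.s6 Cert.a (Cert.s1 (Cert.s3 (Cert.s4 (Cert.L 64) Cert.b) (Cert.s4 (Cert.s5 Cert.c Cert.c) Cert.b)) Cert.d)) (Cert.s6 Cert.a (Cert.L 180))))) (Cert.s2 (Cert.s3 (Cert.s4 (Cert.s5 (Cert.s6 Cert.a (Cert.s1 (Cert.s2 (Cert.L 180) (Cert.L 188)) (Cert.s2 (Cert.s3 (Cert.L 164) (Cert.s4 (Cert.L 168) Cert.d)) (Cert.L 188)))) (Cert.s6 Cert.a (Cert.L 188))) (Cert.s5 (Cert.s6 Cert.a Cert.d) (Cert.s6 Cert.a (Cert.L 188)))) (Cert.s4 (Cert.s5 (Cert.s6 Cert.a (Cert.s1 (Cert.s2 (Cert.s3 (Cert.s4 (Cert.L 164) (Cert.s5 Cert.c Cert.c)) (Cert.s4 (Cert.s5 Cert.c Cert.c) (Cert.s5 Cert.c Cert.c))) (Cert.s3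 (Cert.L 188) Cert.c)) (Cert.s2 (Cert.s3 (Cert.s4 (Cert.s5 Cert.c Cert.c) Cert.d) (Cert.s4 (Cert.s5 Cert.c Cert.c) Cert.d)) (Cert.s3 (Cert.s4 (Cert.s5 Cert.c Cert.c) Cert.d) Cert.c)))) (Cert.s6 Cert.a (Cert.L 188))) (Cert.s5 (Cert.s6 Cert.a Cert.d) (Cert.s6 Cert.a (Cert.L 188))))) (Cert.s3 (Cert.s4 (Cert.s5 (Cert.s6 Cert.a (Cert.L 188)) (Cert.s6 Cert.a (Cert.L 188))) (Cert.s5 (Cert.s6 Cert.a Cert.d) (Cert.s6 Cert.a (Cert.L 188)))) (Cert.s4 (Cert.s5 (Cert.s6 Cert.a Cert.c) (Cert.s6 Cert.a (Cert.L 188))) (Cert.s5 (Cert.s6 Cert.a Cert.c) (Cert.L 244)))))) (Cert.L 184))))))) (Cert.L 184)) (Cert.s6 (Cert.s1 (Cert.L 184) (Cert.L 188)) (Cert.L 188)))) (Cert.s4 (Cert.s5 (Cert.s6 (Cert.s1 (Cert.L 64) (Cert.s2 (Cert.s4 (Cert.L 64) (Cert.s5 (Cert.s6 (Cert.s1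 (Cert.L 64) (Cert.s2 (Cert.L 64) (Cert.s3 (Cert.L 64) (Cert.s4 (Cert.L 64) (Cert.s5 Cert.c (Cert.s6 Cert.a Cert.c)))))) (Cert.s1 (Cert.L 64) (Cert.s2 (Cert.L 64) (Cert.s3 (Cert.L 64) (Cert.s4 (Cert.L 64) (Cert.s5 (Cert.s6 Cert.c Cert.c) (Cert.L 136))))))) (Cert.s6 (Cert.s1 (Cert.L 136) (Cert.s2 (Cert.L 136) (Cert.s3 (Cert.L 136) (Cert.s4 (Cert.L 136) (Cert.s5 (Cert.s6 Cert.a (Cert.L 144)) (Cert.L 152)))))) (Cert.L 152)))) (Cert.s3 (Cert.s4 (Cert.s5 (Cert.s6 (Cert.s1 (Cert.L 152) (Cert.s2 (Cert.L 64) (Cert.s3 Cert.a Cert.a))) (Cert.L 172)) (Cert.L 180)) (Cert.s5 (Cert.s6 (Cert.s1 (Cert.s3 (Cert.L 64) (Cert.s4 (Cert.L 64) (Cert.s5 Cert.c (Cert.s6 Cert.a Cert.c)))) (Cert.s2 (Cert.s3 (Cert.s4 (Cert.L 64) (Cert.s5 Cert.c (Cert.s6 Cert.a Cert.c)))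 (Cert.s4 (Cert.s5 Cert.c (Cert.s6 Cert.a Cert.c)) (Cert.s5 Cert.c (Cert.s6 Cert.a Cert.c)))) (Cert.s3 Cert.a Cert.a))) (Cert.s1 (Cert.s3 (Cert.L 64) (Cert.s4 (Cert.L 64) (Cert.s5 (Cert.s6 Cert.c Cert.c) (Cert.L 128)))) (Cert.s2 (Cert.s3 (Cert.s4 (Cert.L 128) (Cert.s5 (Cert.s6 Cert.c Cert.c) (Cert.L 144))) (Cert.s4 (Cert.L 184) (Cert.s5 (Cert.s6 Cert.c Cert.c) (Cert.L 184)))) (Cert.s3 (Cert.s4 (Cert.s5 Cert.c (Cert.L 184)) (Cert.s5 Cert.c (Cert.L 184))) (Cert.s4 (Cert.s5 Cert.c (Cert.L 184)) (Cert.s5 Cert.c (Cert.L 184))))))) (Cert.s6 (Cert.s1 (Cert.s3 (Cert.L 64) (Cert.s4 (Cert.L 64) (Cert.s5 (Cert.s6 Cert.a Cert.c) (Cert.L 148)))) (Cert.s2 (Cert.s3 (Cert.s4 (Cert.L 148) (Cert.s5 (Cert.s6 Cert.a (Cert.L 152)) (Cert.L 160))) (Cert.s4 (Cert.s5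 (Cert.s6 Cert.a Cert.c) (Cert.L 160)) (Cert.s5 (Cert.s6 Cert.a Cert.c) (Cert.L 180)))) (Cert.s3 Cert.a Cert.a))) (Cert.L 180)))) (Cert.s4 (Cert.s5 (Cert.s6 (Cert.s1 Cert.a (Cert.s2 Cert.a Cert.a)) (Cert.L 184)) (Cert.L 188)) (Cert.s5 (Cert.s6 (Cert.s1 Cert.a (Cert.s2 Cert.a Cert.a)) (Cert.s1 (Cert.s4 (Cert.L 176) (Cert.s5 Cert.c (Cert.L 176))) (Cert.s2 (Cert.s4 (Cert.s5 Cert.c (Cert.L 176)) (Cert.s5 Cert.c (Cert.L 180))) (Cert.s3 (Cert.s4 (Cert.L 188) (Cert.s5 Cert.c Cert.c)) (Cert.L 192))))) (Cert.s6 (Cert.s1 Cert.a (Cert.s2 Cert.a Cert.a)) (Cert.L 192))))))) (Cert.L 192)) (Cert.L 180)) (Cert.s5 (Cert.s6 (Cert.s1 (Cert.s4 (Cert.s5 (Cert.s6 (Cert.s1 (Cert.L 64) (Cert.s2 (Cert.L 64) (Cert.s3 (Cert.L 64) (Cert.s4 (Cert.L 64) (Cert.s5 Cert.c (Cert.s6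 Cert.a Cert.c)))))) (Cert.L 80)) (Cert.s6 (Cert.s1 (Cert.L 80) (Cert.s2 (Cert.L 80) (Cert.s3 (Cert.L 80) (Cert.s4 (Cert.L 80) (Cert.s5 (Cert.s6 Cert.a (Cert.L 128)) (Cert.s6 Cert.a (Cert.L 128))))))) (Cert.L 128))) (Cert.s5 (Cert.s6 (Cert.s1 (Cert.L 128) (Cert.s2 (Cert.L 64) (Cert.s3 (Cert.s4 (Cert.L 64) (Cert.s5 Cert.d (Cert.s6 Cert.a Cert.c))) (Cert.s4 (Cert.s5 Cert.c (Cert.s6 Cert.a Cert.c)) (Cert.s5 Cert.c (Cert.s6 Cert.a Cert.c)))))) (Cert.s1 (Cert.L 64) (Cert.s2 (Cert.L 64) (Cert.s3 (Cert.s4 (Cert.L 64) (Cert.s5 (Cert.s6 Cert.c Cert.c) (Cert.s6 (Cert.s1 Cert.d Cert.d) (Cert.L 172)))) (Cert.s4 (Cert.s5 (Cert.s6 Cert.c Cert.c) (Cert.s6 Cert.c (Cert.L 172))) (Cert.s5 (Cert.s6 Cert.c Cert.c) (Cert.s6 Cert.c (Cert.L 180)))))))) (Cert.s6 (Cert.s1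 (Cert.L 64) (Cert.s2 (Cert.L 68) (Cert.s3 (Cert.s4 (Cert.s5 (Cert.L 68) (Cert.s6 Cert.a (Cert.L 84))) (Cert.s5 (Cert.s6 Cert.a (Cert.s1 (Cert.L 84) (Cert.s2 (Cert.s3 (Cert.L 84) (Cert.s4 (Cert.L 84) Cert.d)) (Cert.s3 (Cert.s4 (Cert.L 84) Cert.d) (Cert.s4 (Cert.s5 Cert.c Cert.c) Cert.d))))) (Cert.s6 Cert.a (Cert.L 176)))) (Cert.s4 (Cert.s5 (Cert.s6 Cert.a (Cert.s1 (Cert.L 176) (Cert.s2 (Cert.L 68) (Cert.s3 Cert.c Cert.c)))) (Cert.s6 Cert.a (Cert.L 172))) (Cert.s5 (Cert.s6 Cert.a (Cert.s1 (Cert.s4 (Cert.L 64) (Cert.s5 Cert.c Cert.c)) (Cert.s2 (Cert.s4 (Cert.s5 Cert.c Cert.c) Cert.d) (Cert.s3 Cert.c Cert.c)))) (Cert.s6 Cert.a (Cert.L 180))))))) (Cert.L 180)))) (Cert.s2 (Cert.s4 (Cert.s5 (Cert.s6 (Cert.s1 (Cert.s2 (Cert.L 64) (Cert.s3 (Cert.s4 (Cert.L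 64) (Cert.s5 (Cert.s6 Cert.a Cert.c) (Cert.s6 Cert.a Cert.c))) (Cert.s4 (Cert.s5 Cert.c (Cert.s6 Cert.a Cert.c)) (Cert.s5 Cert.c (Cert.s6 Cert.a Cert.c))))) (Cert.s2 (Cert.s4 (Cert.L 64) (Cert.s5 (Cert.s6 Cert.b Cert.c) (Cert.s6 Cert.b (Cert.s1 (Cert.L 64) (Cert.s2 (Cert.L 64) (Cert.s3 (Cert.L 64) Cert.c)))))) (Cert.s3 (Cert.s4 (Cert.s5 (Cert.s6 Cert.a Cert.c) (Cert.s6 Cert.a Cert.c)) (Cert.s5 (Cert.s6 Cert.a Cert.c) (Cert.s6 Cert.a Cert.c))) (Cert.s4 (Cert.s5 Cert.c (Cert.s6 Cert.a Cert.c)) (Cert.s5 Cert.c (Cert.s6 Cert.a Cert.c)))))) (Cert.s1 (Cert.s2 (Cert.L 64) (Cert.s3 (Cert.s4 (Cert.L 64) (Cert.s5 (Cert.s6 Cert.c Cert.c) (Cert.L 108))) (Cert.s4 (Cert.s5 (Cert.s6 Cert.c Cert.c) (Cert.L 116)) (Cert.s5 (Cert.s6 Cert.c Cert.c) (Cert.L 184)))))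 (Cert.s2 (Cert.s4 (Cert.L 64) (Cert.s5 (Cert.s6 Cert.d (Cert.s1 (Cert.L 64) (Cert.s2 (Cert.L 64) (Cert.s3 (Cert.L 64) Cert.c)))) (Cert.s6 (Cert.s1 (Cert.L 64) (Cert.s2 (Cert.L 64) (Cert.s3 (Cert.L 64) (Cert.s4 (Cert.L 64) (Cert.s5 Cert.c Cert.c))))) (Cert.L 96)))) (Cert.s3 (Cert.s4 (Cert.s5 (Cert.s6 Cert.c Cert.c) (Cert.L 140)) (Cert.s5 (Cert.s6 Cert.c Cert.c) (Cert.s6 (Cert.s1 (Cert.s2 (Cert.s3 (Cert.L 140) Cert.c) Cert.c) (Cert.s2 (Cert.s3 (Cert.s4 (Cert.L 140) (Cert.s5 Cert.c Cert.c)) Cert.c) Cert.c)) (Cert.L 168)))) (Cert.s4 (Cert.s5 (Cert.s6 Cert.c Cert.c) (Cert.L 180)) (Cert.s5 (Cert.s6 Cert.c Cert.c) (Cert.s6 Cert.c (Cert.L 180)))))))) (Cert.s6 (Cert.s1 (Cert.s2 (Cert.L 64) (Cert.s3 (Cert.s4 (Cert.L 64) (Cert.s5 (Cert.s6 Cert.a (Cert.s1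 (Cert.L 64) (Cert.s2 (Cert.L 64) (Cert.s3 (Cert.L 64) (Cert.s4 (Cert.L 64) (Cert.s5 Cert.c Cert.c)))))) (Cert.s6 Cert.a (Cert.L 104)))) (Cert.s4 (Cert.s5 (Cert.s6 Cert.a (Cert.L 132)) (Cert.L 148)) (Cert.s5 (Cert.s6 Cert.a (Cert.s1 (Cert.L 184) (Cert.s2 (Cert.L 172) (Cert.s3 Cert.c Cert.c)))) (Cert.s6 Cert.a (Cert.L 172)))))) (Cert.s2 (Cert.s4 (Cert.L 64) (Cert.s5 (Cert.s6 Cert.b (Cert.s1 (Cert.L 64) (Cert.s2 (Cert.L 64) (Cert.s3 (Cert.L 64) (Cert.s4 (Cert.L 64) (Cert.s5 Cert.c Cert.d)))))) (Cert.s6 Cert.b (Cert.L 120)))) (Cert.s3 (Cert.s4 (Cert.s5 (Cert.s6 Cert.a (Cert.L 152)) (Cert.L 172)) (Cert.s5 (Cert.s6 Cert.a (Cert.s1 (Cert.s2 (Cert.s3 (Cert.L 172) (Cert.s4 (Cert.L 172) (Cert.s5 Cert.c Cert.c))) (Cert.s3 (Cert.s4 (Cert.L 172) (Cert.s5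 Cert.c Cert.c)) (Cert.s4 (Cert.L 172) (Cert.s5 Cert.c Cert.c)))) (Cert.s2 (Cert.s3 (Cert.s4 (Cert.L 172) (Cert.s5 Cert.c Cert.c)) (Cert.s4 (Cert.L 172) (Cert.s5 Cert.c Cert.c))) (Cert.s3 (Cert.s4 (Cert.L 172) (Cert.s5 Cert.c Cert.c)) (Cert.s4 (Cert.s5 Cert.c Cert.c) (Cert.s5 Cert.c Cert.c)))))) (Cert.s6 Cert.a (Cert.L 172)))) (Cert.s4 (Cert.s5 (Cert.s6 Cert.a (Cert.L 180)) (Cert.L 184)) (Cert.s5 (Cert.s6 Cert.a (Cert.s1 (Cert.s2 (Cert.s4 (Cert.L 184) (Cert.s5 Cert.c Cert.c)) (Cert.s3 Cert.c Cert.c)) (Cert.s2 (Cert.s4 (Cert.L 184) (Cert.s5 Cert.c Cert.c)) (Cert.s3 Cert.c Cert.c)))) (Cert.s6 Cert.a (Cert.L 184))))))) (Cert.L 184))) (Cert.s5 (Cert.s6 (Cert.s1 (Cert.s2 (Cert.s4 (Cert.L 64) (Cert.s5 Cert.d (Cert.s6 Cert.b Cert.d))) (Cert.s3 (Cert.s4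 (Cert.s5 (Cert.s6 Cert.a Cert.c) (Cert.s6 Cert.a Cert.c)) (Cert.s5 Cert.d (Cert.s6 Cert.a Cert.c))) (Cert.s4 (Cert.s5 Cert.c (Cert.s6 Cert.a Cert.c)) (Cert.s5 Cert.c (Cert.s6 Cert.a Cert.c))))) (Cert.s2 (Cert.s4 (Cert.s5 Cert.d (Cert.s6 Cert.b Cert.d)) (Cert.s5 Cert.d (Cert.s6 Cert.b Cert.d))) (Cert.s3 (Cert.s4 (Cert.s5 Cert.d (Cert.s6 Cert.a Cert.c)) (Cert.s5 Cert.d (Cert.s6 Cert.a Cert.c))) (Cert.s4 (Cert.s5 Cert.c (Cert.s6 Cert.a Cert.c)) (Cert.s5 Cert.c (Cert.s6 Cert.a Cert.c)))))) (Cert.s1 (Cert.s2 (Cert.s4 (Cert.L 68) (Cert.s5 (Cert.s6 Cert.d Cert.d) (Cert.s6 Cert.d (Cert.L 172)))) (Cert.s3 (Cert.s4 (Cert.s5 (Cert.s6 Cert.c Cert.c) (Cert.s6 (Cert.s1 (Cert.s2 (Cert.L 64) Cert.c) (Cert.s2 (Cert.s3 (Cert.L 64) Cert.c) Cert.c)) (Cert.L 168)))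 (Cert.s5 (Cert.s6 Cert.c Cert.c) (Cert.s6 Cert.d (Cert.L 180)))) (Cert.s4 (Cert.s5 (Cert.s6 Cert.c Cert.c) (Cert.s6 Cert.c (Cert.L 180))) (Cert.s5 (Cert.s6 Cert.c Cert.c) (Cert.s6 Cert.c (Cert.L 180)))))) (Cert.s2 (Cert.s4 (Cert.s5 (Cert.s6 Cert.d Cert.d) (Cert.s6 Cert.d (Cert.L 180))) (Cert.s5 (Cert.s6 Cert.d Cert.d) (Cert.s6 Cert.d Cert.d))) (Cert.s3 (Cert.s4 (Cert.s5 (Cert.s6 Cert.c Cert.c) (Cert.s6 Cert.d (Cert.L 180))) (Cert.s5 (Cert.s6 Cert.c Cert.c) (Cert.s6 Cert.d Cert.d))) (Cert.s4 (Cert.s5 (Cert.s6 Cert.c Cert.c) (Cert.s6 Cert.c (Cert.L 180))) (Cert.s5 (Cert.s6 Cert.c Cert.c) (Cert.s6 Cert.c Cert.d))))))) (Cert.s6 (Cert.s1 (Cert.s2 (Cert.s4 (Cert.s5 (Cert.s6 Cert.b (Cert.L 84)) (Cert.s6 Cert.b (Cert.L 88))) (Cert.s5 (Cert.s6 Cert.b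 (Cert.s1 (Cert.s2 (Cert.L 88) (Cert.s3 (Cert.L 88) (Cert.s4 (Cert.L 88) Cert.b))) Cert.d)) (Cert.s6 Cert.b (Cert.L 180)))) (Cert.s3 (Cert.s4 (Cert.s5 (Cert.s6 Cert.a (Cert.s1 (Cert.s2 (Cert.L 72) (Cert.s3 (Cert.L 72) (Cert.s4 (Cert.s5 Cert.c Cert.c) (Cert.s5 Cert.c Cert.c)))) (Cert.s2 (Cert.s3 (Cert.L 80) (Cert.s4 (Cert.s5 Cert.c Cert.c) (Cert.s5 Cert.c Cert.c))) (Cert.s3 (Cert.s4 (Cert.s5 Cert.c Cert.c) (Cert.s5 Cert.c Cert.c)) (Cert.s4 (Cert.s5 Cert.c Cert.c) (Cert.s5 Cert.c Cert.c)))))) (Cert.s6 Cert.a (Cert.L 172))) (Cert.s5 (Cert.s6 Cert.a (Cert.s1 (Cert.s2 (Cert.s3 (Cert.s4 (Cert.L 64) Cert.b) (Cert.s4 (Cert.s5 Cert.c Cert.c) Cert.b)) (Cert.s3 (Cert.s4 (Cert.s5 Cert.c Cert.c) Cert.b) (Cert.s4 (Cert.s5 Cert.c Cert.c) Cert.b))) Cert.d)) (Cert.s6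 Cert.a (Cert.L 184)))) (Cert.s4 (Cert.s5 (Cert.s6 Cert.a (Cert.s1 (Cert.s2 (Cert.s4 (Cert.L 88) (Cert.s5 Cert.c Cert.c)) (Cert.s3 Cert.c Cert.c)) (Cert.s2 (Cert.s4 (Cert.s5 Cert.c Cert.c) (Cert.s5 Cert.c Cert.c)) (Cert.s3 Cert.c Cert.c)))) (Cert.s6 Cert.a (Cert.L 180))) (Cert.s5 (Cert.s6 Cert.a (Cert.s1 (Cert.s2 (Cert.s4 (Cert.s5 Cert.c Cert.c) Cert.b) (Cert.s3 Cert.c Cert.c)) Cert.d)) (Cert.s6 Cert.a (Cert.L 184)))))) (Cert.s2 (Cert.s4 (Cert.s5 (Cert.s6 Cert.b (Cert.s1 (Cert.s2 (Cert.L 64) (Cert.s3 (Cert.s4 (Cert.L 64) (Cert.s5 Cert.c Cert.d)) (Cert.s4 (Cert.s5 Cert.c Cert.d) (Cert.s5 Cert.c Cert.d)))) (Cert.s2 (Cert.s4 (Cert.L 64) Cert.d) (Cert.s3 (Cert.s4 (Cert.s5 Cert.c Cert.d) Cert.d) (Cert.s4 (Cert.s5 Cert.c Cert.d) Cert.d))))) (Cert.s6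 Cert.b (Cert.L 176))) (Cert.s5 (Cert.s6 Cert.b Cert.d) (Cert.s6 Cert.b (Cert.L 188)))) (Cert.s3 (Cert.s4 (Cert.s5 (Cert.s6 Cert.a (Cert.s1 (Cert.s2 (Cert.s3 (Cert.s4 (Cert.s5 Cert.c Cert.c) (Cert.s5 Cert.c Cert.c)) (Cert.s4 (Cert.s5 Cert.c Cert.c) (Cert.s5 Cert.c Cert.c))) (Cert.s3 (Cert.s4 (Cert.s5 Cert.c Cert.c) (Cert.s5 Cert.c Cert.c)) (Cert.s4 (Cert.s5 Cert.c Cert.c) (Cert.s5 Cert.c Cert.c)))) (Cert.s2 (Cert.s3 (Cert.s4 (Cert.s5 Cert.c Cert.c) Cert.d) (Cert.s4 (Cert.s5 Cert.c Cert.c) Cert.d)) (Cert.s3 (Cert.s4 (Cert.s5 Cert.c Cert.c) Cert.d) (Cert.s4 (Cert.s5 Cert.c Cert.c) Cert.d))))) (Cert.s6 Cert.a (Cert.L 188))) (Cert.s5 (Cert.s6 Cert.a Cert.d) (Cert.s6 Cert.a (Cert.L 188)))) (Cert.s4 (Cert.s5 (Cert.s6 Cert.a (Cert.s1 (Cert.s2 (Cert.s4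 (Cert.s5 Cert.c Cert.c) (Cert.s5 Cert.c Cert.c)) (Cert.s3 Cert.c Cert.c)) (Cert.s2 (Cert.s4 (Cert.s5 Cert.c Cert.c) Cert.d) (Cert.L 232)))) (Cert.s6 Cert.a (Cert.L 184))) (Cert.s5 (Cert.s6 Cert.a Cert.d) (Cert.s6 Cert.a (Cert.L 184))))))) (Cert.L 184)))) (Cert.s3 (Cert.s4 (Cert.s5 (Cert.s6 (Cert.s1 (Cert.s3 (Cert.s4 (Cert.s5 Cert.c (Cert.s6 Cert.a Cert.c)) (Cert.s5 Cert.c (Cert.s6 Cert.a Cert.c))) (Cert.s4 (Cert.s5 Cert.c (Cert.s6 Cert.a Cert.c)) (Cert.s5 Cert.c (Cert.s6 Cert.a Cert.c)))) (Cert.s2 (Cert.s3 (Cert.s4 (Cert.s5 Cert.c (Cert.s6 Cert.a Cert.c)) (Cert.s5 Cert.c (Cert.s6 Cert.a Cert.c))) (Cert.s4 (Cert.s5 Cert.c (Cert.s6 Cert.a Cert.c)) (Cert.s5 Cert.c (Cert.s6 Cert.a Cert.c)))) (Cert.s3 Cert.a Cert.a))) (Cert.s1 (Cert.s3 (Cert.s4 (Cert.s5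 (Cert.s6 Cert.c Cert.c) (Cert.L 184)) (Cert.s5 (Cert.s6 Cert.c Cert.c) (Cert.s6 Cert.c (Cert.L 184)))) (Cert.s4 (Cert.s5 (Cert.s6 Cert.c Cert.c) (Cert.L 184)) (Cert.s5 (Cert.s6 Cert.c Cert.c) (Cert.L 184)))) (Cert.s2 (Cert.s3 (Cert.s4 (Cert.s5 (Cert.s6 Cert.c Cert.c) (Cert.L 184)) (Cert.s5 (Cert.s6 Cert.c Cert.c) (Cert.s6 Cert.c (Cert.L 184)))) (Cert.s4 (Cert.s5 (Cert.s6 Cert.c Cert.c) (Cert.L 184)) (Cert.s5 (Cert.s6 Cert.c Cert.c) (Cert.L 188)))) (Cert.s3 (Cert.s4 (Cert.s5 Cert.c (Cert.L 188)) (Cert.s5 Cert.c (Cert.L 188))) (Cert.s4 (Cert.s5 Cert.c (Cert.L 188)) (Cert.s5 Cert.c (Cert.L 188))))))) (Cert.s6 (Cert.s1 (Cert.s3 (Cert.s4 (Cert.s5 (Cert.s6 Cert.a (Cert.L 188)) (Cert.L 188)) (Cert.s5 (Cert.s6 Cert.a (Cert.s1 (Cert.L 172) (Cert.s2 (Cert.s3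 (Cert.L 184) Cert.c) Cert.c))) (Cert.s6 Cert.a (Cert.L 184)))) (Cert.s4 (Cert.s5 (Cert.s6 Cert.a Cert.c) (Cert.L 184)) (Cert.s5 (Cert.s6 Cert.a Cert.c) (Cert.s6 Cert.a (Cert.L 184))))) (Cert.s2 (Cert.s3 (Cert.s4 (Cert.s5 (Cert.s6 Cert.a (Cert.L 184)) (Cert.L 188)) (Cert.s5 (Cert.s6 Cert.a (Cert.s1 (Cert.s2 (Cert.s3 (Cert.s4 (Cert.L 188) (Cert.s5 Cert.c Cert.c)) Cert.c) Cert.c) (Cert.s2 (Cert.s3 (Cert.s4 (Cert.L 188) (Cert.s5 Cert.c Cert.c)) Cert.c) Cert.c))) (Cert.s6 Cert.a (Cert.L 188)))) (Cert.s4 (Cert.s5 (Cert.s6 Cert.a Cert.c) (Cert.L 188)) (Cert.s5 (Cert.s6 Cert.a Cert.c) (Cert.s6 Cert.a (Cert.L 188))))) (Cert.s3 Cert.a Cert.a))) (Cert.L 188))) (Cert.s5 (Cert.s6 (Cert.s1 (Cert.s3 (Cert.s4 (Cert.s5 Cert.c (Cert.s6 Cert.a Cert.c)) (Cert.s5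 Cert.c (Cert.s6 Cert.a Cert.c))) (Cert.s4 (Cert.s5 Cert.c (Cert.s6 Cert.a Cert.c)) (Cert.s5 Cert.c (Cert.s6 Cert.a Cert.c)))) (Cert.s2 (Cert.s3 (Cert.s4 (Cert.s5 Cert.c (Cert.s6 Cert.a Cert.c)) (Cert.s5 Cert.c (Cert.s6 Cert.a Cert.c))) (Cert.s4 (Cert.s5 Cert.c (Cert.s6 Cert.a Cert.c)) (Cert.s5 Cert.c (Cert.s6 Cert.a Cert.c)))) (Cert.s3 Cert.a Cert.a))) (Cert.s1 (Cert.s3 (Cert.s4 (Cert.s5 (Cert.s6 Cert.c Cert.c) (Cert.s6 Cert.c (Cert.L 188))) (Cert.s5 (Cert.s6 Cert.c Cert.c) (Cert.s6 Cert.c (Cert.L 188)))) (Cert.s4 (Cert.s5 (Cert.s6 Cert.c Cert.c) (Cert.s6 Cert.c Cert.c)) (Cert.s5 (Cert.s6 Cert.c Cert.c) (Cert.s6 Cert.c Cert.c)))) (Cert.s2 (Cert.s3 (Cert.s4 (Cert.s5 (Cert.s6 Cert.c Cert.c) (Cert.s6 Cert.c (Cert.L 188))) (Cert.s5 (Cert.s6 Cert.c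 Cert.c) (Cert.s6 Cert.c Cert.d))) (Cert.s4 (Cert.s5 (Cert.s6 Cert.c Cert.c) (Cert.L 196)) (Cert.L 228))) (Cert.s3 (Cert.s4 (Cert.s5 Cert.c (Cert.L 228)) (Cert.L 228)) (Cert.L 228))))) (Cert.s6 (Cert.s1 (Cert.s3 (Cert.s4 (Cert.s5 (Cert.s6 Cert.a (Cert.s1 (Cert.s3 (Cert.s4 (Cert.s5 Cert.c Cert.c) (Cert.s5 Cert.c Cert.c)) Cert.c) (Cert.s2 (Cert.s3 (Cert.s4 (Cert.s5 Cert.c Cert.c) (Cert.s5 Cert.c Cert.c)) Cert.c) Cert.c))) (Cert.s6 Cert.a (Cert.L 180))) (Cert.s5 (Cert.s6 Cert.a (Cert.s1 (Cert.s3 (Cert.s4 (Cert.s5 Cert.c Cert.c) Cert.b) Cert.c) Cert.d)) (Cert.s6 Cert.a (Cert.L 184)))) (Cert.s4 (Cert.s5 (Cert.s6 Cert.a Cert.c) (Cert.s6 Cert.a (Cert.L 184))) (Cert.s5 (Cert.s6 Cert.a Cert.c) (Cert.s6 Cert.a (Cert.L 184))))) (Cert.s2 (Cert.s3 (Cert.s4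 (Cert.s5 (Cert.s6 Cert.a (Cert.s1 (Cert.s2 (Cert.s3 (Cert.s4 (Cert.s5 Cert.c Cert.c) (Cert.s5 Cert.c Cert.c)) Cert.c) Cert.c) (Cert.s2 (Cert.s3 (Cert.s4 (Cert.s5 Cert.c Cert.c) Cert.d) Cert.c) Cert.c))) (Cert.s6 Cert.a (Cert.L 184))) (Cert.s5 (Cert.s6 Cert.a Cert.d) (Cert.s6 Cert.a (Cert.L 188)))) (Cert.s4 (Cert.s5 (Cert.s6 Cert.a Cert.c) (Cert.L 248)) (Cert.L 248))) (Cert.s3 Cert.a Cert.a))) (Cert.L 188)))) (Cert.s4 (Cert.s5 (Cert.s6 (Cert.s1 Cert.a (Cert.s2 Cert.a Cert.a)) (Cert.s1 (Cert.s4 (Cert.s5 Cert.c (Cert.L 188)) (Cert.s5 Cert.c (Cert.L 188))) (Cert.s2 (Cert.s4 (Cert.s5 Cert.c (Cert.L 188)) (Cert.s5 Cert.c (Cert.L 188))) (Cert.L 212)))) (Cert.s6 (Cert.s1 Cert.a (Cert.s2 Cert.a Cert.a)) (Cert.L 212))) (Cert.s5 (Cert.s6 (Cert.s1 Cert.a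 (Cert.s2 Cert.a Cert.a)) (Cert.s1 (Cert.s4 (Cert.s5 Cert.c (Cert.L 212)) (Cert.L 224)) (Cert.L 224))) (Cert.s6 (Cert.s1 Cert.a (Cert.L 224)) (Cert.L 224))))))) (Cert.L 188)) (Cert.s6 (Cert.s1 (Cert.L 184) (Cert.L 188)) (Cert.L 188))))

def t15 : Cert := Cert.s4 (Cert.s5 (Cert.s6 (Cert.s1 (Cert.s2 (Cert.s3 (Cert.L 64) (Cert.s4 (Cert.L 64) (Cert.s5 (Cert.s6 (Cert.s1 (Cert.L 64) (Cert.s2 (Cert.L 64) (Cert.s3 (Cert.L 64) (Cert.s4 (Cert.L 64) (Cert.s5 (Cert.s6 Cert.a Cert.c) (Cert.s6 Cert.a (Cert.L 148))))))) (Cert.L 148)) (Cert.L 156)))) (Cert.s3 (Cert.s4 (Cert.L 156) (Cert.s5 (Cert.s6 (Cert.s1 (Cert.L 64) (Cert.s2 (Cert.L 64) (Cert.s3 (Cert.L 64) (Cert.s4 (Cert.L 64) (Cert.s5 (Cert.s6 Cert.a Cert.c) (Cert.s6 Cert.a Cert.c)))))) (Cert.L 144)) (Cert.L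 156))) (Cert.s4 (Cert.s5 (Cert.s6 (Cert.s1 (Cert.L 64) (Cert.s2 (Cert.L 64) (Cert.s3 (Cert.L 64) (Cert.s4 (Cert.L 64) (Cert.s5 Cert.c (Cert.s6 Cert.a Cert.c)))))) (Cert.L 148)) (Cert.L 156)) (Cert.s5 (Cert.s6 (Cert.s1 (Cert.s2 (Cert.s3 (Cert.L 64) (Cert.s4 (Cert.L 64) (Cert.s5 Cert.c (Cert.s6 Cert.a Cert.c)))) (Cert.s3 (Cert.s4 (Cert.L 64) (Cert.s5 Cert.c (Cert.s6 Cert.a Cert.c))) (Cert.s4 (Cert.s5 Cert.c (Cert.s6 Cert.a Cert.c)) (Cert.s5 Cert.c (Cert.s6 Cert.a Cert.c))))) (Cert.s2 (Cert.s3 (Cert.s4 (Cert.L 64) (Cert.s5 (Cert.s6 Cert.a Cert.c) (Cert.s6 Cert.a (Cert.L 144)))) (Cert.s4 (Cert.s5 Cert.c (Cert.s6 Cert.a Cert.c)) (Cert.s5 Cert.c (Cert.s6 Cert.a Cert.c)))) (Cert.s3 (Cert.s4 (Cert.s5 Cert.c (Cert.s6 Cert.a Cert.c)) (Cert.s5 Cert.c (Cert.s6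 Cert.a Cert.c))) (Cert.s4 (Cert.s5 Cert.c (Cert.s6 Cert.a Cert.c)) (Cert.s5 Cert.c (Cert.s6 Cert.a Cert.c)))))) (Cert.s1 (Cert.s2 (Cert.L 160) (Cert.s3 (Cert.L 160) (Cert.s4 (Cert.L 160) (Cert.s5 (Cert.s6 Cert.c Cert.c) (Cert.L 168))))) (Cert.L 184))) (Cert.s6 (Cert.s1 (Cert.s2 (Cert.L 176) (Cert.s3 (Cert.L 176) (Cert.s4 (Cert.L 176) (Cert.s5 (Cert.s6 Cert.a Cert.c) (Cert.L 176))))) (Cert.L 188)) (Cert.L 188)))))) (Cert.s2 (Cert.s3 (Cert.s4 (Cert.L 64) (Cert.s5 (Cert.s6 (Cert.s1 (Cert.L 64) (Cert.s2 (Cert.L 64) (Cert.s3 (Cert.L 64) (Cert.s4 (Cert.L 64) (Cert.s5 (Cert.s6 Cert.b Cert.d) (Cert.L 148)))))) (Cert.L 148)) (Cert.L 148))) (Cert.s4 (Cert.s5 (Cert.s6 (Cert.s1 (Cert.L 148) (Cert.s2 (Cert.L 148) (Cert.s3 (Cert.L 148) (Cert.s4 (Cert.L 148)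 (Cert.s5 (Cert.s6 Cert.a Cert.c) (Cert.L 152)))))) (Cert.L 152)) (Cert.L 152)) (Cert.s5 (Cert.s6 (Cert.s1 (Cert.s2 (Cert.s3 (Cert.L 152) (Cert.s4 (Cert.L 152) (Cert.s5 (Cert.s6 Cert.c Cert.d) (Cert.s6 (Cert.s1 Cert.b Cert.b) (Cert.L 152))))) (Cert.s3 (Cert.s4 (Cert.L 152) (Cert.s5 (Cert.s6 Cert.c Cert.c) (Cert.s6 (Cert.s1 Cert.b Cert.b) (Cert.L 152)))) (Cert.s4 (Cert.s5 (Cert.s6 Cert.a Cert.c) (Cert.s6 Cert.a (Cert.L 152))) (Cert.s5 (Cert.s6 Cert.a Cert.c) (Cert.s6 Cert.a (Cert.L 172)))))) (Cert.s2 (Cert.s3 (Cert.s4 (Cert.L 172) (Cert.s5 (Cert.s6 Cert.b Cert.d) (Cert.L 172))) (Cert.s4 (Cert.s5 (Cert.s6 Cert.c (Cert.L 172)) (Cert.L 172)) (Cert.s5 (Cert.s6 Cert.b Cert.d) (Cert.s6 Cert.b (Cert.L 172))))) (Cert.s3 (Cert.s4 (Cert.s5 (Cert.s6 Cert.c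 Cert.c) (Cert.L 172)) (Cert.s5 (Cert.s6 Cert.b Cert.c) (Cert.s6 Cert.b (Cert.L 172)))) (Cert.s4 (Cert.s5 (Cert.s6 Cert.a Cert.c) (Cert.s6 Cert.a (Cert.L 172))) (Cert.s5 (Cert.s6 Cert.a Cert.c) (Cert.s6 Cert.a (Cert.L 176))))))) (Cert.L 176)) (Cert.L 176)))) (Cert.s3 (Cert.s4 (Cert.s5 (Cert.s6 (Cert.s1 (Cert.L 64) (Cert.s2 (Cert.L 64) (Cert.s3 (Cert.L 64) (Cert.s4 (Cert.L 64) (Cert.s5 (Cert.s6 Cert.a Cert.c) (Cert.L 152)))))) (Cert.L 152)) (Cert.L 152)) (Cert.s5 (Cert.s6 (Cert.s1 (Cert.s2 (Cert.s3 (Cert.L 152) (Cert.s4 (Cert.L 152) (Cert.s5 (Cert.s6 Cert.a Cert.c) (Cert.s6 Cert.a (Cert.L 152))))) (Cert.s3 (Cert.s4 (Cert.L 152) (Cert.s5 (Cert.s6 Cert.a Cert.c) (Cert.L 180))) (Cert.s4 (Cert.s5 (Cert.s6 Cert.a Cert.c) (Cert.L 180)) (Cert.s5 (Cert.s6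 Cert.a Cert.c) (Cert.s6 Cert.a Cert.c))))) (Cert.s2 (Cert.s3 (Cert.s4 (Cert.L 64) (Cert.s5 (Cert.s6 Cert.b Cert.c) (Cert.L 148))) (Cert.s4 (Cert.s5 (Cert.s6 Cert.a Cert.c) (Cert.L 152)) (Cert.s5 (Cert.s6 Cert.a Cert.c) (Cert.L 184)))) (Cert.s3 (Cert.s4 (Cert.s5 (Cert.s6 Cert.a Cert.c) (Cert.L 184)) (Cert.s5 (Cert.s6 Cert.a Cert.c) (Cert.L 184))) (Cert.s4 (Cert.s5 (Cert.s6 Cert.a Cert.c) (Cert.L 184)) (Cert.s5 (Cert.s6 Cert.a Cert.c) (Cert.L 188)))))) (Cert.L 188)) (Cert.L 188))) (Cert.s4 (Cert.s5 (Cert.s6 (Cert.s1 (Cert.s2 (Cert.s3 (Cert.L 64) (Cert.s4 (Cert.L 64) (Cert.s5 Cert.c (Cert.L 172)))) (Cert.s3 (Cert.s4 (Cert.L 64) (Cert.s5 Cert.c (Cert.L 168))) (Cert.s4 (Cert.s5 Cert.c (Cert.L 172)) (Cert.s5 Cert.c (Cert.L 184))))) (Cert.s2 (Cert.s3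 (Cert.s4 (Cert.L 64) (Cert.s5 (Cert.s6 Cert.a Cert.c) (Cert.L 148))) (Cert.s4 (Cert.s5 Cert.c (Cert.L 152)) (Cert.s5 Cert.c (Cert.L 176)))) (Cert.s3 (Cert.s4 (Cert.s5 Cert.c (Cert.L 176)) (Cert.s5 Cert.c (Cert.L 176))) (Cert.s4 (Cert.s5 Cert.c (Cert.L 176)) (Cert.s5 Cert.c (Cert.L 184)))))) (Cert.L 184)) (Cert.L 184)) (Cert.s5 (Cert.s6 (Cert.s1 (Cert.s2 (Cert.s3 (Cert.s4 (Cert.s5 (Cert.s6 Cert.a Cert.c) (Cert.L 184)) (Cert.s5 (Cert.s6 Cert.a Cert.c) (Cert.s6 Cert.a (Cert.L 184)))) (Cert.s4 (Cert.s5 Cert.c (Cert.s6 Cert.a Cert.c)) (Cert.s5 Cert.c (Cert.s6 Cert.a Cert.c)))) (Cert.s3 (Cert.s4 (Cert.s5 Cert.c (Cert.s6 Cert.a Cert.c)) (Cert.s5 Cert.c (Cert.s6 Cert.a Cert.c))) (Cert.s4 (Cert.s5 Cert.c (Cert.s6 Cert.a Cert.c)) (Cert.s5 Cert.c (Cert.s6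 Cert.a Cert.c))))) (Cert.s2 (Cert.s3 (Cert.s4 (Cert.s5 (Cert.s6 Cert.a Cert.c) (Cert.L 184)) (Cert.s5 (Cert.s6 Cert.a Cert.c) (Cert.s6 Cert.a (Cert.L 184)))) (Cert.s4 (Cert.s5 Cert.c (Cert.L 188)) (Cert.s5 Cert.c (Cert.L 192)))) (Cert.s3 (Cert.s4 (Cert.s5 Cert.c (Cert.L 192)) (Cert.s5 Cert.c (Cert.L 192))) (Cert.s4 (Cert.s5 Cert.c (Cert.L 192)) (Cert.s5 Cert.c (Cert.L 192)))))) (Cert.L 192)) (Cert.L 192)))))) (Cert.L 192)) (Cert.L 192)) (Cert.s5 (Cert.s6 (Cert.s1 (Cert.s2 (Cert.s3 (Cert.s4 (Cert.s5 (Cert.s6 (Cert.s1 (Cert.L 64) (Cert.s2 (Cert.L 64) (Cert.s3 (Cert.L 64) (Cert.s4 (Cert.L 64) (Cert.s5 Cert.d (Cert.s6 Cert.b Cert.d)))))) (Cert.L 144)) (Cert.L 176)) (Cert.s5 (Cert.s6 (Cert.s1 (Cert.s2 (Cert.L 68) (Cert.s3 (Cert.s4 (Cert.L 68) Cert.b)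 (Cert.s4 (Cert.s5 Cert.d (Cert.s6 Cert.b Cert.d)) Cert.b))) Cert.b) (Cert.s1 (Cert.s2 (Cert.L 72) (Cert.s3 (Cert.L 80) (Cert.s4 (Cert.L 84) (Cert.s5 Cert.d (Cert.L 176))))) (Cert.s2 (Cert.s3 (Cert.L 84) (Cert.s4 (Cert.s5 Cert.d (Cert.L 96)) (Cert.s5 Cert.d (Cert.L 172)))) (Cert.s3 (Cert.s4 (Cert.L 172) (Cert.s5 Cert.d (Cert.L 172))) (Cert.s4 (Cert.s5 Cert.d (Cert.L 172)) (Cert.s5 Cert.d (Cert.L 180))))))) (Cert.s6 (Cert.s1 (Cert.s2 (Cert.s3 (Cert.L 64) (Cert.s4 (Cert.L 64) Cert.b)) (Cert.s3 (Cert.s4 (Cert.L 64) Cert.b) (Cert.s4 (Cert.s5 (Cert.s6 Cert.b (Cert.L 104)) (Cert.L 128)) Cert.b))) Cert.b) (Cert.L 168)))) (Cert.s4 (Cert.s5 (Cert.s6 (Cert.s1 (Cert.s2 (Cert.s3 (Cert.L 64) (Cert.s4 (Cert.L 64) (Cert.s5 (Cert.s6 Cert.b Cert.d) (Cert.s6 Cert.b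 Cert.d)))) (Cert.s3 (Cert.s4 (Cert.L 64) (Cert.s5 (Cert.s6 Cert.b Cert.c) (Cert.s6 Cert.b Cert.d))) (Cert.s4 (Cert.s5 (Cert.s6 Cert.a Cert.c) (Cert.s6 Cert.a (Cert.s1 (Cert.L 64) (Cert.s2 (Cert.L 64) (Cert.s3 Cert.c Cert.c))))) (Cert.s5 (Cert.s6 Cert.a Cert.c) (Cert.s6 Cert.a Cert.d))))) (Cert.s2 (Cert.s3 (Cert.s4 (Cert.L 64) (Cert.s5 Cert.d (Cert.s6 Cert.b Cert.d))) (Cert.s4 (Cert.s5 (Cert.s6 Cert.b Cert.d) (Cert.s6 Cert.b (Cert.L 160))) (Cert.s5 Cert.d (Cert.s6 Cert.b Cert.d)))) (Cert.s3 (Cert.s4 (Cert.s5 (Cert.s6 Cert.b Cert.c) (Cert.s6 Cert.b (Cert.L 160))) (Cert.s5 Cert.d (Cert.s6 Cert.b Cert.d))) (Cert.s4 (Cert.s5 (Cert.s6 Cert.a Cert.c) (Cert.s6 Cert.a (Cert.s1 (Cert.s2 (Cert.L 172) (Cert.s3 Cert.c Cert.c)) (Cert.L 184)))) (Cert.s5 Cert.d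 (Cert.s6 Cert.a Cert.d)))))) (Cert.s1 (Cert.s2 (Cert.s3 (Cert.L 64) (Cert.s4 (Cert.L 64) (Cert.s5 (Cert.s6 Cert.d Cert.d) (Cert.L 108)))) (Cert.s3 (Cert.s4 (Cert.L 108) (Cert.s5 (Cert.s6 Cert.d Cert.d) (Cert.L 108))) (Cert.s4 (Cert.s5 (Cert.s6 Cert.c (Cert.L 108)) (Cert.L 112)) (Cert.s5 (Cert.s6 Cert.c Cert.d) (Cert.L 176))))) (Cert.s2 (Cert.s3 (Cert.L 176) (Cert.s4 (Cert.L 176) (Cert.s5 (Cert.s6 Cert.d Cert.d) (Cert.L 176)))) (Cert.s3 (Cert.s4 (Cert.L 176) (Cert.s5 (Cert.s6 Cert.d Cert.d) (Cert.L 176))) (Cert.s4 (Cert.s5 (Cert.s6 Cert.c (Cert.L 176)) (Cert.L 176)) (Cert.s5 (Cert.s6 Cert.c Cert.d) (Cert.L 176))))))) (Cert.s6 (Cert.s1 (Cert.s2 (Cert.s3 (Cert.L 64) (Cert.s4 (Cert.L 64) (Cert.s5 (Cert.s6 Cert.b (Cert.L 128)) (Cert.L 148)))) (Cert.s3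 (Cert.s4 (Cert.L 148) (Cert.s5 (Cert.s6 Cert.b (Cert.L 148)) (Cert.L 148))) (Cert.s4 (Cert.s5 (Cert.s6 Cert.a (Cert.L 148)) (Cert.L 148)) (Cert.s5 (Cert.s6 Cert.a (Cert.L 176)) (Cert.s6 Cert.a (Cert.L 176)))))) (Cert.s2 (Cert.s3 (Cert.s4 (Cert.L 176) (Cert.s5 (Cert.s6 Cert.b (Cert.L 176)) (Cert.L 176))) (Cert.s4 (Cert.L 176) (Cert.s5 (Cert.s6 Cert.b (Cert.L 176)) (Cert.L 176)))) (Cert.s3 (Cert.s4 (Cert.L 176) (Cert.s5 (Cert.s6 Cert.b (Cert.L 176)) (Cert.L 176))) (Cert.s4 (Cert.s5 (Cert.s6 Cert.a (Cert.L 176)) (Cert.L 176)) (Cert.s5 (Cert.s6 Cert.a (Cert.L 180)) (Cert.L 180)))))) (Cert.L 180))) (Cert.s5 (Cert.s6 (Cert.s1 (Cert.s2 (Cert.s3 (Cert.s4 (Cert.s5 Cert.d (Cert.s6 Cert.b Cert.d)) Cert.b) (Cert.s4 (Cert.s5 Cert.d (Cert.s6 Cert.b Cert.d))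 Cert.b)) (Cert.s3 (Cert.s4 (Cert.s5 Cert.d (Cert.s6 Cert.b Cert.d)) Cert.b) (Cert.s4 (Cert.s5 Cert.d (Cert.s6 Cert.a Cert.d)) Cert.b))) Cert.b) (Cert.s1 (Cert.s2 (Cert.s3 (Cert.s4 (Cert.L 80) (Cert.s5 Cert.d (Cert.s6 Cert.d Cert.d))) (Cert.s4 (Cert.s5 (Cert.s6 Cert.d Cert.d) (Cert.s6 Cert.d (Cert.L 160))) (Cert.s5 Cert.d (Cert.s6 Cert.d Cert.d)))) (Cert.s3 (Cert.s4 (Cert.s5 (Cert.s6 Cert.d Cert.d) (Cert.L 176)) (Cert.s5 Cert.d (Cert.s6 Cert.d Cert.d))) (Cert.s4 (Cert.s5 (Cert.s6 Cert.c Cert.d) (Cert.s6 Cert.d (Cert.L 176))) (Cert.s5 Cert.d (Cert.s6 Cert.d Cert.d))))) (Cert.s2 (Cert.s3 (Cert.s4 (Cert.s5 Cert.d (Cert.L 176)) (Cert.s5 Cert.d (Cert.L 184))) (Cert.s4 (Cert.s5 Cert.d (Cert.L 184)) (Cert.s5 Cert.d (Cert.L 188)))) (Cert.s3 (Cert.s4 (Cert.s5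 Cert.d (Cert.L 188)) (Cert.s5 Cert.d (Cert.L 188))) (Cert.s4 (Cert.s5 Cert.d (Cert.L 188)) (Cert.s5 Cert.d (Cert.L 188))))))) (Cert.s6 (Cert.s1 (Cert.s2 (Cert.s3 (Cert.s4 (Cert.s5 (Cert.s6 Cert.b (Cert.L 96)) (Cert.L 136)) Cert.b) (Cert.s4 (Cert.s5 (Cert.s6 Cert.b (Cert.s1 (Cert.s2 (Cert.s3 (Cert.L 136) (Cert.s4 (Cert.L 136) Cert.b)) (Cert.s3 (Cert.L 136) (Cert.s4 (Cert.L 164) Cert.b))) Cert.b)) (Cert.s6 Cert.b (Cert.L 168))) Cert.b)) (Cert.s3 (Cert.s4 (Cert.s5 (Cert.s6 Cert.b (Cert.L 176)) (Cert.s6 Cert.b (Cert.L 176))) Cert.b) (Cert.s4 (Cert.s5 (Cert.s6 Cert.a (Cert.s1 (Cert.s2 (Cert.s3 (Cert.s4 (Cert.L 176) Cert.b) (Cert.s4 (Cert.s5 Cert.c Cert.d) Cert.b)) (Cert.s3 (Cert.s4 (Cert.L 176) Cert.b) (Cert.s4 (Cert.s5 Cert.c Cert.c) Cert.b))) Cert.b))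 (Cert.s6 Cert.a (Cert.L 176))) Cert.b))) Cert.b) (Cert.L 180))))) (Cert.s3 (Cert.s4 (Cert.s5 (Cert.s6 (Cert.s1 (Cert.s2 (Cert.s3 (Cert.L 64) (Cert.s4 (Cert.L 64) (Cert.s5 (Cert.s6 Cert.a Cert.c) (Cert.s6 Cert.a Cert.d)))) (Cert.s3 (Cert.s4 (Cert.L 64) (Cert.s5 (Cert.s6 Cert.a Cert.c) (Cert.s6 Cert.a Cert.d))) (Cert.s4 (Cert.s5 (Cert.s6 Cert.a Cert.c) (Cert.s6 Cert.a Cert.c)) (Cert.s5 (Cert.s6 Cert.a Cert.c) (Cert.s6 Cert.a Cert.c))))) (Cert.s2 (Cert.s3 (Cert.s4 (Cert.L 64) (Cert.s5 Cert.d (Cert.s6 Cert.b Cert.d))) (Cert.s4 (Cert.s5 (Cert.s6 Cert.a Cert.c) (Cert.s6 Cert.a (Cert.L 144))) (Cert.s5 Cert.d (Cert.s6 Cert.a Cert.d)))) (Cert.s3 (Cert.s4 (Cert.s5 (Cert.s6 Cert.a Cert.c) (Cert.s6 Cert.a (Cert.L 148))) (Cert.s5 Cert.d (Cert.s6 Cert.a Cert.d)))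 (Cert.s4 (Cert.s5 (Cert.s6 Cert.a Cert.c) (Cert.s6 Cert.a Cert.c)) (Cert.s5 Cert.d (Cert.s6 Cert.a Cert.c)))))) (Cert.s1 (Cert.s2 (Cert.s3 (Cert.L 148) (Cert.s4 (Cert.L 148) (Cert.s5 (Cert.s6 Cert.c Cert.d) (Cert.L 148)))) (Cert.s3 (Cert.s4 (Cert.L 148) (Cert.s5 (Cert.s6 Cert.c Cert.d) (Cert.L 148))) (Cert.s4 (Cert.L 168) (Cert.s5 (Cert.s6 Cert.c Cert.c) (Cert.L 172))))) (Cert.s2 (Cert.s3 (Cert.L 172) (Cert.s4 (Cert.L 172) (Cert.s5 (Cert.s6 Cert.c Cert.d) (Cert.L 172)))) (Cert.s3 (Cert.L 184) (Cert.s4 (Cert.L 184) (Cert.s5 (Cert.s6 Cert.c Cert.c) (Cert.L 184))))))) (Cert.s6 (Cert.s1 (Cert.s2 (Cert.s3 (Cert.L 64) (Cert.s4 (Cert.L 64) (Cert.s5 (Cert.s6 Cert.a (Cert.L 124)) (Cert.L 136)))) (Cert.s3 (Cert.s4 (Cert.L 136) (Cert.s5 (Cert.s6 Cert.a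 (Cert.L 136)) (Cert.L 140))) (Cert.s4 (Cert.s5 (Cert.s6 Cert.a (Cert.L 140)) (Cert.L 140)) (Cert.s5 (Cert.s6 Cert.a (Cert.L 176)) (Cert.L 176))))) (Cert.s2 (Cert.s3 (Cert.L 176) (Cert.s4 (Cert.L 176) (Cert.s5 (Cert.s6 Cert.a (Cert.L 176)) (Cert.L 176)))) (Cert.s3 (Cert.s4 (Cert.L 176) (Cert.s5 (Cert.s6 Cert.a (Cert.L 176)) (Cert.L 176))) (Cert.s4 (Cert.s5 (Cert.s6 Cert.a (Cert.L 176)) (Cert.L 176)) (Cert.s5 (Cert.s6 Cert.a (Cert.L 176)) (Cert.L 180)))))) (Cert.L 180))) (Cert.s5 (Cert.s6 (Cert.s1 (Cert.s2 (Cert.s3 (Cert.s4 (Cert.s5 Cert.d (Cert.s6 Cert.b Cert.d)) Cert.b) (Cert.s4 (Cert.s5 Cert.d (Cert.s6 Cert.a Cert.d)) Cert.b)) (Cert.s3 (Cert.s4 (Cert.s5 Cert.d (Cert.s6 Cert.a Cert.d)) Cert.b) (Cert.s4 (Cert.s5 Cert.d (Cert.s6 Cert.a Cert.c))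 Cert.b))) Cert.b) (Cert.s1 (Cert.s2 (Cert.s3 (Cert.s4 (Cert.s5 (Cert.s6 Cert.d Cert.d) (Cert.L 180)) (Cert.s5 Cert.d (Cert.L 180))) (Cert.s4 (Cert.s5 (Cert.s6 Cert.c Cert.d) (Cert.L 180)) (Cert.s5 Cert.d (Cert.s6 Cert.d Cert.d)))) (Cert.s3 (Cert.s4 (Cert.s5 (Cert.s6 Cert.c Cert.d) (Cert.L 180)) (Cert.s5 Cert.d (Cert.L 184))) (Cert.s4 (Cert.s5 (Cert.s6 Cert.c Cert.c) (Cert.L 184)) (Cert.s5 Cert.d (Cert.L 188))))) (Cert.s2 (Cert.s3 (Cert.s4 (Cert.s5 Cert.d (Cert.L 188)) (Cert.s5 Cert.d (Cert.L 188))) (Cert.s4 (Cert.s5 Cert.d (Cert.L 188)) (Cert.s5 Cert.d (Cert.L 188)))) (Cert.s3 (Cert.s4 (Cert.s5 Cert.d (Cert.L 188)) (Cert.s5 Cert.d (Cert.L 188))) (Cert.s4 (Cert.s5 Cert.d (Cert.L 188)) (Cert.s5 Cert.d (Cert.L 188))))))) (Cert.s6 (Cert.s1 (Cert.s2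 (Cert.s3 (Cert.s4 (Cert.s5 (Cert.s6 Cert.b (Cert.L 188)) (Cert.L 188)) Cert.b) (Cert.s4 (Cert.s5 (Cert.s6 Cert.a (Cert.L 188)) (Cert.s6 Cert.a (Cert.L 188))) Cert.b)) (Cert.s3 (Cert.s4 (Cert.s5 (Cert.s6 Cert.a (Cert.L 188)) (Cert.L 188)) Cert.b) (Cert.s4 (Cert.s5 (Cert.s6 Cert.a (Cert.L 188)) (Cert.s6 Cert.a (Cert.L 188))) Cert.b))) Cert.b) (Cert.L 188)))) (Cert.s4 (Cert.s5 (Cert.s6 (Cert.s1 (Cert.s2 (Cert.s3 (Cert.s4 (Cert.s5 (Cert.s6 Cert.a Cert.c) (Cert.s6 Cert.a (Cert.L 168))) (Cert.s5 (Cert.s6 Cert.a Cert.c) (Cert.s6 Cert.a Cert.d))) (Cert.s4 (Cert.s5 Cert.c (Cert.s6 Cert.a Cert.c)) (Cert.s5 Cert.c (Cert.s6 Cert.a Cert.c)))) (Cert.s3 (Cert.s4 (Cert.s5 Cert.c (Cert.s6 Cert.a Cert.c)) (Cert.s5 Cert.c (Cert.s6 Cert.a Cert.c))) (Cert.s4 (Cert.s5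 Cert.c (Cert.s6 Cert.a Cert.c)) (Cert.s5 Cert.c (Cert.s6 Cert.a Cert.c))))) (Cert.s2 (Cert.s3 (Cert.s4 (Cert.s5 (Cert.s6 Cert.a Cert.c) (Cert.s6 Cert.a (Cert.L 180))) (Cert.s5 Cert.d (Cert.s6 Cert.a Cert.d))) (Cert.s4 (Cert.s5 Cert.c (Cert.s6 Cert.a Cert.c)) (Cert.s5 Cert.c (Cert.s6 Cert.a Cert.c)))) (Cert.s3 (Cert.s4 (Cert.s5 Cert.c (Cert.s6 Cert.a Cert.c)) (Cert.s5 Cert.c (Cert.s6 Cert.a Cert.c))) (Cert.s4 (Cert.s5 Cert.c (Cert.s6 Cert.a Cert.c)) (Cert.s5 Cert.c (Cert.s6 Cert.a Cert.c)))))) (Cert.s1 (Cert.s2 (Cert.s3 (Cert.s4 (Cert.L 156) (Cert.s5 (Cert.s6 Cert.c Cert.d) (Cert.L 172))) (Cert.s4 (Cert.s5 (Cert.s6 Cert.c Cert.c) (Cert.L 172)) (Cert.s5 (Cert.s6 Cert.c Cert.c) (Cert.L 184)))) (Cert.s3 (Cert.s4 (Cert.s5 (Cert.s6 Cert.c Cert.c) (Cert.L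 184)) (Cert.s5 (Cert.s6 Cert.c Cert.c) (Cert.L 184))) (Cert.s4 (Cert.s5 (Cert.s6 Cert.c Cert.c) (Cert.L 184)) (Cert.s5 (Cert.s6 Cert.c Cert.c) (Cert.L 188))))) (Cert.s2 (Cert.s3 (Cert.s4 (Cert.L 188) (Cert.s5 (Cert.s6 Cert.c Cert.d) (Cert.L 188))) (Cert.s4 (Cert.L 188) (Cert.s5 (Cert.s6 Cert.c Cert.c) (Cert.L 188)))) (Cert.s3 (Cert.s4 (Cert.L 188) (Cert.s5 (Cert.s6 Cert.c Cert.c) (Cert.L 188))) (Cert.L 192))))) (Cert.s6 (Cert.s1 (Cert.s2 (Cert.s3 (Cert.s4 (Cert.s5 (Cert.s6 Cert.a (Cert.L 192)) (Cert.L 132)) (Cert.s5 (Cert.s6 Cert.a (Cert.L 176)) (Cert.L 176))) (Cert.s4 (Cert.s5 (Cert.s6 Cert.a (Cert.L 176)) (Cert.L 176)) (Cert.s5 (Cert.s6 Cert.a (Cert.L 188)) (Cert.s6 Cert.a (Cert.L 188))))) (Cert.s3 (Cert.s4 (Cert.s5 (Cert.s6 Cert.a (Cert.L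 188)) (Cert.L 188)) (Cert.s5 (Cert.s6 Cert.a (Cert.L 188)) (Cert.L 188))) (Cert.s4 (Cert.s5 (Cert.s6 Cert.a Cert.c) (Cert.L 188)) (Cert.s5 (Cert.s6 Cert.a Cert.c) (Cert.L 188))))) (Cert.s2 (Cert.s3 (Cert.s4 (Cert.L 184) (Cert.s5 (Cert.s6 Cert.a (Cert.L 184)) (Cert.L 184))) (Cert.s4 (Cert.s5 (Cert.s6 Cert.a (Cert.L 184)) (Cert.L 184)) (Cert.s5 (Cert.s6 Cert.a (Cert.L 184)) (Cert.L 184)))) (Cert.s3 (Cert.s4 (Cert.L 188) (Cert.s5 (Cert.s6 Cert.a (Cert.L 188)) (Cert.L 188))) (Cert.L 196)))) (Cert.L 196))) (Cert.s5 (Cert.s6 (Cert.s1 (Cert.s2 (Cert.s3 (Cert.s4 (Cert.s5 Cert.d (Cert.s6 Cert.a Cert.d)) Cert.b) (Cert.s4 (Cert.s5 Cert.c (Cert.s6 Cert.a Cert.c)) Cert.b)) (Cert.s3 (Cert.s4 (Cert.s5 Cert.c (Cert.s6 Cert.a Cert.c)) Cert.b) (Cert.s4 (Cert.s5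 Cert.c (Cert.s6 Cert.a Cert.c)) Cert.b))) Cert.b) (Cert.s1 (Cert.s2 (Cert.s3 (Cert.s4 (Cert.s5 (Cert.s6 Cert.c Cert.d) (Cert.L 184)) (Cert.s5 Cert.d (Cert.s6 Cert.d Cert.d))) (Cert.s4 (Cert.s5 (Cert.s6 Cert.c Cert.c) (Cert.L 188)) (Cert.s5 Cert.d (Cert.L 192)))) (Cert.s3 (Cert.s4 (Cert.s5 (Cert.s6 Cert.c Cert.c) (Cert.L 192)) (Cert.s5 Cert.d (Cert.L 192))) (Cert.s4 (Cert.s5 (Cert.s6 Cert.c Cert.c) (Cert.L 192)) (Cert.L 216)))) (Cert.s2 (Cert.s3 (Cert.s4 (Cert.s5 Cert.d (Cert.L 180)) (Cert.s5 Cert.d (Cert.L 184))) (Cert.s4 (Cert.s5 Cert.d (Cert.L 184)) (Cert.L 200))) (Cert.L 240)))) (Cert.s6 (Cert.s1 (Cert.s2 (Cert.s3 (Cert.s4 (Cert.s5 (Cert.s6 Cert.a (Cert.L 188)) (Cert.s6 Cert.a (Cert.L 188))) Cert.b) (Cert.s4 (Cert.s5 (Cert.s6 Cert.a (Cert.s1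 (Cert.s2 (Cert.s3 (Cert.s4 (Cert.L 188) Cert.b) (Cert.s4 (Cert.s5 Cert.c Cert.c) Cert.b)) (Cert.L 192)) Cert.b)) (Cert.s6 Cert.a (Cert.L 192))) Cert.b)) (Cert.s3 (Cert.s4 (Cert.s5 (Cert.s6 Cert.a (Cert.L 192)) (Cert.s6 Cert.a (Cert.L 192))) Cert.b) (Cert.s4 (Cert.s5 (Cert.s6 Cert.a Cert.c) (Cert.L 192)) Cert.b))) Cert.b) (Cert.L 192)))))) (Cert.s2 (Cert.s3 (Cert.s4 (Cert.s5 (Cert.s6 (Cert.s1 (Cert.s2 (Cert.s3 (Cert.L 64) (Cert.s4 (Cert.L 64) (Cert.s5 Cert.d (Cert.s6 Cert.b Cert.d)))) (Cert.s3 (Cert.s4 (Cert.L 64) (Cert.s5 Cert.d (Cert.s6 Cert.b Cert.d))) (Cert.s4 (Cert.s5 (Cert.s6 Cert.b Cert.d) (Cert.s6 Cert.b Cert.d)) (Cert.s5 Cert.d (Cert.s6 Cert.b Cert.d))))) (Cert.s2 (Cert.s3 (Cert.s4 (Cert.L 64) Cert.b) (Cert.s4 (Cert.s5 Cert.d (Cert.L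 160)) Cert.b)) (Cert.s3 (Cert.s4 (Cert.s5 Cert.d (Cert.L 160)) Cert.b) (Cert.s4 (Cert.s5 Cert.d (Cert.s6 Cert.b Cert.d)) Cert.b)))) (Cert.L 180)) (Cert.s6 (Cert.s1 (Cert.L 180) (Cert.L 184)) (Cert.L 184))) (Cert.s5 (Cert.s6 Cert.b (Cert.s1 (Cert.s2 (Cert.s3 (Cert.s4 (Cert.L 184) (Cert.s5 Cert.d Cert.d)) (Cert.s4 (Cert.s5 Cert.d (Cert.L 184)) (Cert.s5 Cert.d Cert.d))) (Cert.s3 (Cert.s4 (Cert.L 184) (Cert.s5 Cert.d Cert.d)) (Cert.s4 (Cert.s5 Cert.d (Cert.L 184)) (Cert.s5 Cert.d Cert.d)))) (Cert.L 192))) (Cert.s6 Cert.b (Cert.L 192)))) (Cert.s4 (Cert.s5 (Cert.s6 (Cert.s1 (Cert.s2 (Cert.s3 (Cert.s4 (Cert.s5 (Cert.s6 Cert.b Cert.d) (Cert.s6 Cert.b Cert.d)) (Cert.s5 Cert.d (Cert.s6 Cert.b Cert.d))) (Cert.s4 (Cert.s5 (Cert.s6 Cert.b Cert.d) (Cert.s6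 Cert.b Cert.d)) (Cert.s5 Cert.d (Cert.s6 Cert.b Cert.d)))) (Cert.s3 (Cert.s4 (Cert.s5 (Cert.s6 Cert.b Cert.c) (Cert.s6 Cert.b Cert.d)) (Cert.s5 Cert.d (Cert.s6 Cert.b Cert.d))) (Cert.s4 (Cert.s5 (Cert.s6 Cert.a Cert.c) (Cert.s6 Cert.a Cert.d)) (Cert.s5 Cert.d (Cert.s6 Cert.a Cert.d))))) (Cert.s2 (Cert.s3 (Cert.s4 (Cert.s5 Cert.d (Cert.s6 Cert.b Cert.d)) Cert.b) (Cert.s4 (Cert.s5 Cert.d (Cert.s6 Cert.b Cert.d)) Cert.b)) (Cert.s3 (Cert.s4 (Cert.s5 Cert.d (Cert.s6 Cert.b Cert.d)) Cert.b) (Cert.s4 (Cert.s5 Cert.d (Cert.s6 Cert.a Cert.d)) Cert.b)))) (Cert.s1 (Cert.s2 (Cert.s3 (Cert.s4 (Cert.L 136) (Cert.s5 (Cert.s6 Cert.d Cert.d) (Cert.L 164))) (Cert.s4 (Cert.L 180) (Cert.s5 (Cert.s6 Cert.d Cert.d) (Cert.L 180)))) (Cert.s3 (Cert.L 184) (Cert.L 192)))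 (Cert.L 192))) (Cert.s6 (Cert.s1 (Cert.s2 (Cert.s3 (Cert.s4 (Cert.L 152) (Cert.s5 (Cert.s6 Cert.b (Cert.L 168)) (Cert.L 168))) (Cert.s4 (Cert.L 184) (Cert.s5 (Cert.s6 Cert.b (Cert.L 184)) (Cert.L 184)))) (Cert.s3 (Cert.s4 (Cert.L 184) (Cert.s5 (Cert.s6 Cert.b (Cert.L 184)) (Cert.L 184))) (Cert.s4 (Cert.L 184) (Cert.s5 (Cert.s6 Cert.a (Cert.L 184)) (Cert.L 184))))) (Cert.L 188)) (Cert.L 188))) (Cert.s5 (Cert.s6 Cert.b (Cert.s1 (Cert.s2 (Cert.s3 (Cert.s4 (Cert.s5 Cert.d (Cert.L 188)) (Cert.s5 Cert.d Cert.d)) (Cert.s4 (Cert.s5 Cert.d (Cert.L 188)) (Cert.s5 Cert.d Cert.d))) (Cert.s3 (Cert.s4 (Cert.s5 Cert.d (Cert.L 188)) (Cert.s5 Cert.d Cert.d)) (Cert.L 196))) (Cert.L 196))) (Cert.s6 Cert.b (Cert.L 196))))) (Cert.s3 (Cert.s4 (Cert.s5 (Cert.s6 (Cert.s1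 (Cert.s2 (Cert.s3 (Cert.s4 (Cert.s5 (Cert.s6 Cert.b Cert.c) (Cert.s6 Cert.b Cert.d)) (Cert.s5 Cert.d (Cert.s6 Cert.b Cert.d))) (Cert.s4 (Cert.s5 (Cert.s6 Cert.a Cert.c) (Cert.s6 Cert.a Cert.d)) (Cert.s5 Cert.d (Cert.s6 Cert.a Cert.d)))) (Cert.s3 (Cert.s4 (Cert.s5 (Cert.s6 Cert.a Cert.c) (Cert.s6 Cert.a Cert.d)) (Cert.s5 Cert.d (Cert.s6 Cert.a Cert.d))) (Cert.s4 (Cert.s5 (Cert.s6 Cert.a Cert.c) (Cert.s6 Cert.a Cert.c)) (Cert.s5 Cert.d (Cert.s6 Cert.a Cert.c))))) (Cert.s2 (Cert.s3 (Cert.s4 (Cert.s5 Cert.d (Cert.s6 Cert.b Cert.d)) Cert.b) (Cert.s4 (Cert.s5 Cert.d (Cert.s6 Cert.a Cert.d)) Cert.b)) (Cert.s3 (Cert.s4 (Cert.s5 Cert.d (Cert.L 192)) Cert.b) (Cert.s4 (Cert.s5 Cert.d (Cert.L 196)) Cert.b)))) (Cert.L 196)) (Cert.L 188)) (Cert.s5 (Cert.s6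 Cert.b (Cert.L 192)) (Cert.s6 Cert.b (Cert.L 192)))) (Cert.s4 (Cert.s5 (Cert.s6 (Cert.s1 (Cert.s2 (Cert.s3 (Cert.s4 (Cert.s5 (Cert.s6 Cert.a Cert.c) (Cert.s6 Cert.a Cert.d)) (Cert.s5 Cert.d (Cert.s6 Cert.a Cert.d))) (Cert.s4 (Cert.s5 Cert.c (Cert.s6 Cert.a Cert.c)) (Cert.s5 Cert.c (Cert.s6 Cert.a Cert.c)))) (Cert.s3 (Cert.s4 (Cert.s5 Cert.c (Cert.s6 Cert.a Cert.c)) (Cert.s5 Cert.c (Cert.s6 Cert.a Cert.c))) (Cert.s4 (Cert.s5 Cert.c (Cert.L 224)) (Cert.L 236)))) (Cert.s2 (Cert.s3 (Cert.s4 (Cert.s5 Cert.d (Cert.s6 Cert.a Cert.d)) Cert.b) (Cert.s4 (Cert.s5 Cert.c (Cert.L 236)) Cert.b)) (Cert.s3 (Cert.s4 (Cert.s5 Cert.c (Cert.L 236)) Cert.b) (Cert.L 236)))) (Cert.L 188)) (Cert.L 192)) (Cert.s5 (Cert.s6 Cert.b (Cert.L 192)) (Cert.L 192)))))) (Cert.L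 192)) (Cert.L 192))

def t16 : Cert := Cert.s1 (Cert.s2 (Cert.s4 (Cert.s5 (Cert.s6 (Cert.s1 (Cert.L 168) (Cert.s2 (Cert.L 168) (Cert.s3 (Cert.L 168) (Cert.s4 (Cert.L 168) (Cert.s5 (Cert.s6 (Cert.s1 (Cert.L 64) (Cert.s2 (Cert.L 64) (Cert.s3 (Cert.L 64) (Cert.s4 (Cert.L 64) (Cert.s5 (Cert.s6 Cert.b Cert.d) (Cert.L 156)))))) (Cert.L 156)) (Cert.L 156)))))) (Cert.L 156)) (Cert.L 156)) (Cert.s5 (Cert.s6 (Cert.s1 (Cert.s2 (Cert.L 156) (Cert.s3 (Cert.s4 (Cert.L 156) (Cert.s5 (Cert.s6 (Cert.s1 (Cert.L 64) Cert.b) (Cert.L 76)) (Cert.s6 (Cert.s1 (Cert.L 76) Cert.b) (Cert.L 84)))) (Cert.s4 (Cert.s5 (Cert.s6 (Cert.s1 (Cert.L 84) (Cert.s2 (Cert.L 84) (Cert.s3 (Cert.L 84) (Cert.s4 (Cert.L 84) (Cert.s5 Cert.d (Cert.s6 Cert.b Cert.d)))))) (Cert.s1 (Cert.L 84)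 (Cert.s2 (Cert.L 84) (Cert.s3 (Cert.L 84) (Cert.s4 (Cert.L 84) (Cert.s5 (Cert.s6 Cert.d Cert.d) (Cert.L 104))))))) (Cert.s6 (Cert.s1 (Cert.L 104) (Cert.s2 (Cert.L 104) (Cert.s3 (Cert.L 104) (Cert.s4 (Cert.L 104) (Cert.s5 (Cert.s6 Cert.b (Cert.L 116)) (Cert.L 128)))))) (Cert.L 128))) (Cert.s5 (Cert.s6 (Cert.s1 (Cert.s2 (Cert.L 128) (Cert.s3 (Cert.L 64) (Cert.s4 (Cert.s5 Cert.d (Cert.s6 Cert.b Cert.d)) Cert.b))) Cert.b) (Cert.s1 (Cert.s2 (Cert.L 64) (Cert.s3 (Cert.L 68) (Cert.s4 (Cert.L 76) (Cert.s5 Cert.d (Cert.s6 Cert.d Cert.d))))) (Cert.s2 (Cert.L 76) (Cert.s3 (Cert.s4 (Cert.L 84) (Cert.s5 Cert.d (Cert.L 172))) (Cert.s4 (Cert.s5 Cert.d (Cert.L 172)) (Cert.s5 Cert.d (Cert.L 184))))))) (Cert.s6 (Cert.s1 (Cert.s2 (Cert.L 64) (Cert.s3 (Cert.s4 (Cert.L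 64) Cert.b) (Cert.s4 (Cert.s5 (Cert.s6 Cert.b (Cert.L 92)) (Cert.L 140)) Cert.b))) Cert.b) (Cert.L 172)))))) (Cert.s2 (Cert.s4 (Cert.L 172) (Cert.s5 (Cert.s6 Cert.b (Cert.L 172)) (Cert.L 172))) (Cert.s3 (Cert.s4 (Cert.s5 (Cert.s6 (Cert.s1 (Cert.L 64) (Cert.s2 (Cert.L 64) (Cert.s3 (Cert.L 64) (Cert.s4 (Cert.L 64) Cert.b)))) (Cert.L 116)) (Cert.L 128)) (Cert.s5 (Cert.s6 Cert.b (Cert.s1 (Cert.s2 (Cert.L 128) (Cert.s3 (Cert.L 128) (Cert.s4 (Cert.L 132) (Cert.s5 Cert.d Cert.d)))) (Cert.L 188))) (Cert.s6 Cert.b (Cert.L 188)))) (Cert.s4 (Cert.s5 (Cert.s6 (Cert.s1 (Cert.s2 (Cert.L 64) (Cert.s3 (Cert.s4 (Cert.L 64) (Cert.s5 Cert.d (Cert.s6 Cert.b Cert.d))) (Cert.s4 (Cert.s5 (Cert.s6 Cert.b Cert.d) (Cert.s6 Cert.b Cert.d)) (Cert.s5 Cert.d (Cert.s6 Cert.b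 Cert.d))))) (Cert.s2 (Cert.s4 (Cert.L 64) Cert.b) (Cert.s3 (Cert.s4 (Cert.s5 Cert.d (Cert.L 152)) Cert.b) (Cert.s4 (Cert.s5 Cert.d (Cert.s6 Cert.b Cert.d)) Cert.b)))) (Cert.L 184)) (Cert.s6 (Cert.s1 (Cert.s2 (Cert.L 184) (Cert.s3 (Cert.L 184) (Cert.s4 (Cert.L 184) (Cert.s5 (Cert.s6 Cert.b (Cert.L 184)) (Cert.L 184))))) (Cert.L 188)) (Cert.L 188))) (Cert.s5 (Cert.s6 Cert.b (Cert.s1 (Cert.s2 (Cert.s4 (Cert.L 188) (Cert.s5 Cert.d Cert.d)) (Cert.s3 (Cert.s4 (Cert.s5 Cert.d (Cert.L 188)) (Cert.s5 Cert.d Cert.d)) (Cert.s4 (Cert.s5 Cert.d (Cert.L 188)) (Cert.s5 Cert.d Cert.d)))) (Cert.L 188))) (Cert.s6 Cert.b (Cert.L 188))))))) (Cert.L 188)) (Cert.L 188))) (Cert.s3 t15 (Cert.s4 (Cert.s5 (Cert.s6 (Cert.s1 (Cert.s2 (Cert.s4 (Cert.s5 (Cert.s6 (Cert.s1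 (Cert.L 64) (Cert.s2 (Cert.L 64) (Cert.s3 (Cert.L 64) (Cert.s4 (Cert.L 64) (Cert.s5 Cert.c (Cert.s6 Cert.a Cert.c)))))) (Cert.L 144)) (Cert.L 152)) (Cert.s5 (Cert.s6 (Cert.s1 (Cert.s2 (Cert.L 64) (Cert.s3 (Cert.s4 (Cert.L 64) (Cert.s5 (Cert.s6 Cert.a Cert.c) (Cert.s6 Cert.a Cert.c))) (Cert.s4 (Cert.s5 Cert.c (Cert.s6 Cert.a Cert.c)) (Cert.s5 Cert.c (Cert.s6 Cert.a Cert.c))))) (Cert.s2 (Cert.s4 (Cert.L 64) (Cert.s5 (Cert.s6 Cert.c Cert.c) (Cert.s6 (Cert.s1 (Cert.L 64) (Cert.s2 (Cert.L 64) Cert.a)) (Cert.L 160)))) (Cert.s3 (Cert.s4 (Cert.s5 (Cert.s6 Cert.a Cert.c) (Cert.s6 Cert.a Cert.c)) (Cert.s5 (Cert.s6 Cert.a Cert.c) (Cert.s6 Cert.a Cert.c))) (Cert.s4 (Cert.s5 Cert.c (Cert.s6 Cert.a Cert.c)) (Cert.s5 Cert.c (Cert.s6 Cert.a Cert.c)))))) (Cert.s1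 (Cert.s2 (Cert.L 160) (Cert.s3 (Cert.L 168) (Cert.s4 (Cert.L 168) (Cert.s5 (Cert.s6 Cert.c Cert.c) (Cert.L 168))))) (Cert.L 184))) (Cert.s6 (Cert.s1 (Cert.s2 (Cert.L 64) (Cert.s3 (Cert.s4 (Cert.L 64) (Cert.s5 (Cert.s6 Cert.a (Cert.L 132)) (Cert.L 140))) (Cert.s4 (Cert.L 168) (Cert.s5 (Cert.s6 Cert.a (Cert.L 168)) (Cert.L 172))))) (Cert.s2 (Cert.L 172) (Cert.s3 (Cert.s4 (Cert.L 172) (Cert.s5 (Cert.s6 Cert.a (Cert.L 172)) (Cert.L 172))) (Cert.s4 (Cert.L 176) (Cert.s5 (Cert.s6 Cert.a (Cert.L 176)) (Cert.L 176)))))) (Cert.L 176)))) (Cert.s3 (Cert.s4 (Cert.s5 (Cert.s6 (Cert.s1 (Cert.s2 (Cert.s3 (Cert.L 64) (Cert.s4 (Cert.L 64) (Cert.s5 Cert.c (Cert.s6 Cert.a Cert.c)))) (Cert.s3 Cert.a Cert.a)) (Cert.s2 (Cert.s3 (Cert.s4 (Cert.L 64) (Cert.s5 Cert.c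 (Cert.s6 Cert.a Cert.c))) (Cert.s4 (Cert.s5 Cert.c (Cert.L 172)) (Cert.s5 Cert.c (Cert.s6 Cert.a Cert.c)))) (Cert.s3 Cert.a Cert.a))) (Cert.L 176)) (Cert.L 180)) (Cert.s5 (Cert.s6 (Cert.s1 (Cert.s2 (Cert.s3 (Cert.s4 (Cert.s5 Cert.c (Cert.s6 Cert.a Cert.c)) (Cert.s5 Cert.c (Cert.s6 Cert.a Cert.c))) (Cert.s4 (Cert.s5 Cert.c (Cert.s6 Cert.a Cert.c)) (Cert.s5 Cert.c (Cert.s6 Cert.a Cert.c)))) (Cert.s3 Cert.a Cert.a)) (Cert.s2 (Cert.s3 (Cert.s4 (Cert.s5 Cert.c (Cert.s6 Cert.a Cert.c)) (Cert.s5 Cert.c (Cert.s6 Cert.a Cert.c))) (Cert.s4 (Cert.s5 Cert.c (Cert.s6 Cert.a Cert.c)) (Cert.s5 Cert.c (Cert.s6 Cert.a Cert.c)))) (Cert.s3 Cert.a Cert.a))) (Cert.s1 (Cert.s2 (Cert.s3 (Cert.s4 (Cert.L 180) (Cert.s5 (Cert.s6 Cert.c Cert.c) (Cert.L 180))) (Cert.s4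 (Cert.L 180) (Cert.s5 (Cert.s6 Cert.c Cert.c) (Cert.L 180)))) (Cert.s3 (Cert.s4 (Cert.s5 Cert.c (Cert.L 180)) (Cert.s5 Cert.c (Cert.L 180))) (Cert.s4 (Cert.s5 Cert.c (Cert.L 180)) (Cert.s5 Cert.c (Cert.L 180))))) (Cert.L 188))) (Cert.s6 (Cert.s1 (Cert.s2 (Cert.s3 (Cert.s4 (Cert.L 172) (Cert.s5 (Cert.s6 Cert.a (Cert.L 172)) (Cert.L 172))) (Cert.s4 (Cert.s5 (Cert.s6 Cert.a Cert.c) (Cert.L 172)) (Cert.s5 (Cert.s6 Cert.a Cert.c) (Cert.L 176)))) (Cert.s3 Cert.a Cert.a)) (Cert.s2 (Cert.s3 (Cert.s4 (Cert.L 180) (Cert.s5 (Cert.s6 Cert.a (Cert.L 180)) (Cert.L 180))) (Cert.L 188)) (Cert.L 192))) (Cert.L 192)))) (Cert.s4 (Cert.s5 (Cert.s6 (Cert.s1 (Cert.s2 Cert.a Cert.a) (Cert.s2 Cert.a Cert.a)) (Cert.L 192)) (Cert.L 188)) (Cert.s5 (Cert.s6 (Cert.s1 (Cert.s2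 Cert.a Cert.a) (Cert.s2 Cert.a Cert.a)) (Cert.s1 (Cert.s2 (Cert.s4 (Cert.L 188) (Cert.s5 Cert.c (Cert.L 188))) (Cert.L 192)) (Cert.L 192))) (Cert.s6 (Cert.s1 (Cert.s2 Cert.a Cert.a) (Cert.L 192)) (Cert.L 192)))))) (Cert.s2 (Cert.s4 (Cert.s5 (Cert.s6 (Cert.s1 (Cert.s2 (Cert.L 64) (Cert.s3 (Cert.s4 (Cert.L 64) (Cert.s5 (Cert.s6 Cert.a Cert.c) (Cert.L 176))) (Cert.s4 (Cert.s5 Cert.c (Cert.L 176)) (Cert.s5 Cert.c (Cert.L 184))))) (Cert.s2 (Cert.s4 (Cert.L 64) (Cert.s5 (Cert.s6 Cert.c Cert.c) (Cert.L 156))) (Cert.s3 (Cert.s4 (Cert.s5 (Cert.s6 Cert.a Cert.c) (Cert.L 156)) (Cert.s5 (Cert.s6 Cert.a Cert.c) (Cert.L 180))) (Cert.s4 (Cert.s5 Cert.c (Cert.L 180)) (Cert.s5 Cert.c (Cert.L 184)))))) (Cert.L 184)) (Cert.L 184)) (Cert.s5 (Cert.s6 (Cert.s1 (Cert.s2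 (Cert.s4 (Cert.s5 (Cert.s6 Cert.c Cert.c) (Cert.s6 (Cert.s1 (Cert.L 64) (Cert.s2 (Cert.L 64) Cert.a)) (Cert.L 152))) (Cert.s5 (Cert.s6 Cert.c Cert.c) (Cert.s6 (Cert.s1 Cert.b Cert.b) (Cert.L 176)))) (Cert.s3 (Cert.s4 (Cert.s5 (Cert.s6 Cert.a Cert.c) (Cert.s6 Cert.a Cert.c)) (Cert.s5 (Cert.s6 Cert.a Cert.c) (Cert.s6 Cert.a Cert.c))) (Cert.s4 (Cert.s5 Cert.c (Cert.s6 Cert.a Cert.c)) (Cert.s5 Cert.c (Cert.s6 Cert.a Cert.c))))) (Cert.s2 (Cert.s4 (Cert.s5 (Cert.s6 Cert.c Cert.c) (Cert.s6 (Cert.s1 (Cert.s2 (Cert.L 176) Cert.a) (Cert.L 192)) (Cert.L 192))) (Cert.s5 (Cert.s6 Cert.b Cert.c) (Cert.s6 Cert.b (Cert.L 192)))) (Cert.s3 (Cert.s4 (Cert.s5 (Cert.s6 Cert.a Cert.c) (Cert.s6 Cert.a Cert.c)) (Cert.s5 (Cert.s6 Cert.a Cert.c) (Cert.s6 Cert.a Cert.c)))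 (Cert.s4 (Cert.s5 Cert.c (Cert.s6 Cert.a Cert.c)) (Cert.s5 Cert.c (Cert.L 200)))))) (Cert.L 180)) (Cert.L 184))) (Cert.s3 (Cert.s4 (Cert.s5 (Cert.s6 (Cert.s1 (Cert.s2 (Cert.s3 (Cert.s4 (Cert.s5 Cert.c (Cert.L 184)) (Cert.s5 Cert.c (Cert.s6 Cert.a Cert.c))) (Cert.s4 (Cert.s5 Cert.c (Cert.L 184)) (Cert.s5 Cert.c (Cert.s6 Cert.a Cert.c)))) (Cert.s3 Cert.a Cert.a)) (Cert.s2 (Cert.s3 (Cert.s4 (Cert.s5 Cert.c (Cert.L 184)) (Cert.s5 Cert.c (Cert.L 184))) (Cert.s4 (Cert.s5 Cert.c (Cert.L 184)) (Cert.s5 Cert.c (Cert.L 184)))) (Cert.s3 Cert.a Cert.a))) (Cert.L 184)) (Cert.L 184)) (Cert.s5 (Cert.s6 (Cert.s1 (Cert.s2 (Cert.s3 (Cert.s4 (Cert.s5 Cert.c (Cert.s6 Cert.a Cert.c)) (Cert.s5 Cert.c (Cert.s6 Cert.a Cert.c))) (Cert.s4 (Cert.s5 Cert.c (Cert.s6 Cert.a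 Cert.c)) (Cert.s5 Cert.c (Cert.L 220)))) (Cert.s3 Cert.a Cert.a)) (Cert.s2 (Cert.s3 (Cert.s4 (Cert.s5 Cert.c (Cert.L 192)) (Cert.s5 Cert.c (Cert.L 192))) (Cert.L 240)) (Cert.L 240))) (Cert.L 184)) (Cert.L 188))) (Cert.s4 (Cert.s5 (Cert.s6 (Cert.s1 (Cert.s2 Cert.a Cert.a) (Cert.s2 Cert.a Cert.a)) (Cert.L 188)) (Cert.L 188)) (Cert.s5 (Cert.s6 (Cert.s1 (Cert.s2 Cert.a Cert.a) (Cert.L 200)) (Cert.L 200)) (Cert.L 200)))))) (Cert.L 180)) (Cert.L 180)) (Cert.s5 (Cert.s6 (Cert.s1 (Cert.s2 (Cert.s4 (Cert.s5 (Cert.s6 (Cert.s1 (Cert.s2 (Cert.s4 (Cert.s5 (Cert.s6 Cert.c Cert.c) (Cert.s6 (Cert.s1 Cert.b Cert.b) (Cert.s1 (Cert.L 64) (Cert.s2 (Cert.L 64) (Cert.s3 (Cert.L 64) Cert.c))))) (Cert.s5 (Cert.s6 Cert.b Cert.c) (Cert.s6 Cert.b Cert.d))) (Cert.s3 (Cert.s4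 (Cert.s5 (Cert.s6 Cert.a Cert.c) (Cert.s6 Cert.a Cert.c)) (Cert.s5 (Cert.s6 Cert.a Cert.c) (Cert.s6 Cert.a Cert.c))) (Cert.s4 (Cert.s5 Cert.c (Cert.s6 Cert.a Cert.c)) (Cert.s5 Cert.c (Cert.s6 Cert.a Cert.c))))) (Cert.s2 (Cert.s4 (Cert.s5 (Cert.s6 Cert.b Cert.c) (Cert.s6 Cert.b (Cert.s1 (Cert.s2 (Cert.L 64) (Cert.s3 (Cert.s4 (Cert.L 64) Cert.d) Cert.c)) (Cert.s2 (Cert.L 176) (Cert.s3 (Cert.s4 (Cert.L 176) Cert.d) Cert.c))))) (Cert.s5 Cert.d (Cert.s6 Cert.b Cert.d))) (Cert.s3 (Cert.s4 (Cert.s5 (Cert.s6 Cert.a Cert.c) (Cert.s6 Cert.a Cert.c)) (Cert.s5 Cert.d (Cert.s6 Cert.a Cert.c))) (Cert.s4 (Cert.s5 Cert.c (Cert.s6 Cert.a Cert.c)) (Cert.s5 Cert.c (Cert.s6 Cert.a Cert.c)))))) (Cert.s1 (Cert.s2 (Cert.s4 (Cert.s5 (Cert.s6 (Cert.s1 (Cert.L 64) Cert.d)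 (Cert.L 112)) (Cert.L 120)) (Cert.s5 (Cert.s6 Cert.d Cert.d) (Cert.s6 (Cert.s1 (Cert.s2 (Cert.L 120) (Cert.s3 (Cert.L 136) (Cert.s4 (Cert.L 136) Cert.d))) (Cert.L 188)) (Cert.L 188)))) (Cert.s3 (Cert.s4 (Cert.s5 (Cert.s6 Cert.c Cert.c) (Cert.L 188)) (Cert.s5 (Cert.s6 Cert.c Cert.c) (Cert.s6 (Cert.s1 (Cert.s2 (Cert.s3 (Cert.s4 (Cert.L 188) Cert.d) Cert.c) Cert.c) (Cert.L 188)) (Cert.L 188)))) (Cert.s4 (Cert.s5 (Cert.s6 Cert.c Cert.c) (Cert.L 188)) (Cert.s5 (Cert.s6 Cert.c Cert.c) (Cert.s6 Cert.c (Cert.L 188)))))) (Cert.s2 (Cert.s4 (Cert.s5 (Cert.s6 Cert.d (Cert.L 188)) (Cert.L 188)) (Cert.s5 (Cert.s6 Cert.d Cert.d) (Cert.L 188))) (Cert.s3 (Cert.s4 (Cert.s5 (Cert.s6 Cert.c Cert.c) (Cert.L 188)) (Cert.s5 (Cert.s6 Cert.c Cert.c) (Cert.L 188))) (Cert.s4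 (Cert.s5 (Cert.s6 Cert.c Cert.c) (Cert.L 188)) (Cert.s5 (Cert.s6 Cert.c Cert.c) (Cert.L 188))))))) (Cert.s6 (Cert.s1 (Cert.s2 (Cert.s4 (Cert.s5 (Cert.s6 (Cert.s1 Cert.b Cert.b) (Cert.L 132)) (Cert.L 144)) (Cert.s5 (Cert.s6 Cert.b (Cert.s1 (Cert.s2 (Cert.L 144) (Cert.s3 (Cert.L 164) (Cert.s4 (Cert.L 164) (Cert.s5 Cert.c Cert.d)))) (Cert.s2 (Cert.L 164) (Cert.s3 (Cert.L 176) (Cert.s4 (Cert.L 176) (Cert.s5 Cert.c Cert.d)))))) (Cert.s6 Cert.b (Cert.L 176)))) (Cert.s3 (Cert.s4 (Cert.s5 (Cert.s6 Cert.a (Cert.L 176)) (Cert.L 176)) (Cert.s5 (Cert.s6 Cert.a (Cert.s1 (Cert.s2 (Cert.s3 (Cert.s4 (Cert.L 176) (Cert.s5 Cert.c Cert.c)) (Cert.s4 (Cert.L 176) (Cert.s5 Cert.c Cert.c))) (Cert.s3 (Cert.s4 (Cert.L 176) (Cert.s5 Cert.c Cert.c)) (Cert.s4 (Cert.L 184)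 (Cert.s5 Cert.c Cert.c)))) (Cert.L 188))) (Cert.s6 Cert.a (Cert.L 188)))) (Cert.s4 (Cert.s5 (Cert.s6 Cert.a (Cert.L 188)) (Cert.L 188)) (Cert.s5 (Cert.s6 Cert.a (Cert.s1 (Cert.s2 (Cert.s4 (Cert.L 188) (Cert.s5 Cert.c Cert.c)) (Cert.L 192)) (Cert.L 192))) (Cert.s6 Cert.a (Cert.L 192)))))) (Cert.s2 (Cert.s4 (Cert.s5 (Cert.s6 Cert.b (Cert.L 192)) (Cert.L 192)) (Cert.s5 (Cert.s6 Cert.b (Cert.L 192)) (Cert.L 192))) (Cert.s3 (Cert.s4 (Cert.s5 (Cert.s6 Cert.a (Cert.L 192)) (Cert.L 192)) (Cert.s5 (Cert.s6 Cert.a (Cert.L 192)) (Cert.L 192))) (Cert.s4 (Cert.s5 (Cert.s6 Cert.a (Cert.L 192)) (Cert.L 192)) (Cert.s5 (Cert.s6 Cert.a (Cert.L 192)) (Cert.L 192)))))) (Cert.L 192))) (Cert.s5 (Cert.s6 (Cert.s1 (Cert.s2 (Cert.s4 (Cert.s5 Cert.d (Cert.s6 Cert.b Cert.d))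 Cert.b) (Cert.s3 (Cert.s4 (Cert.s5 Cert.d (Cert.s6 Cert.a Cert.c)) Cert.b) (Cert.s4 (Cert.s5 Cert.c (Cert.s6 Cert.a Cert.c)) Cert.b))) Cert.b) (Cert.s1 (Cert.s2 (Cert.s4 (Cert.s5 (Cert.s6 Cert.d Cert.d) (Cert.s6 Cert.d (Cert.L 192))) (Cert.s5 Cert.d (Cert.s6 Cert.d Cert.d))) (Cert.s3 (Cert.s4 (Cert.s5 (Cert.s6 Cert.c Cert.c) (Cert.s6 Cert.d (Cert.L 192))) (Cert.s5 Cert.d (Cert.s6 Cert.d Cert.d))) (Cert.s4 (Cert.s5 (Cert.s6 Cert.c Cert.c) (Cert.L 224)) (Cert.L 232)))) (Cert.s2 (Cert.s4 (Cert.s5 Cert.d (Cert.L 188)) (Cert.s5 Cert.d (Cert.L 192))) (Cert.s3 (Cert.s4 (Cert.s5 Cert.d (Cert.L 192)) (Cert.L 208)) (Cert.L 208))))) (Cert.s6 (Cert.s1 (Cert.s2 (Cert.s4 (Cert.s5 (Cert.s6 Cert.b (Cert.s1 (Cert.s2 (Cert.s4 (Cert.s5 Cert.d Cert.d) Cert.b) (Cert.s3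 (Cert.s4 (Cert.s5 Cert.c Cert.d) Cert.b) (Cert.s4 (Cert.s5 Cert.c Cert.d) Cert.b))) Cert.b)) (Cert.s6 Cert.b (Cert.L 176))) Cert.b) (Cert.s3 (Cert.s4 (Cert.s5 (Cert.s6 Cert.a (Cert.s1 (Cert.s2 (Cert.s3 (Cert.s4 (Cert.s5 Cert.c Cert.c) Cert.b) (Cert.s4 (Cert.s5 Cert.c Cert.c) Cert.b)) (Cert.s3 (Cert.s4 (Cert.s5 Cert.c Cert.c) Cert.b) (Cert.L 220))) Cert.b)) (Cert.s6 Cert.a (Cert.L 180))) Cert.b) (Cert.s4 (Cert.s5 (Cert.s6 Cert.a (Cert.L 256)) (Cert.s6 Cert.a (Cert.L 256))) Cert.b))) Cert.b) (Cert.L 184)))) (Cert.s3 (Cert.s4 (Cert.s5 (Cert.s6 (Cert.s1 (Cert.s2 (Cert.s3 (Cert.s4 (Cert.s5 Cert.c (Cert.s6 Cert.a Cert.c)) (Cert.s5 Cert.c (Cert.s6 Cert.a Cert.c))) (Cert.s4 (Cert.s5 Cert.c (Cert.s6 Cert.a Cert.c)) (Cert.s5 Cert.c (Cert.s6 Cert.a Cert.c))))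 (Cert.s3 Cert.a Cert.a)) (Cert.s2 (Cert.s3 (Cert.s4 (Cert.s5 Cert.c (Cert.s6 Cert.a Cert.c)) (Cert.s5 Cert.c (Cert.s6 Cert.a Cert.c))) (Cert.s4 (Cert.s5 Cert.c (Cert.s6 Cert.a Cert.c)) (Cert.s5 Cert.c (Cert.L 224)))) (Cert.s3 Cert.a Cert.a))) (Cert.s1 (Cert.s2 (Cert.s3 (Cert.s4 (Cert.s5 (Cert.s6 Cert.c Cert.c) (Cert.L 180)) (Cert.s5 (Cert.s6 Cert.c Cert.c) (Cert.L 188))) (Cert.s4 (Cert.s5 (Cert.s6 Cert.c Cert.c) (Cert.L 188)) (Cert.s5 (Cert.s6 Cert.c Cert.c) (Cert.L 188)))) (Cert.s3 (Cert.s4 (Cert.s5 Cert.c (Cert.L 188)) (Cert.s5 Cert.c (Cert.L 188))) (Cert.L 236))) (Cert.L 196))) (Cert.s6 (Cert.s1 (Cert.s2 (Cert.s3 (Cert.s4 (Cert.s5 (Cert.s6 Cert.a (Cert.L 196)) (Cert.L 184)) (Cert.s5 (Cert.s6 Cert.a (Cert.L 192)) (Cert.s6 Cert.a (Cert.L 192))))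 (Cert.s4 (Cert.s5 (Cert.s6 Cert.a Cert.c) (Cert.L 192)) (Cert.s5 (Cert.s6 Cert.a Cert.c) (Cert.L 192)))) (Cert.s3 Cert.a Cert.a)) (Cert.s2 (Cert.s3 (Cert.s4 (Cert.s5 (Cert.s6 Cert.a (Cert.L 192)) (Cert.L 192)) (Cert.L 220)) (Cert.L 220)) (Cert.L 220))) (Cert.L 184))) (Cert.s5 (Cert.s6 (Cert.s1 (Cert.s2 (Cert.s3 (Cert.s4 (Cert.s5 Cert.c (Cert.s6 Cert.a Cert.c)) Cert.b) (Cert.s4 (Cert.s5 Cert.c (Cert.s6 Cert.a Cert.c)) Cert.b)) (Cert.s3 Cert.a Cert.a)) Cert.b) (Cert.s1 (Cert.s2 (Cert.s3 (Cert.s4 (Cert.s5 (Cert.s6 Cert.c Cert.c) (Cert.L 192)) (Cert.L 224)) (Cert.L 224)) (Cert.L 224)) (Cert.L 224))) (Cert.s6 (Cert.s1 (Cert.s2 (Cert.s3 (Cert.s4 (Cert.s5 (Cert.s6 Cert.a (Cert.L 224)) (Cert.L 224)) Cert.b) (Cert.L 224)) (Cert.L 224)) Cert.b) (Cert.L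 224)))) (Cert.s4 (Cert.s5 (Cert.s6 (Cert.s1 (Cert.s2 Cert.a Cert.a) (Cert.L 244)) (Cert.L 244)) (Cert.L 244)) (Cert.L 244)))) (Cert.s2 (Cert.s4 (Cert.s5 (Cert.s6 (Cert.s1 (Cert.s2 (Cert.s4 (Cert.s5 (Cert.s6 Cert.b Cert.c) (Cert.s6 Cert.b Cert.d)) (Cert.s5 Cert.d (Cert.s6 Cert.b Cert.d))) (Cert.s3 (Cert.s4 (Cert.s5 (Cert.s6 Cert.a Cert.c) (Cert.s6 Cert.a Cert.c)) (Cert.s5 Cert.d (Cert.s6 Cert.a Cert.c))) (Cert.s4 (Cert.s5 Cert.c (Cert.s6 Cert.a Cert.c)) (Cert.L 256)))) (Cert.s2 (Cert.s4 (Cert.s5 Cert.d (Cert.s6 Cert.b Cert.d)) Cert.b) (Cert.s3 (Cert.s4 (Cert.s5 Cert.d (Cert.L 256)) Cert.b) (Cert.L 256)))) (Cert.L 196)) (Cert.s6 (Cert.s1 (Cert.s2 (Cert.s4 (Cert.s5 (Cert.s6 Cert.b (Cert.L 196)) (Cert.L 196)) (Cert.s5 (Cert.s6 Cert.b (Cert.L 196))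 (Cert.L 196))) (Cert.L 196)) (Cert.L 196)) (Cert.L 196))) (Cert.s5 (Cert.s6 Cert.b (Cert.L 200)) (Cert.L 240))) (Cert.s3 (Cert.s4 (Cert.s5 (Cert.s6 (Cert.s1 (Cert.s2 (Cert.s3 (Cert.s4 (Cert.s5 Cert.c (Cert.s6 Cert.a Cert.c)) (Cert.L 244)) (Cert.L 244)) (Cert.L 244)) (Cert.L 244)) (Cert.L 244)) (Cert.L 244)) (Cert.L 244)) (Cert.L 244)))) (Cert.L 188)) (Cert.L 188))))) (Cert.s2 (Cert.s4 (Cert.s5 (Cert.s6 (Cert.s1 (Cert.s2 (Cert.L 64) (Cert.s3 (Cert.L 140) (Cert.s4 (Cert.L 144) (Cert.s5 (Cert.s6 (Cert.s1 (Cert.s2 (Cert.L 144) (Cert.s3 (Cert.L 156) (Cert.s4 (Cert.L 160) (Cert.s5 (Cert.s6 Cert.b Cert.d) (Cert.L 168))))) (Cert.L 180)) (Cert.L 180)) (Cert.L 180))))) (Cert.L 180)) (Cert.L 180)) (Cert.L 180)) (Cert.s5 (Cert.s6 (Cert.s1 (Cert.s2 (Cert.s4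 (Cert.L 140) (Cert.s5 (Cert.s6 Cert.b (Cert.L 164)) (Cert.L 164))) (Cert.s3 (Cert.s4 (Cert.s5 (Cert.s6 (Cert.s1 (Cert.s2 (Cert.s3 (Cert.L 164) (Cert.s4 (Cert.L 164) Cert.b)) (Cert.s3 (Cert.s4 (Cert.L 164) Cert.b) (Cert.s4 (Cert.L 164) Cert.b))) Cert.b) (Cert.L 164)) (Cert.L 164)) (Cert.s5 (Cert.s6 Cert.b (Cert.L 180)) (Cert.L 180))) (Cert.s4 (Cert.s5 (Cert.s6 (Cert.s1 (Cert.s2 (Cert.s4 (Cert.L 156) Cert.b) (Cert.s3 (Cert.s4 (Cert.s5 Cert.d (Cert.L 168)) Cert.b) (Cert.s4 (Cert.s5 Cert.d (Cert.L 184)) Cert.b))) Cert.b) (Cert.L 184)) (Cert.L 184)) (Cert.s5 (Cert.s6 Cert.b (Cert.L 184)) (Cert.L 184))))) (Cert.L 188)) (Cert.L 188)) (Cert.L 188))) (Cert.s3 (Cert.s4 (Cert.s5 (Cert.s6 (Cert.s1 (Cert.s2 (Cert.s3 (Cert.s4 (Cert.L 188) (Cert.s5 (Cert.s6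 (Cert.s1 (Cert.s2 (Cert.L 160) (Cert.s3 (Cert.L 160) (Cert.s4 (Cert.L 160) (Cert.s5 (Cert.s6 Cert.b Cert.d) (Cert.L 164))))) (Cert.L 176)) (Cert.L 176)) (Cert.L 176))) (Cert.s4 (Cert.L 180) (Cert.s5 (Cert.s6 (Cert.s1 (Cert.s2 (Cert.s3 (Cert.s4 (Cert.L 180) (Cert.s5 (Cert.s6 Cert.b Cert.d) (Cert.L 180))) (Cert.s4 (Cert.s5 (Cert.s6 Cert.c Cert.d) (Cert.L 180)) (Cert.s5 (Cert.s6 Cert.b Cert.d) (Cert.L 180)))) (Cert.s3 (Cert.s4 (Cert.s5 (Cert.s6 Cert.c Cert.c) (Cert.L 180)) (Cert.s5 (Cert.s6 Cert.b Cert.c) (Cert.L 180))) (Cert.s4 (Cert.s5 (Cert.s6 Cert.a Cert.c) (Cert.L 180)) (Cert.s5 (Cert.s6 Cert.a Cert.c) (Cert.L 184))))) (Cert.L 188)) (Cert.L 188)) (Cert.L 188)))) (Cert.s3 (Cert.s4 (Cert.L 188) (Cert.s5 (Cert.s6 (Cert.s1 (Cert.s2 (Cert.s3 (Cert.L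 184) (Cert.s4 (Cert.L 184) (Cert.s5 (Cert.s6 Cert.a Cert.c) (Cert.L 184)))) (Cert.L 192)) (Cert.L 192)) (Cert.L 192)) (Cert.L 192))) (Cert.s4 (Cert.L 192) (Cert.s5 (Cert.s6 (Cert.s1 (Cert.s2 (Cert.s3 (Cert.s4 (Cert.L 188) (Cert.s5 (Cert.s6 Cert.a Cert.c) (Cert.L 188))) (Cert.L 192)) (Cert.L 192)) (Cert.L 192)) (Cert.L 192)) (Cert.L 192))))) (Cert.L 192)) (Cert.L 192)) (Cert.L 192)) (Cert.s5 (Cert.s6 (Cert.s1 (Cert.s2 (Cert.s3 (Cert.s4 (Cert.s5 (Cert.s6 (Cert.s1 (Cert.s2 (Cert.s3 (Cert.s4 (Cert.L 160) Cert.b) (Cert.s4 (Cert.s5 Cert.d (Cert.L 168)) Cert.b)) (Cert.s3 (Cert.s4 (Cert.s5 Cert.d (Cert.L 168)) Cert.b) (Cert.s4 (Cert.s5 Cert.d (Cert.L 180)) Cert.b))) Cert.b) (Cert.L 180)) (Cert.L 180)) (Cert.s5 (Cert.s6 Cert.b (Cert.L 184)) (Cert.L 184)))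 (Cert.s4 (Cert.s5 (Cert.s6 (Cert.s1 (Cert.s2 (Cert.s3 (Cert.s4 (Cert.s5 Cert.d (Cert.L 184)) Cert.b) (Cert.s4 (Cert.s5 Cert.d (Cert.L 188)) Cert.b)) (Cert.s3 (Cert.s4 (Cert.s5 Cert.d (Cert.L 188)) Cert.b) (Cert.L 232))) Cert.b) (Cert.L 184)) (Cert.L 184)) (Cert.s5 (Cert.s6 Cert.b (Cert.L 188)) (Cert.L 188)))) (Cert.s3 (Cert.s4 (Cert.s5 (Cert.s6 (Cert.s1 (Cert.s2 (Cert.s3 (Cert.s4 (Cert.s5 Cert.d (Cert.L 188)) Cert.b) (Cert.s4 (Cert.s5 Cert.d (Cert.L 188)) Cert.b)) (Cert.L 196)) Cert.b) (Cert.L 196)) (Cert.L 196)) (Cert.L 240)) (Cert.L 240))) (Cert.L 188)) (Cert.L 188)) (Cert.L 188))) (Cert.s4 (Cert.s5 (Cert.s6 (Cert.s1 (Cert.s2 (Cert.s4 (Cert.s5 (Cert.s6 (Cert.s1 (Cert.s2 (Cert.s4 (Cert.L 160) (Cert.s5 (Cert.s6 Cert.c Cert.c) (Cert.L 164))) (Cert.s3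 (Cert.s4 (Cert.L 176) (Cert.s5 (Cert.s6 Cert.a Cert.c) (Cert.L 176))) (Cert.L 188))) (Cert.L 188)) (Cert.L 188)) (Cert.L 188)) (Cert.s5 (Cert.s6 (Cert.s1 (Cert.s2 (Cert.s4 (Cert.s5 (Cert.s6 Cert.c Cert.c) (Cert.L 188)) (Cert.s5 (Cert.s6 Cert.b Cert.c) (Cert.L 188))) (Cert.s3 (Cert.s4 (Cert.s5 (Cert.s6 Cert.a Cert.c) (Cert.L 188)) (Cert.L 208)) (Cert.L 208))) (Cert.L 208)) (Cert.L 208)) (Cert.L 208))) (Cert.L 192)) (Cert.L 192)) (Cert.L 192)) (Cert.L 192)) (Cert.L 240))))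

def t17 : Cert := Cert.s2 (Cert.s5 (Cert.s6 Cert.b (Cert.s1 (Cert.s2 (Cert.s5 (Cert.s6 (Cert.s1 (Cert.L 64) (Cert.s2 (Cert.L 64) (Cert.s3 (Cert.L 64) (Cert.s4 (Cert.L 64) Cert.b)))) (Cert.L 104)) (Cert.L 148)) (Cert.s3 (Cert.s5 (Cert.s6 (Cert.s1 (Cert.s2 (Cert.s3 (Cert.L 148) (Cert.s4 (Cert.L 64) Cert.b)) (Cert.s3 (Cert.L 64) (Cert.s4 (Cert.s5 (Cert.s6 Cert.a (Cert.s1 (Cert.L 64) (Cert.s2 (Cert.L 64) (Cert.s3 (Cert.L 64) Cert.a)))) (Cert.s6 Cert.a (Cert.s1 (Cert.L 64) (Cert.s2 (Cert.L 64) (Cert.s3 (Cert.L 64) Cert.a))))) Cert.b))) (Cert.s2 (Cert.s3 (Cert.L 64) (Cert.s4 (Cert.s5 (Cert.s6 Cert.a (Cert.s1 (Cert.L 64) Cert.b)) (Cert.s6 Cert.a (Cert.L 124))) Cert.b)) (Cert.s3 (Cert.s5 (Cert.s6 Cert.a (Cert.s1 (Cert.L 124) Cert.b)) (Cert.s6 Cert.a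 (Cert.L 132))) (Cert.s4 (Cert.s5 (Cert.s6 Cert.a (Cert.s1 (Cert.s2 (Cert.s3 (Cert.L 132) (Cert.s4 (Cert.L 132) Cert.b)) (Cert.s3 (Cert.s4 (Cert.L 132) Cert.b) Cert.a)) Cert.b)) (Cert.s6 Cert.a (Cert.s1 (Cert.s2 (Cert.L 156) (Cert.s3 (Cert.L 156) Cert.a)) Cert.b))) Cert.b)))) (Cert.s1 (Cert.s2 (Cert.s3 (Cert.L 156) (Cert.s4 (Cert.L 156) (Cert.s5 (Cert.s6 (Cert.s1 (Cert.L 156) (Cert.s2 (Cert.L 156) (Cert.s3 (Cert.L 156) (Cert.s4 (Cert.L 156) (Cert.s5 (Cert.s6 Cert.b (Cert.L 156)) (Cert.L 156)))))) (Cert.L 156)) (Cert.L 156)))) (Cert.s3 (Cert.L 156) (Cert.s4 (Cert.s5 (Cert.s6 (Cert.s1 (Cert.L 156) (Cert.s2 (Cert.L 156) (Cert.s3 (Cert.L 156) (Cert.s4 (Cert.L 156) (Cert.s5 (Cert.s6 (Cert.s1 (Cert.L 156) (Cert.s2 (Cert.L 156) (Cert.s3 (Cert.L 156)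 (Cert.s4 (Cert.L 156) (Cert.s5 (Cert.s6 Cert.b Cert.c) (Cert.L 156)))))) (Cert.L 156)) (Cert.L 156)))))) (Cert.L 156)) (Cert.L 156)) (Cert.s5 (Cert.s6 (Cert.s1 (Cert.s2 (Cert.s3 (Cert.L 156) (Cert.s4 (Cert.L 156) (Cert.s5 (Cert.s6 (Cert.s1 (Cert.L 64) Cert.b) (Cert.L 104)) (Cert.L 156)))) (Cert.s3 (Cert.L 156) (Cert.s4 (Cert.s5 (Cert.s6 (Cert.s1 (Cert.L 64) (Cert.s2 (Cert.L 64) (Cert.s3 (Cert.L 64) (Cert.s4 (Cert.L 64) (Cert.s5 Cert.d (Cert.s6 Cert.b Cert.d)))))) (Cert.L 140)) (Cert.L 156)) (Cert.s5 (Cert.s6 (Cert.s1 (Cert.s2 (Cert.s3 (Cert.L 156) (Cert.s4 (Cert.L 64) Cert.b)) (Cert.s3 (Cert.L 64) (Cert.s4 (Cert.s5 Cert.d (Cert.s6 Cert.b Cert.d)) Cert.b))) Cert.b) (Cert.s1 (Cert.s2 (Cert.s3 (Cert.L 64) (Cert.s4 (Cert.L 64) (Cert.s5 Cert.d (Cert.L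 92)))) (Cert.s3 (Cert.L 92) (Cert.s4 (Cert.L 172) (Cert.s5 Cert.d (Cert.L 172))))) (Cert.s2 (Cert.s3 (Cert.L 172) (Cert.s4 (Cert.L 172) (Cert.s5 Cert.d (Cert.L 172)))) (Cert.s3 (Cert.L 172) (Cert.s4 (Cert.L 180) (Cert.s5 Cert.d (Cert.L 180))))))) (Cert.s6 (Cert.s1 (Cert.s2 (Cert.s3 (Cert.L 180) (Cert.s4 (Cert.L 180) Cert.b)) (Cert.s3 (Cert.L 180) (Cert.s4 (Cert.s5 (Cert.s6 Cert.b (Cert.L 180)) (Cert.L 180)) Cert.b))) Cert.b) (Cert.L 180)))))) (Cert.s2 (Cert.s3 (Cert.L 180) (Cert.s4 (Cert.s5 (Cert.s6 (Cert.s1 (Cert.L 64) (Cert.s2 (Cert.L 64) (Cert.s3 (Cert.L 64) (Cert.s4 (Cert.L 64) Cert.b)))) (Cert.L 116)) (Cert.L 124)) (Cert.s5 (Cert.s6 Cert.b (Cert.L 176)) (Cert.L 180)))) (Cert.s3 (Cert.s5 (Cert.s6 (Cert.s1 (Cert.L 64) (Cert.s2 (Cert.L 64)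 (Cert.s3 (Cert.L 64) (Cert.s4 (Cert.L 64) Cert.b)))) (Cert.L 128)) (Cert.L 132)) (Cert.s4 (Cert.s5 (Cert.s6 (Cert.s1 (Cert.s2 (Cert.s3 (Cert.L 132) (Cert.s4 (Cert.L 132) (Cert.s5 Cert.d (Cert.s6 Cert.b Cert.d)))) (Cert.s3 (Cert.s4 (Cert.L 132) (Cert.s5 Cert.d (Cert.s6 Cert.b Cert.d))) (Cert.s4 (Cert.s5 (Cert.s6 Cert.b Cert.c) (Cert.L 176)) (Cert.s5 Cert.d (Cert.s6 Cert.b Cert.d))))) (Cert.s2 (Cert.s3 (Cert.s4 (Cert.L 176) Cert.b) (Cert.s4 (Cert.s5 Cert.d (Cert.L 176)) Cert.b)) (Cert.s3 (Cert.s4 (Cert.s5 Cert.d (Cert.L 176)) Cert.b) (Cert.s4 (Cert.s5 Cert.d (Cert.L 180)) Cert.b)))) (Cert.L 180)) (Cert.L 180)) (Cert.s5 (Cert.s6 Cert.b (Cert.L 184)) (Cert.L 188)))))) (Cert.L 188)) (Cert.L 188))))) (Cert.s2 (Cert.s3 (Cert.L 188) (Cert.s4 (Cert.L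 188) (Cert.s5 (Cert.s6 (Cert.s1 (Cert.s2 (Cert.L 132) (Cert.s3 (Cert.L 132) (Cert.s4 (Cert.L 136) (Cert.s5 (Cert.s6 Cert.b (Cert.L 164)) (Cert.L 164))))) (Cert.L 180)) (Cert.L 180)) (Cert.L 180)))) (Cert.s3 (Cert.L 180) (Cert.s4 (Cert.L 180) (Cert.s5 (Cert.s6 (Cert.s1 (Cert.s2 (Cert.s3 (Cert.L 180) (Cert.s4 (Cert.s5 (Cert.s6 (Cert.s1 (Cert.s2 (Cert.L 160) (Cert.s3 (Cert.L 160) (Cert.s4 (Cert.L 160) Cert.b))) Cert.b) (Cert.L 160)) (Cert.L 164)) (Cert.s5 (Cert.s6 Cert.b (Cert.L 176)) (Cert.L 176)))) (Cert.s3 (Cert.s5 (Cert.s6 (Cert.s1 (Cert.s2 (Cert.L 176) (Cert.L 188)) Cert.b) (Cert.L 188)) (Cert.L 188)) (Cert.s4 (Cert.s5 (Cert.s6 (Cert.s1 (Cert.s2 (Cert.s3 (Cert.s4 (Cert.L 188) Cert.b) (Cert.s4 (Cert.L 184) Cert.b)) (Cert.s3 (Cert.s4 (Cert.L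 184) Cert.b) (Cert.s4 (Cert.L 188) Cert.b))) Cert.b) (Cert.L 188)) (Cert.L 188)) (Cert.s5 (Cert.s6 Cert.b (Cert.L 188)) (Cert.L 188))))) (Cert.L 188)) (Cert.L 188)) (Cert.L 188))))))) (Cert.s6 (Cert.s1 (Cert.s2 (Cert.s3 (Cert.L 64) (Cert.s4 (Cert.L 64) Cert.b)) (Cert.s3 (Cert.L 64) (Cert.s4 (Cert.s5 (Cert.s6 Cert.a (Cert.L 140)) (Cert.L 164)) Cert.b))) (Cert.s2 (Cert.s3 (Cert.L 164) (Cert.s4 (Cert.L 164) Cert.b)) (Cert.s3 (Cert.L 164) (Cert.s4 (Cert.s5 (Cert.s6 Cert.a (Cert.L 164)) (Cert.L 172)) Cert.b)))) (Cert.L 172))) (Cert.s4 (Cert.s5 (Cert.s6 (Cert.s1 (Cert.s2 (Cert.s4 (Cert.s5 (Cert.s6 Cert.a (Cert.s1 (Cert.L 64) (Cert.s2 (Cert.L 64) (Cert.s3 (Cert.L 64) (Cert.s4 (Cert.L 64) Cert.b))))) (Cert.s6 Cert.a (Cert.s1 (Cert.L 64) (Cert.s2 (Cert.L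 64) (Cert.s3 (Cert.L 64) (Cert.s4 (Cert.L 64) Cert.b)))))) Cert.b) (Cert.s3 (Cert.s4 (Cert.s5 (Cert.s6 Cert.a (Cert.s1 (Cert.s2 (Cert.s3 (Cert.L 64) Cert.a) Cert.a) (Cert.s2 (Cert.s3 (Cert.s4 (Cert.L 64) Cert.b) Cert.a) Cert.a))) (Cert.s6 Cert.a (Cert.s1 (Cert.s2 (Cert.s3 (Cert.L 64) Cert.a) Cert.a) (Cert.s2 (Cert.s3 (Cert.s4 (Cert.L 64) Cert.b) Cert.a) Cert.a)))) Cert.b) Cert.a)) (Cert.s2 (Cert.s4 (Cert.s5 (Cert.s6 Cert.a (Cert.s1 (Cert.s2 (Cert.L 64) (Cert.s3 (Cert.s4 (Cert.L 64) Cert.b) (Cert.s4 (Cert.s5 (Cert.s6 Cert.a (Cert.s1 Cert.b Cert.b)) (Cert.s6 Cert.a (Cert.L 152))) Cert.b))) Cert.b)) (Cert.s6 Cert.a (Cert.s1 (Cert.s2 (Cert.L 152) (Cert.s3 (Cert.L 168) (Cert.s4 (Cert.L 168) Cert.b))) Cert.b))) Cert.b) (Cert.s3 (Cert.s4 (Cert.s5 (Cert.s6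 Cert.a (Cert.s1 (Cert.s2 (Cert.s3 (Cert.s4 (Cert.s5 (Cert.s6 Cert.a (Cert.s1 Cert.b Cert.b)) (Cert.s6 Cert.a (Cert.L 168))) Cert.b) Cert.a) Cert.a) Cert.b)) (Cert.s6 Cert.a (Cert.s1 (Cert.s2 (Cert.s3 (Cert.s4 (Cert.L 168) Cert.b) Cert.a) Cert.a) Cert.b))) Cert.b) Cert.a))) t16) (Cert.s6 (Cert.s1 (Cert.s2 (Cert.s4 (Cert.s5 (Cert.s6 Cert.a (Cert.L 140)) (Cert.L 176)) Cert.b) (Cert.s3 (Cert.s4 (Cert.s5 (Cert.s6 Cert.a (Cert.L 180)) (Cert.s6 Cert.a (Cert.L 180))) Cert.b) Cert.a)) (Cert.s2 (Cert.s4 (Cert.s5 (Cert.s6 Cert.a (Cert.L 180)) (Cert.L 180)) Cert.b) (Cert.s3 (Cert.s4 (Cert.s5 (Cert.s6 Cert.a (Cert.L 180)) (Cert.L 184)) Cert.b) Cert.a))) (Cert.L 184))) (Cert.s5 (Cert.s6 Cert.b (Cert.s1 (Cert.s2 (Cert.s5 (Cert.s6 (Cert.s1 (Cert.s2 (Cert.s5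 (Cert.L 72) (Cert.s6 Cert.b (Cert.L 84))) (Cert.s3 (Cert.s5 (Cert.s6 Cert.b (Cert.s1 (Cert.s2 (Cert.L 84) (Cert.s3 (Cert.L 84) (Cert.s4 (Cert.L 84) (Cert.s5 Cert.d Cert.d)))) (Cert.s2 (Cert.s3 (Cert.L 84) (Cert.s4 (Cert.L 84) (Cert.s5 Cert.d Cert.d))) (Cert.s3 (Cert.L 84) (Cert.s4 (Cert.s5 Cert.d Cert.d) (Cert.s5 Cert.d Cert.d)))))) (Cert.s6 Cert.b (Cert.L 176))) (Cert.s4 (Cert.s5 (Cert.s6 Cert.b (Cert.s1 (Cert.s2 (Cert.s4 (Cert.L 64) (Cert.s5 Cert.d Cert.d)) (Cert.s3 (Cert.s4 (Cert.s5 Cert.d Cert.d) (Cert.s5 Cert.d Cert.d)) (Cert.s4 (Cert.s5 Cert.d Cert.d) (Cert.s5 Cert.d Cert.d)))) (Cert.s2 (Cert.s4 (Cert.s5 Cert.d Cert.d) (Cert.s5 Cert.d Cert.d)) (Cert.s3 (Cert.s4 (Cert.s5 Cert.d Cert.d) (Cert.s5 Cert.d Cert.d)) (Cert.s4 (Cert.s5 Cert.d Cert.d)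 (Cert.s5 Cert.d Cert.d)))))) (Cert.s6 Cert.b (Cert.L 184))) (Cert.s5 (Cert.s6 Cert.b Cert.d) (Cert.s6 Cert.b (Cert.L 188)))))) (Cert.s2 (Cert.s5 (Cert.s6 Cert.b (Cert.s1 (Cert.s2 (Cert.L 64) (Cert.s3 (Cert.L 64) (Cert.s4 (Cert.L 140) Cert.d))) (Cert.s2 (Cert.L 140) (Cert.s3 (Cert.L 140) (Cert.s4 (Cert.L 180) Cert.d))))) (Cert.s6 Cert.b (Cert.L 180))) (Cert.s3 (Cert.s5 (Cert.s6 Cert.b (Cert.s1 (Cert.s2 (Cert.s3 (Cert.L 180) (Cert.s4 (Cert.s5 Cert.d Cert.d) Cert.d)) (Cert.s3 (Cert.s5 Cert.d Cert.d) (Cert.s4 (Cert.s5 Cert.d Cert.d) Cert.d))) (Cert.s2 (Cert.s3 (Cert.L 180) (Cert.s4 (Cert.s5 Cert.d Cert.d) Cert.d)) (Cert.L 196)))) (Cert.s6 Cert.b (Cert.L 196))) (Cert.s4 (Cert.s5 (Cert.s6 Cert.b (Cert.s1 (Cert.s2 (Cert.s4 (Cert.s5 Cert.d Cert.d) Cert.d)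 (Cert.s3 (Cert.s4 (Cert.s5 Cert.d Cert.d) Cert.d) (Cert.s4 (Cert.s5 Cert.d Cert.d) Cert.d))) (Cert.s2 (Cert.s4 (Cert.L 188) Cert.d) (Cert.L 192)))) (Cert.s6 Cert.b (Cert.L 192))) (Cert.s5 (Cert.s6 Cert.b Cert.d) (Cert.s6 Cert.b (Cert.L 192))))))) (Cert.L 192)) (Cert.s6 (Cert.s1 (Cert.s2 (Cert.L 96) (Cert.s3 (Cert.L 176) (Cert.s4 (Cert.L 188) (Cert.L 192)))) (Cert.L 192)) (Cert.L 192))) (Cert.s3 (Cert.s5 (Cert.s6 (Cert.s1 (Cert.s2 (Cert.s3 (Cert.s5 (Cert.s6 Cert.b (Cert.s1 (Cert.s2 (Cert.s3 (Cert.L 72) (Cert.s4 (Cert.s5 Cert.d Cert.d) (Cert.s5 Cert.d Cert.d))) (Cert.s3 (Cert.s5 Cert.d Cert.d) (Cert.s4 (Cert.s5 Cert.d Cert.d) (Cert.s5 Cert.d Cert.d)))) (Cert.s2 (Cert.s3 (Cert.s5 Cert.d Cert.d) (Cert.s4 (Cert.s5 Cert.d Cert.d) (Cert.s5 Cert.d Cert.d)))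 (Cert.s3 (Cert.s5 Cert.d Cert.d) (Cert.s4 (Cert.s5 Cert.d Cert.d) (Cert.s5 Cert.d Cert.d)))))) (Cert.s6 Cert.b (Cert.L 184))) (Cert.s4 (Cert.s5 (Cert.s6 Cert.b (Cert.s1 (Cert.s2 (Cert.s3 (Cert.s4 (Cert.s5 Cert.d Cert.d) (Cert.s5 Cert.d Cert.d)) (Cert.s4 (Cert.s5 Cert.d Cert.d) (Cert.s5 Cert.d Cert.d))) (Cert.s3 (Cert.s4 (Cert.s5 Cert.d Cert.d) (Cert.s5 Cert.d Cert.d)) (Cert.s4 (Cert.s5 Cert.d Cert.d) (Cert.L 256)))) (Cert.s2 (Cert.s3 (Cert.s4 (Cert.s5 Cert.d Cert.d) (Cert.s5 Cert.d Cert.d)) (Cert.s4 (Cert.s5 Cert.d Cert.d) (Cert.L 256))) (Cert.s3 (Cert.s4 (Cert.s5 Cert.d Cert.d) (Cert.L 256)) (Cert.L 256))))) (Cert.s6 Cert.b (Cert.L 188))) (Cert.s5 (Cert.s6 Cert.b Cert.d) (Cert.s6 Cert.b (Cert.L 188))))) (Cert.s3 (Cert.s5 (Cert.s6 Cert.b (Cert.s1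 (Cert.s2 (Cert.s3 (Cert.s5 Cert.d Cert.d) (Cert.s4 (Cert.s5 Cert.d Cert.d) (Cert.s5 Cert.d Cert.d))) (Cert.s3 (Cert.s5 Cert.d Cert.d) (Cert.s4 (Cert.s5 Cert.d Cert.d) (Cert.L 224)))) (Cert.s2 (Cert.s3 (Cert.s5 Cert.d Cert.d) (Cert.s4 (Cert.s5 Cert.d Cert.d) (Cert.L 224))) (Cert.L 228)))) (Cert.s6 Cert.b (Cert.L 184))) (Cert.s4 (Cert.s5 (Cert.s6 Cert.b (Cert.s1 (Cert.s2 (Cert.s3 (Cert.s4 (Cert.s5 Cert.d Cert.d) (Cert.L 240)) (Cert.L 240)) (Cert.L 240)) (Cert.L 240))) (Cert.s6 Cert.b (Cert.L 240))) (Cert.s5 (Cert.s6 Cert.b Cert.d) (Cert.L 240))))) (Cert.s2 (Cert.s3 (Cert.s5 (Cert.s6 Cert.b (Cert.s1 (Cert.s2 (Cert.s3 (Cert.s5 Cert.d Cert.d) (Cert.s4 (Cert.s5 Cert.d Cert.d) Cert.d)) (Cert.s3 (Cert.s5 Cert.d Cert.d) (Cert.s4 (Cert.s5 Cert.d Cert.d)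 Cert.d))) (Cert.L 196))) (Cert.s6 Cert.b (Cert.L 196))) (Cert.s4 (Cert.s5 (Cert.s6 Cert.b (Cert.s1 (Cert.s2 (Cert.s3 (Cert.s4 (Cert.s5 Cert.d Cert.d) Cert.d) (Cert.L 196)) (Cert.L 196)) (Cert.L 196))) (Cert.s6 Cert.b (Cert.L 196))) (Cert.L 240))) (Cert.s3 (Cert.s5 (Cert.s6 Cert.b (Cert.L 240)) (Cert.L 240)) (Cert.L 240)))) (Cert.L 188)) (Cert.s6 (Cert.s1 (Cert.s2 (Cert.s3 (Cert.s5 (Cert.s6 Cert.b (Cert.L 188)) (Cert.L 188)) (Cert.L 192)) (Cert.L 192)) (Cert.L 192)) (Cert.L 192))) (Cert.s4 (Cert.s5 (Cert.s6 (Cert.s1 (Cert.s2 (Cert.s4 (Cert.s5 (Cert.s6 Cert.b (Cert.s1 (Cert.s2 (Cert.s4 (Cert.s5 Cert.d Cert.d) (Cert.s5 Cert.d Cert.d)) (Cert.L 244)) (Cert.L 244))) (Cert.s6 Cert.b (Cert.L 244))) (Cert.s5 (Cert.s6 Cert.b Cert.d) (Cert.L 244))) (Cert.s3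 (Cert.s4 (Cert.s5 (Cert.s6 Cert.b (Cert.L 244)) (Cert.L 244)) (Cert.L 244)) (Cert.L 244))) (Cert.L 244)) (Cert.L 244)) (Cert.L 244)) (Cert.L 244)))) (Cert.s2 (Cert.s5 (Cert.s6 (Cert.s1 (Cert.s2 (Cert.s5 (Cert.s6 Cert.b Cert.d) (Cert.L 184)) (Cert.s3 (Cert.s5 (Cert.s6 Cert.b Cert.d) (Cert.L 188)) (Cert.s4 (Cert.s5 (Cert.s6 Cert.b Cert.d) (Cert.L 188)) Cert.b))) Cert.b) (Cert.L 188)) (Cert.L 188)) (Cert.s3 (Cert.s5 (Cert.s6 (Cert.s1 (Cert.s2 (Cert.s3 (Cert.s5 (Cert.s6 Cert.b Cert.d) (Cert.L 188)) (Cert.L 204)) (Cert.L 204)) Cert.b) (Cert.L 204)) (Cert.L 204)) (Cert.L 204))))) (Cert.s6 Cert.b (Cert.L 204)))))) (Cert.s2 (Cert.s5 (Cert.s6 (Cert.s1 Cert.b Cert.b) (Cert.L 144)) (Cert.L 156)) (Cert.s3 (Cert.s5 (Cert.s6 (Cert.s1 Cert.b Cert.b) (Cert.L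 180)) (Cert.L 184)) (Cert.s4 (Cert.s5 (Cert.s6 (Cert.s1 Cert.b Cert.b) (Cert.L 184)) (Cert.L 188)) (Cert.s5 (Cert.s6 Cert.b (Cert.L 188)) (Cert.L 188))))))) (Cert.s6 Cert.b (Cert.L 188))) (Cert.s3 (Cert.s5 (Cert.s6 Cert.a (Cert.s1 (Cert.s3 (Cert.s5 (Cert.s6 (Cert.s1 (Cert.s3 (Cert.s5 (Cert.s6 Cert.a (Cert.s1 (Cert.L 64) (Cert.s2 (Cert.L 64) (Cert.s3 (Cert.L 64) Cert.a)))) (Cert.s6 Cert.a (Cert.L 148))) (Cert.s4 (Cert.s5 (Cert.s6 Cert.a (Cert.s1 (Cert.s3 Cert.a Cert.a) (Cert.s2 (Cert.s3 Cert.a Cert.a) Cert.a))) (Cert.s6 Cert.a (Cert.s1 (Cert.s3 Cert.a Cert.a) (Cert.s2 (Cert.s3 Cert.a Cert.a) Cert.a)))) Cert.b)) (Cert.s2 (Cert.s3 (Cert.s5 (Cert.s6 Cert.a (Cert.s1 (Cert.s2 (Cert.s3 (Cert.L 148) (Cert.s4 (Cert.L 148) Cert.b)) (Cert.s3 (Cert.L 148)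 Cert.a)) Cert.b)) (Cert.s6 Cert.a (Cert.L 164))) (Cert.s4 (Cert.s5 (Cert.s6 Cert.a (Cert.s1 (Cert.s2 (Cert.s3 Cert.a Cert.a) Cert.a) Cert.b)) (Cert.s6 Cert.a (Cert.s1 (Cert.s2 (Cert.s3 Cert.a Cert.a) Cert.a) Cert.b))) Cert.b)) (Cert.s3 Cert.a Cert.a))) (Cert.s1 (Cert.s3 (Cert.L 164) (Cert.s4 (Cert.s5 (Cert.s6 (Cert.s1 (Cert.s3 (Cert.L 164) (Cert.s4 (Cert.L 164) (Cert.s5 (Cert.s6 (Cert.s1 (Cert.L 164) (Cert.s2 (Cert.L 164) (Cert.s3 (Cert.L 164) (Cert.s4 (Cert.L 164) (Cert.s5 Cert.c (Cert.L 164)))))) (Cert.L 164)) (Cert.L 164)))) (Cert.s2 (Cert.s3 (Cert.L 164) (Cert.s4 (Cert.L 164) (Cert.s5 (Cert.s6 (Cert.s1 (Cert.s2 (Cert.s3 (Cert.L 164) (Cert.s4 (Cert.L 164) (Cert.s5 (Cert.s6 Cert.a Cert.c) (Cert.L 164)))) (Cert.s3 (Cert.L 168) (Cert.s4 (Cert.L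 168) (Cert.s5 Cert.c (Cert.L 168))))) (Cert.s2 (Cert.s3 (Cert.L 168) (Cert.s4 (Cert.L 168) (Cert.s5 (Cert.s6 Cert.a Cert.c) (Cert.L 168)))) (Cert.L 188))) (Cert.L 188)) (Cert.L 188)))) (Cert.L 188))) (Cert.L 188)) (Cert.L 188)) (Cert.s5 (Cert.s6 (Cert.s1 (Cert.s3 (Cert.s5 (Cert.s6 (Cert.s1 (Cert.L 64) (Cert.s2 (Cert.L 64) (Cert.s3 (Cert.L 64) (Cert.s4 (Cert.L 64) (Cert.s5 Cert.d (Cert.L 152)))))) (Cert.L 152)) (Cert.L 152)) (Cert.s4 (Cert.s5 (Cert.s6 (Cert.s1 (Cert.s3 (Cert.L 152) (Cert.s4 (Cert.L 152) (Cert.s5 (Cert.s6 Cert.a Cert.c) (Cert.s6 Cert.a Cert.d)))) (Cert.s2 (Cert.s3 (Cert.s4 (Cert.L 152) (Cert.s5 Cert.d (Cert.L 172))) (Cert.s4 (Cert.s5 (Cert.s6 Cert.a Cert.c) (Cert.L 172)) (Cert.s5 Cert.d (Cert.s6 Cert.a Cert.d)))) (Cert.s3 (Cert.s4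 (Cert.s5 (Cert.s6 Cert.a Cert.c) (Cert.L 172)) (Cert.s5 Cert.d (Cert.L 176))) (Cert.s4 (Cert.s5 Cert.c (Cert.L 176)) (Cert.s5 Cert.c (Cert.s6 Cert.a Cert.c)))))) (Cert.L 176)) (Cert.L 176)) (Cert.s5 (Cert.s6 (Cert.s1 (Cert.s3 (Cert.s5 Cert.d (Cert.s6 Cert.a Cert.d)) (Cert.s4 (Cert.s5 Cert.d (Cert.s6 Cert.a Cert.d)) Cert.b)) Cert.b) (Cert.s1 (Cert.s3 (Cert.L 176) (Cert.s4 (Cert.L 176) (Cert.s5 Cert.d (Cert.L 176)))) (Cert.L 188))) (Cert.s6 (Cert.s1 (Cert.s3 (Cert.L 144) (Cert.s4 (Cert.s5 (Cert.s6 Cert.a (Cert.L 164)) (Cert.L 164)) Cert.b)) Cert.b) (Cert.L 172))))) (Cert.s2 (Cert.s3 (Cert.s5 (Cert.s6 (Cert.s1 (Cert.s2 (Cert.s3 (Cert.L 172) (Cert.s4 (Cert.L 172) (Cert.s5 Cert.d (Cert.L 172)))) (Cert.s3 (Cert.L 172) (Cert.s4 (Cert.L 172) (Cert.s5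 Cert.d (Cert.L 172))))) (Cert.s2 (Cert.s3 (Cert.L 172) (Cert.s4 (Cert.L 172) Cert.b)) (Cert.s3 (Cert.L 172) (Cert.s4 (Cert.L 172) Cert.b)))) (Cert.L 172)) (Cert.L 172)) (Cert.s4 (Cert.s5 (Cert.s6 (Cert.s1 (Cert.s2 (Cert.s3 (Cert.s4 (Cert.s5 (Cert.s6 Cert.a Cert.c) (Cert.L 172)) (Cert.s5 Cert.d (Cert.s6 Cert.a Cert.d))) (Cert.s4 (Cert.s5 (Cert.s6 Cert.a Cert.c) (Cert.L 176)) (Cert.s5 Cert.d (Cert.s6 Cert.a Cert.d)))) (Cert.s3 (Cert.s4 (Cert.s5 (Cert.s6 Cert.a Cert.c) (Cert.L 176)) (Cert.s5 Cert.d (Cert.L 180))) (Cert.s4 (Cert.s5 Cert.c (Cert.L 180)) (Cert.s5 Cert.c (Cert.L 188))))) (Cert.s2 (Cert.s3 (Cert.s4 (Cert.s5 Cert.d (Cert.L 188)) Cert.b) (Cert.s4 (Cert.s5 Cert.d (Cert.L 188)) Cert.b)) (Cert.s3 (Cert.s4 (Cert.s5 Cert.d (Cert.L 188)) Cert.b)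 (Cert.s4 (Cert.s5 Cert.c (Cert.L 188)) Cert.b)))) (Cert.L 188)) (Cert.L 188)) (Cert.s5 (Cert.s6 Cert.b (Cert.L 188)) (Cert.L 188)))) (Cert.s3 (Cert.s5 (Cert.s6 (Cert.s1 (Cert.s3 (Cert.L 188) (Cert.s4 (Cert.L 188) (Cert.s5 Cert.d (Cert.L 188)))) (Cert.L 188)) (Cert.L 188)) (Cert.L 188)) (Cert.s4 (Cert.s5 (Cert.s6 (Cert.s1 (Cert.s3 (Cert.s4 (Cert.L 188) (Cert.s5 Cert.c (Cert.L 188))) Cert.a) (Cert.L 192)) (Cert.L 192)) (Cert.L 192)) (Cert.L 200))))) (Cert.L 200)) (Cert.L 176)))) (Cert.s2 (Cert.s3 (Cert.L 176) (Cert.s4 (Cert.L 180) (Cert.L 196))) (Cert.L 196)))) (Cert.s6 (Cert.s1 (Cert.s3 (Cert.L 168) (Cert.s4 (Cert.s5 (Cert.s6 Cert.a (Cert.L 168)) (Cert.L 176)) Cert.b)) (Cert.s2 (Cert.s3 (Cert.L 176) (Cert.s4 (Cert.s5 (Cert.s6 Cert.a (Cert.L 176))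 (Cert.L 176)) Cert.b)) (Cert.L 192))) (Cert.L 192))) (Cert.s4 (Cert.s5 (Cert.s6 (Cert.s1 (Cert.s3 Cert.a Cert.a) (Cert.s2 (Cert.s3 Cert.a Cert.a) Cert.a)) (Cert.s1 (Cert.s3 (Cert.s4 (Cert.s5 (Cert.s6 (Cert.s1 (Cert.s3 (Cert.s4 (Cert.s5 (Cert.s6 (Cert.s1 (Cert.L 64) (Cert.s2 (Cert.L 64) (Cert.s3 (Cert.L 64) Cert.a))) (Cert.L 132)) (Cert.L 140)) (Cert.s5 (Cert.s6 (Cert.s1 (Cert.s3 (Cert.L 140) (Cert.s4 (Cert.L 140) (Cert.s5 Cert.c (Cert.s6 Cert.a Cert.c)))) (Cert.s2 (Cert.s3 (Cert.s4 (Cert.L 140) (Cert.s5 Cert.c (Cert.L 164))) (Cert.s4 (Cert.s5 Cert.c (Cert.L 168)) (Cert.s5 Cert.c (Cert.s6 Cert.a Cert.c)))) (Cert.s3 (Cert.s4 (Cert.s5 Cert.c (Cert.L 168)) (Cert.s5 Cert.c (Cert.L 176))) Cert.a))) (Cert.L 176)) (Cert.L 176))) (Cert.s4 (Cert.s5 (Cert.s6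 (Cert.s1 (Cert.s3 Cert.a Cert.a) (Cert.s2 (Cert.s3 Cert.a Cert.a) Cert.a)) (Cert.L 176)) (Cert.L 176)) (Cert.s5 (Cert.s6 (Cert.s1 (Cert.s3 Cert.a Cert.a) (Cert.s2 (Cert.s3 Cert.a Cert.a) Cert.a)) (Cert.s1 (Cert.s3 (Cert.L 176) (Cert.s4 (Cert.L 176) (Cert.s5 Cert.c (Cert.L 176)))) (Cert.L 184))) (Cert.s6 (Cert.s1 (Cert.s3 Cert.a Cert.a) (Cert.L 188)) (Cert.L 188))))) (Cert.s2 (Cert.s3 (Cert.s4 (Cert.s5 (Cert.s6 (Cert.s1 (Cert.s2 (Cert.s3 (Cert.L 64) (Cert.s4 (Cert.L 64) (Cert.s5 Cert.c (Cert.L 156)))) (Cert.s3 (Cert.L 168) Cert.a)) (Cert.s2 (Cert.s3 (Cert.L 168) (Cert.s4 (Cert.L 168) (Cert.s5 Cert.c (Cert.L 168)))) (Cert.L 184))) (Cert.L 184)) (Cert.L 184)) (Cert.s5 (Cert.s6 (Cert.s1 (Cert.s2 (Cert.s3 (Cert.s4 (Cert.s5 Cert.c (Cert.L 184)) (Cert.s5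 Cert.c (Cert.L 184))) (Cert.s4 (Cert.s5 Cert.c (Cert.L 184)) (Cert.s5 Cert.c (Cert.s6 Cert.a Cert.c)))) (Cert.s3 (Cert.s4 (Cert.s5 Cert.c (Cert.L 184)) (Cert.s5 Cert.c (Cert.L 184))) Cert.a)) (Cert.s2 (Cert.s3 (Cert.s4 (Cert.s5 Cert.c (Cert.L 184)) (Cert.s5 Cert.c (Cert.L 184))) (Cert.s4 (Cert.s5 Cert.c (Cert.L 184)) (Cert.s5 Cert.c (Cert.L 188)))) (Cert.L 196))) (Cert.L 196)) (Cert.L 196))) (Cert.s4 (Cert.s5 (Cert.s6 (Cert.s1 (Cert.s2 (Cert.s3 Cert.a Cert.a) Cert.a) (Cert.s2 (Cert.s3 Cert.a Cert.a) Cert.a)) (Cert.L 196)) (Cert.L 196)) (Cert.s5 (Cert.s6 (Cert.s1 (Cert.s2 (Cert.s3 Cert.a Cert.a) Cert.a) (Cert.s2 (Cert.s3 Cert.a Cert.a) Cert.a)) (Cert.L 196)) (Cert.L 196)))) (Cert.L 196))) (Cert.L 196)) (Cert.L 196)) (Cert.s5 (Cert.s6 (Cert.s1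 (Cert.s3 (Cert.s4 (Cert.s5 (Cert.s6 (Cert.s1 (Cert.s3 (Cert.s4 (Cert.s5 Cert.c (Cert.s6 Cert.a Cert.c)) (Cert.s5 Cert.c (Cert.s6 Cert.a Cert.c))) (Cert.s4 (Cert.s5 Cert.c (Cert.s6 Cert.a Cert.c)) (Cert.s5 Cert.c (Cert.s6 Cert.a Cert.c)))) (Cert.s2 (Cert.s3 (Cert.s4 (Cert.s5 Cert.c (Cert.s6 Cert.a Cert.c)) (Cert.s5 Cert.c (Cert.s6 Cert.a Cert.c))) (Cert.s4 (Cert.s5 Cert.c (Cert.s6 Cert.a Cert.c)) (Cert.s5 Cert.c (Cert.s6 Cert.a Cert.c)))) (Cert.s3 (Cert.s4 (Cert.s5 Cert.c (Cert.s6 Cert.a Cert.c)) (Cert.s5 Cert.c (Cert.s6 Cert.a Cert.c))) Cert.a))) (Cert.s1 (Cert.s3 (Cert.L 176) (Cert.s4 (Cert.L 176) (Cert.s5 (Cert.s6 Cert.c Cert.c) (Cert.L 176)))) (Cert.L 192))) (Cert.s6 (Cert.s1 (Cert.s3 (Cert.s4 (Cert.L 148) (Cert.s5 (Cert.s6 Cert.a (Cert.L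 164)) (Cert.L 168))) (Cert.s4 (Cert.s5 (Cert.s6 Cert.a (Cert.L 168)) (Cert.L 168)) (Cert.s5 (Cert.s6 Cert.a (Cert.L 176)) (Cert.L 176)))) (Cert.s2 (Cert.s3 (Cert.s4 (Cert.L 176) (Cert.s5 (Cert.s6 Cert.a (Cert.L 176)) (Cert.L 176))) (Cert.s4 (Cert.L 180) (Cert.s5 (Cert.s6 Cert.a (Cert.L 180)) (Cert.L 180)))) (Cert.L 188))) (Cert.L 188))) (Cert.s5 (Cert.s6 (Cert.s1 (Cert.s3 (Cert.s4 (Cert.s5 Cert.c (Cert.s6 Cert.a Cert.c)) Cert.b) (Cert.s4 (Cert.s5 Cert.c (Cert.s6 Cert.a Cert.c)) Cert.b)) Cert.b) (Cert.s1 (Cert.s3 (Cert.s4 (Cert.s5 (Cert.s6 Cert.c Cert.c) (Cert.L 188)) (Cert.s5 Cert.d (Cert.L 188))) (Cert.s4 (Cert.s5 (Cert.s6 Cert.c Cert.c) (Cert.L 188)) (Cert.s5 Cert.d (Cert.L 188)))) (Cert.L 196))) (Cert.s6 (Cert.s1 (Cert.s3 (Cert.s4 (Cert.s5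 (Cert.s6 Cert.a (Cert.L 196)) (Cert.L 196)) Cert.b) (Cert.s4 (Cert.s5 (Cert.s6 Cert.a (Cert.L 196)) (Cert.L 196)) Cert.b)) Cert.b) (Cert.L 196)))) (Cert.s4 (Cert.s5 (Cert.s6 (Cert.s1 (Cert.s3 Cert.a Cert.a) (Cert.s2 (Cert.s3 Cert.a Cert.a) Cert.a)) (Cert.s1 (Cert.s3 (Cert.s4 (Cert.s5 Cert.c (Cert.L 196)) (Cert.s5 Cert.c (Cert.L 196))) (Cert.s4 (Cert.s5 Cert.c (Cert.L 196)) (Cert.s5 Cert.c (Cert.L 196)))) (Cert.L 196))) (Cert.s6 (Cert.s1 (Cert.s3 Cert.a Cert.a) (Cert.L 196)) (Cert.L 196))) (Cert.s5 (Cert.s6 (Cert.s1 (Cert.s3 Cert.a Cert.a) Cert.b) (Cert.s1 (Cert.s3 (Cert.s4 (Cert.s5 Cert.c (Cert.L 196)) (Cert.L 212)) (Cert.L 212)) (Cert.L 212))) (Cert.s6 (Cert.s1 (Cert.s3 Cert.a Cert.a) Cert.b) (Cert.L 212))))) (Cert.s2 (Cert.s3 (Cert.s4 (Cert.s5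 (Cert.s6 (Cert.s1 (Cert.s2 (Cert.s3 (Cert.s4 (Cert.s5 Cert.c (Cert.s6 Cert.a Cert.c)) (Cert.s5 Cert.c (Cert.s6 Cert.a Cert.c))) (Cert.s4 (Cert.s5 Cert.c (Cert.s6 Cert.a Cert.c)) (Cert.s5 Cert.c (Cert.L 228)))) (Cert.s3 (Cert.s4 (Cert.s5 Cert.c (Cert.L 184)) (Cert.s5 Cert.c (Cert.L 192))) Cert.a)) (Cert.s2 (Cert.s3 (Cert.s4 (Cert.s5 Cert.c (Cert.L 192)) Cert.b) (Cert.s4 (Cert.s5 Cert.c (Cert.L 192)) Cert.b)) (Cert.L 196))) (Cert.L 196)) (Cert.L 196)) (Cert.s5 (Cert.s6 Cert.b (Cert.L 196)) (Cert.L 196))) (Cert.s4 (Cert.s5 (Cert.s6 (Cert.s1 (Cert.s2 (Cert.s3 Cert.a Cert.a) Cert.a) (Cert.L 208)) (Cert.L 208)) (Cert.L 208)) (Cert.L 216))) (Cert.L 216))) (Cert.L 184)) (Cert.L 184))) (Cert.s4 (Cert.s5 (Cert.s6 (Cert.s1 (Cert.s3 (Cert.s4 (Cert.s5 (Cert.s6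 Cert.a (Cert.L 184)) (Cert.L 184)) (Cert.s5 (Cert.s6 Cert.a (Cert.s1 (Cert.s3 (Cert.s4 (Cert.s5 Cert.c Cert.c) (Cert.s5 Cert.c Cert.c)) (Cert.L 196)) (Cert.L 196))) (Cert.s6 Cert.a (Cert.L 196)))) (Cert.s4 (Cert.s5 (Cert.s6 Cert.a (Cert.L 196)) (Cert.L 196)) (Cert.s5 (Cert.s6 Cert.a (Cert.L 196)) (Cert.L 196)))) (Cert.s2 (Cert.s3 (Cert.s4 (Cert.s5 (Cert.s6 Cert.a (Cert.L 196)) (Cert.L 196)) (Cert.s5 (Cert.s6 Cert.a (Cert.L 196)) (Cert.L 196))) (Cert.L 204)) (Cert.L 204))) (Cert.L 204)) (Cert.L 204)) (Cert.s5 (Cert.s6 (Cert.s1 (Cert.s3 (Cert.s4 (Cert.s5 (Cert.s6 Cert.a (Cert.L 212)) (Cert.L 228)) (Cert.L 240)) (Cert.L 240)) (Cert.L 240)) (Cert.L 240)) (Cert.L 240)))) (Cert.L 196))) (Cert.s6 (Cert.s1 (Cert.s3 Cert.a Cert.a) (Cert.s2 (Cert.s3 Cert.a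 Cert.a) Cert.a)) (Cert.L 196))) (Cert.s5 (Cert.s6 Cert.b (Cert.s1 (Cert.s3 (Cert.s5 (Cert.s6 (Cert.s1 (Cert.s3 (Cert.s5 (Cert.s6 Cert.b (Cert.s1 (Cert.s3 (Cert.s5 Cert.d Cert.d) (Cert.L 212)) (Cert.L 212))) (Cert.s6 Cert.b (Cert.L 212))) (Cert.L 248)) (Cert.L 248)) (Cert.L 248)) (Cert.L 248)) (Cert.L 248)) (Cert.L 248))) (Cert.s6 Cert.b (Cert.L 248))))) (Cert.s2 (Cert.s3 (Cert.s5 (Cert.s6 (Cert.s1 Cert.b Cert.b) (Cert.L 180)) (Cert.L 184)) (Cert.s4 (Cert.s5 (Cert.s6 (Cert.s1 Cert.b Cert.b) (Cert.L 184)) (Cert.L 188)) (Cert.L 208))) (Cert.L 208)))) (Cert.s6 Cert.a (Cert.L 188))) (Cert.s4 (Cert.s5 (Cert.s6 Cert.a (Cert.s1 (Cert.s4 (Cert.s5 (Cert.s6 Cert.a (Cert.L 252)) (Cert.s6 Cert.a (Cert.L 252))) (Cert.L 252)) (Cert.L 252))) (Cert.s6 Cert.a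 (Cert.L 252))) (Cert.s5 (Cert.s6 Cert.a (Cert.L 252)) (Cert.L 252))))

def t18 : Cert := Cert.s4 (Cert.s5 (Cert.s1 (Cert.s4 (Cert.s5 (Cert.s1 (Cert.L 64) (Cert.s2 (Cert.L 64) t0)) t1) t4) (Cert.s2 (Cert.s4 (Cert.s5 (Cert.s1 (Cert.s2 (Cert.s4 (Cert.s5 (Cert.s1 (Cert.s2 Cert.a Cert.a) (Cert.L 176)) (Cert.L 64)) (Cert.s5 (Cert.s1 (Cert.s2 Cert.a Cert.a) (Cert.L 64)) (Cert.s6 (Cert.s1 (Cert.s2 Cert.a Cert.a) (Cert.L 64)) (Cert.L 72)))) (Cert.s3 (Cert.s4 (Cert.s5 Cert.a (Cert.s6 Cert.a (Cert.s1 (Cert.s2 (Cert.s3 (Cert.L 72) (Cert.s5 (Cert.s1 (Cert.s2 (Cert.s3 Cert.a Cert.a) Cert.a) (Cert.s2 (Cert.s3 Cert.a Cert.a) Cert.a)) (Cert.s6 (Cert.s1 (Cert.s2 (Cert.s3 Cert.a Cert.a) Cert.a) (Cert.L 140)) (Cert.s1 (Cert.s2 (Cert.s3 (Cert.L 140) (Cert.s5 (Cert.s1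 (Cert.L 64) (Cert.L 112)) (Cert.L 112))) (Cert.s3 (Cert.L 112) (Cert.s5 (Cert.s1 (Cert.s2 (Cert.s3 Cert.a Cert.a) Cert.a) (Cert.L 172)) (Cert.s6 (Cert.s1 (Cert.s2 (Cert.s3 Cert.a Cert.a) Cert.a) (Cert.L 172)) (Cert.s1 (Cert.s2 (Cert.s3 (Cert.L 64) (Cert.s5 Cert.c (Cert.L 132))) (Cert.s3 (Cert.s5 Cert.c (Cert.L 132)) (Cert.s5 Cert.c (Cert.L 156)))) (Cert.L 156)))))) (Cert.L 156))))) (Cert.s3 (Cert.s5 Cert.a (Cert.s6 Cert.a (Cert.L 120))) (Cert.s5 Cert.a (Cert.s6 Cert.a (Cert.s1 (Cert.s2 (Cert.s3 (Cert.s5 Cert.a (Cert.s6 Cert.a (Cert.L 136))) (Cert.s5 Cert.a (Cert.s6 Cert.a (Cert.s1 (Cert.s2 (Cert.s3 (Cert.L 180) (Cert.L 188)) (Cert.L 188)) (Cert.L 188))))) (Cert.s3 (Cert.s5 Cert.a (Cert.L 188)) (Cert.s5 Cert.a (Cert.L 188)))) (Cert.L 188))))))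 (Cert.L 188)))) (Cert.s5 Cert.a (Cert.s6 Cert.a (Cert.s1 (Cert.s2 (Cert.s3 (Cert.L 80) (Cert.s4 (Cert.s5 (Cert.s1 (Cert.s2 (Cert.s3 Cert.a Cert.a) Cert.a) (Cert.L 144)) (Cert.s6 (Cert.s1 (Cert.s2 (Cert.s3 Cert.a Cert.a) Cert.a) (Cert.L 144)) (Cert.s1 (Cert.s2 (Cert.L 96) (Cert.s3 (Cert.L 96) (Cert.s4 (Cert.s5 (Cert.s1 (Cert.s2 (Cert.s3 Cert.a Cert.a) Cert.a) (Cert.L 140)) (Cert.s6 (Cert.s1 (Cert.s2 (Cert.s3 Cert.a Cert.a) Cert.a) (Cert.L 140)) (Cert.L 156))) (Cert.s5 (Cert.s1 (Cert.s2 (Cert.s3 Cert.a Cert.a) Cert.a) (Cert.L 156)) (Cert.L 156))))) (Cert.L 156)))) (Cert.s5 (Cert.s1 (Cert.s2 (Cert.s3 Cert.a Cert.a) Cert.a) (Cert.L 156)) (Cert.s6 (Cert.s1 (Cert.s2 (Cert.s3 Cert.a Cert.a) Cert.a) (Cert.L 156)) (Cert.L 156))))) (Cert.s3 (Cert.s4 (Cert.s5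 Cert.a (Cert.s6 Cert.a (Cert.L 156))) (Cert.s5 Cert.a (Cert.L 156))) (Cert.s4 (Cert.s5 Cert.a (Cert.s6 Cert.a (Cert.s1 (Cert.s2 (Cert.s3 (Cert.s4 (Cert.s5 Cert.a (Cert.L 156)) (Cert.L 156)) (Cert.s4 (Cert.s5 Cert.a (Cert.s6 Cert.a (Cert.L 160))) (Cert.L 168))) (Cert.L 176)) (Cert.L 176)))) (Cert.s5 Cert.a (Cert.s6 Cert.a (Cert.L 176)))))) (Cert.L 176))))) (Cert.s4 (Cert.s5 Cert.a (Cert.s6 Cert.a (Cert.s1 (Cert.s2 (Cert.s5 Cert.a (Cert.s6 Cert.a (Cert.s1 (Cert.s2 (Cert.s5 (Cert.s1 (Cert.s2 (Cert.L 64) (Cert.s3 Cert.a Cert.a)) (Cert.s2 (Cert.L 112) (Cert.s3 Cert.a Cert.a))) (Cert.s6 (Cert.s1 (Cert.s2 (Cert.L 112) (Cert.s3 Cert.a Cert.a)) (Cert.L 144)) (Cert.s1 (Cert.s2 (Cert.L 144) (Cert.s3 (Cert.s5 Cert.c (Cert.L 148)) (Cert.s5 Cert.c (Cert.L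 180)))) (Cert.L 180)))) (Cert.s3 (Cert.s5 Cert.a (Cert.s6 Cert.a (Cert.s1 (Cert.s2 (Cert.s3 (Cert.s5 Cert.c (Cert.L 180)) (Cert.s5 Cert.c (Cert.L 180))) (Cert.s3 (Cert.s5 Cert.c Cert.c) (Cert.L 212))) (Cert.L 212)))) (Cert.s5 Cert.a (Cert.s6 Cert.a (Cert.L 220))))) (Cert.L 220)))) (Cert.s3 (Cert.s5 Cert.a (Cert.s6 Cert.a (Cert.s1 (Cert.s2 (Cert.s3 (Cert.s5 Cert.a (Cert.s6 Cert.a (Cert.L 220))) (Cert.L 256)) (Cert.L 256)) (Cert.L 256)))) (Cert.s5 Cert.a (Cert.L 256)))) (Cert.L 256)))) (Cert.s5 Cert.a (Cert.s6 Cert.a (Cert.s1 (Cert.s2 (Cert.s4 (Cert.s5 Cert.a (Cert.s6 Cert.a (Cert.s1 (Cert.s2 (Cert.s4 (Cert.s5 (Cert.s1 (Cert.s2 (Cert.L 64) (Cert.s3 Cert.a Cert.a)) (Cert.L 144)) (Cert.s6 (Cert.s1 (Cert.s2 (Cert.L 144) (Cert.s3 Cert.a Cert.a)) (Cert.L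 144)) (Cert.s1 (Cert.s2 (Cert.L 144) (Cert.s3 (Cert.L 156) (Cert.s4 (Cert.s5 Cert.c (Cert.L 160)) (Cert.L 160)))) (Cert.L 160)))) (Cert.s5 (Cert.s1 (Cert.s2 (Cert.L 160) (Cert.s3 Cert.a Cert.a)) (Cert.L 160)) (Cert.L 160))) (Cert.s3 (Cert.s4 (Cert.s5 Cert.a (Cert.s6 Cert.a (Cert.L 176))) (Cert.s5 Cert.a (Cert.L 176))) (Cert.s4 (Cert.s5 Cert.a (Cert.L 224)) (Cert.L 224)))) (Cert.L 224)))) (Cert.s5 Cert.a (Cert.s6 Cert.a (Cert.L 164)))) (Cert.s3 (Cert.s4 (Cert.s5 Cert.a (Cert.s6 Cert.a (Cert.s1 (Cert.s2 (Cert.s3 (Cert.s4 (Cert.s5 Cert.a (Cert.L 192)) (Cert.L 192)) (Cert.L 200)) (Cert.L 200)) (Cert.L 200)))) (Cert.s5 Cert.a (Cert.L 200))) (Cert.L 244))) (Cert.L 244))))))) (Cert.L 244)) (Cert.s6 (Cert.s1 (Cert.s2 (Cert.s5 (Cert.L 108) (Cert.L 120))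 (Cert.s3 (Cert.s5 (Cert.s6 Cert.a (Cert.s1 (Cert.s2 (Cert.s3 (Cert.L 120) (Cert.s4 (Cert.s5 (Cert.s6 (Cert.s1 (Cert.s2 (Cert.L 104) Cert.a) (Cert.L 120)) (Cert.L 164)) (Cert.L 164)) (Cert.L 164))) (Cert.s3 (Cert.L 164) (Cert.s4 (Cert.s5 (Cert.s6 Cert.a (Cert.L 164)) (Cert.L 164)) (Cert.L 164)))) (Cert.L 164))) (Cert.s6 Cert.a (Cert.L 164))) (Cert.s5 (Cert.s6 Cert.a (Cert.s1 (Cert.s2 (Cert.s4 (Cert.s5 (Cert.s6 Cert.a (Cert.s1 (Cert.s2 (Cert.s4 (Cert.s5 (Cert.s6 (Cert.s1 (Cert.s2 (Cert.L 164) (Cert.s3 Cert.a Cert.a)) (Cert.L 164)) (Cert.L 164)) (Cert.L 164)) (Cert.L 164)) (Cert.s3 (Cert.s4 (Cert.s5 (Cert.s6 Cert.a (Cert.L 164)) (Cert.L 164)) (Cert.L 164)) (Cert.L 176))) (Cert.L 176))) (Cert.L 176)) (Cert.L 176)) (Cert.s3 (Cert.s4 (Cert.s5 (Cert.s6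 Cert.a (Cert.L 176)) (Cert.L 176)) (Cert.L 176)) (Cert.L 188))) (Cert.L 188))) (Cert.s6 Cert.a (Cert.L 188))))) (Cert.L 188)) (Cert.L 188))) (Cert.s5 (Cert.s1 (Cert.s2 (Cert.s4 (Cert.s5 (Cert.s1 (Cert.s2 Cert.a Cert.a) (Cert.L 188)) (Cert.s6 (Cert.s1 (Cert.s2 Cert.a Cert.a) (Cert.L 188)) (Cert.s1 (Cert.s2 (Cert.L 64) (Cert.s3 (Cert.L 64) (Cert.s4 (Cert.s5 (Cert.s1 (Cert.s2 (Cert.L 64) (Cert.s3 (Cert.L 64) Cert.a)) (Cert.L 104)) (Cert.L 108)) (Cert.L 184)))) (Cert.L 184)))) (Cert.s5 (Cert.s1 (Cert.s2 Cert.a Cert.a) (Cert.L 184)) (Cert.s6 (Cert.s1 (Cert.s2 Cert.a Cert.a) (Cert.L 184)) (Cert.L 188)))) (Cert.s3 (Cert.s4 (Cert.s5 Cert.a (Cert.s6 Cert.a (Cert.s1 (Cert.s2 (Cert.s3 (Cert.L 156) (Cert.s4 (Cert.s5 (Cert.s1 (Cert.s2 (Cert.s3 Cert.a Cert.a)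 Cert.a) (Cert.L 156)) (Cert.L 156)) (Cert.L 180))) (Cert.L 188)) (Cert.L 188)))) (Cert.s5 Cert.a (Cert.s6 Cert.a (Cert.L 188)))) (Cert.s4 (Cert.s5 Cert.a (Cert.s6 Cert.a (Cert.s1 (Cert.s2 (Cert.s4 (Cert.s5 Cert.a (Cert.L 188)) (Cert.L 188)) (Cert.L 188)) (Cert.L 188)))) (Cert.s5 Cert.a (Cert.s6 Cert.a (Cert.L 188)))))) (Cert.L 188)) (Cert.s6 (Cert.s1 (Cert.s2 (Cert.s4 (Cert.s5 (Cert.s6 (Cert.s1 (Cert.s2 Cert.a Cert.a) (Cert.L 188)) (Cert.L 188)) (Cert.L 188)) (Cert.s5 (Cert.s6 (Cert.s1 (Cert.s2 Cert.a Cert.a) (Cert.L 188)) (Cert.L 188)) (Cert.L 188))) (Cert.s3 (Cert.s4 (Cert.s5 (Cert.s6 Cert.a (Cert.L 188)) (Cert.L 188)) (Cert.s5 (Cert.s6 Cert.a (Cert.L 188)) (Cert.L 188))) (Cert.s4 (Cert.s5 (Cert.s6 Cert.a (Cert.L 188)) (Cert.L 188)) (Cert.L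 192)))) (Cert.L 192)) (Cert.L 192)))) (Cert.s3 (Cert.s4 (Cert.s5 (Cert.s1 (Cert.s3 (Cert.s4 (Cert.s5 Cert.a (Cert.s6 Cert.a (Cert.s1 (Cert.s3 (Cert.s5 Cert.a (Cert.L 192)) (Cert.s5 Cert.a (Cert.L 192))) (Cert.L 192)))) (Cert.s5 Cert.a (Cert.s6 Cert.a (Cert.L 192)))) (Cert.s4 (Cert.s5 Cert.a (Cert.s6 Cert.a (Cert.L 248))) (Cert.s5 Cert.a (Cert.s6 Cert.a (Cert.L 248))))) (Cert.L 248)) (Cert.s6 (Cert.s1 (Cert.s3 (Cert.s5 (Cert.s6 Cert.a (Cert.L 248)) (Cert.L 248)) (Cert.L 248)) (Cert.L 248)) (Cert.L 248))) (Cert.s5 (Cert.s1 (Cert.s3 (Cert.s4 (Cert.s5 Cert.a (Cert.L 248)) (Cert.L 248)) (Cert.L 248)) (Cert.L 248)) (Cert.L 248))) (Cert.L 252)))) (Cert.s6 (Cert.s1 (Cert.s5 (Cert.s6 (Cert.s1 (Cert.s4 (Cert.L 156) (Cert.s5 (Cert.s6 (Cert.s1 Cert.a (Cert.s2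 Cert.a Cert.a)) (Cert.L 156)) (Cert.s6 (Cert.s1 Cert.a (Cert.s2 Cert.a Cert.a)) (Cert.L 156)))) (Cert.s2 (Cert.s4 (Cert.s5 (Cert.s6 (Cert.s1 (Cert.s2 Cert.a Cert.a) (Cert.s2 Cert.a Cert.a)) (Cert.L 156)) (Cert.L 172)) (Cert.s5 (Cert.s6 (Cert.s1 (Cert.s2 Cert.a Cert.a) (Cert.s2 Cert.a Cert.a)) (Cert.L 172)) (Cert.s6 (Cert.s1 (Cert.s2 Cert.a Cert.a) (Cert.L 184)) (Cert.L 184)))) (Cert.s3 (Cert.s4 (Cert.s5 (Cert.s6 Cert.a (Cert.L 184)) (Cert.s6 Cert.a (Cert.L 184))) (Cert.s5 (Cert.s6 Cert.a (Cert.L 184)) (Cert.s6 Cert.a (Cert.L 184)))) (Cert.s4 (Cert.s5 (Cert.s6 Cert.a (Cert.L 184)) (Cert.s6 Cert.a (Cert.L 184))) (Cert.s5 (Cert.s6 Cert.a (Cert.L 184)) (Cert.s6 Cert.a (Cert.L 184))))))) (Cert.L 184)) (Cert.s6 (Cert.s1 (Cert.s5 (Cert.L 188) (Cert.L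 192)) (Cert.L 192)) (Cert.L 192))) (Cert.L 192)) (Cert.L 192))) (Cert.s5 (Cert.s1 (Cert.s5 t13 (Cert.s6 (Cert.s1 (Cert.s5 (Cert.s6 Cert.b (Cert.s1 (Cert.L 64) (Cert.s2 (Cert.L 64) (Cert.s3 (Cert.s5 (Cert.s6 (Cert.s1 (Cert.L 64) (Cert.s2 (Cert.L 64) (Cert.s3 (Cert.L 64) (Cert.s4 (Cert.L 64) (Cert.s5 (Cert.s6 Cert.a (Cert.s1 (Cert.L 64) Cert.b)) (Cert.s6 Cert.a (Cert.s1 (Cert.L 64) Cert.b))))))) (Cert.s1 (Cert.L 64) (Cert.s2 (Cert.L 64) (Cert.s3 (Cert.L 64) (Cert.s4 (Cert.L 64) (Cert.s5 (Cert.s6 (Cert.s1 (Cert.L 64) (Cert.s2 (Cert.L 64) (Cert.s3 (Cert.L 64) (Cert.s4 (Cert.L 64) (Cert.s5 (Cert.s6 (Cert.s1 (Cert.L 64) (Cert.s2 (Cert.L 64) (Cert.s3 (Cert.L 64) (Cert.s4 (Cert.L 64) (Cert.s5 Cert.d (Cert.s6 Cert.b Cert.d)))))) (Cert.s1 (Cert.L 64) (Cert.s2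 (Cert.L 64) (Cert.s3 (Cert.L 64) (Cert.s4 (Cert.L 64) (Cert.s5 (Cert.s6 Cert.d Cert.d) (Cert.L 128))))))) (Cert.s6 (Cert.s1 (Cert.L 128) (Cert.s2 (Cert.L 128) (Cert.s3 (Cert.L 128) (Cert.s4 (Cert.L 128) (Cert.s5 (Cert.s6 Cert.b Cert.d) (Cert.L 168)))))) (Cert.L 168))))))) (Cert.L 168)) (Cert.L 168))))))) (Cert.s6 (Cert.s1 (Cert.L 168) (Cert.s2 (Cert.L 64) (Cert.s3 (Cert.L 64) (Cert.s4 (Cert.L 64) (Cert.s5 (Cert.s6 Cert.a (Cert.L 184)) (Cert.s6 Cert.a (Cert.L 184))))))) (Cert.L 184))) (Cert.s4 (Cert.s5 (Cert.s6 (Cert.s1 (Cert.L 64) (Cert.s2 (Cert.s4 (Cert.L 64) (Cert.s5 (Cert.s6 Cert.a (Cert.s1 (Cert.L 64) Cert.b)) (Cert.s6 Cert.a (Cert.s1 (Cert.L 64) Cert.b)))) (Cert.s3 (Cert.s4 (Cert.s5 (Cert.s6 Cert.a (Cert.s1 (Cert.L 64) (Cert.s2 (Cert.L 64)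 Cert.a))) (Cert.s6 Cert.a (Cert.s1 (Cert.L 64) (Cert.s2 (Cert.L 64) Cert.a)))) (Cert.s5 (Cert.s6 Cert.a (Cert.s1 (Cert.s3 (Cert.L 64) Cert.a) Cert.b)) (Cert.s6 Cert.a (Cert.s1 (Cert.s3 (Cert.L 64) Cert.a) Cert.b)))) Cert.a))) (Cert.s1 (Cert.L 64) (Cert.s2 (Cert.s4 (Cert.L 64) (Cert.s5 (Cert.s6 (Cert.s1 (Cert.L 64) (Cert.s2 (Cert.L 64) (Cert.s3 (Cert.L 64) (Cert.s4 (Cert.L 64) (Cert.s5 (Cert.L 64) (Cert.s6 (Cert.s1 (Cert.L 64) (Cert.s2 (Cert.L 64) (Cert.s3 (Cert.L 64) (Cert.s4 (Cert.L 64) (Cert.s5 (Cert.L 68) (Cert.s6 Cert.b (Cert.L 84))))))) (Cert.L 84))))))) (Cert.L 84)) (Cert.L 108))) t14))) (Cert.s6 (Cert.s1 (Cert.L 64) (Cert.s2 (Cert.s4 (Cert.L 64) (Cert.s5 (Cert.s6 Cert.a (Cert.s1 (Cert.L 64) Cert.b)) (Cert.s6 Cert.a (Cert.L 132)))) (Cert.s3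 (Cert.s4 (Cert.s5 (Cert.s6 Cert.a (Cert.L 176)) (Cert.s6 Cert.a (Cert.L 176))) (Cert.s5 (Cert.s6 Cert.a (Cert.s1 (Cert.s3 (Cert.L 176) Cert.a) Cert.b)) (Cert.s6 Cert.a (Cert.L 176)))) Cert.a))) (Cert.L 180))) (Cert.s5 (Cert.s6 (Cert.s1 Cert.b Cert.b) (Cert.s1 (Cert.L 88) (Cert.s2 (Cert.s5 (Cert.s6 (Cert.s1 (Cert.s2 (Cert.L 88) (Cert.s3 (Cert.L 88) (Cert.s4 (Cert.L 88) (Cert.s5 (Cert.s6 Cert.b (Cert.s1 (Cert.s2 (Cert.L 88) (Cert.s3 (Cert.L 88) (Cert.s4 (Cert.L 88) (Cert.s5 Cert.d Cert.d)))) (Cert.s2 (Cert.L 88) (Cert.s3 (Cert.L 88) (Cert.s4 (Cert.s5 Cert.d Cert.d) (Cert.s5 Cert.d Cert.d)))))) (Cert.s6 Cert.b (Cert.s1 (Cert.s2 (Cert.L 88) (Cert.s3 (Cert.L 88) (Cert.s4 (Cert.L 88) (Cert.s5 (Cert.s6 Cert.d Cert.d) (Cert.L 168))))) (Cert.s2 (Cert.L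 168) (Cert.s3 (Cert.L 168) (Cert.s4 (Cert.L 184) (Cert.s5 Cert.d (Cert.L 184))))))))))) (Cert.s2 (Cert.L 64) (Cert.s3 (Cert.s5 (Cert.L 64) (Cert.s6 Cert.b (Cert.L 72))) (Cert.s4 (Cert.s5 (Cert.s6 Cert.b (Cert.s1 (Cert.s2 (Cert.L 72) (Cert.s3 (Cert.L 72) (Cert.s4 (Cert.L 72) (Cert.s5 Cert.d Cert.d)))) (Cert.s2 (Cert.L 72) (Cert.s3 (Cert.s4 (Cert.L 72) (Cert.s5 Cert.d Cert.d)) (Cert.s4 (Cert.s5 Cert.d (Cert.s6 Cert.d Cert.d)) (Cert.s5 Cert.d Cert.d)))))) (Cert.s6 Cert.b (Cert.L 188))) (Cert.s5 (Cert.s6 Cert.b (Cert.s1 (Cert.s2 (Cert.L 64) (Cert.s3 (Cert.s5 Cert.d Cert.d) (Cert.s4 (Cert.s5 Cert.d Cert.d) Cert.d))) (Cert.s2 (Cert.s5 Cert.d Cert.d) (Cert.s3 (Cert.s5 Cert.d Cert.d) (Cert.s4 (Cert.s5 Cert.d Cert.d) Cert.d))))) (Cert.s6 Cert.b (Cert.L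 188))))))) (Cert.L 188)) (Cert.s6 (Cert.s1 (Cert.s2 (Cert.L 64) (Cert.s3 (Cert.L 64) (Cert.s4 (Cert.L 88) (Cert.s5 (Cert.s6 Cert.b (Cert.L 168)) (Cert.L 172))))) (Cert.s2 (Cert.L 172) (Cert.s3 (Cert.L 172) (Cert.s4 (Cert.s5 (Cert.s6 Cert.b (Cert.L 172)) (Cert.L 172)) (Cert.s5 (Cert.s6 Cert.b (Cert.L 180)) (Cert.L 180)))))) (Cert.L 180))) (Cert.s3 (Cert.s5 (Cert.s6 (Cert.s1 (Cert.s3 (Cert.L 64) (Cert.s4 (Cert.s5 (Cert.s6 (Cert.s1 (Cert.L 64) (Cert.s2 (Cert.s3 (Cert.L 64) (Cert.s4 (Cert.L 64) Cert.b)) (Cert.s3 (Cert.s4 (Cert.L 64) Cert.b) (Cert.s4 (Cert.s5 Cert.d (Cert.s6 Cert.a Cert.d)) Cert.b)))) (Cert.s1 (Cert.L 64) (Cert.s2 (Cert.s3 (Cert.L 64) (Cert.s4 (Cert.L 64) (Cert.s5 Cert.d (Cert.s6 Cert.d Cert.d)))) (Cert.s3 (Cert.s4 (Cert.L 64) (Cert.s5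 Cert.d (Cert.s6 Cert.d Cert.d))) (Cert.s4 (Cert.s5 (Cert.s6 Cert.c Cert.d) (Cert.s6 Cert.d Cert.d)) (Cert.s5 Cert.d (Cert.s6 Cert.d Cert.d))))))) (Cert.s6 (Cert.s1 (Cert.L 64) (Cert.s2 (Cert.s3 (Cert.L 64) (Cert.s4 (Cert.L 64) Cert.b)) (Cert.s3 (Cert.s4 (Cert.L 64) Cert.b) (Cert.s4 (Cert.s5 (Cert.s6 Cert.a Cert.d) (Cert.s6 Cert.a (Cert.L 180))) Cert.b)))) (Cert.s1 (Cert.L 64) (Cert.s2 (Cert.s3 (Cert.L 64) (Cert.s4 (Cert.L 64) (Cert.s5 (Cert.s6 Cert.d Cert.d) (Cert.L 164)))) (Cert.L 184))))) (Cert.s5 (Cert.s6 Cert.b (Cert.s1 (Cert.s3 (Cert.L 64) (Cert.s4 (Cert.s5 Cert.d Cert.d) (Cert.s5 Cert.d Cert.d))) (Cert.s2 (Cert.s3 (Cert.s5 Cert.d Cert.d) (Cert.s4 (Cert.s5 Cert.d Cert.d) (Cert.s5 Cert.d Cert.d))) (Cert.s3 (Cert.s5 Cert.d Cert.d) (Cert.s4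 (Cert.s5 Cert.d Cert.d) (Cert.s5 Cert.d Cert.d)))))) (Cert.s6 Cert.b (Cert.s1 (Cert.s3 (Cert.L 64) (Cert.s4 (Cert.s5 (Cert.s6 Cert.d Cert.d) (Cert.L 168)) (Cert.s5 (Cert.s6 Cert.d Cert.d) (Cert.L 180)))) (Cert.s2 (Cert.s3 (Cert.L 184) (Cert.s4 (Cert.s5 (Cert.s6 Cert.d Cert.d) (Cert.L 184)) (Cert.s5 Cert.d (Cert.L 184)))) (Cert.s3 (Cert.L 184) (Cert.s4 (Cert.s5 (Cert.s6 Cert.d Cert.d) (Cert.L 184)) (Cert.L 192))))))))) (Cert.s2 (Cert.s3 (Cert.s5 (Cert.s6 Cert.b (Cert.s1 (Cert.s2 (Cert.L 64) (Cert.s3 (Cert.L 64) (Cert.s4 (Cert.L 64) (Cert.s5 Cert.d Cert.d)))) (Cert.s2 (Cert.s3 (Cert.L 64) (Cert.s4 (Cert.L 64) (Cert.s5 Cert.d Cert.d))) (Cert.s3 (Cert.L 68) (Cert.s4 (Cert.s5 Cert.d (Cert.s6 Cert.d Cert.d)) (Cert.s5 Cert.d Cert.d)))))) (Cert.s6 Cert.b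 (Cert.L 184))) (Cert.s4 (Cert.s5 (Cert.s6 Cert.b (Cert.s1 (Cert.s2 (Cert.s3 (Cert.s4 (Cert.L 64) (Cert.s5 Cert.d Cert.d)) (Cert.s4 (Cert.s5 Cert.d (Cert.s6 Cert.d Cert.d)) (Cert.s5 Cert.d Cert.d))) (Cert.s3 (Cert.s4 (Cert.s5 Cert.d (Cert.s6 Cert.d Cert.d)) (Cert.s5 Cert.d Cert.d)) (Cert.s4 (Cert.s5 Cert.d (Cert.s6 Cert.d Cert.d)) (Cert.s5 Cert.d Cert.d)))) (Cert.s2 (Cert.s3 (Cert.s4 (Cert.s5 Cert.d (Cert.s6 Cert.d Cert.d)) (Cert.s5 Cert.d Cert.d)) (Cert.s4 (Cert.s5 Cert.d (Cert.s6 Cert.d Cert.d)) (Cert.s5 Cert.d Cert.d))) (Cert.s3 (Cert.s4 (Cert.s5 Cert.d (Cert.s6 Cert.d Cert.d)) (Cert.s5 Cert.d Cert.d)) (Cert.s4 (Cert.s5 Cert.d (Cert.s6 Cert.d Cert.d)) (Cert.s5 Cert.d Cert.d)))))) (Cert.s6 Cert.b (Cert.L 188))) (Cert.s5 (Cert.s6 Cert.b (Cert.s1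 (Cert.s2 (Cert.s3 (Cert.s5 Cert.d Cert.d) (Cert.s4 (Cert.s5 Cert.d Cert.d) Cert.d)) (Cert.s3 (Cert.s5 Cert.d Cert.d) (Cert.s4 (Cert.s5 Cert.d Cert.d) Cert.d))) (Cert.s2 (Cert.s3 (Cert.s5 Cert.d Cert.d) (Cert.s4 (Cert.s5 Cert.d Cert.d) Cert.d)) (Cert.s3 (Cert.s5 Cert.d Cert.d) (Cert.s4 (Cert.s5 Cert.d Cert.d) Cert.d))))) (Cert.s6 Cert.b (Cert.s1 (Cert.s2 (Cert.s3 (Cert.L 188) (Cert.L 192)) (Cert.L 192)) (Cert.L 192)))))) (Cert.s3 (Cert.s5 (Cert.s6 Cert.b (Cert.s1 (Cert.s3 (Cert.L 64) (Cert.s4 (Cert.s5 Cert.d (Cert.s6 Cert.d Cert.d)) (Cert.s5 Cert.d Cert.d))) (Cert.s2 (Cert.s3 (Cert.s5 Cert.d (Cert.s6 Cert.d Cert.d)) (Cert.s4 (Cert.s5 Cert.d (Cert.s6 Cert.d Cert.d)) (Cert.s5 Cert.d Cert.d))) (Cert.s3 (Cert.s5 Cert.d (Cert.s6 Cert.d Cert.d)) (Cert.s4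 (Cert.s5 Cert.d (Cert.s6 Cert.d Cert.d)) (Cert.s5 Cert.d Cert.d)))))) (Cert.s6 Cert.b (Cert.L 188))) (Cert.s4 (Cert.s5 (Cert.s6 Cert.b (Cert.s1 (Cert.s3 (Cert.s4 (Cert.s5 Cert.d (Cert.s6 Cert.d Cert.d)) (Cert.s5 Cert.d Cert.d)) (Cert.s4 (Cert.s5 Cert.d (Cert.s6 Cert.d Cert.d)) (Cert.s5 Cert.d Cert.d))) (Cert.s2 (Cert.s3 (Cert.s4 (Cert.s5 Cert.d (Cert.s6 Cert.d Cert.d)) (Cert.s5 Cert.d Cert.d)) (Cert.s4 (Cert.s5 Cert.d (Cert.s6 Cert.d Cert.d)) (Cert.L 248))) (Cert.s3 (Cert.s4 (Cert.s5 Cert.d (Cert.L 196)) (Cert.L 240)) (Cert.L 240))))) (Cert.s6 Cert.b (Cert.L 188))) (Cert.s5 (Cert.s6 Cert.b (Cert.s1 (Cert.s3 (Cert.s5 Cert.d Cert.d) (Cert.s4 (Cert.s5 Cert.d Cert.d) Cert.d)) (Cert.s2 (Cert.s3 (Cert.s5 Cert.d Cert.d) (Cert.L 216)) (Cert.L 216))))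 (Cert.s6 Cert.b (Cert.L 216))))))) (Cert.s1 (Cert.s3 (Cert.L 72) (Cert.s4 (Cert.L 184) (Cert.s5 (Cert.s6 (Cert.s1 (Cert.s3 (Cert.L 184) (Cert.s4 (Cert.s5 (Cert.s6 Cert.d Cert.d) (Cert.L 184)) (Cert.s5 Cert.d (Cert.L 184)))) (Cert.s2 (Cert.s3 (Cert.L 184) (Cert.s4 (Cert.L 188) (Cert.L 192))) (Cert.L 188))) (Cert.L 188)) (Cert.L 188)))) (Cert.L 188))) (Cert.s6 (Cert.s1 (Cert.s3 (Cert.L 92) (Cert.s4 (Cert.s5 (Cert.s6 (Cert.s1 (Cert.L 92) (Cert.s2 (Cert.s3 (Cert.L 92) (Cert.s4 (Cert.L 92) Cert.b)) (Cert.s3 (Cert.L 184) (Cert.s4 (Cert.L 184) Cert.b)))) (Cert.L 184)) (Cert.L 184)) (Cert.s5 (Cert.s6 Cert.b (Cert.L 184)) (Cert.L 184)))) (Cert.s2 (Cert.s3 (Cert.s5 (Cert.s6 Cert.b (Cert.L 184)) (Cert.L 184)) (Cert.s4 (Cert.s5 (Cert.s6 Cert.b (Cert.L 184))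 (Cert.L 184)) (Cert.s5 (Cert.s6 Cert.b (Cert.L 184)) (Cert.L 184)))) (Cert.s3 (Cert.L 188) (Cert.L 192)))) (Cert.L 192))) (Cert.s4 (Cert.s5 (Cert.s6 (Cert.s1 (Cert.s4 (Cert.s5 (Cert.s6 (Cert.s1 (Cert.s4 (Cert.L 64) Cert.b) (Cert.s2 (Cert.s4 (Cert.s5 Cert.d (Cert.s6 Cert.b Cert.d)) Cert.b) (Cert.s3 (Cert.s4 (Cert.s5 Cert.d (Cert.s6 Cert.a Cert.c)) Cert.b) (Cert.s4 (Cert.s5 Cert.c (Cert.s6 Cert.a Cert.c)) Cert.b)))) (Cert.s1 (Cert.s4 (Cert.L 64) (Cert.s5 Cert.d (Cert.s6 Cert.d Cert.d))) (Cert.s2 (Cert.s4 (Cert.s5 (Cert.s6 Cert.d Cert.d) (Cert.s6 Cert.d Cert.d)) (Cert.s5 Cert.d (Cert.s6 Cert.d Cert.d))) (Cert.s3 (Cert.s4 (Cert.s5 (Cert.s6 Cert.c Cert.c) (Cert.s6 Cert.d Cert.d)) (Cert.s5 Cert.d (Cert.s6 Cert.d Cert.d))) (Cert.s4 (Cert.s5 (Cert.s6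 Cert.c Cert.c) (Cert.s6 Cert.c Cert.d)) (Cert.s5 Cert.d (Cert.s6 Cert.c Cert.d))))))) (Cert.s6 (Cert.s1 (Cert.s4 (Cert.L 64) Cert.b) (Cert.s2 (Cert.s4 (Cert.s5 (Cert.s6 Cert.b Cert.d) (Cert.s6 Cert.b (Cert.s1 (Cert.s2 (Cert.L 64) (Cert.s3 (Cert.L 64) (Cert.s4 (Cert.L 64) Cert.b))) Cert.b))) Cert.b) (Cert.s3 (Cert.s4 (Cert.s5 (Cert.s6 Cert.a Cert.d) (Cert.s6 Cert.a (Cert.s1 (Cert.s3 (Cert.L 180) (Cert.s4 (Cert.L 180) Cert.b)) Cert.b))) Cert.b) (Cert.s4 (Cert.s5 (Cert.s6 Cert.a Cert.d) (Cert.s6 Cert.a (Cert.L 184))) Cert.b)))) (Cert.s1 (Cert.s4 (Cert.L 64) (Cert.s5 (Cert.s6 Cert.d (Cert.L 164)) (Cert.L 168))) (Cert.s2 (Cert.s4 (Cert.s5 (Cert.s6 (Cert.s1 (Cert.s2 (Cert.L 168) (Cert.s3 (Cert.L 168) (Cert.s4 (Cert.L 168) Cert.d))) Cert.d) (Cert.L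 168)) (Cert.L 168)) (Cert.s5 (Cert.s6 Cert.d Cert.d) (Cert.L 176))) (Cert.s3 (Cert.s4 (Cert.L 184) (Cert.s5 (Cert.s6 Cert.d Cert.d) (Cert.L 184))) (Cert.L 196)))))) (Cert.s5 (Cert.s6 Cert.b (Cert.s1 (Cert.s4 (Cert.s5 Cert.d Cert.d) (Cert.s5 Cert.d Cert.d)) (Cert.s2 (Cert.s4 (Cert.s5 Cert.d Cert.d) (Cert.s5 Cert.d Cert.d)) (Cert.s3 (Cert.s4 (Cert.s5 Cert.d Cert.d) (Cert.s5 Cert.d Cert.d)) (Cert.s4 (Cert.s5 Cert.d Cert.d) (Cert.L 228)))))) (Cert.s6 Cert.b (Cert.s1 (Cert.s4 (Cert.s5 (Cert.s6 Cert.d Cert.d) (Cert.L 180)) (Cert.s5 (Cert.s6 Cert.d Cert.d) (Cert.L 184))) (Cert.s2 (Cert.s4 (Cert.s5 (Cert.s6 Cert.d Cert.d) (Cert.L 184)) (Cert.s5 Cert.d (Cert.L 184))) (Cert.s3 (Cert.s4 (Cert.s5 (Cert.s6 Cert.d Cert.d) (Cert.L 184)) (Cert.L 192)) (Cert.L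 192))))))) (Cert.s2 (Cert.s4 (Cert.s5 (Cert.s6 Cert.b (Cert.s1 (Cert.s2 (Cert.s4 (Cert.s5 Cert.d (Cert.s6 Cert.d Cert.d)) (Cert.s5 Cert.d Cert.d)) (Cert.s3 (Cert.s4 (Cert.s5 Cert.d (Cert.s6 Cert.d Cert.d)) (Cert.s5 Cert.d Cert.d)) (Cert.s4 (Cert.s5 Cert.d (Cert.s6 Cert.c Cert.d)) (Cert.s5 Cert.d Cert.d)))) (Cert.s2 (Cert.s4 (Cert.s5 Cert.d (Cert.s6 Cert.d Cert.d)) (Cert.s5 Cert.d Cert.d)) (Cert.s3 (Cert.s4 (Cert.s5 Cert.d (Cert.s6 Cert.d Cert.d)) (Cert.s5 Cert.d Cert.d)) (Cert.L 252))))) (Cert.s6 Cert.b (Cert.L 192))) (Cert.s5 (Cert.s6 Cert.b (Cert.s1 (Cert.s2 (Cert.s4 (Cert.s5 Cert.d Cert.d) Cert.d) (Cert.s3 (Cert.s4 (Cert.s5 Cert.d Cert.d) Cert.d) (Cert.L 224))) (Cert.s2 (Cert.s4 (Cert.s5 Cert.d Cert.d) Cert.d) (Cert.L 224)))) (Cert.s6 Cert.b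 (Cert.L 224)))) (Cert.s3 (Cert.s4 (Cert.s5 (Cert.s6 Cert.b (Cert.s1 (Cert.s3 (Cert.s4 (Cert.s5 Cert.d (Cert.s6 Cert.c Cert.d)) (Cert.s5 Cert.d Cert.d)) (Cert.L 248)) (Cert.L 248))) (Cert.s6 Cert.b (Cert.L 248))) (Cert.s5 (Cert.s6 Cert.b (Cert.L 248)) (Cert.L 248))) (Cert.s4 (Cert.s5 (Cert.s6 Cert.b (Cert.L 248)) (Cert.L 248)) (Cert.L 248))))) (Cert.s1 (Cert.s4 (Cert.s5 (Cert.s6 (Cert.s1 (Cert.s4 (Cert.L 64) (Cert.s5 (Cert.s6 Cert.d Cert.d) (Cert.L 164))) (Cert.s2 (Cert.s4 (Cert.L 176) (Cert.s5 (Cert.s6 Cert.d Cert.d) (Cert.L 176))) (Cert.L 192))) (Cert.L 192)) (Cert.L 192)) (Cert.s5 (Cert.s6 (Cert.s1 (Cert.s4 (Cert.s5 (Cert.s6 Cert.d Cert.d) (Cert.L 192)) (Cert.s5 Cert.d (Cert.L 192))) (Cert.s2 (Cert.s4 (Cert.s5 Cert.d (Cert.L 192)) (Cert.L 192))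 (Cert.L 192))) (Cert.L 192)) (Cert.L 192))) (Cert.L 192))) (Cert.s6 (Cert.s1 (Cert.s4 (Cert.s5 (Cert.s6 (Cert.s1 (Cert.s4 (Cert.L 88) Cert.b) (Cert.s2 (Cert.s4 (Cert.s5 (Cert.s6 Cert.b (Cert.L 168)) (Cert.L 172)) Cert.b) (Cert.s3 (Cert.s4 (Cert.s5 (Cert.s6 Cert.a (Cert.L 176)) (Cert.L 176)) Cert.b) (Cert.s4 (Cert.s5 (Cert.s6 Cert.a (Cert.L 180)) (Cert.L 180)) Cert.b)))) (Cert.L 180)) (Cert.L 180)) (Cert.s5 (Cert.s6 Cert.b (Cert.L 180)) (Cert.L 184))) (Cert.s2 (Cert.s4 (Cert.s5 (Cert.s6 Cert.b (Cert.L 184)) (Cert.L 184)) (Cert.s5 (Cert.s6 Cert.b (Cert.L 184)) (Cert.L 184))) (Cert.L 192))) (Cert.L 192))) (Cert.s5 (Cert.s6 (Cert.s1 (Cert.s5 (Cert.s6 Cert.b (Cert.s1 (Cert.s5 Cert.d Cert.d) Cert.d)) (Cert.s6 Cert.b (Cert.s1 (Cert.s5 Cert.d (Cert.L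 192)) (Cert.L 196)))) (Cert.s2 (Cert.s5 (Cert.s6 Cert.b Cert.d) (Cert.L 228)) (Cert.L 228))) (Cert.L 192)) (Cert.s6 (Cert.s1 (Cert.s5 (Cert.s6 Cert.b (Cert.L 192)) (Cert.L 192)) (Cert.L 192)) (Cert.L 192)))))))) (Cert.s6 (Cert.s1 Cert.b Cert.b) (Cert.L 192)))))))) (Cert.s6 Cert.b (Cert.s1 (Cert.L 64) (Cert.s2 (Cert.L 64) (Cert.s3 (Cert.L 164) (Cert.s4 (Cert.L 188) (Cert.s5 (Cert.s6 (Cert.s1 Cert.b Cert.b) (Cert.L 188)) (Cert.L 188)))))))) t17) (Cert.L 184))) (Cert.s2 (Cert.s5 (Cert.s1 (Cert.s2 (Cert.s5 Cert.b (Cert.s6 Cert.b (Cert.L 192))) (Cert.s3 (Cert.s5 Cert.a (Cert.s6 Cert.a (Cert.L 192))) (Cert.s4 (Cert.s5 Cert.a (Cert.L 224)) (Cert.L 232)))) (Cert.L 232)) (Cert.s6 (Cert.s1 (Cert.s2 (Cert.s5 (Cert.s6 Cert.b (Cert.L 232)) (Cert.L 232)) (Cert.L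 232)) (Cert.L 232)) (Cert.L 232))) (Cert.L 232))) (Cert.s6 (Cert.s1 (Cert.s5 (Cert.s6 (Cert.s1 (Cert.s5 (Cert.s6 Cert.b (Cert.L 176)) (Cert.s6 Cert.b (Cert.L 176))) (Cert.s2 (Cert.s5 (Cert.s6 Cert.b (Cert.L 176)) (Cert.s6 Cert.b (Cert.L 176))) (Cert.s3 (Cert.s5 (Cert.s6 Cert.a (Cert.L 176)) (Cert.s6 Cert.a (Cert.L 176))) (Cert.L 248)))) (Cert.L 168)) (Cert.s6 (Cert.s1 (Cert.s5 (Cert.s6 Cert.b (Cert.L 176)) (Cert.L 192)) (Cert.L 192)) (Cert.L 192))) (Cert.L 192)) (Cert.L 192)))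

/-- The certificate. -/
def tree6 : Cert := Cert.s5 (Cert.s1 (Cert.L 72) (Cert.s2 (Cert.s5 (Cert.L 72) (Cert.L 144)) (Cert.s3 (Cert.s5 (Cert.s1 (Cert.s3 (Cert.L 64) (Cert.s4 (Cert.s5 (Cert.s1 (Cert.L 64) (Cert.s2 (Cert.L 64) (Cert.s3 (Cert.L 64) (Cert.s4 (Cert.L 64) (Cert.s5 Cert.a (Cert.L 64)))))) (Cert.L 96)) (Cert.s5 (Cert.s1 (Cert.L 96) (Cert.s2 (Cert.s3 (Cert.L 96) (Cert.s4 (Cert.L 96) (Cert.s5 (Cert.s1 (Cert.L 64) (Cert.s2 (Cert.L 64) (Cert.s3 (Cert.L 64) Cert.a))) (Cert.s6 (Cert.s1 (Cert.L 64) (Cert.s2 (Cert.L 64) (Cert.s3 (Cert.L 64) Cert.a))) (Cert.s1 (Cert.L 64) (Cert.s2 (Cert.L 64) (Cert.s3 (Cert.L 64) (Cert.s4 (Cert.L 64) (Cert.s5 (Cert.s1 (Cert.L 64) (Cert.s2 (Cert.L 64) (Cert.s3 (Cert.L 64) (Cert.s4 (Cert.L 64) (Cert.s5 Cert.a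 (Cert.L 120)))))) (Cert.L 120)))))))))) (Cert.s3 (Cert.L 120) (Cert.s4 (Cert.s5 Cert.a (Cert.s6 Cert.a (Cert.L 120))) (Cert.s5 Cert.a (Cert.s6 Cert.a (Cert.s1 (Cert.s3 (Cert.L 120) (Cert.s4 (Cert.L 120) (Cert.s5 (Cert.s1 (Cert.L 120) (Cert.s2 (Cert.L 64) (Cert.s3 (Cert.L 64) (Cert.s4 (Cert.L 64) (Cert.s5 Cert.a (Cert.s6 Cert.a (Cert.s1 (Cert.L 64) (Cert.s2 (Cert.s3 (Cert.L 64) (Cert.s4 (Cert.L 64) (Cert.s5 Cert.a Cert.c))) (Cert.s3 (Cert.L 64) Cert.a))))))))) (Cert.s6 (Cert.s1 (Cert.L 64) (Cert.s2 (Cert.L 64) (Cert.s3 (Cert.L 64) (Cert.s4 (Cert.L 64) (Cert.s5 (Cert.s6 Cert.a (Cert.s1 (Cert.L 64) (Cert.s2 (Cert.s3 (Cert.L 64) (Cert.s4 (Cert.L 64) (Cert.s5 (Cert.s6 Cert.a Cert.c) (Cert.L 76)))) (Cert.s3 (Cert.L 76) Cert.a)))) (Cert.s6 Cert.a (Cert.L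 144))))))) (Cert.L 144))))) (Cert.s2 (Cert.s3 (Cert.L 144) (Cert.s4 (Cert.s5 (Cert.s1 (Cert.s2 (Cert.L 144) (Cert.s3 (Cert.L 144) (Cert.s4 (Cert.L 144) (Cert.s5 Cert.a (Cert.L 144))))) (Cert.s2 (Cert.L 144) (Cert.s3 (Cert.L 144) (Cert.s4 (Cert.L 144) (Cert.s5 Cert.a (Cert.L 144)))))) (Cert.L 144)) (Cert.s5 (Cert.s1 (Cert.s2 (Cert.s3 (Cert.L 144) (Cert.s4 (Cert.L 64) (Cert.s5 Cert.a (Cert.s6 Cert.a (Cert.s1 (Cert.s2 (Cert.L 64) (Cert.s3 (Cert.L 64) (Cert.s4 (Cert.L 64) (Cert.s5 Cert.a (Cert.L 64))))) (Cert.s2 (Cert.L 64) (Cert.s3 (Cert.L 64) (Cert.s4 (Cert.L 128) (Cert.s5 Cert.a Cert.d))))))))) (Cert.s3 (Cert.L 64) (Cert.s4 (Cert.s5 Cert.a (Cert.s6 Cert.a (Cert.s1 (Cert.s2 (Cert.L 64) (Cert.s3 (Cert.L 64) Cert.a)) (Cert.s2 (Cert.L 132) (Cert.s3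 (Cert.L 132) Cert.a))))) (Cert.s5 Cert.a (Cert.s6 Cert.a (Cert.s1 (Cert.s2 (Cert.s3 (Cert.L 132) (Cert.s4 (Cert.s5 Cert.a Cert.c) (Cert.s5 Cert.a Cert.c))) (Cert.s3 (Cert.s5 Cert.a Cert.c) Cert.a)) (Cert.s2 (Cert.s3 (Cert.L 132) (Cert.s4 (Cert.s5 Cert.a Cert.c) (Cert.s5 Cert.a Cert.c))) (Cert.s3 (Cert.L 156) Cert.a)))))))) (Cert.s2 (Cert.s3 (Cert.L 156) (Cert.s4 (Cert.s5 Cert.a (Cert.L 124)) (Cert.s5 Cert.a (Cert.s6 Cert.a (Cert.s1 (Cert.s2 (Cert.s3 (Cert.L 124) (Cert.s4 (Cert.L 124) Cert.b)) (Cert.s3 (Cert.L 124) (Cert.s4 (Cert.L 144) Cert.b))) (Cert.L 152)))))) (Cert.s3 (Cert.s5 Cert.a (Cert.L 152)) (Cert.s4 (Cert.s5 Cert.a (Cert.s6 Cert.a (Cert.L 152))) (Cert.s5 Cert.a (Cert.s6 Cert.a (Cert.L 180))))))) (Cert.s6 (Cert.s1 (Cert.s2 (Cert.s3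 (Cert.L 64) (Cert.s4 (Cert.L 64) (Cert.s5 (Cert.s6 Cert.a (Cert.L 144)) (Cert.s6 Cert.a (Cert.L 144))))) (Cert.s3 (Cert.L 144) (Cert.s4 (Cert.s5 (Cert.s6 Cert.a (Cert.L 144)) (Cert.L 144)) (Cert.s5 (Cert.s6 Cert.a (Cert.s1 (Cert.s2 (Cert.s3 (Cert.L 144) (Cert.s4 (Cert.L 144) (Cert.s5 (Cert.s6 Cert.a Cert.c) (Cert.L 156)))) (Cert.s3 (Cert.L 156) Cert.a)) (Cert.L 172))) (Cert.s6 Cert.a (Cert.L 172)))))) (Cert.s2 (Cert.s3 (Cert.L 172) (Cert.s4 (Cert.L 172) (Cert.s5 (Cert.s6 Cert.a (Cert.L 172)) (Cert.L 172)))) (Cert.L 180))) (Cert.L 180))))) (Cert.s3 (Cert.L 116) (Cert.s4 (Cert.s5 (Cert.s1 (Cert.s3 (Cert.L 116) Cert.a) (Cert.s2 (Cert.s3 (Cert.L 128) Cert.a) (Cert.L 160))) (Cert.L 160)) (Cert.s5 (Cert.s1 (Cert.s3 (Cert.s5 Cert.a (Cert.L 160)) Cert.a)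 (Cert.s2 (Cert.s3 (Cert.s5 Cert.a (Cert.L 160)) Cert.a) (Cert.L 180))) (Cert.s6 (Cert.s1 (Cert.s3 (Cert.L 180) Cert.a) (Cert.L 180)) (Cert.L 180))))))))))))) (Cert.s6 (Cert.s1 (Cert.L 64) (Cert.s2 (Cert.s3 (Cert.L 64) (Cert.s4 (Cert.L 64) (Cert.s5 (Cert.s6 (Cert.s1 (Cert.L 64) (Cert.s2 (Cert.L 64) (Cert.s3 (Cert.L 64) Cert.a))) (Cert.L 100)) (Cert.s6 (Cert.s1 (Cert.L 100) (Cert.s2 (Cert.L 100) (Cert.s3 (Cert.L 100) Cert.a))) (Cert.L 108))))) (Cert.s3 (Cert.L 108) (Cert.s4 (Cert.L 136) (Cert.s5 (Cert.s6 Cert.a (Cert.L 160)) (Cert.s6 Cert.a (Cert.L 160))))))) (Cert.L 160))))) (Cert.s2 (Cert.s3 (Cert.L 64) (Cert.s4 (Cert.s5 (Cert.s1 (Cert.s2 (Cert.L 64) (Cert.s3 (Cert.L 64) (Cert.s4 (Cert.s5 Cert.a (Cert.L 64)) (Cert.s5 Cert.a (Cert.L 100))))) (Cert.L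 100)) (Cert.L 100)) (Cert.s5 (Cert.s1 (Cert.s2 (Cert.s3 (Cert.L 100) (Cert.s4 (Cert.L 100) (Cert.s5 (Cert.s1 (Cert.s2 (Cert.L 100) (Cert.s3 (Cert.L 100) Cert.a)) (Cert.L 100)) (Cert.s6 (Cert.s1 (Cert.s2 (Cert.L 100) (Cert.s3 (Cert.L 100) Cert.a)) (Cert.L 100)) (Cert.L 148))))) (Cert.s3 (Cert.L 64) (Cert.s4 (Cert.s5 Cert.a (Cert.s6 Cert.a (Cert.L 124))) (Cert.s5 Cert.a (Cert.s6 Cert.a (Cert.L 168)))))) (Cert.L 168)) (Cert.s6 (Cert.s1 (Cert.s2 (Cert.s3 (Cert.L 168) (Cert.s4 (Cert.L 168) (Cert.L 184))) (Cert.s3 (Cert.L 76) (Cert.s4 (Cert.L 132) (Cert.L 184)))) (Cert.L 184)) (Cert.L 184))))) (Cert.s3 (Cert.L 64) (Cert.s4 (Cert.s5 (Cert.s1 (Cert.s3 (Cert.L 64) (Cert.s4 (Cert.s5 Cert.a (Cert.s6 Cert.a (Cert.L 76))) (Cert.s5 Cert.a (Cert.L 108)))) (Cert.L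 108)) (Cert.L 108)) (Cert.s5 (Cert.s1 (Cert.s3 (Cert.L 108) (Cert.s4 (Cert.s5 Cert.a (Cert.L 156)) (Cert.s5 Cert.a (Cert.L 172)))) (Cert.L 172)) (Cert.L 172)))))) (Cert.s6 (Cert.s1 (Cert.s5 (Cert.s6 (Cert.s1 (Cert.L 172) (Cert.s2 (Cert.L 160) (Cert.s3 (Cert.L 160) (Cert.s4 (Cert.L 160) (Cert.s5 (Cert.s6 Cert.a (Cert.L 160)) (Cert.L 168)))))) (Cert.L 168)) (Cert.L 184)) (Cert.L 184)) (Cert.L 184))) t18))) (Cert.L 196)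

/-- The starting box. -/
def box6 : Bx := ⟨0, 5120, 0, 5120, 0, 5120, 0, 5120, 0, 5120, 0, 5120⟩

theorem tab6_ok : tab6.allOK = true := by decide +kernel

theorem tree6_ok : chk tab6 tree6 box6 = true := by decide +kernel

end Crest.Agent.Propeller.K6
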