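/-
The induction step of the Propeller bound at level `k = 6`, in dimension 5.
-/
import Crest.Agent.Lib.Propeller.K6Close
import Crest.Agent.Lib.Propeller.K6Data

set_option autoImplicit false
set_option linter.unusedSectionVars false
open MeasureTheory ProbabilityTheory
open scoped RealInnerProductSpace

namespace Crest.Agent.Propeller

open K6

universe u

variable {E : Type u} [NormedAddCommGroup E] [InnerProductSpace ℝ E] [FiniteDimensional ℝ E]
  [MeasurableSpace E] [BorelSpace E]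

/-- The numeric value of `144/π²`. -/
lemma pi_sq_gt : (9.8695877 : ℝ) < Real.pi ^ 2 := by
  have := Real.pi_gt_d6
  nlinarith

/-- The contradiction from one deletion: `c₁ x² < 4π² · 72 E/π³`. -/
lemma contra_one {B d Ej : ℝ} (hEj : 0 < Ej) (hBd : B ≤ d) (hd : d ≤ 72 * Ej / Real.pi ^ 3)
    (hG : 145903 / 10000 * (2 * Real.pi * Ej) < (2 * Real.pi) ^ 2 * B) : False := by
  have hpi := Real.pi_pos
  have h1 : B ≤ 72 * Ej / Real.pi ^ 3 := hBd.trans hd
  have h2 : (2 * Real.pi) ^ 2 * B ≤ (2 * Real.pi) ^ 2 * (72 * Ej / Real.pi ^ 3) :=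
    mul_le_mul_of_nonneg_left h1 (by positivity)
  have e : (2 * Real.pi) ^ 2 * (72 * Ej / Real.pi ^ 3) = 288 * Ej / Real.pi := by
    field_simp
    ring
  rw [e] at h2
  have h3 : 145903 / 10000 * (2 * Real.pi * Ej) < 288 * Ej / Real.pi := lt_of_lt_of_le hG h2
  rw [lt_div_iff₀ hpi] at h3
  have h4 : 145903 / 10000 * (2 * Real.pi * Ej) * Real.pi = (145903 / 5000 * Real.pi ^ 2) * Ej := by
    ring
  rw [h4] at h3
  have h5 : 145903 / 5000 * Real.pi ^ 2 < 288 := lt_of_mul_lt_mul_right h3 hEj.le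
  have h6 := pi_sq_gt
  norm_num at h5 h6
  linarith

/-- The contradiction from two deletions. -/
lemma contra_two {B d XX Om : ℝ} (hBd : B ≤ d)
    (hd : d * XX ^ 2 ≤ Om ^ 2 / (450 * Real.pi ^ 3))
    (hG : 10 / 22206 * ((2 * Real.pi) ^ 3 * Om ^ 2) < (2 * Real.pi * XX) ^ 2 * ((2 * Real.pi) ^ 2 * B)) :
    False := by
  have hpi := Real.pi_pos
  have h1 : B * XX ^ 2 ≤ Om ^ 2 / (450 * Real.pi ^ 3) :=
    (mul_le_mul_of_nonneg_right hBd (by positivity)).trans hd
  have h2 : (2 * Real.pi * XX) ^ 2 * ((2 * Real.pi) ^ 2 * B) = (2 * Real.pi) ^ 4 * (B * XX ^ 2) := by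
    ring
  rw [h2] at hG
  have h3 : (2 * Real.pi) ^ 4 * (B * XX ^ 2) ≤ (2 * Real.pi) ^ 4 * (Om ^ 2 / (450 * Real.pi ^ 3)) :=
    mul_le_mul_of_nonneg_left h1 (by positivity)
  have e : (2 * Real.pi) ^ 4 * (Om ^ 2 / (450 * Real.pi ^ 3)) = (16 / 450 * Real.pi) * Om ^ 2 := by
    field_simp
    ring
  rw [e] at h3
  have h4 := lt_of_lt_of_le hG h3
  have e2 : 10 / 22206 * ((2 * Real.pi) ^ 3 * Om ^ 2) = (80 / 22206 * Real.pi ^ 3) * Om ^ 2 := by ring
  rw [e2] at h4
  have h5 : 80 / 22206 * Real.pi ^ 3 < 16 / 450 * Real.pi := by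
    by_contra hcon
    push Not at hcon
    have := mul_le_mul_of_nonneg_right hcon (sq_nonneg Om)
    linarith
  have h6 := pi_sq_gt
  have e3 : 80 / 22206 * Real.pi ^ 3 = (80 / 22206 * Real.pi ^ 2) * Real.pi := by ring
  rw [e3] at h5
  have h7 := lt_of_mul_lt_mul_right h5 hpi.le
  norm_num at h6 h7
  linarith

/-- Scaling of the cubic term. -/
lemma QQ_scale {p q : ℝ} (hp : 0 ≤ p) (hq : 0 ≤ q) :
    QQ (2 * Real.pi * p) (2 * Real.pi * q) ^ 2
      = (2 * Real.pi) ^ 3 * (Real.sqrt (25 * p + q) ^ 3 + Real.sqrt (p + 25 * q) ^ 3) ^ 2 := by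
  unfold QQ
  have hpi := Real.pi_pos
  have e1 : 25 * (2 * Real.pi * p) + 2 * Real.pi * q = 2 * Real.pi * (25 * p + q) := by ring
  have e2 : 2 * Real.pi * p + 25 * (2 * Real.pi * q) = 2 * Real.pi * (p + 25 * q) := by ring
  have s1 : Real.sqrt (2 * Real.pi * (25 * p + q))
      = Real.sqrt (2 * Real.pi) * Real.sqrt (25 * p + q) := Real.sqrt_mul (by positivity) _
  have s2 : Real.sqrt (2 * Real.pi * (p + 25 * q))
      = Real.sqrt (2 * Real.pi) * Real.sqrt (p + 25 * q) := Real.sqrt_mul (by positivity) _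
  rw [e1, e2, s1, s2]
  have hr2 : Real.sqrt (2 * Real.pi) ^ 2 = 2 * Real.pi := Real.sq_sqrt (by positivity)
  have h6 : (2 * Real.pi) ^ 3 = Real.sqrt (2 * Real.pi) ^ 6 := by
    calc (2 * Real.pi) ^ 3 = (Real.sqrt (2 * Real.pi) ^ 2) ^ 3 := by rw [hr2]
      _ = Real.sqrt (2 * Real.pi) ^ 6 := by ring
  rw [h6]
  ring

/-- **The step `k = 6`.** -/
theorem step6 (hn : Module.finrank ℝ E = 5) (hP : PF E 5) (z : Fin 6 → E) (A : Fin 6 → Set E)
    (hc : Critical z A) (hR : R < S z) : False := by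
  classical
  have hpi := Real.pi_pos
  have hP' : PF E (6 - 1) := hP
  have hk : 2 ≤ 6 := by norm_num
  have hneg : ∀ a b : Fin 6, a ≠ b → ⟪z a, z b⟫ < 0 := fun a b hab => hc.inner_neg hR hP' hab
  have hobt : ∀ a b : Fin 6, a ≠ b → ⟪z a, z b⟫ ≤ 0 := fun a b hab => (hneg a b hab).le
  have hne : ∀ i j : Fin 6, j ≠ i → z j ≠ z i := fun i =>
    ne_of_inner_neg (fun j hj => hneg j i hj)
  have hsum := hc.sum_zero
  set m : Fin 6 → ℝ := fun i => (stdGaussian E).real (A i) with hm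
  have hmsum : ∑ i, m i = 1 := sum_real_cells hc.part
  set x : Fin 6 → ℝ := fun i => Real.sqrt (2 * Real.pi) * ‖z i‖ with hx
  have hr0 : 0 < Real.sqrt (2 * Real.pi) := Real.sqrt_pos.2 (by positivity)
  have hr2 : Real.sqrt (2 * Real.pi) ^ 2 = 2 * Real.pi := Real.sq_sqrt (by positivity)
  have hx0 : ∀ i, 0 ≤ x i := fun i => by simp only [hx]; positivity
  have hxsq : ∀ i, x i ^ 2 = 2 * Real.pi * ‖z i‖ ^ 2 := fun i => by
    simp only [hx]
    rw [mul_pow, hr2]
  -- tangents
  have htan : ∀ i, ∀ τ : ℝ, 0 < τ → τ < 1 →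
      x i ≤ (1 - τ ^ 2) ^ 2 + (16 / 3) * τ * (m i - (2 - 3 * τ + τ ^ 3) / 4) := by
    intro i τ h0 h1
    have h := hc.norm_le_cap5 hn i (hne i) h0 h1
    have h2 := mul_le_mul_of_nonneg_left h hr0.le
    have h3 : Real.sqrt (2 * Real.pi) * phi0 = 1 := by
      unfold phi0
      exact mul_inv_cancel₀ hr0.ne'
    rw [← mul_assoc, h3, one_mul] at h2
    exact h2
  have hval : ∀ i, tab6.Valid (x i) (m i) := fun i =>
    valid_of_tangent (hx0 i) (htan i) tab6 tab6_ok
  -- sorting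
  set p := Tuple.sort x with hp
  have hmono : Monotone (x ∘ p) := Tuple.monotone_sort x
  set j1 := p 5 with hj1
  set j2 := p 4 with hj2
  set j3 := p 3 with hj3
  set j4 := p 2 with hj4
  set j5 := p 1 with hj5
  set j6 := p 0 with hj6
  have h12 : x j2 ≤ x j1 := hmono (by decide : (4 : Fin 6) ≤ 5)
  have h23 : x j3 ≤ x j2 := hmono (by decide : (3 : Fin 6) ≤ 4)
  have h34 : x j4 ≤ x j3 := hmono (by decide : (2 : Fin 6) ≤ 3)
  have h45 : x j5 ≤ x j4 := hmono (by decide : (1 : Fin 6) ≤ 2)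
  have h56 : x j6 ≤ x j5 := hmono (by decide : (0 : Fin 6) ≤ 1)
  have hinj : Function.Injective p := p.injective
  have hd : ∀ a b : Fin 6, a ≠ b → p a ≠ p b := fun a b h h2 => h (hinj h2)
  have hsplit : ∀ f : Fin 6 → ℝ, ∑ i, f i = f j1 + f j2 + f j3 + f j4 + f j5 + f j6 := by
    intro f
    rw [← Equiv.sum_comp p f, Fin.sum_univ_six]
    simp only [hj1, hj2, hj3, hj4, hj5, hj6]
    ring
  -- the budget
  have hbud : 9 / 4 < x j1 ^ 2 + x j2 ^ 2 + x j3 ^ 2 + x j4 ^ 2 + x j5 ^ 2 + x j6 ^ 2 := by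
    have h2 : 2 * Real.pi * R = 9 / 4 := by
      unfold R
      field_simp
      norm_num
    have h3 : 2 * Real.pi * R < 2 * Real.pi * S z := mul_lt_mul_of_pos_left hR (by positivity)
    rw [h2] at h3
    have h4 := hsplit (fun i => ‖z i‖ ^ 2)
    have h5 : S z = ∑ i, ‖z i‖ ^ 2 := rfl
    simp only [hxsq]
    rw [h5, h4] at h3
    linarith
  have hfeas : Feas tab6 (x j1) (x j2) (x j3) (x j4) (x j5) (x j6)
      (m j1) (m j2) (m j3) (m j4) (m j5) (m j6) :=
    ⟨h12, h23, h34, h45, h56, hx0 _, hval _, hval _, hval _, hval _, hval _, hval _,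
      by rw [← hsplit m]; exact hmsum, hbud⟩
  -- the box
  have hlarge : ∀ i, 4096 * x i ≤ ((5120 : ℕ) : ℝ) := by
    intro i
    have h1 := htan i (5 / 256) (by norm_num) (by norm_num)
    have h2 : m i ≤ 1 := by
      have : m i ≤ ∑ i, m i :=
        Finset.single_le_sum (fun i _ => (measureReal_nonneg : 0 ≤ m i)) (Finset.mem_univ i)
      linarith
    push_cast
    norm_num at h1
    nlinarith
  have hbox : Mem box6 (4096 * x j1) (4096 * x j2) (4096 * x j3) (4096 * x j4) (4096 * x j5) (4096 * x j6) := by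
    refine ⟨?_, hlarge _, ?_, hlarge _, ?_, hlarge _, ?_, hlarge _, ?_, hlarge _, ?_, hlarge _⟩ <;>
      · simp only [box6]
        have := hx0 j1
        have := hx0 j2
        have := hx0 j3
        have := hx0 j4
        have := hx0 j5
        have := hx0 j6
        push_cast
        linarith
  have hgood := chk_sound tab6 tree6 box6 tree6_ok hfeas hbox
  -- norms
  set e : Fin 6 → ℝ := fun i => ‖z i‖ ^ 2 with he
  have he0 : ∀ i, 0 < e i := fun i => by
    have := hc.norm_pos hR hP' hk i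
    simp only [he]
    positivity
  have hxe : ∀ i, x i ^ 2 = 2 * Real.pi * e i := hxsq
  have hele : ∀ {a b : Fin 6}, x a ≤ x b → e a ≤ e b := by
    intro a b hab
    have h := pow_le_pow_left₀ (hx0 a) hab 2
    rw [hxe, hxe] at h
    exact le_of_mul_le_mul_left h (by positivity)
  have e12 := hele h12
  have e23 := hele h23
  have e34 := hele h34
  have e45 := hele h45
  have e56 := hele h56
  have d12 : j1 ≠ j2 := hd 5 4 (by decide)
  have d13 : j1 ≠ j3 := hd 5 3 (by decide)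
  have d14 : j1 ≠ j4 := hd 5 2 (by decide)
  have d15 : j1 ≠ j5 := hd 5 1 (by decide)
  have d16 : j1 ≠ j6 := hd 5 0 (by decide)
  have d23 : j2 ≠ j3 := hd 4 3 (by decide)
  have d24 : j2 ≠ j4 := hd 4 2 (by decide)
  have d25 : j2 ≠ j5 := hd 4 1 (by decide)
  have d26 : j2 ≠ j6 := hd 4 0 (by decide)
  have d34 : j3 ≠ j4 := hd 3 2 (by decide)
  have d35 : j3 ≠ j5 := hd 3 1 (by decide)
  have d36 : j3 ≠ j6 := hd 3 0 (by decide)
  have d45 : j4 ≠ j5 := hd 2 1 (by decide)
  have d46 : j4 ≠ j6 := hd 2 0 (by decide)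
  have d56 : j5 ≠ j6 := hd 1 0 (by decide)
  have hmax : ∀ {u v : ℝ}, u ≤ v → max u v = v := fun h => max_eq_right h
  have hmax' : ∀ {u v : ℝ}, v ≤ u → max u v = u := fun h => max_eq_left h
  have hnn : ∀ i, 0 ≤ ‖z i‖ ^ 2 := fun i => by positivity
  have hnu : ‖z j5 + z j6‖ ^ 2 ≤ e j5 + e j6 := by
    rw [norm_add_sq_real]
    have := hneg j5 j6 d56
    simp only [he]
    linarith
  rcases hgood with hG | hG | hG | hG
  · -- one deletion, vertex 3
    obtain ⟨b, hb, hle⟩ := pick_det z {j6} hsum hobt (V := Submodule.span ℝ (z '' (({j6} : Finset (Fin 6)) : Set (Fin 6))))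
      rfl (a := j3) (by simp [d36]) {j1, j2}
      (by
        intro c hc
        simp only [Finset.mem_insert, Finset.mem_singleton] at hc
        rcases hc with rfl | rfl <;> simp [d13, d16, d23, d26])
      (Finset.insert_nonempty _ _)
    rw [Finset.card_pair d12, Finset.sum_singleton] at hle
    have hb' : b = j1 ∨ b = j2 := by simpa using hb
    have hb3 : b ≠ j3 := by rcases hb' with rfl | rfl <;> assumption
    have hb6 : b ≠ j6 := by rcases hb' with rfl | rfl <;> assumption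
    have hbe : e j2 ≤ e b := by rcases hb' with rfl | rfl <;> linarith
    have hdet := close_one hc hR hP hb3.symm d36 hb6 (V := Submodule.span ℝ (z '' (({j6} : Finset (Fin 6)) : Set (Fin 6)))) rfl
    refine contra_one (he0 j6) ?_ hdet (B := e j2 * (e j3 - e j6) - (e j3) ^ 2 / 4) ?_
    · refine le_trans ?_ hle
      rw [hmax (show ‖z j3‖ ^ 2 ≤ ‖z b‖ ^ 2 by change e j3 ≤ e b; linarith)]
      have h1 : e j2 * (e j3 - e j6) ≤ e b * (e j3 - e j6) :=
        mul_le_mul_of_nonneg_right hbe (by linarith)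
      simp only [he] at h1 ⊢
      norm_num
      nlinarith
    · unfold G1 at hG
      rw [hxe, hxe, hxe] at hG
      refine lt_of_lt_of_le hG (le_of_eq ?_)
      ring
  · -- one deletion, vertex 1
    obtain ⟨b, hb, hle⟩ := pick_det z {j6} hsum hobt (V := Submodule.span ℝ (z '' (({j6} : Finset (Fin 6)) : Set (Fin 6))))
      rfl (a := j1) (by simp [d16]) {j2, j3, j4}
      (by
        intro c hc
        simp only [Finset.mem_insert, Finset.mem_singleton] at hc
        rcases hc with rfl | rfl | rfl <;> simp [d12.symm, d13.symm, d14.symm, d26, d36, d46])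
      (Finset.insert_nonempty _ _)
    rw [Finset.card_eq_three.2 ⟨j2, j3, j4, d23, d24, d34, rfl⟩, Finset.sum_singleton] at hle
    have hb' : b = j2 ∨ b = j3 ∨ b = j4 := by simpa using hb
    have hb1 : b ≠ j1 := by
      rcases hb' with rfl | rfl | rfl
      · exact d12.symm
      · exact d13.symm
      · exact d14.symm
    have hb6 : b ≠ j6 := by rcases hb' with rfl | rfl | rfl <;> assumption
    have hbe : e j4 ≤ e b := by rcases hb' with rfl | rfl | rfl <;> linarith
    have hbe1 : e b ≤ e j1 := by rcases hb' with rfl | rfl | rfl <;> linarith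
    have hdet := close_one hc hR hP hb1.symm d16 hb6 (V := Submodule.span ℝ (z '' (({j6} : Finset (Fin 6)) : Set (Fin 6)))) rfl
    refine contra_one (he0 j6) ?_ hdet (B := e j1 * (e j4 - e j6) - (e j1) ^ 2 / 9) ?_
    · refine le_trans ?_ hle
      rw [hmax' (show ‖z b‖ ^ 2 ≤ ‖z j1‖ ^ 2 from hbe1)]
      have h1 : e j1 * (e j4 - e j6) ≤ e j1 * (e b - e j6) :=
        mul_le_mul_of_nonneg_left (by linarith) (he0 j1).le
      simp only [he] at h1 ⊢
      norm_num
      nlinarith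
    · unfold G1 at hG
      rw [hxe, hxe, hxe] at hG
      refine lt_of_lt_of_le hG (le_of_eq ?_)
      ring
  · -- two deletions, vertex 3
    obtain ⟨b, hb, hle⟩ := pick_det z {j5, j6} hsum hobt (V := Submodule.span ℝ (z '' (({j5, j6} : Finset (Fin 6)) : Set (Fin 6))))
      rfl (a := j3) (by simp [d35, d36]) {j1, j2}
      (by
        intro c hc
        simp only [Finset.mem_insert, Finset.mem_singleton] at hc
        rcases hc with rfl | rfl <;> simp [d13, d15, d16, d23, d25, d26])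
      (Finset.insert_nonempty _ _)
    rw [Finset.card_pair d12, Finset.sum_pair d56] at hle
    have hb' : b = j1 ∨ b = j2 := by simpa using hb
    have hb3 : b ≠ j3 := by rcases hb' with rfl | rfl <;> assumption
    have hb5 : b ≠ j5 := by rcases hb' with rfl | rfl <;> assumption
    have hb6 : b ≠ j6 := by rcases hb' with rfl | rfl <;> assumption
    have hbe : e j2 ≤ e b := by rcases hb' with rfl | rfl <;> linarith
    have hdet := close_two hc hR hP d56 hb3.symm d35 d36 hb5 hb6 (V := Submodule.span ℝ (z '' (({j5, j6} : Finset (Fin 6)) : Set (Fin 6)))) rfl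
    unfold G2 at hG
    rw [hxe, hxe, hxe, hxe, QQ_scale (he0 j5).le (he0 j6).le] at hG
    have hG2 : 10 / 22206 * ((2 * Real.pi) ^ 3 * (Real.sqrt (25 * e j5 + e j6) ^ 3 + Real.sqrt (e j5 + 25 * e j6) ^ 3) ^ 2)
        < (2 * Real.pi * (e j5 + e j6)) ^ 2 * ((2 * Real.pi) ^ 2 * (e j2 * (e j3 - (e j5 + e j6)) - (e j3) ^ 2 / 4)) := by
      refine lt_of_lt_of_le hG (le_of_eq ?_)
      ring
    have hbr : 0 < e j2 * (e j3 - (e j5 + e j6)) - (e j3) ^ 2 / 4 := by
      have h0 : 0 ≤ 10 / 22206 * ((2 * Real.pi) ^ 3 * (Real.sqrt (25 * e j5 + e j6) ^ 3 + Real.sqrt (e j5 + 25 * e j6) ^ 3) ^ 2) := by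
        positivity
      have h1 := lt_of_le_of_lt h0 hG2
      have h2 : 0 < (2 * Real.pi * (e j5 + e j6)) ^ 2 := by
        have := he0 j5
        have := he0 j6
        positivity
      have h3 := (pos_iff_pos_of_mul_pos h1).1 h2
      exact (pos_iff_pos_of_mul_pos h3).1 (by positivity)
    have hXX : 0 < e j3 - (e j5 + e j6) := by
      by_contra hcon
      push Not at hcon
      have h1 : e j2 * (e j3 - (e j5 + e j6)) ≤ 0 :=
        mul_nonpos_of_nonneg_of_nonpos (he0 j2).le hcon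
      have h2 : 0 ≤ (e j3) ^ 2 / 4 := by positivity
      linarith
    refine contra_two ?_ hdet hG2
    refine le_trans ?_ hle
    rw [hmax (show ‖z j3‖ ^ 2 ≤ ‖z b‖ ^ 2 by change e j3 ≤ e b; linarith)]
    have h1 : e j2 * (e j3 - (e j5 + e j6)) ≤ e b * (e j3 - (e j5 + e j6)) :=
      mul_le_mul_of_nonneg_right hbe hXX.le
    have h2 : e b * ‖z j5 + z j6‖ ^ 2 ≤ e b * (e j5 + e j6) :=
      mul_le_mul_of_nonneg_left hnu (he0 b).le
    simp only [he] at h1 h2 ⊢
    norm_num
    nlinarith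
  · -- two deletions, vertex 1
    obtain ⟨b, hb, hle⟩ := pick_det z {j5, j6} hsum hobt (V := Submodule.span ℝ (z '' (({j5, j6} : Finset (Fin 6)) : Set (Fin 6))))
      rfl (a := j1) (by simp [d15, d16]) {j2, j3, j4}
      (by
        intro c hc
        simp only [Finset.mem_insert, Finset.mem_singleton] at hc
        rcases hc with rfl | rfl | rfl <;> simp [d12.symm, d13.symm, d14.symm, d25, d26, d35, d36, d45, d46])
      (Finset.insert_nonempty _ _)
    rw [Finset.card_eq_three.2 ⟨j2, j3, j4, d23, d24, d34, rfl⟩, Finset.sum_pair d56] at hle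
    have hb' : b = j2 ∨ b = j3 ∨ b = j4 := by simpa using hb
    have hb1 : b ≠ j1 := by
      rcases hb' with rfl | rfl | rfl
      · exact d12.symm
      · exact d13.symm
      · exact d14.symm
    have hb5 : b ≠ j5 := by rcases hb' with rfl | rfl | rfl <;> assumption
    have hb6 : b ≠ j6 := by rcases hb' with rfl | rfl | rfl <;> assumption
    have hbe : e j4 ≤ e b := by rcases hb' with rfl | rfl | rfl <;> linarith
    have hbe1 : e b ≤ e j1 := by rcases hb' with rfl | rfl | rfl <;> linarith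
    have hdet := close_two hc hR hP d56 hb1.symm d15 d16 hb5 hb6 (V := Submodule.span ℝ (z '' (({j5, j6} : Finset (Fin 6)) : Set (Fin 6)))) rfl
    unfold G2 at hG
    rw [hxe, hxe, hxe, hxe, QQ_scale (he0 j5).le (he0 j6).le] at hG
    have hG2 : 10 / 22206 * ((2 * Real.pi) ^ 3 * (Real.sqrt (25 * e j5 + e j6) ^ 3 + Real.sqrt (e j5 + 25 * e j6) ^ 3) ^ 2)
        < (2 * Real.pi * (e j5 + e j6)) ^ 2 * ((2 * Real.pi) ^ 2 * (e j1 * (e j4 - (e j5 + e j6)) - (e j1) ^ 2 / 9)) := by
      refine lt_of_lt_of_le hG (le_of_eq ?_)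
      ring
    refine contra_two ?_ hdet hG2
    refine le_trans ?_ hle
    rw [hmax' (show ‖z b‖ ^ 2 ≤ ‖z j1‖ ^ 2 from hbe1)]
    have h1 : e j1 * (e j4 - (e j5 + e j6)) ≤ e j1 * (e b - (e j5 + e j6)) :=
      mul_le_mul_of_nonneg_left (by linarith) (he0 j1).le
    have h2 : e j1 * ‖z j5 + z j6‖ ^ 2 ≤ e j1 * (e j5 + e j6) :=
      mul_le_mul_of_nonneg_left hnu (he0 j1).le
    simp only [he] at h1 h2 ⊢
    norm_num
    nlinarith

end Crest.Agent.Propeller
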