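import Crest.Agent.Lib.Propeller.Step4
import Crest.Agent.Lib.Propeller.Step5
import Crest.Agent.Lib.Propeller.Step6

/-!
# Propeller: final assembly

`k = 4, 5, 6` are closed by `step4`, `step5`, `step6`; this file reduces the whole statement to the
induction steps for `k ≥ 7`, with the critical configuration in a Euclidean space of any dimension
`d k ≥ k - 1` of our choice (`d k = k - 1` for the cone caps `J_{k-1}`, a larger value for a smaller
cap is never needed but is allowed).
-/

set_option autoImplicit false
open MeasureTheory ProbabilityTheory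

namespace Crest.Agent.Propeller

universe u v

/-- The frame with the steps `k = 4, 5, 6` filled in. -/
theorem PF_all_of_large {E : Type u} [NormedAddCommGroup E] [InnerProductSpace ℝ E]
    [FiniteDimensional ℝ E] [MeasurableSpace E] [BorelSpace E]
    (step : ∀ k, 7 ≤ k → PF (EuclideanSpace ℝ (Fin (k - 1))) (k - 1) →
      ∀ (z : Fin k → EuclideanSpace ℝ (Fin (k - 1)))
        (A : Fin k → Set (EuclideanSpace ℝ (Fin (k - 1)))),
        Critical z A → R < S z → False) :
    ∀ n, PF E n := by
  refine PF_all_euclid ?_
  intro k hk hP z A hc hR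
  rcases Nat.lt_or_ge k 7 with h7 | h7
  · obtain rfl | rfl | rfl : k = 4 ∨ k = 5 ∨ k = 6 := by omega
    · exact step4 (by simp) hP z A hc hR
    · exact step5 (by simp) hP z A hc hR
    · exact step6 (by simp) hP z A hc hR
  · exact step k h7 hP z A hc hR

/-- **The final statement from the steps `k ≥ 7`.** -/
theorem result_of_large {E : Type u} [NormedAddCommGroup E] [InnerProductSpace ℝ E]
    [FiniteDimensional ℝ E] [MeasurableSpace E] [BorelSpace E] {κ : Type v} [Fintype κ]
    (step : ∀ k, 7 ≤ k → PF (EuclideanSpace ℝ (Fin (k - 1))) (k - 1) →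
      ∀ (z : Fin k → EuclideanSpace ℝ (Fin (k - 1)))
        (A : Fin k → Set (EuclideanSpace ℝ (Fin (k - 1)))),
        Critical z A → R < S z → False)
    (A : κ → Set E) (hA : ∀ i, MeasurableSet (A i))
    (hdisj : Pairwise fun i j => Disjoint (A i) (A j)) (hcov : ⋃ i, A i = Set.univ) :
    ∑ i, ‖∫ x in A i, x ∂stdGaussian E‖ ^ 2 ≤ 9 / (8 * Real.pi) :=
  partition_bound (PF_all_of_large step) ⟨hA, hdisj, hcov⟩

end Crest.Agent.Propeller
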