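import Mathlib

/-!
# Propeller conjecture: the base layer

`mx z g = max_i ⟪z i, g⟫`, `F z = E mx z g`, `S z = Σ ‖z i‖²`.

* the partition statement follows from `F z ^ 2 ≤ R * S z` (`sum_mom_sq_le`);
* existence of a critical configuration (`exists_critical`) by a derivative-free argument;
* strict obtuseness by merging, deletion inequality.
-/

set_option autoImplicit false
set_option linter.unusedSectionVars false
open MeasureTheory ProbabilityTheory
open scoped RealInnerProductSpace

namespace Crest.Agent.Propeller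

universe u v w

variable {E : Type u} [NormedAddCommGroup E] [InnerProductSpace ℝ E] [FiniteDimensional ℝ E]
  [MeasurableSpace E] [BorelSpace E]
variable {ι : Type v} [Fintype ι]

/-- `max_i ⟪z i, g⟫`. -/
noncomputable def mx (z : ι → E) (g : E) : ℝ := ⨆ i, ⟪z i, g⟫

/-- `F z = E max_i ⟪z i, g⟫`. -/
noncomputable def F (z : ι → E) : ℝ := ∫ g, mx z g ∂(stdGaussian E)

/-- `S z = Σ ‖z i‖²`. -/
noncomputable def S (z : ι → E) : ℝ := ∑ i, ‖z i‖ ^ 2

/-- The propeller constant. -/
noncomputable def R : ℝ := 9 / (8 * Real.pi)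

lemma R_pos : 0 < R := by unfold R; positivity

lemma S_nonneg (z : ι → E) : 0 ≤ S z := Finset.sum_nonneg fun _ _ => by positivity

lemma integrable_id_std : Integrable (fun g : E => g) (stdGaussian E) :=
  IsGaussian.integrable_id

lemma integrable_inner_std (v : E) : Integrable (fun g : E => ⟪v, g⟫) (stdGaussian E) :=
  (innerSL ℝ v).integrable_comp IsGaussian.integrable_id

lemma integral_inner_std (v : E) : ∫ g : E, ⟪v, g⟫ ∂(stdGaussian E) = 0 := by
  have := integral_strongDual_stdGaussian (E := E) (innerSL ℝ v)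
  simpa using this

lemma integrable_norm_std : Integrable (fun g : E => ‖g‖) (stdGaussian E) :=
  (IsGaussian.integrable_id (μ := stdGaussian E)).norm

lemma le_mx (z : ι → E) (i : ι) (g : E) : ⟪z i, g⟫ ≤ mx z g :=
  le_ciSup (f := fun i => ⟪z i, g⟫) (Set.finite_range _).bddAbove i

lemma mx_le [Nonempty ι] {z : ι → E} {g : E} {c : ℝ} (h : ∀ i, ⟪z i, g⟫ ≤ c) : mx z g ≤ c :=
  ciSup_le h

lemma exists_mx_eq [Nonempty ι] (z : ι → E) (g : E) : ∃ i, mx z g = ⟪z i, g⟫ := by
  obtain ⟨i, hi⟩ := exists_eq_ciSup_of_finite (f := fun i => ⟪z i, g⟫)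
  exact ⟨i, hi.symm⟩

lemma measurable_mx (z : ι → E) : Measurable (mx z) := by
  unfold mx
  refine Measurable.iSup fun i => ?_
  exact (continuous_const.inner continuous_id).measurable

lemma abs_mx_le (z : ι → E) (g : E) : |mx z g| ≤ ∑ i, ‖z i‖ * ‖g‖ := by
  rcases isEmpty_or_nonempty ι with h | h
  · simp [mx]
  · obtain ⟨i, hi⟩ := exists_mx_eq z g
    rw [hi]
    calc |⟪z i, g⟫| ≤ ‖z i‖ * ‖g‖ := abs_real_inner_le_norm _ _
      _ ≤ ∑ i, ‖z i‖ * ‖g‖ :=
        Finset.single_le_sum (f := fun i => ‖z i‖ * ‖g‖) (fun _ _ => by positivity)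
          (Finset.mem_univ i)

lemma integrable_mx (z : ι → E) : Integrable (mx z) (stdGaussian E) := by
  refine Integrable.mono' (g := fun g => ∑ i, ‖z i‖ * ‖g‖) ?_
    (measurable_mx z).aestronglyMeasurable (Filter.Eventually.of_forall fun g => ?_)
  · exact integrable_finsetSum _ fun i _ => integrable_norm_std.const_mul _
  · simpa using abs_mx_le z g

lemma F_nonneg (z : ι → E) : 0 ≤ F z := by
  rcases isEmpty_or_nonempty ι with h | h
  · simp [F, mx]
  · obtain ⟨i⟩ := h
    have : ∫ g : E, ⟪z i, g⟫ ∂(stdGaussian E) ≤ F z :=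
      integral_mono (integrable_inner_std _) (integrable_mx z) fun g => le_mx z i g
    rwa [integral_inner_std] at this

lemma mx_smul (z : ι → E) {c : ℝ} (hc : 0 ≤ c) (g : E) :
    mx (fun i => c • z i) g = c * mx z g := by
  unfold mx
  rw [Real.mul_iSup_of_nonneg hc]
  simp [real_inner_smul_left]

lemma F_smul (z : ι → E) {c : ℝ} (hc : 0 ≤ c) : F (fun i => c • z i) = c * F z := by
  unfold F
  simp_rw [mx_smul z hc]
  exact integral_const_mul _ _

lemma S_smul (z : ι → E) (c : ℝ) : S (fun i => c • z i) = c ^ 2 * S z := by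
  unfold S
  rw [Finset.mul_sum]
  refine Finset.sum_congr rfl fun i _ => ?_
  rw [norm_smul, mul_pow, Real.norm_eq_abs, sq_abs]

lemma mx_add_const [Nonempty ι] (z : ι → E) (c g : E) :
    mx (fun i => z i + c) g = mx z g + ⟪c, g⟫ := by
  apply le_antisymm
  · refine mx_le fun i => ?_
    rw [inner_add_left]
    linarith [le_mx z i g]
  · obtain ⟨i, hi⟩ := exists_mx_eq z g
    rw [hi, ← inner_add_left]
    exact le_mx (fun i => z i + c) i g

lemma F_add_const [Nonempty ι] (z : ι → E) (c : E) : F (fun i => z i + c) = F z := by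
  unfold F
  simp_rw [mx_add_const z c]
  rw [integral_add (integrable_mx z) (integrable_inner_std c), integral_inner_std, add_zero]

lemma F_reindex {κ : Type w} [Fintype κ] (e : κ ≃ ι) (z : ι → E) : F (z ∘ e) = F z := by
  unfold F mx
  congr 1
  funext g
  exact e.iSup_comp (g := fun i => ⟪z i, g⟫)

lemma S_reindex {κ : Type w} [Fintype κ] (e : κ ≃ ι) (z : ι → E) : S (z ∘ e) = S z := by
  unfold S
  exact e.sum_comp (fun i => ‖z i‖ ^ 2)

/-- A measurable partition. -/
structure IsPartition (A : ι → Set E) : Prop where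
  meas : ∀ i, MeasurableSet (A i)
  disj : Pairwise fun i j => Disjoint (A i) (A j)
  cov : ⋃ i, A i = Set.univ

/-- First moment of a cell. -/
noncomputable def mom (A : ι → Set E) (i : ι) : E := ∫ x in A i, x ∂(stdGaussian E)

lemma sum_setIntegral_cells {A : ι → Set E} (hA : IsPartition A) {G : Type*} [NormedAddCommGroup G]
    [NormedSpace ℝ G] {f : E → G} (hf : Integrable f (stdGaussian E)) :
    ∑ i, ∫ x in A i, f x ∂(stdGaussian E) = ∫ x, f x ∂(stdGaussian E) := by
  classical
  have h := integral_biUnion_finset (μ := stdGaussian E) (f := f) (t := Finset.univ) (s := A)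
    (fun i _ => hA.meas i) (fun i _ j _ hij => hA.disj hij) (fun i _ => hf.integrableOn)
  have hU : (⋃ i ∈ (Finset.univ : Finset ι), A i) = Set.univ := by
    simpa using hA.cov
  rw [hU, Measure.restrict_univ] at h
  exact h.symm

lemma sum_mom_eq_zero {A : ι → Set E} (hA : IsPartition A) : ∑ i, mom A i = 0 := by
  unfold mom
  rw [sum_setIntegral_cells hA integrable_id_std]
  exact integral_id_stdGaussian

lemma inner_mom {A : ι → Set E} (v : E) (i : ι) :
    ⟪v, mom A i⟫ = ∫ x in A i, ⟪v, x⟫ ∂(stdGaussian E) := by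
  unfold mom
  rw [integral_inner (integrable_id_std.integrableOn)]

/-- Supporting hyperplane inequality. -/
lemma sum_inner_mom_le {A : ι → Set E} (hA : IsPartition A) (z : ι → E) :
    ∑ i, ⟪z i, mom A i⟫ ≤ F z := by
  unfold F
  rw [← sum_setIntegral_cells hA (integrable_mx z)]
  refine Finset.sum_le_sum fun i _ => ?_
  rw [inner_mom]
  exact integral_mono (integrable_inner_std _).integrableOn (integrable_mx z).integrableOn
    fun g => le_mx z i g

lemma sum_inner_mom_eq {A : ι → Set E} (hA : IsPartition A) (z : ι → E)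
    (hc : ∀ i, ∀ g ∈ A i, mx z g = ⟪z i, g⟫) :
    ∑ i, ⟪z i, mom A i⟫ = F z := by
  unfold F
  rw [← sum_setIntegral_cells hA (integrable_mx z)]
  refine Finset.sum_congr rfl fun i _ => ?_
  rw [inner_mom]
  exact (setIntegral_congr_fun (hA.meas i) fun g hg => hc i g hg).symm

/-- Cells: a measurable selection of the argmax. -/
lemma exists_cells [Nonempty ι] (z : ι → E) :
    ∃ A : ι → Set E, IsPartition A ∧ ∀ i, ∀ g ∈ A i, mx z g = ⟪z i, g⟫ := by
  classical
  let e := Fintype.equivFin ι
  let B : Fin (Fintype.card ι) → Set E := fun j => {g | mx z g = ⟪z (e.symm j), g⟫}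
  have hB : ∀ j, MeasurableSet (B j) := fun j =>
    measurableSet_eq_fun (measurable_mx z) (continuous_const.inner continuous_id).measurable
  have hD : ∀ j, MeasurableSet (disjointed B j) := fun j => by
    rw [disjointed_apply]
    refine (hB j).diff ?_
    rw [Finset.sup_set_eq_biUnion]
    exact Finset.measurableSet_biUnion _ fun i _ => hB i
  refine ⟨fun i => disjointed B (e i), ⟨fun i => hD _, ?_, ?_⟩, ?_⟩
  · intro i j hij
    exact disjoint_disjointed B (e.injective.ne hij)
  · rw [← Set.univ_subset_iff]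
    intro g _
    obtain ⟨i, hi⟩ := exists_mx_eq z g
    have hU : ⋃ j, disjointed B j = ⋃ j, B j := iUnion_disjointed
    have : g ∈ ⋃ j, B j := Set.mem_iUnion.2 ⟨e i, by simp [B, hi]⟩
    rw [← hU] at this
    obtain ⟨j, hj⟩ := Set.mem_iUnion.1 this
    exact Set.mem_iUnion.2 ⟨e.symm j, by simpa using hj⟩
  · intro i g hg
    have := disjointed_subset B (e i) hg
    simpa [B] using this

/-- `z i ↦ ‖∑‖` on the L² product. -/
local notation "W" => PiLp 2 (fun _ : ι => E)

lemma F_le_add (z y : ι → E) : F z ≤ F y + (∑ i, ‖z i - y i‖) * ∫ g : E, ‖g‖ ∂(stdGaussian E) := by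
  rcases isEmpty_or_nonempty ι with h | h
  · simp [F, mx]
  · have key : ∀ g : E, mx z g ≤ mx y g + (∑ i, ‖z i - y i‖) * ‖g‖ := fun g => by
      refine mx_le fun i => ?_
      have h1 : ⟪z i, g⟫ = ⟪y i, g⟫ + ⟪z i - y i, g⟫ := by rw [inner_sub_left]; ring
      have h2 : ⟪z i - y i, g⟫ ≤ ‖z i - y i‖ * ‖g‖ := real_inner_le_norm _ _
      have h3 : ‖z i - y i‖ ≤ ∑ i, ‖z i - y i‖ :=
        Finset.single_le_sum (f := fun i => ‖z i - y i‖) (fun _ _ => norm_nonneg _)
          (Finset.mem_univ i)
      have h4 : ‖z i - y i‖ * ‖g‖ ≤ (∑ i, ‖z i - y i‖) * ‖g‖ :=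
        mul_le_mul_of_nonneg_right h3 (norm_nonneg _)
      linarith [le_mx y i g]
    have hi : Integrable (fun g => mx y g + (∑ i, ‖z i - y i‖) * ‖g‖) (stdGaussian E) :=
      (integrable_mx y).add (integrable_norm_std.const_mul (∑ i, ‖z i - y i‖))
    have := integral_mono (integrable_mx z) hi key
    rw [integral_add (integrable_mx y) (integrable_norm_std.const_mul _),
      integral_const_mul] at this
    exact this

lemma continuous_F : Continuous fun x : W => F (fun i => x i) := by
  set C : ℝ := ∫ g : E, ‖g‖ ∂(stdGaussian E) with hC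
  have hC0 : 0 ≤ C := integral_nonneg fun _ => norm_nonneg _
  have hL : ∀ x y : W, F (fun i => x i) ≤ F (fun i => y i) + (C * Fintype.card ι) * dist x y := by
    intro x y
    have h := F_le_add (fun i => x i) (fun i => y i)
    have h2 : (∑ i, ‖x i - y i‖) ≤ Fintype.card ι * dist x y := by
      have : ∀ i ∈ Finset.univ, ‖x i - y i‖ ≤ dist x y := fun i _ => by
        rw [dist_eq_norm]
        exact PiLp.norm_apply_le (x - y) i
      simpa using Finset.sum_le_card_nsmul _ _ _ this
    have h3 := mul_le_mul_of_nonneg_right h2 hC0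
    nlinarith
  refine (LipschitzWith.of_le_add_mul (Real.toNNReal (C * Fintype.card ι)) ?_).continuous
  intro x y
  have := hL x y
  rw [Real.coe_toNNReal _ (by positivity)]
  exact this

lemma norm_sq_W (x : W) : ‖x‖ ^ 2 = S (fun i => x i) := by
  rw [PiLp.norm_sq_eq_of_L2]; rfl

/-- A critical configuration. -/
structure Critical (z : ι → E) (A : ι → Set E) : Prop where
  part : IsPartition A
  cell : ∀ i, ∀ g ∈ A i, mx z g = ⟪z i, g⟫
  mom_eq : ∀ i, mom A i = z i
  sum_zero : ∑ i, z i = 0
  F_eq : F z = S z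
  max : ∀ y : ι → E, F y ^ 2 ≤ S z * S y

/-- Existence of a critical configuration above any threshold that is violated. -/
theorem exists_critical [Nonempty ι] (z : ι → E) (r : ℝ) (hr : 0 ≤ r) (h : r * S z < F z ^ 2) :
    ∃ (z' : ι → E) (A : ι → Set E), Critical z' A ∧ r < S z' := by
  classical
  have hFz : 0 < F z := by
    have h0 : 0 ≤ r * S z := mul_nonneg hr (S_nonneg z)
    rcases (F_nonneg z).lt_or_eq with h1 | h1
    · exact h1
    · rw [← h1] at h; norm_num at h; linarith
  have hSz : 0 < S z := by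
    rcases (S_nonneg z).lt_or_eq with h1 | h1
    · exact h1
    · exfalso
      have hz : ∀ i, z i = 0 := fun i => by
        have h2 : ‖z i‖ ^ 2 ≤ S z := Finset.single_le_sum (f := fun i => ‖z i‖ ^ 2)
          (fun _ _ => by positivity) (Finset.mem_univ i)
        rw [← h1] at h2
        have h3 : ‖z i‖ ^ 2 = 0 := le_antisymm h2 (by positivity)
        simpa using h3
      have : F z = 0 := by
        simp [F, mx, hz]
      linarith
  -- maximiser on the sphere
  let z0 : W := (WithLp.toLp 2 z : W)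
  have hz0 : ‖z0‖ ^ 2 = S z := norm_sq_W z0
  have hz0pos : 0 < ‖z0‖ := by
    rcases (norm_nonneg z0).lt_or_eq with h1 | h1
    · exact h1
    · rw [← h1] at hz0; norm_num at hz0; linarith
  have hne : (Metric.sphere (0 : W) 1).Nonempty := by
    refine ⟨(‖z0‖)⁻¹ • z0, ?_⟩
    simp [norm_smul, hz0pos.ne']
  obtain ⟨u, hu, hmax⟩ := (isCompact_sphere (0 : W) 1).exists_isMaxOn hne
    (continuous_F (E := E) (ι := ι)).continuousOn
  have hunorm : ‖u‖ = 1 := by simpa using hu
  set M : ℝ := F (fun i => u i) with hM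
  have hbound : ∀ y : W, F (fun i => y i) ≤ M * ‖y‖ := by
    intro y
    rcases eq_or_ne y 0 with rfl | hy
    · simp [F, mx]
    · have hy' : 0 < ‖y‖ := norm_pos_iff.2 hy
      have hs : (‖y‖)⁻¹ • y ∈ Metric.sphere (0 : W) 1 := by
        simp [norm_smul, hy'.ne']
      have h1 : F (fun i => ((‖y‖)⁻¹ • y) i) ≤ M := hmax hs
      have h2 : F (fun i => ((‖y‖)⁻¹ • y) i) = (‖y‖)⁻¹ * F (fun i => y i) :=
        F_smul (fun i => y i) (by positivity)
      rw [h2] at h1
      have h3 := mul_le_mul_of_nonneg_left h1 hy'.le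
      rw [← mul_assoc, mul_inv_cancel₀ hy'.ne', one_mul] at h3
      linarith
  have hMpos : 0 < M := by
    have h1 := hbound z0
    have h2 : F (fun i => z0 i) = F z := rfl
    rw [h2] at h1
    by_contra hh
    push Not at hh
    have : M * ‖z0‖ ≤ 0 := mul_nonpos_of_nonpos_of_nonneg hh hz0pos.le
    linarith
  -- cells and moments of `u`
  obtain ⟨A, hA, hcell⟩ := exists_cells (fun i => u i)
  let m : W := (WithLp.toLp 2 (mom A) : W)
  have hinner : ⟪u, m⟫ = M := by
    rw [PiLp.inner_apply]
    have := sum_inner_mom_eq hA (fun i => u i) hcell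
    rw [hM, ← this]
  have hmS : ‖m‖ ^ 2 ≤ F (fun i => m i) := by
    have h1 := sum_inner_mom_le hA (fun i => m i)
    have h2 : ∑ i, ⟪m i, mom A i⟫ = ‖m‖ ^ 2 := by
      rw [norm_sq_W m]
      refine Finset.sum_congr rfl fun i _ => ?_
      change ⟪mom A i, mom A i⟫ = ‖mom A i‖ ^ 2
      exact real_inner_self_eq_norm_sq _
    rwa [h2] at h1
  have hmle : ‖m‖ ≤ M := by
    have h1 := hbound m
    have h2 : ‖m‖ ^ 2 ≤ M * ‖m‖ := hmS.trans h1
    rcases (norm_nonneg m).lt_or_eq with h3 | h3
    · nlinarith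
    · rw [← h3]; exact hMpos.le
  have hmge : M ≤ ‖m‖ := by
    have := real_inner_le_norm u m
    rw [hinner, hunorm, one_mul] at this
    exact this
  have hmeq : ‖m‖ = M := le_antisymm hmle hmge
  have hmsmul : m = M • u := by
    have h0 : ‖m - M • u‖ ^ 2 = 0 := by
      rw [norm_sub_sq_real, norm_smul, real_inner_smul_right, real_inner_comm, hinner, hmeq,
        hunorm, Real.norm_eq_abs, abs_of_pos hMpos]
      ring
    have h1 : ‖m - M • u‖ = 0 := by simpa using h0
    exact sub_eq_zero.1 (norm_eq_zero.1 h1)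
  have hmi : ∀ i, mom A i = M • u i := fun i => by
    have : m i = (M • u) i := by rw [← hmsmul]
    simpa using this
  have hSm : S (mom A) = M ^ 2 := by
    have := norm_sq_W m
    rw [hmeq] at this
    exact this.symm
  have hFm : F (mom A) = M ^ 2 := by
    have h1 : mom A = fun i => M • u i := funext hmi
    rw [h1, F_smul (fun i => u i) hMpos.le]
    ring
  have hcell' : ∀ i, ∀ g ∈ A i, mx (mom A) g = ⟪mom A i, g⟫ := by
    intro i g hg
    have h1 : mom A = fun i => M • u i := funext hmi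
    rw [h1, mx_smul (fun i => u i) hMpos.le, hcell i g hg, real_inner_smul_left]
  refine ⟨mom A, A, ⟨hA, hcell', fun _ => rfl, sum_mom_eq_zero hA, hFm.trans hSm.symm, ?_⟩, ?_⟩
  · intro y
    rw [hSm]
    let y0 : W := (WithLp.toLp 2 y : W)
    have h1 : F y ≤ M * ‖y0‖ := hbound y0
    have h2 : ‖y0‖ ^ 2 = S y := norm_sq_W y0
    have h3 := F_nonneg y
    rw [← h2]
    nlinarith [mul_le_mul h1 h1 h3 (by positivity : 0 ≤ M * ‖y0‖)]
  · rw [hSm]
    have h1 : F z ≤ M * ‖z0‖ := hbound z0
    have h3 : F z ^ 2 ≤ (M * ‖z0‖) ^ 2 := by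
      apply pow_le_pow_left₀ hFz.le h1
    rw [mul_pow, hz0] at h3
    have h4 : r * S z < M ^ 2 * S z := lt_of_lt_of_le h h3
    exact lt_of_mul_lt_mul_right h4 hSz.le

/-- The statement `P ι`. -/
def PP (E : Type u) [NormedAddCommGroup E] [InnerProductSpace ℝ E] [FiniteDimensional ℝ E]
    [MeasurableSpace E] [BorelSpace E] (κ : Type v) [Fintype κ] : Prop :=
  ∀ z : κ → E, F z ^ 2 ≤ R * S z

/-- `P n` for `Fin n`. -/
def PF (E : Type u) [NormedAddCommGroup E] [InnerProductSpace ℝ E] [FiniteDimensional ℝ E]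
    [MeasurableSpace E] [BorelSpace E] (n : ℕ) : Prop :=
  ∀ z : Fin n → E, F z ^ 2 ≤ R * S z

lemma PP_of_PF {n : ℕ} (h : PF E n) (hc : Fintype.card ι = n) : PP E ι := by
  intro z
  have e : ι ≃ Fin n := Fintype.equivFinOfCardEq hc
  have := h (z ∘ e.symm)
  rwa [F_reindex, S_reindex] at this

/-- The partition statement from `P ι`. -/
theorem sum_mom_sq_le (hP : PP E ι) {A : ι → Set E} (hA : IsPartition A) :
    ∑ i, ‖mom A i‖ ^ 2 ≤ R := by
  set m := mom A with hm
  have h1 : S m ≤ F m := by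
    have := sum_inner_mom_le hA m
    have h2 : ∑ i, ⟪m i, mom A i⟫ = S m := by
      refine Finset.sum_congr rfl fun i _ => ?_
      exact real_inner_self_eq_norm_sq _
    rwa [h2] at this
  have h2 := hP m
  have h3 := S_nonneg m
  change S m ≤ R
  rcases h3.lt_or_eq with h4 | h4
  · have : S m ^ 2 ≤ R * S m := by
      calc S m ^ 2 ≤ F m ^ 2 := pow_le_pow_left₀ h3 h1 2
        _ ≤ R * S m := h2
    nlinarith
  · rw [← h4]; exact R_pos.le

/-- Adding a zero vector does not change `S` and can only increase `F`. -/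
lemma F_le_of_injective {κ : Type w} [Fintype κ] (e : κ → ι) (z : ι → E) [Nonempty κ] :
    F (z ∘ e) ≤ F z := by
  refine integral_mono (integrable_mx _) (integrable_mx _) fun g => ?_
  refine mx_le fun i => ?_
  exact le_mx z (e i) g

lemma PF_mono {n : ℕ} (h : PF E (n + 1)) : PF E n := by
  rcases Nat.eq_zero_or_pos n with rfl | hn
  · intro z
    have : F z = 0 := by simp [F, mx]
    simp [this, S]
  · intro z
    have : Nonempty (Fin n) := ⟨⟨0, hn⟩⟩
    let y : Fin (n + 1) → E := Fin.snoc z 0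
    have h1 : y ∘ Fin.castSucc = z := by
      funext i; simp [y]
    have h2 : F z ≤ F y := by
      rw [← h1]; exact F_le_of_injective _ _
    have h3 : S y = S z := by
      unfold S
      rw [Fin.sum_univ_castSucc]
      simp [y]
    have h4 := h y
    rw [h3] at h4
    calc F z ^ 2 ≤ F y ^ 2 := pow_le_pow_left₀ (F_nonneg z) h2 2
      _ ≤ _ := h4

lemma PF_of_le {m n : ℕ} (hmn : m ≤ n) (h : PF E n) : PF E m := by
  induction n, hmn using Nat.le_induction with
  | base => exact h
  | succ n _ ih => exact ih (PF_mono h)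

/-- Final reduction: `P` for `Fin n` for all `n` gives the partition statement for any index. -/
theorem partition_bound (h : ∀ n, PF E n) {A : ι → Set E} (hA : IsPartition A) :
    ∑ i, ‖∫ x in A i, x ∂(stdGaussian E)‖ ^ 2 ≤ 9 / (8 * Real.pi) :=
  sum_mom_sq_le (PP_of_PF (h _) rfl) hA

end Crest.Agent.Propeller
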