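import Crest.Agent.Lib.Propeller.Kron

/-!
# Product closure: pair small ball on a block, Harris on the rest

`block_bound`: for a family zero-sum on `T₀`, a block `B ⊆ T₀` containing `a ≠ b`, `C = T₀ \ B`,
`W ⊇ z '' C`, `Δ² = det Gram (P z a, P z b)` with `P` the projection on `Wᗮ`:
`γ{∀ i ∈ T₀, ⟪z i, g⟫ < y i} ≤ (∑_{T₀} y)₊² / (4πΔ) * γ{∀ l ∈ C, ⟪z l, g⟫ < y l}`,
and with nonpositive covariances on `C` the last factor is at most a product (`block_bound_prod`).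
-/

set_option autoImplicit false
set_option linter.unusedSectionVars false
open MeasureTheory ProbabilityTheory
open scoped RealInnerProductSpace

namespace Crest.Agent.Propeller

universe u v

variable {E : Type u} [NormedAddCommGroup E] [InnerProductSpace ℝ E] [FiniteDimensional ℝ E]
  [MeasurableSpace E] [BorelSpace E]
variable {ι : Type v} [DecidableEq ι]

theorem block_bound (z : ι → E) (T₀ B : Finset ι) (hB : B ⊆ T₀) (hsum : ∑ i ∈ T₀, z i = 0)
    {a b : ι} (ha : a ∈ B) (hb : b ∈ B) (hab : a ≠ b) (W : Submodule ℝ E)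
    (hW : ∀ l ∈ T₀ \ B, z l ∈ W) (Δ : ℝ) (hΔ : 0 < Δ)
    (hΔ2 : Δ ^ 2 = ‖Wᗮ.starProjection (z a)‖ ^ 2 * ‖Wᗮ.starProjection (z b)‖ ^ 2
      - ⟪Wᗮ.starProjection (z a), Wᗮ.starProjection (z b)⟫ ^ 2) (y : ι → ℝ) :
    (stdGaussian E).real {g : E | ∀ i ∈ T₀, ⟪z i, g⟫ < y i}
      ≤ (max 0 (∑ i ∈ T₀, y i)) ^ 2 / (4 * Real.pi * Δ)
        * (stdGaussian E).real {g : E | ∀ l ∈ T₀ \ B, ⟪z l, g⟫ < y l} := by
  have hmeas : ∀ S : Finset ι, MeasurableSet {g : E | ∀ i ∈ S, ⟪z i, g⟫ < y i} := by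
    intro S
    have : {g : E | ∀ i ∈ S, ⟪z i, g⟫ < y i} = ⋂ i ∈ S, {g : E | ⟪z i, g⟫ < y i} := by
      ext g; simp
    rw [this]
    refine Finset.measurableSet_biInter _ fun i _ => ?_
    exact measurableSet_lt (continuous_const.inner continuous_id).measurable measurable_const
  set C := T₀ \ B with hC
  have hsumE : ∑ i ∈ C, z i + ∑ i ∈ B, z i = 0 := by
    rw [hC, Finset.sum_sdiff hB, hsum]
  have hsumy : ∑ i ∈ C, y i + ∑ i ∈ B, y i = ∑ i ∈ T₀, y i := by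
    rw [hC, Finset.sum_sdiff hB]
  set K : ℝ := (max 0 (∑ i ∈ T₀, y i)) ^ 2 / (4 * Real.pi * Δ) with hK
  have hKnn : 0 ≤ K := by
    have := Real.pi_pos
    positivity
  have hperp : ∀ l ∈ C, ∀ (y' : Wᗮ), ⟪z l, (y' : E)⟫ = 0 := by
    intro l hl y'
    exact Submodule.inner_right_of_mem_orthogonal (hW l hl) y'.2
  set h : ι → Wᗮ := fun i => Wᗮ.orthogonalProjectionOnto (z i) with hh
  have hhinner : ∀ i (y' : Wᗮ), ⟪h i, y'⟫ = ⟪z i, (y' : E)⟫ := fun i y' =>
    Submodule.inner_orthogonalProjectionOnto_eq_of_mem_right y' (z i)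
  have hCW : ∑ i ∈ C, z i ∈ W := W.sum_mem hW
  have hhsum : ∑ i ∈ B, h i = 0 := by
    have h1 : ⟪∑ i ∈ B, h i, ∑ i ∈ B, h i⟫ = 0 := by
      rw [sum_inner]
      simp_rw [hhinner]
      rw [← sum_inner]
      have : ∑ i ∈ B, z i = - ∑ i ∈ C, z i := eq_neg_of_add_eq_zero_right hsumE
      rw [this, inner_neg_left, neg_eq_zero]
      exact Submodule.inner_right_of_mem_orthogonal hCW (Submodule.coe_mem _)
    exact inner_self_eq_zero.1 h1
  have hΔ3 : Δ ^ 2 = ‖h a‖ ^ 2 * ‖h b‖ ^ 2 - ⟪h a, h b⟫ ^ 2 := by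
    rw [hΔ2, Submodule.coe_inner, Submodule.coe_norm, Submodule.coe_norm]
    simp only [hh, Submodule.coe_orthogonalProjectionOnto_apply]
  have hslice : ∀ (A : Set E), MeasurableSet A →
      Integrable (fun x : W => (stdGaussian Wᗮ).real {y' : Wᗮ | (x : E) + (y' : E) ∈ A})
        (stdGaussian W) := by
    intro A hA
    have hs : MeasurableSet {p : W × Wᗮ | (p.1 : E) + (p.2 : E) ∈ A} := by
      have h1 : Continuous (fun p : W × Wᗮ => (p.1 : E) + (p.2 : E)) := by fun_prop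
      exact h1.measurable hA
    have hm := (measurable_measure_prodMk_left (ν := stdGaussian Wᗮ) hs).ennreal_toReal
    refine Integrable.mono' (integrable_const (1 : ℝ)) hm.aestronglyMeasurable
      (Filter.Eventually.of_forall fun x => ?_)
    rw [Real.norm_of_nonneg measureReal_nonneg]
    exact measureReal_le_one
  have hpt : ∀ x : W, (stdGaussian Wᗮ).real
      {y' : Wᗮ | (x : E) + (y' : E) ∈ {g : E | ∀ i ∈ T₀, ⟪z i, g⟫ < y i}}
      ≤ K * (stdGaussian Wᗮ).real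
        {y' : Wᗮ | (x : E) + (y' : E) ∈ {g : E | ∀ l ∈ C, ⟪z l, g⟫ < y l}} := by
    intro x
    have hCval : ∀ l ∈ C, ∀ y' : Wᗮ, ⟪z l, (x : E) + (y' : E)⟫ = ⟪z l, (x : E)⟫ := by
      intro l hl y'
      rw [inner_add_right, hperp l hl y', add_zero]
    by_cases hCx : ∀ l ∈ C, ⟪z l, (x : E)⟫ < y l
    · have h1 : {y' : Wᗮ | (x : E) + (y' : E) ∈ {g : E | ∀ l ∈ C, ⟪z l, g⟫ < y l}} = Set.univ := by
        ext y'
        simp only [Set.mem_ofPred_eq, Set.mem_univ, iff_true]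
        intro l hl
        rw [hCval l hl]
        exact hCx l hl
      rw [h1, probReal_univ, mul_one]
      have hsub : {y' : Wᗮ | (x : E) + (y' : E) ∈ {g : E | ∀ i ∈ T₀, ⟪z i, g⟫ < y i}}
          ⊆ {y' : Wᗮ | ∀ i ∈ B, ⟪h i, y'⟫ < y i - ⟪z i, (x : E)⟫} := by
        intro y' hy' i hi
        have h2 := hy' i (hB hi)
        rw [inner_add_right] at h2
        rw [hhinner]
        linarith
      refine (measureReal_mono hsub (by simp)).trans ?_
      refine (simplex_bound B h hhsum ha hb hab Δ hΔ hΔ3 _).trans ?_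
      rw [hK]
      have hpi := Real.pi_pos
      have hden : 0 < 4 * Real.pi * Δ := by positivity
      refine div_le_div_of_nonneg_right ?_ hden.le
      refine pow_le_pow_left₀ (le_max_left _ _) ?_ 2
      refine max_le_max le_rfl ?_
      rw [Finset.sum_sub_distrib]
      have h3 : ∑ i ∈ B, ⟪z i, (x : E)⟫ = - ∑ i ∈ C, ⟪z i, (x : E)⟫ := by
        rw [← sum_inner, ← sum_inner, eq_neg_of_add_eq_zero_right hsumE, inner_neg_left]
      rw [h3]
      have h4 : ∑ i ∈ C, ⟪z i, (x : E)⟫ ≤ ∑ i ∈ C, y i :=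
        Finset.sum_le_sum fun l hl => (hCx l hl).le
      linarith
    · have h1 : {y' : Wᗮ | (x : E) + (y' : E) ∈ {g : E | ∀ i ∈ T₀, ⟪z i, g⟫ < y i}} = ∅ := by
        ext y'
        simp only [Set.mem_ofPred_eq, Set.mem_empty_iff_false, iff_false]
        intro hy'
        apply hCx
        intro l hl
        have h2 := hy' l (Finset.mem_sdiff.1 hl).1
        rwa [hCval l hl] at h2
      rw [h1]
      simp only [measureReal_empty]
      positivity
  rw [real_split W (hmeas T₀), real_split W (hmeas C), ← integral_const_mul]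
  refine integral_mono_of_nonneg ?_ ((hslice _ (hmeas C)).const_mul K)
    (Filter.Eventually.of_forall hpt)
  exact Filter.Eventually.of_forall fun _ => measureReal_nonneg

/-- Product form. -/
theorem block_bound_prod (z : ι → E) (T₀ B : Finset ι) (hB : B ⊆ T₀) (hsum : ∑ i ∈ T₀, z i = 0)
    {a b : ι} (ha : a ∈ B) (hb : b ∈ B) (hab : a ≠ b) (W : Submodule ℝ E)
    (hW : ∀ l ∈ T₀ \ B, z l ∈ W) (Δ : ℝ) (hΔ : 0 < Δ)
    (hΔ2 : Δ ^ 2 = ‖Wᗮ.starProjection (z a)‖ ^ 2 * ‖Wᗮ.starProjection (z b)‖ ^ 2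
      - ⟪Wᗮ.starProjection (z a), Wᗮ.starProjection (z b)⟫ ^ 2)
    (hobt : ∀ i ∈ T₀ \ B, ∀ j ∈ T₀ \ B, i ≠ j → ⟪z i, z j⟫ ≤ 0) (y : ι → ℝ) :
    (stdGaussian E).real {g : E | ∀ i ∈ T₀, ⟪z i, g⟫ < y i}
      ≤ (max 0 (∑ i ∈ T₀, y i)) ^ 2 / (4 * Real.pi * Δ)
        * ∏ l ∈ T₀ \ B, (stdGaussian E).real {g : E | ⟪z l, g⟫ ≤ y l} := by
  refine (block_bound z T₀ B hB hsum ha hb hab W hW Δ hΔ hΔ2 y).trans ?_
  have hpi := Real.pi_pos
  refine mul_le_mul_of_nonneg_left ?_ (by positivity)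
  refine (measureReal_mono ?_ (by simp)).trans (harris (T₀ \ B) z hobt y)
  intro g hg l hl
  exact (hg l hl).le

/-- **Pair with tail.** For any finset `B` with `a ≠ b` in it, `u = ∑_B z`, `W ∋ u`, `P` the projection
on `Wᗮ`: `γ{∀ i ∈ B, ⟪z i, g⟫ < y i} ≤ ((∑_B y)² + ‖u‖²) / (4πΔ)`, `Δ² = det Gram(P z a, P z b)`.
(The sum `∑_B ⟪z i, g⟫ = ⟪u, g⟫` is a Gaussian of variance `‖u‖²`.) -/
theorem pair_tail (z : ι → E) (B : Finset ι) {a b : ι} (ha : a ∈ B) (hb : b ∈ B) (hab : a ≠ b)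
    (W : Submodule ℝ E) (hW : ∑ i ∈ B, z i ∈ W) (Δ : ℝ) (hΔ : 0 < Δ)
    (hΔ2 : Δ ^ 2 = ‖Wᗮ.starProjection (z a)‖ ^ 2 * ‖Wᗮ.starProjection (z b)‖ ^ 2
      - ⟪Wᗮ.starProjection (z a), Wᗮ.starProjection (z b)⟫ ^ 2) (y : ι → ℝ) :
    (stdGaussian E).real {g : E | ∀ i ∈ B, ⟪z i, g⟫ < y i}
      ≤ ((∑ i ∈ B, y i) ^ 2 + ‖∑ i ∈ B, z i‖ ^ 2) / (4 * Real.pi * Δ) := by
  have hmeas : MeasurableSet {g : E | ∀ i ∈ B, ⟪z i, g⟫ < y i} := by
    have : {g : E | ∀ i ∈ B, ⟪z i, g⟫ < y i} = ⋂ i ∈ B, {g : E | ⟪z i, g⟫ < y i} := by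
      ext g; simp
    rw [this]
    refine Finset.measurableSet_biInter _ fun i _ => ?_
    exact measurableSet_lt (continuous_const.inner continuous_id).measurable measurable_const
  set u : E := ∑ i ∈ B, z i with hu
  set L : ℝ := ∑ i ∈ B, y i with hL
  set h : ι → Wᗮ := fun i => Wᗮ.orthogonalProjectionOnto (z i) with hh
  have hhinner : ∀ i (y' : Wᗮ), ⟪h i, y'⟫ = ⟪z i, (y' : E)⟫ := fun i y' =>
    Submodule.inner_orthogonalProjectionOnto_eq_of_mem_right y' (z i)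
  have hhsum : ∑ i ∈ B, h i = 0 := by
    have h1 : ⟪∑ i ∈ B, h i, ∑ i ∈ B, h i⟫ = 0 := by
      rw [sum_inner]
      simp_rw [hhinner]
      rw [← sum_inner]
      exact Submodule.inner_right_of_mem_orthogonal hW (Submodule.coe_mem _)
    exact inner_self_eq_zero.1 h1
  have hΔ3 : Δ ^ 2 = ‖h a‖ ^ 2 * ‖h b‖ ^ 2 - ⟪h a, h b⟫ ^ 2 := by
    rw [hΔ2, Submodule.coe_inner, Submodule.coe_norm, Submodule.coe_norm]
    simp only [hh, Submodule.coe_orthogonalProjectionOnto_apply]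
  have hpi := Real.pi_pos
  have hden : 0 < 4 * Real.pi * Δ := by positivity
  have hpt : ∀ x : W, (stdGaussian Wᗮ).real
      {y' : Wᗮ | (x : E) + (y' : E) ∈ {g : E | ∀ i ∈ B, ⟪z i, g⟫ < y i}}
      ≤ (L - ⟪u, (x : E)⟫) ^ 2 / (4 * Real.pi * Δ) := by
    intro x
    have hsub : {y' : Wᗮ | (x : E) + (y' : E) ∈ {g : E | ∀ i ∈ B, ⟪z i, g⟫ < y i}}
        ⊆ {y' : Wᗮ | ∀ i ∈ B, ⟪h i, y'⟫ < y i - ⟪z i, (x : E)⟫} := by
      intro y' hy' i hi
      have h2 := hy' i hi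
      rw [inner_add_right] at h2
      rw [hhinner]
      linarith
    refine (measureReal_mono hsub (by simp)).trans ?_
    refine (simplex_bound B h hhsum ha hb hab Δ hΔ hΔ3 _).trans ?_
    refine div_le_div_of_nonneg_right ?_ hden.le
    have h3 : ∑ i ∈ B, (y i - ⟪z i, (x : E)⟫) = L - ⟪u, (x : E)⟫ := by
      rw [Finset.sum_sub_distrib, hu, sum_inner]
    rw [h3]
    rcases le_total 0 (L - ⟪u, (x : E)⟫) with h4 | h4
    · rw [max_eq_right h4]
    · rw [max_eq_left h4, zero_pow two_ne_zero]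
      exact sq_nonneg _
  -- the second moment on `W`
  set u' : W := ⟨u, hW⟩ with hu'
  have hinner' : ∀ x : W, ⟪u, (x : E)⟫ = ⟪u', x⟫ := fun x => rfl
  have hsq : Integrable (fun x : W => ⟪u', x⟫ ^ 2) (stdGaussian W) := by
    have h1 := (IsGaussian.memLp_dual (stdGaussian W) (innerSL ℝ u') 2 (by simp)).integrable_sq
    simpa using h1
  have hlin : Integrable (fun x : W => ⟪u', x⟫) (stdGaussian W) := integrable_inner_std u'
  have hsecond : ∫ x : W, ⟪u', x⟫ ^ 2 ∂(stdGaussian W) = ‖u‖ ^ 2 := by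
    have hv := variance_dual_stdGaussian (E := W) (innerSL ℝ u')
    rw [variance_eq_sub (IsGaussian.memLp_dual (stdGaussian W) (innerSL ℝ u') 2 (by simp))] at hv
    have hm : ∫ x : W, (innerSL ℝ u') x ∂(stdGaussian W) = 0 := integral_strongDual_stdGaussian _
    simp only [Pi.pow_apply] at hv
    rw [hm] at hv
    simp only [ne_eq, OfNat.ofNat_ne_zero, not_false_eq_true, zero_pow, sub_zero, innerSL_apply_norm] at hv
    simpa [hu', innerSL_apply_apply] using hv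
  have hfirst : ∫ x : W, ⟪u', x⟫ ∂(stdGaussian W) = 0 := integral_inner_std u'
  have hRint : Integrable (fun x : W => (L - ⟪u', x⟫) ^ 2 / (4 * Real.pi * Δ)) (stdGaussian W) := by
    have h1 : (fun x : W => (L - ⟪u', x⟫) ^ 2 / (4 * Real.pi * Δ))
        = fun x : W => (L ^ 2 - 2 * L * ⟪u', x⟫ + ⟪u', x⟫ ^ 2) / (4 * Real.pi * Δ) := by
      ext x
      ring
    rw [h1]
    exact (((integrable_const _).sub (hlin.const_mul _)).add hsq).div_const _
  rw [real_split W hmeas]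
  calc _ ≤ ∫ x : W, (L - ⟪u', x⟫) ^ 2 / (4 * Real.pi * Δ) ∂(stdGaussian W) :=
        integral_mono_of_nonneg (Filter.Eventually.of_forall fun _ => measureReal_nonneg) hRint
          (Filter.Eventually.of_forall hpt)
    _ = _ := by
        have h1 : (fun x : W => (L - ⟪u', x⟫) ^ 2 / (4 * Real.pi * Δ))
            = fun x : W => (L ^ 2 - 2 * L * ⟪u', x⟫ + ⟪u', x⟫ ^ 2) / (4 * Real.pi * Δ) := by
          ext x
          ring
        have hi1 : Integrable (fun a : W => L ^ 2 - 2 * L * ⟪u', a⟫) (stdGaussian W) :=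
          (integrable_const _).sub (hlin.const_mul _)
        have hi2 : Integrable (fun a : W => 2 * L * ⟪u', a⟫) (stdGaussian W) := hlin.const_mul _
        rw [h1, integral_div, integral_add hi1 hsq,
          integral_sub (integrable_const _) hi2, integral_const_mul, hfirst, hsecond]
        simp

end Crest.Agent.Propeller
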