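import Crest.Agent.Lib.Propeller.GainGrid
import Crest.Agent.Lib.Propeller.BlockTail

/-!
# Propeller: the block bound with Harris on the rest, and the master inequality

For the deletion of `j` (`s = ‖z j‖`), a partition `erase j = G ∪ C₁ ∪ C₂`, `a ≠ b ∈ G`:

* `pick_D3`: the vertex pick with the Kron loss in the form
  `min (e₃ (e₂ - e₃/4 - xx)) ((e₃ - xx) (e₂ - (e₃ - xx)/4)) ≤ det`;
* `block_H`: `P(u,n) ≤ (s² (τ u + n)² + V) / (4 π Δ) * Hb c p u n`;
* `master_H`: the master inequality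
  `2 π r Δ s ≤ s² (I + r (τ+1)² T₃) + V (I' + r T₁)`, with `I`, `I'` explicit finite sums on a grid.
-/

set_option autoImplicit false
set_option linter.unusedSectionVars false
open MeasureTheory ProbabilityTheory Set Filter
open scoped RealInnerProductSpace ENNReal Topology

namespace Crest.Agent.Propeller

universe u

/-! ### The real inequality of the pick -/

/-- A concave quadratic on an interval is at least the smaller of its end values. -/
lemma quad_min {p q K c : ℝ} (hp : p ≤ K) (hq : K ≤ q) :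
    min (p * (c - p / 4)) (q * (c - q / 4)) ≤ K * (c - K / 4) := by
  rcases le_total (p * (c - p / 4)) (q * (c - q / 4)) with h | h
  · rw [min_eq_left h]
    rcases eq_or_lt_of_le (hp.trans hq) with heq | hlt
    · have : K = p := le_antisymm (by rw [heq]; exact hq) hp
      rw [this]
    · have h1 : 0 ≤ (q - p) * (c - (q + p) / 4) := by nlinarith
      have h2 : 0 ≤ c - (q + p) / 4 := by
        by_contra hcon
        push Not at hcon
        have := mul_neg_of_pos_of_neg (sub_pos.2 hlt) hcon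
        linarith
      have h3 : 0 ≤ (K - p) * (c - (K + p) / 4) := by
        apply mul_nonneg (by linarith)
        linarith
      nlinarith
  · rw [min_eq_right h]
    rcases eq_or_lt_of_le (hp.trans hq) with heq | hlt
    · have : K = q := le_antisymm hq (by rw [← heq]; exact hp)
      rw [this]
    · have h1 : 0 ≤ (q - p) * ((q + p) / 4 - c) := by nlinarith
      have h2 : 0 ≤ (q + p) / 4 - c := by
        by_contra hcon
        push Not at hcon
        have := mul_neg_of_pos_of_neg (sub_pos.2 hlt) hcon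
        linarith
      have h3 : 0 ≤ (q - K) * ((q + K) / 4 - c) := by
        apply mul_nonneg (by linarith)
        linarith
      nlinarith

/-- The value of the pick, `D3 e₂ e₃ xx`. -/
noncomputable def D3 (e2 e3 xx : ℝ) : ℝ :=
  min (e3 * (e2 - e3 / 4 - xx)) ((e3 - xx) * (e2 - (e3 - xx) / 4))

lemma D3_mono {e2 e2' e3 xx : ℝ} (h : e2 ≤ e2') (h3 : 0 ≤ e3) (hxx : xx ≤ e3) :
    D3 e2 e3 xx ≤ D3 e2' e3 xx := by
  unfold D3
  apply min_le_min
  · exact mul_le_mul_of_nonneg_left (by linarith) h3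
  · exact mul_le_mul_of_nonneg_left (by linarith) (by linarith)

/-- The real inequality behind the pick. -/
lemma pick_real3 {Ea Eb Ka Kb fa fb xx w : ℝ} (hEa : 0 ≤ Ea) (hKa0 : 0 ≤ Ka) (hKaE : Ka ≤ Ea)
    (h1 : Ea - fa ≤ Ka) (h2 : Eb - fb ≤ Kb) (hfa : 0 ≤ fa) (hfb : 0 ≤ fb) (hf : fa + fb ≤ xx)
    (hw0 : 0 ≤ w) (hw : w ≤ Ka / 2) :
    D3 Eb Ea xx ≤ Ka * Kb - w ^ 2 := by
  have hw2 : w ^ 2 ≤ (Ka / 2) ^ 2 := pow_le_pow_left₀ hw0 hw 2
  have hKb : Eb - xx + fa ≤ Kb := by linarith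
  have h3 : Ka * (Eb - xx + fa - Ka / 4) ≤ Ka * Kb - w ^ 2 := by
    have := mul_le_mul_of_nonneg_left hKb hKa0
    nlinarith
  refine le_trans ?_ h3
  -- `Ka` between `Ea - fa` and `Ea`
  have h4 := quad_min (c := Eb - xx + fa) h1 hKaE
  refine le_trans ?_ h4
  have hfa' : fa ≤ xx := by linarith
  unfold D3
  -- the value at `Ea`
  have h5 : Ea * (Eb - Ea / 4 - xx) ≤ Ea * (Eb - xx + fa - Ea / 4) :=
    mul_le_mul_of_nonneg_left (by linarith) hEa
  -- the value at `Ea - fa`, concave in `fa`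
  have h6 := quad_min (p := 0) (q := xx) (K := fa) (c := 0) hfa hfa'
  have h7 : min (Ea * (Eb - Ea / 4 - xx)) ((Ea - xx) * (Eb - (Ea - xx) / 4))
      ≤ (Ea - fa) * (Eb - xx + fa - (Ea - fa) / 4) := by
    rcases eq_or_lt_of_le (hfa'.trans' hfa) with h0 | hpos
    · have hf0 : fa = 0 := le_antisymm (by rw [← h0] at hfa'; exact hfa') hfa
      rw [hf0, ← h0]
      refine (min_le_left _ _).trans (le_of_eq ?_)
      ring
    · have e : (Ea - fa) * (Eb - xx + fa - (Ea - fa) / 4)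
          = (1 - fa / xx) * (Ea * (Eb - Ea / 4 - xx))
            + (fa / xx) * ((Ea - xx) * (Eb - (Ea - xx) / 4))
            + (5 / 4) * fa * (xx - fa) := by
        field_simp
        ring
      rw [e]
      have h8 : fa / xx ≤ 1 := (div_le_one hpos).2 hfa'
      have h9 : 0 ≤ fa / xx := div_nonneg hfa hpos.le
      set m := min (Ea * (Eb - Ea / 4 - xx)) ((Ea - xx) * (Eb - (Ea - xx) / 4)) with hm
      have h10 : m ≤ Ea * (Eb - Ea / 4 - xx) := min_le_left _ _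
      have h11 : m ≤ (Ea - xx) * (Eb - (Ea - xx) / 4) := min_le_right _ _
      have h12 := mul_le_mul_of_nonneg_left h10 (sub_nonneg.2 h8)
      have h13 := mul_le_mul_of_nonneg_left h11 h9
      have h14 : 0 ≤ (5 / 4) * fa * (xx - fa) := by
        apply mul_nonneg (by positivity)
        linarith
      nlinarith
  exact le_min h7 (min_le_left _ _ |>.trans h5)

variable {E : Type u} [NormedAddCommGroup E] [InnerProductSpace ℝ E] [FiniteDimensional ℝ E]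
  [MeasurableSpace E] [BorelSpace E]

section pick

variable {k : ℕ} (z : Fin k → E) (X : Finset (Fin k))

/-- **The pick with the Kron loss, form `D3`**, for an arbitrary deleted set `X`. -/
theorem pick_D3 (hsum : ∑ i, z i = 0) (hobt : ∀ i j, i ≠ j → ⟪z i, z j⟫ ≤ 0)
    {V : Submodule ℝ E} (hV : V = Submodule.span ℝ (z '' (X : Set (Fin k)))) {a b₁ b₂ : Fin k}
    (ha : a ∉ X) (hb₁ : b₁ ∉ X) (hb₂ : b₂ ∉ X) (hab₁ : a ≠ b₁) (hab₂ : a ≠ b₂) (hb : b₁ ≠ b₂)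
    {e2 xx : ℝ} (he₁ : e2 ≤ ‖z b₁‖ ^ 2) (he₂ : e2 ≤ ‖z b₂‖ ^ 2)
    (hxx : ‖∑ l ∈ X, z l‖ ^ 2 ≤ xx) (hxxa : xx ≤ ‖z a‖ ^ 2) :
    ∃ c, (c = b₁ ∨ c = b₂) ∧ D3 e2 (‖z a‖ ^ 2) xx
      ≤ ‖Vᗮ.starProjection (z a)‖ ^ 2 * ‖Vᗮ.starProjection (z c)‖ ^ 2
        - ⟪Vᗮ.starProjection (z a), Vᗮ.starProjection (z c)⟫ ^ 2 := by
  set v : Fin k → E := fun i => Vᗮ.starProjection (z i) with hv
  have hsumv : ∑ i ∈ Xᶜ, v i = 0 := sum_proj_eq_zero z X hsum hV
  have hneg : ∀ i ∈ Xᶜ, ∀ j ∈ Xᶜ, i ≠ j → ⟪v i, v j⟫ ≤ 0 := by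
    intro i hi j hj hij
    exact (inner_proj_le z X hsum hobt hV (Finset.mem_compl.1 hi) (Finset.mem_compl.1 hj)).trans
      (hobt i j hij)
  have hQ : ({b₁, b₂} : Finset (Fin k)) ⊆ Xᶜ.erase a := by
    intro c hc
    simp only [Finset.mem_insert, Finset.mem_singleton] at hc
    rcases hc with rfl | rfl
    · exact Finset.mem_erase.2 ⟨hab₁.symm, Finset.mem_compl.2 hb₁⟩
    · exact Finset.mem_erase.2 ⟨hab₂.symm, Finset.mem_compl.2 hb₂⟩
  obtain ⟨c, hc, hsmall⟩ := exists_small_weight Xᶜ v hsumv hneg (Finset.mem_compl.2 ha)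
    {b₁, b₂} hQ (Finset.insert_nonempty _ _)
  rw [Finset.card_pair hb] at hsmall
  have hc' : c = b₁ ∨ c = b₂ := by simpa using hc
  refine ⟨c, hc', ?_⟩
  have hcE := hQ hc
  have hca : c ≠ a := Finset.ne_of_mem_erase hcE
  have hcX : c ∉ X := Finset.mem_compl.1 (Finset.mem_of_mem_erase hcE)
  have hec : e2 ≤ ‖z c‖ ^ 2 := by rcases hc' with rfl | rfl <;> assumption
  -- flows
  set f : Fin k → ℝ := fun c => - ∑ l ∈ X, ⟪z l, z c⟫ with hf
  have hf0 : ∀ c ∈ Xᶜ, 0 ≤ f c := by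
    intro c hc
    have : ∑ l ∈ X, ⟪z l, z c⟫ ≤ 0 := Finset.sum_nonpos fun l hl => hobt l c (by
      rintro rfl
      exact (Finset.mem_compl.1 hc) hl)
    simp only [hf]
    linarith
  have hfsum : ∑ c ∈ Xᶜ, f c = ‖∑ l ∈ X, z l‖ ^ 2 := by
    simp only [hf, Finset.sum_neg_distrib]
    rw [sum_flow_eq z hsum X]
    ring
  have hfab : f a + f c ≤ xx := by
    refine le_trans ?_ hxx
    rw [← hfsum]
    have hsub : ({a, c} : Finset (Fin k)) ⊆ Xᶜ := by
      intro d hd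
      simp only [Finset.mem_insert, Finset.mem_singleton] at hd
      rcases hd with rfl | rfl
      · exact Finset.mem_compl.2 ha
      · exact Finset.mem_compl.2 hcX
    have := Finset.sum_le_sum_of_subset_of_nonneg (f := f) hsub fun c hc _ => hf0 c hc
    rwa [Finset.sum_pair hca.symm] at this
  have h1 := norm_proj_sq_ge z X hsum hobt hV ha
  have h2 := norm_proj_sq_ge z X hsum hobt hV hcX
  have hKa : ‖v a‖ ≤ ‖z a‖ := Submodule.norm_starProjection_apply_le _ _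
  have hKa2 : ‖v a‖ ^ 2 ≤ ‖z a‖ ^ 2 := pow_le_pow_left₀ (norm_nonneg _) hKa 2
  have hw0 : 0 ≤ -⟪v a, v c⟫ := by
    have := hneg a (Finset.mem_compl.2 ha) c (Finset.mem_compl.2 hcX) hca.symm
    linarith
  have hsmall2 : -⟪v a, v c⟫ ≤ ‖v a‖ ^ 2 / 2 := by
    have h3 := hsmall
    norm_num at h3 ⊢
    exact h3
  have key := pick_real3 (Ea := ‖z a‖ ^ 2) (Eb := ‖z c‖ ^ 2) (Ka := ‖v a‖ ^ 2) (Kb := ‖v c‖ ^ 2)
    (fa := f a) (fb := f c) (xx := xx) (w := -⟪v a, v c⟫)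
    (by positivity) (by positivity) hKa2
    (by simp only [hf]; simp only [hv]; linarith) (by simp only [hf]; simp only [hv]; linarith)
    (hf0 a (Finset.mem_compl.2 ha)) (hf0 c (Finset.mem_compl.2 hcX)) hfab hw0 hsmall2
  rw [neg_sq] at key
  exact (D3_mono hec (by positivity) hxxa).trans key

end pick

/-! ### The norm of a sum in an obtuse family -/

lemma norm_sum_sq_le_of_obtuse {ι : Type*} [DecidableEq ι] (C : Finset ι) (v : ι → E)
    (h : ∀ i ∈ C, ∀ j ∈ C, i ≠ j → ⟪v i, v j⟫ ≤ 0) :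
    ‖∑ l ∈ C, v l‖ ^ 2 ≤ ∑ l ∈ C, ‖v l‖ ^ 2 := by
  induction C using Finset.induction_on with
  | empty => simp
  | insert c C hc ih =>
    rw [Finset.sum_insert hc, Finset.sum_insert hc, norm_add_sq_real]
    have h1 := ih fun i hi j hj hij =>
      h i (Finset.mem_insert_of_mem hi) j (Finset.mem_insert_of_mem hj) hij
    have h2 : ⟪v c, ∑ l ∈ C, v l⟫ ≤ 0 := by
      rw [inner_sum]
      refine Finset.sum_nonpos fun l hl => ?_
      exact h c (Finset.mem_insert_self _ _) l (Finset.mem_insert_of_mem hl)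
        (fun h' => hc (h' ▸ hl))
    linarith

variable {k : ℕ} {z : Fin k → E} {A : Fin k → Set E}

/-- The projection on `Wᗮ` does not see the component along `e ∈ W`. -/
lemma star_prp_eq {W : Submodule ℝ E} {e : E} (he : e ∈ W) (w : E) :
    Wᗮ.starProjection (prp e w) = Wᗮ.starProjection w := by
  unfold prp
  rw [map_sub, map_smul]
  have : Wᗮ.starProjection e = 0 := by
    rw [Submodule.starProjection_apply_eq_zero_iff]
    exact Submodule.le_orthogonal_orthogonal W he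
  rw [this, smul_zero, sub_zero]

/-- **The block bound.** The set `C₃` contributes only to the variance. -/
theorem block_H (hc : Critical z A) (hR : R < S z) (hP : PF E (k - 1)) (hk : 2 ≤ k) (j : Fin k)
    (G C₁ C₂ C₃ : Finset (Fin k)) (hG : Disjoint G (C₁ ∪ C₂ ∪ C₃)) (hC : Disjoint C₁ C₂)
    (hC3 : Disjoint (C₁ ∪ C₂) C₃)
    (hcov : G ∪ (C₁ ∪ C₂ ∪ C₃) = Finset.univ.erase j) {a b : Fin k} (ha : a ∈ G) (hb : b ∈ G)
    (hab : a ≠ b) {Δ : ℝ} (hΔ : 0 < Δ) {W : Submodule ℝ E}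
    (hW : W = Submodule.span ℝ (z '' ((insert j (C₁ ∪ C₂ ∪ C₃) : Finset (Fin k)) : Set (Fin k))))
    (hΔ2 : Δ ^ 2 ≤ ‖Wᗮ.starProjection (z a)‖ ^ 2 * ‖Wᗮ.starProjection (z b)‖ ^ 2
      - ⟪Wᗮ.starProjection (z a), Wᗮ.starProjection (z b)⟫ ^ 2)
    (hσ₁ : ∀ l ∈ C₁, ‖z j‖ ≤ ‖z l‖) (hσ₂ : ∀ l ∈ C₂, 2 * ‖z j‖ ≤ ‖z l‖)
    {V : ℝ} (hV : ∑ l ∈ C₁ ∪ C₂ ∪ C₃, ‖z l‖ ^ 2 ≤ V) {u n : ℝ} (hu : 0 ≤ u) (hn : 0 ≤ n) :
    Pre z j u n ≤ (‖z j‖ ^ 2 * ((G.card : ℝ) * u + n) ^ 2 + V) / (4 * Real.pi * Δ)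
      * Hb C₁.card C₂.card u n := by
  have hs := hc.norm_pos hR hP hk j
  have hpi := Real.pi_pos
  have hD : 0 < 4 * Real.pi * Δ := by positivity
  set s := ‖z j‖ with hsdef
  set C := C₁ ∪ C₂ ∪ C₃ with hCdef
  set e := uvec z j with he
  set v : Fin k → E := fun i => prp e (z i) with hv
  have hjC : ∀ l ∈ Finset.univ.erase j, l ≠ j := fun l hl => Finset.ne_of_mem_erase hl
  have hGj : ∀ l ∈ G, l ≠ j := fun l hl => hjC l (hcov ▸ Finset.mem_union_left _ hl)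
  have hCj : ∀ l ∈ C, l ≠ j := fun l hl => hjC l (hcov ▸ Finset.mem_union_right _ hl)
  have hobt : ∀ i ∈ C, ∀ l ∈ G ∪ C, i ≠ l → ⟪v i, v l⟫ ≤ 0 := by
    intro i hi l hl hil
    rw [hcov] at hl
    exact hc.inner_prp_nonpos hR hP j hs (hCj i hi) (hjC l hl) hil
  -- `e` lies in `W`
  have heW : e ∈ W := by
    rw [hW, he]
    refine Submodule.smul_mem _ _ (Submodule.subset_span ⟨j, ?_, rfl⟩)
    simp
  -- the projections
  have hPv : ∀ i, Wᗮ.starProjection (v i) = Wᗮ.starProjection (z i) := fun i => star_prp_eq heW _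
  -- the sum over `G` is in `W`
  have hsumT : ∑ i ∈ G ∪ C, v i = 0 := by
    rw [hcov]
    exact sum_prp_erase z j hc.sum_zero hs
  have hsumG : ∑ i ∈ G, v i = - ∑ i ∈ C, v i := by
    rw [Finset.sum_union hG] at hsumT
    exact eq_neg_of_add_eq_zero_left hsumT
  have hinW : ∑ i ∈ G, v i ∈ W := by
    rw [hsumG]
    refine W.neg_mem (W.sum_mem fun l hl => ?_)
    simp only [hv, prp]
    refine W.sub_mem ?_ (W.smul_mem _ heW)
    rw [hW]
    refine Submodule.subset_span ⟨l, ?_, rfl⟩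
    simp [hl]
  have hΔ2' : Δ ^ 2 ≤ ‖Wᗮ.starProjection (v a)‖ ^ 2 * ‖Wᗮ.starProjection (v b)‖ ^ 2
      - ⟪Wᗮ.starProjection (v a), Wᗮ.starProjection (v b)⟫ ^ 2 := by
    rw [hPv, hPv]
    exact hΔ2
  have h1 := block_tail v G C hG hobt ha hb hab W hinW Δ hΔ hΔ2' (yth z j u n)
  have hset : below (Finset.univ.erase j) (fun i => prp (uvec z j) (z i)) (yth z j u n)
      = {g : E | ∀ i ∈ G ∪ C, ⟪v i, g⟫ < yth z j u n i} := by
    rw [hcov]
    rfl
  have hPre : Pre z j u n = (stdGaussian E).real {g : E | ∀ i ∈ G ∪ C, ⟪v i, g⟫ < yth z j u n i} := by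
    unfold Pre
    rw [hset]
  rw [hPre]
  refine h1.trans ?_
  -- the product
  have hqT : ∀ l ∈ G ∪ C, 0 ≤ qc z j l := fun l hl => by
    rw [hcov] at hl
    exact hc.qc_nonneg hR hP j (hjC l hl)
  have hqsum : ∑ l ∈ G ∪ C, qc z j l = 1 := by
    rw [hcov]
    exact qc_sum hc.sum_zero j hs
  have hqC : ∑ l ∈ C₁ ∪ C₂, qc z j l ≤ 1 := by
    rw [← hqsum]
    refine Finset.sum_le_sum_of_subset_of_nonneg ?_ fun i hi _ => hqT i hi
    intro l hl
    exact Finset.mem_union_right _ (Finset.mem_union_left _ hl)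
  have hqG : ∑ l ∈ G, qc z j l ≤ 1 := by
    rw [← hqsum]
    exact Finset.sum_le_sum_of_subset_of_nonneg Finset.subset_union_left fun i hi _ => hqT i hi
  have hprod : ∏ l ∈ C, (stdGaussian E).real {g : E | ⟪v l, g⟫ < yth z j u n l}
      ≤ Hb C₁.card C₂.card u n := by
    rw [hCdef, Finset.prod_union hC3]
    have h2 : ∏ l ∈ C₃, (stdGaussian E).real {g : E | ⟪v l, g⟫ < yth z j u n l} ≤ 1 :=
      Finset.prod_le_one (fun _ _ => measureReal_nonneg) fun _ _ => measureReal_le_one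
    have h3 : ∏ l ∈ C₁ ∪ C₂, (stdGaussian E).real {g : E | ⟪v l, g⟫ < yth z j u n l}
        ≤ Hb C₁.card C₂.card u n :=
      prod_hsp_le_Hb hs C₁ C₂ hC (fun l hl => hqT l (Finset.mem_union_right _
        (Finset.mem_union_left _ hl))) hqC hσ₁ hσ₂ hu hn
    calc _ ≤ (∏ l ∈ C₁ ∪ C₂, (stdGaussian E).real {g : E | ⟪v l, g⟫ < yth z j u n l}) * 1 :=
          mul_le_mul_of_nonneg_left h2 (Finset.prod_nonneg fun _ _ => measureReal_nonneg)
      _ ≤ _ := by rw [mul_one]; exact h3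
  -- the sum of the thresholds
  have hy : ∑ i ∈ G, yth z j u n i = s * ((G.card : ℝ) * u + (∑ i ∈ G, qc z j i) * n) := by
    unfold yth
    rw [← Finset.mul_sum, Finset.sum_add_distrib, Finset.sum_const, nsmul_eq_mul, Finset.sum_mul]
  have hq0G : 0 ≤ ∑ i ∈ G, qc z j i :=
    Finset.sum_nonneg fun l hl => hqT l (Finset.mem_union_left _ hl)
  have hy2 : (∑ i ∈ G, yth z j u n i) ^ 2 ≤ s ^ 2 * ((G.card : ℝ) * u + n) ^ 2 := by
    rw [hy, mul_pow]
    apply mul_le_mul_of_nonneg_left _ (by positivity)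
    apply pow_le_pow_left₀ (by positivity)
    have : (∑ i ∈ G, qc z j i) * n ≤ 1 * n := mul_le_mul_of_nonneg_right hqG hn
    linarith
  -- the variance
  have hVG : ‖∑ i ∈ G, v i‖ ^ 2 ≤ V := by
    rw [hsumG, norm_neg]
    refine le_trans (norm_sum_sq_le_of_obtuse C v fun i hi l hl hil =>
      hobt i hi l (Finset.mem_union_right _ hl) hil) (le_trans ?_ hV)
    refine Finset.sum_le_sum fun l _ => ?_
    exact Kp_le j l hs
  have hV0 : 0 ≤ V := le_trans (by positivity) hVG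
  calc ((∑ i ∈ G, yth z j u n i) ^ 2 + ‖∑ i ∈ G, v i‖ ^ 2) / (4 * Real.pi * Δ)
        * ∏ l ∈ C, (stdGaussian E).real {g : E | ⟪v l, g⟫ < yth z j u n l}
      ≤ (s ^ 2 * ((G.card : ℝ) * u + n) ^ 2 + V) / (4 * Real.pi * Δ) * Hb C₁.card C₂.card u n := by
        apply mul_le_mul _ hprod (Finset.prod_nonneg fun _ _ => measureReal_nonneg) (by positivity)
        exact div_le_div_of_nonneg_right (add_le_add hy2 hVG) hD.le

/-! ### The master inequality -/

/-- The variance sum. -/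
noncomputable def HIv (ε : ℝ) (c p : ℕ) (x : ℕ → ℝ) (J : ℕ) : ℝ :=
  ∑ a ∈ Finset.range J, (Phi (x (a + 1)) - Phi (x a)) *
    (x (a + 1) * ε * Hb c p 0 (x (a + 1))
      + ∑ b ∈ Finset.range (a + 1), (x (b + 1) - x b) * Hb c p (x (b + 1)) (x (a + 1)))

/-- The sum with the quadratic weight. -/
noncomputable def HIu (ε τ : ℝ) (c p : ℕ) (x : ℕ → ℝ) (J : ℕ) : ℝ :=
  ∑ a ∈ Finset.range J, (Phi (x (a + 1)) - Phi (x a)) *
    (x (a + 1) * ε * x (a + 1) ^ 2 * Hb c p 0 (x (a + 1))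
      + ∑ b ∈ Finset.range (a + 1),
          (x (b + 1) - x b) * (τ * x (b + 1) + x (a + 1)) ^ 2 * Hb c p (x (b + 1)) (x (a + 1)))

/-- The first tail. -/
noncomputable def HT1 (L : ℝ) : ℝ := phi0 * Real.exp (-L ^ 2 / 2)

/-- The third tail. -/
noncomputable def HT3 (L : ℝ) : ℝ := phi0 * ((L ^ 2 + 2) * Real.exp (-L ^ 2 / 2))

/-- **The master inequality.** -/
theorem master_H (hc : Critical z A) (hR : R < S z) (hP : PF E (k - 1)) (hk : 2 ≤ k) (j : Fin k)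
    (G C₁ C₂ C₃ : Finset (Fin k)) (hG : Disjoint G (C₁ ∪ C₂ ∪ C₃)) (hC : Disjoint C₁ C₂)
    (hC3 : Disjoint (C₁ ∪ C₂) C₃)
    (hcov : G ∪ (C₁ ∪ C₂ ∪ C₃) = Finset.univ.erase j) {a b : Fin k} (ha : a ∈ G) (hb : b ∈ G)
    (hab : a ≠ b) {Δ : ℝ} (hΔ : 0 < Δ) {W : Submodule ℝ E}
    (hW : W = Submodule.span ℝ (z '' ((insert j (C₁ ∪ C₂ ∪ C₃) : Finset (Fin k)) : Set (Fin k))))
    (hΔ2 : Δ ^ 2 ≤ ‖Wᗮ.starProjection (z a)‖ ^ 2 * ‖Wᗮ.starProjection (z b)‖ ^ 2
      - ⟪Wᗮ.starProjection (z a), Wᗮ.starProjection (z b)⟫ ^ 2)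
    (hσ₁ : ∀ l ∈ C₁, ‖z j‖ ≤ ‖z l‖) (hσ₂ : ∀ l ∈ C₂, 2 * ‖z j‖ ≤ ‖z l‖)
    {V : ℝ} (hV : ∑ l ∈ C₁ ∪ C₂ ∪ C₃, ‖z l‖ ^ 2 ≤ V)
    {x : ℕ → ℝ} (hx0 : x 0 = 0) (hx : Monotone x) (J : ℕ) :
    2 * Real.pi * ((k : ℝ) / ((k : ℝ) - 1)) * Δ * ‖z j‖
      ≤ ‖z j‖ ^ 2 * (HIu (1 / ((k : ℝ) - 1)) (G.card : ℝ) C₁.card C₂.card x J
            + (k : ℝ) / ((k : ℝ) - 1) * (((G.card : ℝ) + 1) ^ 2 * HT3 (x J)))
        + V * (HIv (1 / ((k : ℝ) - 1)) C₁.card C₂.card x J + (k : ℝ) / ((k : ℝ) - 1) * HT1 (x J)) := by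
  have hs := hc.norm_pos hR hP hk j
  have hpi := Real.pi_pos
  set s := ‖z j‖ with hsdef
  set τ : ℝ := (G.card : ℝ) with hτ
  have hτ0 : 0 ≤ τ := Nat.cast_nonneg _
  have hk2 : (2 : ℝ) ≤ k := by exact_mod_cast hk
  have hk1 : (0 : ℝ) < (k : ℝ) - 1 := by linarith
  have hk0 : (0 : ℝ) < k := by linarith
  set D := 4 * Real.pi * Δ with hD
  have hD0 : 0 < D := by positivity
  have hV0 : 0 ≤ V := le_trans (Finset.sum_nonneg fun _ _ => by positivity) hV
  set cc := C₁.card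
  set pp := C₂.card
  have hx00 : ∀ a, 0 ≤ x a := fun a => by rw [← hx0]; exact hx (Nat.zero_le a)
  have hbound : ∀ u n : ℝ, 0 ≤ u → 0 ≤ n →
      Pre z j u n ≤ (s ^ 2 * (τ * u + n) ^ 2 + V) / D * Hb cc pp u n := fun u n hu hn =>
    block_H hc hR hP hk j G C₁ C₂ C₃ hG hC hC3 hcov ha hb hab hΔ hW hΔ2 hσ₁ hσ₂ hV hu hn
  have hq : ∀ i ∈ Finset.univ.erase j, 0 ≤ qc z j i := fun i hi =>
    hc.qc_nonneg hR hP j (Finset.ne_of_mem_erase hi)
  have hT : (Finset.univ.erase j).Nonempty := ⟨a, by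
    rw [← hcov]; exact Finset.mem_union_left _ ha⟩
  have htail : ∀ n, x J ≤ n → Pre z j n n ≤ (s ^ 2 * (τ + 1) ^ 2 / D) * n ^ 2 + V / D := by
    intro n hn
    have hn0 : 0 ≤ n := (hx00 J).trans hn
    refine (hbound n n hn0 hn0).trans ?_
    have h1 : Hb cc pp n n ≤ 1 := Hb_le_one _ _ _ _
    have h2 : 0 ≤ (s ^ 2 * (τ * n + n) ^ 2 + V) / D := by positivity
    refine (mul_le_mul_of_nonneg_left h1 h2).trans (le_of_eq ?_)
    field_simp
  have hgain := gain_grid hT hc.sum_zero hs hk hq hx0 hx J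
    (c2 := s ^ 2 * (τ + 1) ^ 2 / D) (c0 := V / D) (by positivity) (by positivity) htail
  rw [← hsdef] at hgain
  set L := F z - F (restr z (Finset.univ.erase j)) with hL
  set ε : ℝ := 1 / ((k : ℝ) - 1) with hε
  have hε0 : 0 ≤ ε := by positivity
  -- the sum
  have hcell : ∀ a, x (a + 1) / ((k : ℝ) - 1) * Pre z j 0 (x (a + 1))
      + ∑ b ∈ Finset.range (a + 1), (x (b + 1) - x b) * Pre z j (x (b + 1)) (x (a + 1))
      ≤ (s ^ 2 * (x (a + 1) * ε * x (a + 1) ^ 2 * Hb cc pp 0 (x (a + 1))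
          + ∑ b ∈ Finset.range (a + 1),
            (x (b + 1) - x b) * (τ * x (b + 1) + x (a + 1)) ^ 2 * Hb cc pp (x (b + 1)) (x (a + 1)))
        + V * (x (a + 1) * ε * Hb cc pp 0 (x (a + 1))
          + ∑ b ∈ Finset.range (a + 1), (x (b + 1) - x b) * Hb cc pp (x (b + 1)) (x (a + 1)))) / D := by
    intro a
    have h1 := hbound 0 (x (a + 1)) le_rfl (hx00 _)
    have h2 : ∀ b, Pre z j (x (b + 1)) (x (a + 1))
        ≤ (s ^ 2 * (τ * x (b + 1) + x (a + 1)) ^ 2 + V) / D * Hb cc pp (x (b + 1)) (x (a + 1)) :=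
      fun b => hbound _ _ (hx00 _) (hx00 _)
    have h3 : x (a + 1) / ((k : ℝ) - 1) * Pre z j 0 (x (a + 1))
        ≤ x (a + 1) * ε * ((s ^ 2 * (τ * 0 + x (a + 1)) ^ 2 + V) / D * Hb cc pp 0 (x (a + 1))) := by
      have e : x (a + 1) / ((k : ℝ) - 1) = x (a + 1) * ε := by rw [hε]; ring
      rw [e]
      exact mul_le_mul_of_nonneg_left h1 (mul_nonneg (hx00 _) hε0)
    have h4 : ∑ b ∈ Finset.range (a + 1), (x (b + 1) - x b) * Pre z j (x (b + 1)) (x (a + 1))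
        ≤ ∑ b ∈ Finset.range (a + 1), (x (b + 1) - x b) *
          ((s ^ 2 * (τ * x (b + 1) + x (a + 1)) ^ 2 + V) / D * Hb cc pp (x (b + 1)) (x (a + 1))) :=
      Finset.sum_le_sum fun b _ =>
        mul_le_mul_of_nonneg_left (h2 b) (sub_nonneg.2 (hx (Nat.le_succ b)))
    refine (add_le_add h3 h4).trans (le_of_eq ?_)
    have h5 : ∑ b ∈ Finset.range (a + 1), (x (b + 1) - x b) *
          ((s ^ 2 * (τ * x (b + 1) + x (a + 1)) ^ 2 + V) / D * Hb cc pp (x (b + 1)) (x (a + 1)))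
        = (s ^ 2 * ∑ b ∈ Finset.range (a + 1),
              (x (b + 1) - x b) * (τ * x (b + 1) + x (a + 1)) ^ 2 * Hb cc pp (x (b + 1)) (x (a + 1))
            + V * ∑ b ∈ Finset.range (a + 1), (x (b + 1) - x b) * Hb cc pp (x (b + 1)) (x (a + 1))) / D := by
      rw [Finset.mul_sum, Finset.mul_sum, ← Finset.sum_add_distrib, Finset.sum_div]
      refine Finset.sum_congr rfl fun b _ => ?_
      field_simp
    rw [h5]
    field_simp
    ring
  have hPhi : ∀ a, 0 ≤ Phi (x (a + 1)) - Phi (x a) := fun a =>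
    sub_nonneg.2 (Phi_mono (hx (Nat.le_succ a)))
  have hsumle : ∑ a ∈ Finset.range J, (Phi (x (a + 1)) - Phi (x a)) * (s *
        (x (a + 1) / ((k : ℝ) - 1) * Pre z j 0 (x (a + 1))
          + ∑ b ∈ Finset.range (a + 1), (x (b + 1) - x b) * Pre z j (x (b + 1)) (x (a + 1))))
      ≤ s / D * (s ^ 2 * HIu ε τ cc pp x J + V * HIv ε cc pp x J) := by
    unfold HIu HIv
    rw [Finset.mul_sum, Finset.mul_sum, ← Finset.sum_add_distrib, Finset.mul_sum]
    refine Finset.sum_le_sum fun a _ => ?_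
    have h1 := mul_le_mul_of_nonneg_left (hcell a) (mul_nonneg (hPhi a) hs.le)
    refine le_trans (le_of_eq ?_) (h1.trans (le_of_eq ?_))
    · ring
    · ring
  set r : ℝ := (k : ℝ) / ((k : ℝ) - 1) with hr
  have hr0 : 0 < r := by positivity
  have hgain2 : L ≤ s / D * (s ^ 2 * (HIu ε τ cc pp x J + r * ((τ + 1) ^ 2 * HT3 (x J)))
      + V * (HIv ε cc pp x J + r * HT1 (x J))) := by
    refine hgain.trans ?_
    refine (add_le_add_left hsumle _).trans (le_of_eq ?_)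
    unfold HT3 HT1
    rw [hr]
    field_simp
    ring
  have hdel := hc.deletion_one hR hP j hk
  rw [← hsdef, ← hL] at hdel
  have hSpos : 0 < S z := lt_trans R_pos hR
  have hdel2 : s ^ 2 * r ≤ 2 * L := by
    have h1 : 0 ≤ L ^ 2 / S z := by positivity
    rw [hr]
    linarith
  set RHS := s ^ 2 * (HIu ε τ cc pp x J + r * ((τ + 1) ^ 2 * HT3 (x J)))
      + V * (HIv ε cc pp x J + r * HT1 (x J)) with hRHS
  have h1 : s ^ 2 * r ≤ 2 * (s / D * RHS) := hdel2.trans (by linarith)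
  have h2 : s * (2 * Real.pi * r * Δ * s) ≤ s * RHS := by
    have e1 : s * (2 * Real.pi * r * Δ * s) = s ^ 2 * r * (D / 2) := by
      rw [hD]
      ring
    have e2 : s * RHS = 2 * (s / D * RHS) * (D / 2) := by
      field_simp
    rw [e1, e2]
    exact mul_le_mul_of_nonneg_right h1 (by positivity)
  have h3 := le_of_mul_le_mul_left h2 hs
  refine h3.trans (le_of_eq ?_)
  rw [hRHS]

end Crest.Agent.Propeller
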