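import Crest.Agent.Lib.Propeller.ConeCapExact
import Crest.Agent.Lib.Propeller.Harris

/-!
# The one-dimensional bathtub (tangent form of the cap `I(a)`)

`psi c = E (ξ - c)₊ = φ(c) - c (1 - Φ(c))`.

* `setIntegral_inner_le_tangent`: for a measurable `A`, unit `u`, any `c`:
  `∫_A ⟪u, g⟫ ≤ psi c + c γ(A)`;
* `norm_setIntegral_le_tangent`: the same for the norm of the moment;
* `sum_excess_le`: for a partition, `∑ (σ_i - psi c)₊ ≤ c`, `c ≥ 0`.
-/

set_option autoImplicit false
set_option linter.unusedSectionVars false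
open MeasureTheory ProbabilityTheory Set
open scoped RealInnerProductSpace NNReal

namespace Crest.Agent.Propeller

universe u v

variable {E : Type u} [NormedAddCommGroup E] [InnerProductSpace ℝ E] [FiniteDimensional ℝ E]
  [MeasurableSpace E] [BorelSpace E]

/-- `psi c = E (ξ - c)₊`. -/
noncomputable def psi (c : ℝ) : ℝ := phi0 * Real.exp (-c ^ 2 / 2) - c * (1 - Phi c)

instance : NullSingletonClass (gaussianReal 0 1) :=
  nullSingletonClass_gaussianReal one_ne_zero

lemma Phi_eq_Iic (x : ℝ) : Phi x = (gaussianReal 0 1).real (Iic x) := by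
  unfold Phi
  rw [measureReal_def, measureReal_def, measure_congr Iio_ae_eq_Iic]

lemma real_Ioi_eq (c : ℝ) : (gaussianReal 0 1).real (Ioi c) = 1 - Phi c := by
  rw [Phi_eq_Iic, ← compl_Iic, probReal_compl_eq_one_sub measurableSet_Iic]

/-- `∫ (ξ - c)₊ dN = psi c`. -/
lemma integral_ramp_gaussian (c : ℝ) :
    ∫ x, max 0 (x - c) ∂(gaussianReal 0 1) = psi c := by
  have hid : Integrable (fun x : ℝ => x) (gaussianReal 0 1) := IsGaussian.integrable_id
  have h1 : (fun x : ℝ => max 0 (x - c)) = (Ioi c).indicator (fun x => x - c) := by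
    ext x
    by_cases hx : c < x
    · simp [hx, max_eq_right (sub_nonneg.2 hx.le)]
    · simp [hx, max_eq_left (sub_nonpos.2 (not_lt.1 hx))]
  rw [h1, integral_indicator measurableSet_Ioi, integral_sub hid.integrableOn (integrable_const _),
    integral_gaussian_Ioi_id, setIntegral_const, real_Ioi_eq]
  unfold psi
  simp only [smul_eq_mul]
  ring

lemma psi_nonneg (c : ℝ) : 0 ≤ psi c := by
  rw [← integral_ramp_gaussian]
  exact integral_nonneg fun x => le_max_left _ _

lemma neg_le_psi (c : ℝ) : -c ≤ psi c := by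
  rw [← integral_ramp_gaussian]
  have hid : Integrable (fun x : ℝ => x) (gaussianReal 0 1) := IsGaussian.integrable_id
  have hint : Integrable (fun x : ℝ => max 0 (x - c)) (gaussianReal 0 1) := by
    have h0 : Integrable (fun x : ℝ => x - c) (gaussianReal 0 1) := hid.sub (integrable_const _)
    refine Integrable.mono h0 ?_ (Filter.Eventually.of_forall fun x => ?_)
    · apply Measurable.aestronglyMeasurable
      fun_prop
    · rw [Real.norm_eq_abs, Real.norm_eq_abs]
      rcases le_total 0 (x - c) with h1 | h1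
      · rw [max_eq_right h1]
      · rw [max_eq_left h1]
        simp
  have h1 : ∫ x, (x - c) ∂(gaussianReal 0 1) ≤ ∫ x, max 0 (x - c) ∂(gaussianReal 0 1) :=
    integral_mono (hid.sub (integrable_const _)) hint fun x => le_max_right _ _
  rw [integral_sub hid (integrable_const _), integral_const] at h1
  have h2 : ∫ x, x ∂(gaussianReal 0 1) = 0 := by simpa using integral_id_gaussianReal (μ := 0) (v := 1)
  rw [h2] at h1
  simpa using h1

/-- **Tangent bathtub.** -/
theorem setIntegral_inner_le_tangent {A : Set E} (hA : MeasurableSet A) {u : E} (hu : ‖u‖ = 1)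
    (c : ℝ) : ∫ g in A, ⟪u, g⟫ ∂(stdGaussian E) ≤ psi c + c * (stdGaussian E).real A := by
  have hm : Measurable (fun g : E => ⟪u, g⟫) := (continuous_const.inner continuous_id).measurable
  have hint1 : Integrable (fun g : E => ⟪u, g⟫) (stdGaussian E) := integrable_inner_std u
  have hint2 : Integrable (fun g : E => max 0 (⟪u, g⟫ - c)) (stdGaussian E) := by
    have h0 : Integrable (fun g : E => ⟪u, g⟫ - c) (stdGaussian E) := hint1.sub (integrable_const _)
    refine Integrable.mono h0 ?_ (Filter.Eventually.of_forall fun x => ?_)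
    · apply Measurable.aestronglyMeasurable
      exact measurable_const.max (hm.sub measurable_const)
    · rw [Real.norm_eq_abs, Real.norm_eq_abs]
      rcases le_total 0 (⟪u, x⟫ - c) with h1 | h1
      · rw [max_eq_right h1]
      · rw [max_eq_left h1]
        simp
  have hlaw : ∫ g : E, max 0 (⟪u, g⟫ - c) ∂(stdGaussian E) = psi c := by
    rw [← integral_ramp_gaussian]
    have hc : Measurable (fun x : ℝ => max 0 (x - c)) := by fun_prop
    have h1 : ∫ g : E, max 0 (⟪u, g⟫ - c) ∂(stdGaussian E)
        = ∫ x, max 0 (x - c) ∂((stdGaussian E).map (fun g => ⟪u, g⟫)) :=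
      (integral_map hm.aemeasurable hc.aestronglyMeasurable).symm
    rw [h1, map_inner_std, hu]
    simp
  have h1 : ∫ g in A, ⟪u, g⟫ ∂(stdGaussian E)
      = ∫ g in A, (⟪u, g⟫ - c) ∂(stdGaussian E) + c * (stdGaussian E).real A := by
    rw [integral_sub hint1.integrableOn (integrable_const _), setIntegral_const]
    simp only [smul_eq_mul]
    ring
  have h2 : ∫ g in A, (⟪u, g⟫ - c) ∂(stdGaussian E) ≤ ∫ g in A, max 0 (⟪u, g⟫ - c) ∂(stdGaussian E) :=
    setIntegral_mono (hint1.sub (integrable_const _)).integrableOn hint2.integrableOn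
      fun g => le_max_right _ _
  have h3 : ∫ g in A, max 0 (⟪u, g⟫ - c) ∂(stdGaussian E) ≤ ∫ g, max 0 (⟪u, g⟫ - c) ∂(stdGaussian E) :=
    setIntegral_le_integral hint2 (Filter.Eventually.of_forall fun g => le_max_left _ _)
  rw [h1]
  linarith

/-- **`I`-cap, tangent form**: `‖m(A)‖ ≤ psi c + c γ(A)` for every `c`. -/
theorem norm_setIntegral_le_tangent {A : Set E} (hA : MeasurableSet A) (c : ℝ) :
    ‖∫ g in A, g ∂(stdGaussian E)‖ ≤ psi c + c * (stdGaussian E).real A := by
  refine norm_setIntegral_le ?_ fun u hu => setIntegral_inner_le_tangent hA hu c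
  have ha0 : 0 ≤ (stdGaussian E).real A := measureReal_nonneg
  have ha1 : (stdGaussian E).real A ≤ 1 := measureReal_le_one
  rcases le_total 0 c with hc | hc
  · have := psi_nonneg c
    positivity
  · have := neg_le_psi c
    nlinarith

section partition

variable {ι : Type v} [Fintype ι]

lemma sum_real_cells_cap {A : ι → Set E} (hA : IsPartition A) :
    ∑ i, (stdGaussian E).real (A i) = 1 := by
  have h := sum_setIntegral_cells hA (f := fun _ => (1 : ℝ)) (integrable_const _)
  simpa using h

/-- **Budget form of the `I`-cap.** For a partition and `c ≥ 0`: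
`∑ (‖m_i‖ - psi c)₊ ≤ c`. -/
theorem sum_excess_le {A : ι → Set E} (hA : IsPartition A) {c : ℝ} (hc : 0 ≤ c) :
    ∑ i, max 0 (‖mom A i‖ - psi c) ≤ c := by
  have h1 : ∀ i, max 0 (‖mom A i‖ - psi c) ≤ c * (stdGaussian E).real (A i) := by
    intro i
    refine max_le (mul_nonneg hc measureReal_nonneg) ?_
    have := norm_setIntegral_le_tangent (hA.meas i) c
    unfold mom
    linarith
  calc _ ≤ ∑ i, c * (stdGaussian E).real (A i) := Finset.sum_le_sum fun i _ => h1 i
    _ = c := by rw [← Finset.mul_sum, sum_real_cells_cap hA, mul_one]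

end partition

end Crest.Agent.Propeller
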