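import Crest.Agent.Lib.Propeller.GaussTools

/-!
# Propeller: the cap bound for cones

* `stdGaussian_eq_withDensity`: the standard Gaussian has the radial density `gcst * exp (-‖x‖²/2)`;
* `setIntegral_cone_radial`, `cone_norm_integral`: `∫_A ‖g‖ dγ = m γ(A)` for a cone `A`;
* `cone_cap_tangent`: `∫_A ⟪u,g⟫ ≤ e(τ) + τ m (γ(A) - a(τ))`, with `a(τ) = γ(capCone u τ)` etc.
-/

set_option autoImplicit false
set_option linter.unusedSectionVars false
open MeasureTheory ProbabilityTheory Set Metric
open scoped RealInnerProductSpace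

namespace Crest.Agent.Propeller

universe u

variable {E : Type u} [NormedAddCommGroup E] [InnerProductSpace ℝ E] [FiniteDimensional ℝ E]
  [MeasurableSpace E] [BorelSpace E]

/-! ### The density of the standard Gaussian -/

variable (E) in
/-- Normalising constant of the Gaussian density on `E`. -/
noncomputable def gcst : ℝ := (2 * Real.pi) ^ (-(Module.finrank ℝ E : ℝ) / 2)

lemma gcst_pos : 0 < gcst E := by unfold gcst; positivity

lemma integrable_exp_norm : Integrable (fun x : E => Real.exp (-‖x‖ ^ 2 / 2)) := by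
  have h := GaussianFourier.integrable_cexp_neg_mul_sq_norm_add (V := E) (b := (1 / 2 : ℂ))
    (by norm_num) 0 0
  have h2 : Integrable (fun x : E => ((Real.exp (-‖x‖ ^ 2 / 2) : ℝ) : ℂ)) := by
    refine h.congr (Filter.Eventually.of_forall fun x => ?_)
    simp only [inner_zero_left]
    simp only [Complex.ofReal_exp]
    congr 1
    push_cast
    ring
  refine h2.re.congr (Filter.Eventually.of_forall fun x => ?_)
  exact Complex.ofReal_re _

lemma integral_exp_norm :
    ∫ x : E, Real.exp (-‖x‖ ^ 2 / 2) = (2 * Real.pi) ^ ((Module.finrank ℝ E : ℝ) / 2) := by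
  have h := GaussianFourier.integral_rexp_neg_mul_sq_norm (V := E) (b := 1 / 2) (by norm_num)
  have e : ∀ x : E, Real.exp (-‖x‖ ^ 2 / 2) = Real.exp (-(1 / 2) * ‖x‖ ^ 2) := fun x => by
    congr 1; ring
  simp_rw [e]
  rw [h]
  congr 1
  ring

lemma gcst_mul : gcst E * (2 * Real.pi) ^ ((Module.finrank ℝ E : ℝ) / 2) = 1 := by
  unfold gcst
  rw [← Real.rpow_add (by positivity)]
  simp only [neg_div, neg_add_cancel, Real.rpow_zero]

/-- The density as a `ℝ≥0∞` function. -/
noncomputable def gdens (E : Type u) [NormedAddCommGroup E] [InnerProductSpace ℝ E]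
    [FiniteDimensional ℝ E] (x : E) : ENNReal :=
  ENNReal.ofReal (gcst E * Real.exp (-‖x‖ ^ 2 / 2))

lemma measurable_gdens : Measurable (gdens E) := by
  unfold gdens
  refine ENNReal.measurable_ofReal.comp ?_
  fun_prop

/-- The standard Gaussian has the radial density `gcst * exp (-‖x‖²/2)`. -/
theorem stdGaussian_eq_withDensity :
    stdGaussian E = (volume : Measure E).withDensity (gdens E) := by
  have hd : Integrable (fun x : E => gcst E * Real.exp (-‖x‖ ^ 2 / 2)) :=
    integrable_exp_norm.const_mul _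
  have hprob : IsProbabilityMeasure ((volume : Measure E).withDensity (gdens E)) := by
    constructor
    rw [withDensity_apply _ MeasurableSet.univ, Measure.restrict_univ]
    unfold gdens
    rw [← ofReal_integral_eq_lintegral_ofReal hd
      (Filter.Eventually.of_forall fun x => by
        have := gcst_pos (E := E); positivity), integral_const_mul, integral_exp_norm, gcst_mul]
    simp
  refine Measure.ext_of_charFun (funext fun t => ?_)
  rw [charFun_stdGaussian, charFun_apply]
  have h1 : ∫ x, Complex.exp ((⟪x, t⟫ : ℂ) * Complex.I) ∂((volume : Measure E).withDensity (gdens E))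
      = ∫ x : E, (gcst E : ℂ) *
          Complex.exp (-(1 / 2 : ℂ) * (‖x‖ : ℂ) ^ 2 + Complex.I * ((⟪t, x⟫ : ℝ) : ℂ)) := by
    rw [integral_withDensity_eq_integral_toReal_smul measurable_gdens
      (Filter.Eventually.of_forall fun x => by simp [gdens])]
    refine integral_congr_ae (Filter.Eventually.of_forall fun x => ?_)
    have hp : 0 ≤ gcst E * Real.exp (-‖x‖ ^ 2 / 2) := by
      have := gcst_pos (E := E); positivity
    simp only [gdens, ENNReal.toReal_ofReal hp]
    rw [Complex.real_smul, real_inner_comm]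
    push_cast
    rw [mul_assoc, ← Complex.exp_add]
    congr 2
    ring
  rw [h1, integral_const_mul, GaussianFourier.integral_cexp_neg_mul_sq_norm_add (by norm_num)]
  have h2 : ((gcst E : ℝ) : ℂ) * (↑Real.pi / (1 / 2)) ^ ((Module.finrank ℝ E : ℂ) / 2) = 1 := by
    have h3 := gcst_mul (E := E)
    have h4 : ((↑Real.pi : ℂ) / (1 / 2)) = ((2 * Real.pi : ℝ) : ℂ) := by push_cast; ring
    rw [h4]
    have h5 : ((2 * Real.pi : ℝ) : ℂ) ^ ((Module.finrank ℝ E : ℂ) / 2)
        = (((2 * Real.pi) ^ ((Module.finrank ℝ E : ℝ) / 2) : ℝ) : ℂ) := by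
      rw [Complex.ofReal_cpow (by positivity)]
      push_cast
      rfl
    rw [h5, ← Complex.ofReal_mul, h3]
    simp
  rw [← mul_assoc, h2, one_mul]
  congr 1
  rw [Complex.I_sq]
  ring

lemma setIntegral_std_radial {A : Set E} (hm : MeasurableSet A) (f : E → ℝ) :
    ∫ x in A, f x ∂(stdGaussian E) = ∫ x in A, (gcst E * Real.exp (-‖x‖ ^ 2 / 2) * f x) := by
  rw [stdGaussian_eq_withDensity, setIntegral_withDensity_eq_setIntegral_toReal_smul
    measurable_gdens (Filter.Eventually.of_forall fun x => by simp [gdens]) _ hm]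
  refine integral_congr_ae (Filter.Eventually.of_forall fun x => ?_)
  have hp : 0 ≤ gcst E * Real.exp (-‖x‖ ^ 2 / 2) := by
    have := gcst_pos (E := E); positivity
  simp [gdens, ENNReal.toReal_ofReal hp]

/-! ### Cones -/

/-- `A` is a cone (invariant under positive scalings). -/
def IsConeSet (A : Set E) : Prop := ∀ x ∈ A, ∀ s : ℝ, 0 < s → s • x ∈ A

lemma IsConeSet.mem_iff {A : Set E} (hA : IsConeSet A) {x : E} {s : ℝ} (hs : 0 < s) :
    s • x ∈ A ↔ x ∈ A := by
  constructor
  · intro h
    have := hA _ h s⁻¹ (inv_pos.2 hs)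
    rwa [smul_smul, inv_mul_cancel₀ hs.ne', one_smul] at this
  · exact fun h => hA x h s hs

lemma isConeSet_univ : IsConeSet (univ : Set E) := fun _ _ _ _ => mem_univ _

lemma IsConeSet.compl {A : Set E} (hA : IsConeSet A) : IsConeSet Aᶜ := by
  intro x hx s hs h
  exact hx ((hA.mem_iff hs).1 h)

/-- Polar decomposition of an integral over a cone. -/
theorem setIntegral_cone_radial [Nontrivial E] (μ : Measure E) [μ.IsAddHaarMeasure]
    {A : Set E} (hA : IsConeSet A) (hm : MeasurableSet A) (f : ℝ → ℝ) :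
    ∫ x in A, f ‖x‖ ∂μ
      = μ.toSphere.real {θ : sphere (0 : E) 1 | (θ : E) ∈ A}
        * ∫ y : Ioi (0 : ℝ), f y ∂(Measure.volumeIoiPow (Module.finrank ℝ E - 1)) := by
  classical
  have hS : MeasurableSet {θ : sphere (0 : E) 1 | (θ : E) ∈ A} := measurable_subtype_coe hm
  set g : sphere (0 : E) 1 × Ioi (0 : ℝ) → ℝ :=
    fun p => ({θ : sphere (0 : E) 1 | (θ : E) ∈ A}.indicator (fun _ => (1 : ℝ)) p.1) * f p.2 with hg
  have h1 : ∫ x in A, f ‖x‖ ∂μ = ∫ x, A.indicator (fun x => f ‖x‖) x ∂μ :=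
    (integral_indicator hm).symm
  have h2 : ∫ x, A.indicator (fun x => f ‖x‖) x ∂μ
      = ∫ x : ({0}ᶜ : Set E), A.indicator (fun x => f ‖x‖) x.1 ∂(μ.comap (↑)) := by
    rw [integral_subtype_comap (measurableSet_singleton _).compl
      (fun x => A.indicator (fun x => f ‖x‖) x), restrict_compl_singleton]
  have h3 : ∫ x : ({0}ᶜ : Set E), A.indicator (fun x => f ‖x‖) x.1 ∂(μ.comap (↑))
      = ∫ p, g p ∂(μ.toSphere.prod (Measure.volumeIoiPow (Module.finrank ℝ E - 1))) := by
    have := μ.measurePreserving_homeomorphUnitSphereProd.integral_comp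
      (Homeomorph.measurableEmbedding _) g
    rw [← this]
    refine integral_congr_ae (Filter.Eventually.of_forall fun x => ?_)
    have hx : (x : E) ≠ 0 := x.2
    have hpos : 0 < ‖(x : E)‖ := norm_pos_iff.2 hx
    simp only [hg, homeomorphUnitSphereProd_apply_snd_coe]
    have hmem : ((homeomorphUnitSphereProd E x).1 : E) ∈ A ↔ (x : E) ∈ A := by
      rw [homeomorphUnitSphereProd_apply_fst_coe]
      exact hA.mem_iff (inv_pos.2 hpos)
    by_cases hxA : (x : E) ∈ A
    · rw [indicator_of_mem hxA, indicator_of_mem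
        (show _ ∈ {θ : sphere (0 : E) 1 | (θ : E) ∈ A} from hmem.2 hxA)]
      simp
    · rw [indicator_of_notMem hxA, indicator_of_notMem
        (show _ ∉ {θ : sphere (0 : E) 1 | (θ : E) ∈ A} from fun h => hxA (hmem.1 h))]
      simp
  rw [h1, h2, h3, hg]
  rw [integral_prod_mul (μ := μ.toSphere) (ν := Measure.volumeIoiPow (Module.finrank ℝ E - 1))
    (fun θ : sphere (0 : E) 1 => {θ : sphere (0 : E) 1 | (θ : E) ∈ A}.indicator (fun _ => (1 : ℝ)) θ)
    (fun y : Ioi (0 : ℝ) => f y)]
  congr 1
  rw [integral_indicator hS, setIntegral_const]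
  simp

/-- `∫_A ‖g‖ dγ = m γ(A)` for a cone `A`. -/
theorem cone_norm_integral [Nontrivial E] {A : Set E} (hA : IsConeSet A) (hm : MeasurableSet A) :
    ∫ x in A, ‖x‖ ∂(stdGaussian E)
      = (∫ x, ‖x‖ ∂(stdGaussian E)) * (stdGaussian E).real A := by
  set μ : Measure E := volume
  set d : ℝ → ℝ := fun r => gcst E * Real.exp (-r ^ 2 / 2) with hd
  have key : ∀ (f : ℝ → ℝ) {C : Set E}, IsConeSet C → MeasurableSet C →
      ∫ x in C, f ‖x‖ ∂(stdGaussian E)
        = μ.toSphere.real {θ : sphere (0 : E) 1 | (θ : E) ∈ C}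
          * ∫ y : Ioi (0 : ℝ), (d y * f y) ∂(Measure.volumeIoiPow (Module.finrank ℝ E - 1)) := by
    intro f C hC hCm
    rw [setIntegral_std_radial hCm]
    exact setIntegral_cone_radial μ hC hCm (fun r => d r * f r)
  have h1 := key (fun r => r) hA hm
  have h2 := key (fun _ => 1) hA hm
  have h3 := key (fun r => r) (isConeSet_univ (E := E)) MeasurableSet.univ
  have h4 := key (fun _ => 1) (isConeSet_univ (E := E)) MeasurableSet.univ
  simp only [setIntegral_univ] at h3 h4
  have h5 : ∫ x in A, (1 : ℝ) ∂(stdGaussian E) = (stdGaussian E).real A := by simp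
  have h6 : ∫ x, (1 : ℝ) ∂(stdGaussian E) = 1 := by simp
  rw [h1, h3, ← h5, h2]
  rw [h6] at h4
  set sA := μ.toSphere.real {θ : sphere (0 : E) 1 | (θ : E) ∈ A}
  set sU := μ.toSphere.real {θ : sphere (0 : E) 1 | (θ : E) ∈ (univ : Set E)}
  set N1 := ∫ y : Ioi (0 : ℝ), (d y * (y : ℝ)) ∂(Measure.volumeIoiPow (Module.finrank ℝ E - 1))
  set N0 := ∫ y : Ioi (0 : ℝ), (d y * 1) ∂(Measure.volumeIoiPow (Module.finrank ℝ E - 1))
  have : sA * N1 = sU * N1 * (sA * N0) ↔ sA * N1 * (1 - sU * N0) = 0 := by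
    constructor
    · intro h; linear_combination h
    · intro h; linear_combination h
  rw [this, ← h4]
  simp

/-- The cone `{⟪u,g⟫ > τ ‖g‖}`. -/
def capCone (u : E) (τ : ℝ) : Set E := {g | τ * ‖g‖ < ⟪u, g⟫}

lemma measurableSet_capCone (u : E) (τ : ℝ) : MeasurableSet (capCone u τ) := by
  unfold capCone
  exact measurableSet_lt (by fun_prop) (by fun_prop)

lemma isConeSet_capCone (u : E) (τ : ℝ) : IsConeSet (capCone u τ) := by
  intro x hx s hs
  simp only [capCone, mem_ofPred_eq] at hx ⊢
  rw [norm_smul, Real.norm_eq_abs, abs_of_pos hs, real_inner_smul_right]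
  nlinarith

/-- The tangent (bathtub) form of the cap bound for a cone. -/
theorem cone_cap_tangent [Nontrivial E] (u : E) (τ : ℝ) {A : Set E} (hA : IsConeSet A)
    (hm : MeasurableSet A) :
    ∫ g in A, ⟪u, g⟫ ∂(stdGaussian E)
      ≤ ∫ g in capCone u τ, ⟪u, g⟫ ∂(stdGaussian E)
        + τ * (∫ g, ‖g‖ ∂(stdGaussian E))
          * ((stdGaussian E).real A - (stdGaussian E).real (capCone u τ)) := by
  set γ := stdGaussian E
  set B := capCone u τ
  have hB : MeasurableSet B := measurableSet_capCone u τ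
  have hBc : IsConeSet B := isConeSet_capCone u τ
  set h : E → ℝ := fun g => ⟪u, g⟫ - τ * ‖g‖ with hh
  have hi : Integrable h γ := (integrable_inner_std u).sub (integrable_norm_std.const_mul τ)
  have h1 : ∫ g in A, h g ∂γ = ∫ g in A, ⟪u, g⟫ ∂γ - τ * (∫ g in A, ‖g‖ ∂γ) := by
    rw [← integral_const_mul, ← integral_sub (integrable_inner_std u).integrableOn
      (integrable_norm_std.const_mul τ).integrableOn]
  have h2 : ∫ g in B, h g ∂γ = ∫ g in B, ⟪u, g⟫ ∂γ - τ * (∫ g in B, ‖g‖ ∂γ) := by
    rw [← integral_const_mul, ← integral_sub (integrable_inner_std u).integrableOn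
      (integrable_norm_std.const_mul τ).integrableOn]
  have h3 : ∫ g in A, h g ∂γ ≤ ∫ g in B, h g ∂γ := by
    rw [← integral_indicator hm, ← integral_indicator hB]
    refine integral_mono (hi.indicator hm) (hi.indicator hB) fun g => ?_
    by_cases hgA : g ∈ A <;> by_cases hgB : g ∈ B
    · simp [hgA, hgB]
    · simp only [indicator_of_mem hgA, indicator_of_notMem hgB]
      have : ¬ τ * ‖g‖ < ⟪u, g⟫ := hgB
      simp only [hh]
      linarith [not_lt.1 this]
    · simp only [indicator_of_notMem hgA, indicator_of_mem hgB]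
      have : τ * ‖g‖ < ⟪u, g⟫ := hgB
      simp only [hh]
      linarith
    · simp [hgA, hgB]
  rw [h1, h2, cone_norm_integral hA hm, cone_norm_integral hBc hB] at h3
  nlinarith

end Crest.Agent.Propeller
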