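import Crest.Agent.Lib.Propeller.Basic

/-!
# Propeller: merging, deletion, the base case `k = 3`, the induction frame.
-/

set_option autoImplicit false
set_option linter.unusedSectionVars false
open MeasureTheory ProbabilityTheory
open scoped RealInnerProductSpace

namespace Crest.Agent.Propeller

universe u v w

variable {E : Type u} [NormedAddCommGroup E] [InnerProductSpace ℝ E] [FiniteDimensional ℝ E]
  [MeasurableSpace E] [BorelSpace E]
variable {ι : Type v} [Fintype ι]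

/-! ### Merging two cells -/

section merge
variable [DecidableEq ι]

/-- Merge the cell `b` into the cell `a`. -/
def mergeCells (A : ι → Set E) (a b : ι) : {i // i ≠ b} → Set E :=
  fun i => if i.1 = a then A a ∪ A b else A i.1

lemma isPartition_merge {A : ι → Set E} (hA : IsPartition A) {a b : ι} (hab : a ≠ b) :
    IsPartition (mergeCells A a b) := by
  refine ⟨fun i => ?_, ?_, ?_⟩
  · unfold mergeCells
    split_ifs
    · exact (hA.meas a).union (hA.meas b)
    · exact hA.meas _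
  · intro i j hij
    have hij' : i.1 ≠ j.1 := fun h => hij (Subtype.ext h)
    unfold mergeCells
    split_ifs with h1 h2 h2
    · exact absurd (h1.trans h2.symm) hij'
    · rw [Set.disjoint_union_left]
      refine ⟨hA.disj fun h => h2 ?_, hA.disj fun h => j.2 h.symm⟩
      exact h.symm
    · rw [Set.disjoint_union_right]
      exact ⟨hA.disj fun h => h1 h, hA.disj fun h => i.2 h⟩
    · exact hA.disj hij'
  · rw [← Set.univ_subset_iff, ← hA.cov]
    intro g hg
    obtain ⟨i, hi⟩ := Set.mem_iUnion.1 hg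
    by_cases hib : i = b
    · subst hib
      refine Set.mem_iUnion.2 ⟨⟨a, hab⟩, ?_⟩
      simp only [mergeCells, if_true]
      exact Or.inr hi
    · refine Set.mem_iUnion.2 ⟨⟨i, hib⟩, ?_⟩
      simp only [mergeCells]
      split_ifs with h
      · subst h; exact Or.inl hi
      · exact hi

lemma mom_merge {A : ι → Set E} (hA : IsPartition A) {a b : ι} (hab : a ≠ b)
    (i : {i // i ≠ b}) :
    mom (mergeCells A a b) i = if i.1 = a then mom A a + mom A b else mom A i.1 := by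
  unfold mom mergeCells
  split_ifs with h
  · rw [setIntegral_union (hA.disj hab) (hA.meas b) integrable_id_std.integrableOn
      integrable_id_std.integrableOn]
  · rfl

/-- Strict obtuseness by merging. -/
theorem Critical.merge_le {z : ι → E} {A : ι → Set E} (hc : Critical z A) {a b : ι} (hab : a ≠ b)
    (hP : PP E {i // i ≠ b}) : S z + 2 * ⟪z a, z b⟫ ≤ R := by
  have h := sum_mom_sq_le hP (isPartition_merge hc.part hab)
  have h1 : ∑ i : {i // i ≠ b}, ‖mom (mergeCells A a b) i‖ ^ 2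
      = ∑ i ∈ Finset.univ.erase b, ‖if i = a then z a + z b else z i‖ ^ 2 := by
    have : ∀ i : {i // i ≠ b}, ‖mom (mergeCells A a b) i‖ ^ 2
        = (fun i => ‖if i = a then z a + z b else z i‖ ^ 2) i.1 := by
      intro i
      rw [mom_merge hc.part hab, hc.mom_eq, hc.mom_eq]
      simp only
      split_ifs with h
      · rfl
      · rw [hc.mom_eq]
    simp_rw [this]
    rw [← Finset.sum_subtype (Finset.univ.erase b) (fun i => by simp)
      (fun i => ‖if i = a then z a + z b else z i‖ ^ 2)]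
  rw [h1] at h
  have ha : a ∈ Finset.univ.erase b := by simp [hab]
  rw [← Finset.add_sum_erase _ _ ha] at h
  simp only [if_true] at h
  have h2 : ∑ i ∈ (Finset.univ.erase b).erase a, ‖if i = a then z a + z b else z i‖ ^ 2
      = ∑ i ∈ (Finset.univ.erase b).erase a, ‖z i‖ ^ 2 := by
    refine Finset.sum_congr rfl fun i hi => ?_
    rw [if_neg (Finset.ne_of_mem_erase hi)]
  rw [h2] at h
  have h3 : S z = ‖z b‖ ^ 2 + (‖z a‖ ^ 2 + ∑ i ∈ (Finset.univ.erase b).erase a, ‖z i‖ ^ 2) := by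
    unfold S
    rw [← Finset.add_sum_erase _ _ (Finset.mem_univ b), ← Finset.add_sum_erase _ _ ha]
  rw [norm_add_sq_real] at h
  rw [h3]
  linarith

end merge

/-! ### Deletion -/

section deletion
variable [DecidableEq ι]

/-- Restriction to a finset. -/
def restr (z : ι → E) (T : Finset ι) : {i // i ∈ T} → E := fun i => z i.1

lemma S_restr (z : ι → E) (T : Finset ι) : S (restr z T) = ∑ i ∈ T, ‖z i‖ ^ 2 := by
  unfold S restr
  exact (Finset.sum_coe_sort T fun i => ‖z i‖ ^ 2)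

/-- `P` on a centred subfamily. -/
theorem F_restr_sq_le (z : ι → E) (T : Finset ι) (hT : T.Nonempty)
    (hP : PP E {i // i ∈ T}) :
    F (restr z T) ^ 2 ≤ R * (∑ i ∈ T, ‖z i‖ ^ 2 - ‖∑ i ∈ T, z i‖ ^ 2 / T.card) := by
  have : Nonempty {i // i ∈ T} := hT.to_subtype
  have hτ : (0 : ℝ) < T.card := by exact_mod_cast hT.card_pos
  set c : E := (T.card : ℝ)⁻¹ • ∑ i ∈ T, z i with hc
  have h1 : F (fun i : {i // i ∈ T} => restr z T i + (-c)) = F (restr z T) := F_add_const _ _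
  have h2 : S (fun i : {i // i ∈ T} => restr z T i + (-c))
      = ∑ i ∈ T, ‖z i‖ ^ 2 - ‖∑ i ∈ T, z i‖ ^ 2 / T.card := by
    unfold S restr
    have h3 := Finset.sum_coe_sort T fun i => ‖z i + -c‖ ^ 2
    rw [h3]
    have h4 : ∀ i ∈ T, ‖z i + -c‖ ^ 2 = ‖z i‖ ^ 2 - 2 * ⟪z i, c⟫ + ‖c‖ ^ 2 := fun i _ => by
      rw [← sub_eq_add_neg, norm_sub_sq_real]
    rw [Finset.sum_congr rfl h4, Finset.sum_add_distrib, Finset.sum_sub_distrib,
      ← Finset.mul_sum, ← sum_inner, Finset.sum_const, nsmul_eq_mul, hc, real_inner_smul_right,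
      real_inner_self_eq_norm_sq, norm_smul, mul_pow, norm_inv, Real.norm_eq_abs,
      abs_of_pos hτ]
    field_simp
    ring
  have h3 := hP (fun i : {i // i ∈ T} => restr z T i + (-c))
  rwa [h1, h2] at h3

/-- The quantity `Λ_T = S - F(z|T)` (for critical `z`, this is `E (Y_X - Y_T)₊`). -/
noncomputable def Lam (z : ι → E) (T : Finset ι) : ℝ := S z - F (restr z T)

lemma sum_compl_eq (z : ι → E) (T : Finset ι) :
    ∑ i ∈ T, ‖z i‖ ^ 2 = S z - ∑ i ∈ Tᶜ, ‖z i‖ ^ 2 := by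
  unfold S
  rw [← Finset.sum_add_sum_compl T]
  ring

/-- **Deletion inequality (NT).** For a critical `z` with `R < S z` and `T ≠ ∅`:
`t² + ‖ν‖²/τ ≤ 2Λ - Λ²/S`, where `t² = Σ_{i∉T} ‖z i‖²`, `ν = Σ_{i∉T} z i`. -/
theorem Critical.deletion {z : ι → E} {A : ι → Set E} (hc : Critical z A) (hR : R < S z)
    (T : Finset ι) (hT : T.Nonempty) (hP : PP E {i // i ∈ T}) :
    ∑ i ∈ Tᶜ, ‖z i‖ ^ 2 + ‖∑ i ∈ Tᶜ, z i‖ ^ 2 / T.card
      ≤ 2 * Lam z T - Lam z T ^ 2 / S z := by
  have hS : 0 < S z := R_pos.trans hR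
  have h := F_restr_sq_le z T hT hP
  have h0 : ∑ i ∈ T, z i = - ∑ i ∈ Tᶜ, z i := by
    have := Finset.sum_add_sum_compl T z
    rw [hc.sum_zero] at this
    exact eq_neg_of_add_eq_zero_left this
  rw [h0, norm_neg, sum_compl_eq] at h
  set t2 := ∑ i ∈ Tᶜ, ‖z i‖ ^ 2
  set nu2 := ‖∑ i ∈ Tᶜ, z i‖ ^ 2 / T.card
  have hB : 0 ≤ S z - t2 - nu2 := by
    have h1 := S_nonneg (fun i : {i // i ∈ T} => z i.1 + (-((T.card : ℝ)⁻¹ • ∑ i ∈ T, z i)))
    have hτ : (0 : ℝ) < T.card := by exact_mod_cast hT.card_pos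
    unfold S at h1
    have h3 := Finset.sum_coe_sort T fun i => ‖z i + -((T.card : ℝ)⁻¹ • ∑ i ∈ T, z i)‖ ^ 2
    rw [h3] at h1
    have h4 : ∀ i ∈ T, ‖z i + -((T.card : ℝ)⁻¹ • ∑ i ∈ T, z i)‖ ^ 2
        = ‖z i‖ ^ 2 - 2 * ⟪z i, (T.card : ℝ)⁻¹ • ∑ i ∈ T, z i⟫
          + ‖(T.card : ℝ)⁻¹ • ∑ i ∈ T, z i‖ ^ 2 := fun i _ => by
      rw [← sub_eq_add_neg, norm_sub_sq_real]
    rw [Finset.sum_congr rfl h4, Finset.sum_add_distrib, Finset.sum_sub_distrib,
      ← Finset.mul_sum, ← sum_inner, Finset.sum_const, nsmul_eq_mul, real_inner_smul_right,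
      real_inner_self_eq_norm_sq, norm_smul, mul_pow, norm_inv, Real.norm_eq_abs,
      abs_of_pos hτ] at h1
    have h5 : ∑ i ∈ T, ‖z i‖ ^ 2 - 2 * ((T.card : ℝ)⁻¹ * ‖∑ i ∈ T, z i‖ ^ 2)
        + (T.card : ℝ) * ((T.card : ℝ)⁻¹ ^ 2 * ‖∑ i ∈ T, z i‖ ^ 2)
        = ∑ i ∈ T, ‖z i‖ ^ 2 - ‖∑ i ∈ T, z i‖ ^ 2 / T.card := by
      field_simp
      ring
    rw [h5, h0, norm_neg, sum_compl_eq] at h1
    exact h1
  have hle : F (restr z T) ^ 2 ≤ S z * (S z - t2 - nu2) :=
    h.trans (mul_le_mul_of_nonneg_right hR.le hB)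
  have hF : F (restr z T) = S z - Lam z T := by unfold Lam; ring
  rw [hF] at hle
  have h6 : Lam z T ^ 2 / S z ≤ 2 * Lam z T - (t2 + nu2) := by
    rw [div_le_iff₀ hS]
    nlinarith
  linarith

end deletion

/-! ### The absolute first moment -/

lemma integral_abs_gaussian_one :
    ∫ x : ℝ, |x| ∂(gaussianReal 0 1) = Real.sqrt (2 / Real.pi) := by
  rw [integral_gaussianReal_eq_integral_smul (by norm_num)]
  have h0 : ∀ x : ℝ, gaussianPDFReal 0 1 x • |x| = (fun y : ℝ =>
      (Real.sqrt (2 * Real.pi))⁻¹ * (y * Real.exp (-(1 / 2) * y ^ (2 : ℝ)))) |x| := by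
    intro x
    simp only [gaussianPDFReal, smul_eq_mul, NNReal.coe_one, mul_one, sub_zero]
    rw [Real.rpow_two, sq_abs]
    have : -x ^ 2 / 2 = -(1 / 2) * x ^ 2 := by ring
    rw [this]
    ring
  simp_rw [h0]
  rw [integral_comp_abs (f := fun y : ℝ =>
      (Real.sqrt (2 * Real.pi))⁻¹ * (y * Real.exp (-(1 / 2) * y ^ (2 : ℝ))))]
  rw [integral_const_mul]
  have h1 : ∫ x in Set.Ioi (0 : ℝ), x * Real.exp (-(1 / 2) * x ^ (2 : ℝ)) = 1 := by
    have := integral_rpow_mul_exp_neg_mul_rpow (p := 2) (q := 1) (b := 1 / 2)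
      (by norm_num) (by norm_num) (by norm_num)
    simp only [Real.rpow_one] at this
    rw [this]
    norm_num [Real.Gamma_one]
  rw [h1, mul_one]
  have hpi : 0 < Real.pi := Real.pi_pos
  rw [Real.sqrt_div (by norm_num), Real.sqrt_mul (by norm_num)]
  have h2 : 0 < Real.sqrt 2 := by positivity
  have h3 : 0 < Real.sqrt Real.pi := by positivity
  field_simp
  rw [Real.sq_sqrt (by norm_num)]

/-- The law of `⟪v, g⟫`. -/
lemma map_inner_std (v : E) :
    (stdGaussian E).map (fun g => ⟪v, g⟫) = gaussianReal 0 (Real.toNNReal (‖v‖ ^ 2)) := by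
  have h := IsGaussian.map_eq_gaussianReal (μ := stdGaussian E) (innerSL ℝ v)
  rw [variance_dual_stdGaussian, integral_strongDual_stdGaussian, innerSL_apply_norm] at h
  exact h

lemma integral_abs_inner (v : E) :
    ∫ g : E, |⟪v, g⟫| ∂(stdGaussian E) = ‖v‖ * Real.sqrt (2 / Real.pi) := by
  have h1 : ∫ g : E, |⟪v, g⟫| ∂(stdGaussian E)
      = ∫ x : ℝ, |x| ∂((stdGaussian E).map (fun g => ⟪v, g⟫)) := by
    exact (integral_map (continuous_const.inner continuous_id).measurable.aemeasurable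
      continuous_abs.measurable.aestronglyMeasurable).symm
  rw [h1, map_inner_std]
  have h2 : gaussianReal 0 (Real.toNNReal (‖v‖ ^ 2))
      = (gaussianReal 0 1).map (fun x => ‖v‖ * x) := by
    rw [gaussianReal_map_const_mul]
    congr 1
    · simp
    · ext
      simp
  rw [h2, integral_map (measurable_const_mul _).aemeasurable
    continuous_abs.measurable.aestronglyMeasurable]
  simp_rw [abs_mul, abs_norm]
  rw [integral_const_mul, integral_abs_gaussian_one]

lemma integral_neg_std (f : E → ℝ) (hf : Measurable f) :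
    ∫ g : E, f (-g) ∂(stdGaussian E) = ∫ g : E, f g ∂(stdGaussian E) := by
  have h := stdGaussian_map (E := E) (LinearIsometryEquiv.neg ℝ)
  conv_rhs => rw [← h]
  rw [integral_map (LinearIsometryEquiv.neg ℝ (E := E)).continuous.measurable.aemeasurable
    hf.aestronglyMeasurable]
  rfl

/-! ### `k = 3` -/

lemma range_three (a b d : ℝ) :
    max (max a b) d - min (min a b) d = (|a - b| + |a - d| + |b - d|) / 2 := by
  rcases abs_cases (a - b) with ⟨e1, f1⟩ | ⟨e1, f1⟩ <;>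
    rcases abs_cases (a - d) with ⟨e2, f2⟩ | ⟨e2, f2⟩ <;>
    rcases abs_cases (b - d) with ⟨e3, f3⟩ | ⟨e3, f3⟩ <;>
    rw [e1, e2, e3] <;> simp only [max_def, min_def] <;> split_ifs <;> linarith

theorem PF_three : PF E 3 := by
  intro z
  set c : ℝ := Real.sqrt (2 / Real.pi) with hc
  have hc2 : c ^ 2 = 2 / Real.pi := Real.sq_sqrt (by positivity)
  have hc0 : 0 ≤ c := Real.sqrt_nonneg _
  -- pointwise
  have hmx : ∀ g, mx z g = max (max ⟪z 0, g⟫ ⟪z 1, g⟫) ⟪z 2, g⟫ := by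
    intro g
    apply le_antisymm
    · refine mx_le fun i => ?_
      fin_cases i
      · exact (le_max_left _ _).trans (le_max_left _ _)
      · exact (le_max_right _ _).trans (le_max_left _ _)
      · exact le_max_right _ _
    · exact max_le (max_le (le_mx z 0 g) (le_mx z 1 g)) (le_mx z 2 g)
  have hmx' : ∀ g, mx z (-g) = - min (min ⟪z 0, g⟫ ⟪z 1, g⟫) ⟪z 2, g⟫ := by
    intro g
    rw [hmx]
    simp only [inner_neg_right]
    rw [max_neg_neg, max_neg_neg]
  have hpt : ∀ g, mx z g + mx z (-g)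
      = (|⟪z 0 - z 1, g⟫| + |⟪z 0 - z 2, g⟫| + |⟪z 1 - z 2, g⟫|) / 2 := by
    intro g
    rw [hmx, hmx', inner_sub_left, inner_sub_left, inner_sub_left, ← range_three]
    ring
  have hint : ∀ v : E, Integrable (fun g : E => |⟪v, g⟫|) (stdGaussian E) := fun v =>
    (integrable_inner_std v).abs
  have hneg : ∫ g, mx z (-g) ∂(stdGaussian E) = F z := integral_neg_std _ (measurable_mx z)
  have hnegI : Integrable (fun g => mx z (-g)) (stdGaussian E) := by
    have h := stdGaussian_map (E := E) (LinearIsometryEquiv.neg ℝ)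
    have h2 : Integrable (mx z) ((stdGaussian E).map (LinearIsometryEquiv.neg ℝ (E := E))) := by
      rw [h]; exact integrable_mx z
    exact (integrable_map_measure (measurable_mx z).aestronglyMeasurable
      (LinearIsometryEquiv.neg ℝ (E := E)).continuous.measurable.aemeasurable).1 h2
  have h2F : 2 * F z = (‖z 0 - z 1‖ + ‖z 0 - z 2‖ + ‖z 1 - z 2‖) * c / 2 := by
    have h1 : ∫ g, (mx z g + mx z (-g)) ∂(stdGaussian E) = 2 * F z := by
      rw [integral_add (integrable_mx z) hnegI, hneg]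
      unfold F; ring
    rw [← h1]
    simp_rw [hpt]
    have h12 : Integrable (fun g : E => |⟪z 0 - z 1, g⟫| + |⟪z 0 - z 2, g⟫|) (stdGaussian E) :=
      (hint _).add (hint _)
    rw [integral_div, integral_add h12 (hint _),
      integral_add (hint _) (hint _), integral_abs_inner, integral_abs_inner, integral_abs_inner]
    ring
  set d1 := ‖z 0 - z 1‖
  set d2 := ‖z 0 - z 2‖
  set d3 := ‖z 1 - z 2‖
  have hS : S z = ‖z 0‖ ^ 2 + ‖z 1‖ ^ 2 + ‖z 2‖ ^ 2 := by
    unfold S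
    rw [Fin.sum_univ_three]
  have hd : d1 ^ 2 + d2 ^ 2 + d3 ^ 2 ≤ 3 * S z := by
    have h1 : d1 ^ 2 = ‖z 0‖ ^ 2 - 2 * ⟪z 0, z 1⟫ + ‖z 1‖ ^ 2 := norm_sub_sq_real _ _
    have h2 : d2 ^ 2 = ‖z 0‖ ^ 2 - 2 * ⟪z 0, z 2⟫ + ‖z 2‖ ^ 2 := norm_sub_sq_real _ _
    have h3 : d3 ^ 2 = ‖z 1‖ ^ 2 - 2 * ⟪z 1, z 2⟫ + ‖z 2‖ ^ 2 := norm_sub_sq_real _ _
    have h4 : 0 ≤ ‖z 0 + z 1 + z 2‖ ^ 2 := by positivity
    have h5 : ‖z 0 + z 1 + z 2‖ ^ 2 = ‖z 0‖ ^ 2 + ‖z 1‖ ^ 2 + ‖z 2‖ ^ 2
        + 2 * ⟪z 0, z 1⟫ + 2 * ⟪z 0, z 2⟫ + 2 * ⟪z 1, z 2⟫ := by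
      rw [norm_add_sq_real, norm_add_sq_real, inner_add_left]
      ring
    rw [hS]
    nlinarith
  have hF : F z = (d1 + d2 + d3) * c / 4 := by linarith
  have hsum : (d1 + d2 + d3) ^ 2 ≤ 9 * S z := by
    nlinarith [sq_nonneg (d1 - d2), sq_nonneg (d1 - d3), sq_nonneg (d2 - d3)]
  rw [hF]
  have hpi : 0 < Real.pi := Real.pi_pos
  have : ((d1 + d2 + d3) * c / 4) ^ 2 = (d1 + d2 + d3) ^ 2 * (2 / Real.pi) / 16 := by
    rw [← hc2]; ring
  rw [this]
  unfold R
  have h3 : (d1 + d2 + d3) ^ 2 * (2 / Real.pi) / 16 ≤ 9 * S z * (2 / Real.pi) / 16 := by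
    gcongr
  refine h3.trans (le_of_eq ?_)
  field_simp
  ring

/-! ### The induction frame -/

theorem PF_all_of_step
    (step : ∀ k, 4 ≤ k → PF E (k - 1) → ∀ (z : Fin k → E) (A : Fin k → Set E),
      Critical z A → R < S z → False) : ∀ n, PF E n := by
  intro n
  induction n using Nat.strong_induction_on with
  | _ n ih =>
    by_cases hn : n ≤ 3
    · exact PF_of_le hn PF_three
    · push Not at hn
      intro z
      by_contra hlt
      push Not at hlt
      have : Nonempty (Fin n) := ⟨⟨0, by omega⟩⟩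
      obtain ⟨z', A, hc, hR⟩ := exists_critical z R R_pos.le hlt
      exact step n (by omega) (ih _ (by omega)) z' A hc hR

/-- The final statement from the induction step. -/
theorem result_of_step {κ : Type v} [Fintype κ]
    (step : ∀ k, 4 ≤ k → PF E (k - 1) → ∀ (z : Fin k → E) (A : Fin k → Set E),
      Critical z A → R < S z → False)
    (A : κ → Set E) (hA : ∀ i, MeasurableSet (A i))
    (hdisj : Pairwise fun i j => Disjoint (A i) (A j)) (hcov : ⋃ i, A i = Set.univ) :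
    ∑ i, ‖∫ x in A i, x ∂stdGaussian E‖ ^ 2 ≤ 9 / (8 * Real.pi) :=
  partition_bound (PF_all_of_step step) ⟨hA, hdisj, hcov⟩

/-! ### Consequences for a critical configuration at level `k` -/

section consequences
variable {k : ℕ}

/-- For a critical `z` at level `k` and `P (k-1)`: all pairs are obtuse, quantitatively. -/
theorem Critical.inner_le {z : Fin k → E} {A : Fin k → Set E} (hc : Critical z A)
    (hP : PF E (k - 1)) {a b : Fin k} (hab : a ≠ b) :
    ⟪z a, z b⟫ ≤ (R - S z) / 2 := by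
  have hcard : Fintype.card {i // i ≠ b} = k - 1 := by
    simp [Fintype.card_subtype_compl]
  have := hc.merge_le hab (PP_of_PF hP hcard)
  linarith

/-- Deletion with `P (k-1)`. -/
theorem Critical.deletion' {z : Fin k → E} {A : Fin k → Set E} (hc : Critical z A) (hR : R < S z)
    (hP : PF E (k - 1)) (T : Finset (Fin k)) (hT : T.Nonempty) (hTk : T.card ≤ k - 1) :
    ∑ i ∈ Tᶜ, ‖z i‖ ^ 2 + ‖∑ i ∈ Tᶜ, z i‖ ^ 2 / T.card
      ≤ 2 * Lam z T - Lam z T ^ 2 / S z :=
  hc.deletion hR T hT (PP_of_PF (PF_of_le hTk hP) (by simp))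

end consequences

end Crest.Agent.Propeller
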