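import Crest.Agent.Lib.Propeller.PairBall

/-!
# Propeller: the deletion gain as a double integral

For `z` with `F z = S z`, `j` fixed, `T = {i ≠ j}`, `s = ‖z j‖ > 0`, `e = z j / s`:

`Lam z T = ∫_{n > 0} ∫_{w > 0} γ (below T (prp e ∘ z) (n(s - ⟪z i, e⟫) - w)) dw dN(n)`.
-/

set_option autoImplicit false
set_option linter.unusedSectionVars false
open MeasureTheory ProbabilityTheory
open scoped RealInnerProductSpace ENNReal

namespace Crest.Agent.Propeller

universe u v

variable {E : Type u} [NormedAddCommGroup E] [InnerProductSpace ℝ E] [FiniteDimensional ℝ E]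
  [MeasurableSpace E] [BorelSpace E]
variable {k : ℕ}

/-- `F z - F (z|T)` is the expectation of the positive part when `T` omits one point. -/
lemma mx_eq_max (z : Fin k → E) (j : Fin k) (hT : (Finset.univ.erase j).Nonempty) (g : E) :
    mx z g = max ⟪z j, g⟫ (mx (restr z (Finset.univ.erase j)) g) := by
  have : Nonempty {i // i ∈ Finset.univ.erase j} := hT.to_subtype
  apply le_antisymm
  · obtain ⟨i, hi⟩ : ∃ i, mx z g = ⟪z i, g⟫ := by
      have : Nonempty (Fin k) := ⟨j⟩
      exact exists_mx_eq z g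
    rw [hi]
    by_cases hij : i = j
    · rw [hij]; exact le_max_left _ _
    · refine le_max_of_le_right ?_
      have hmem : i ∈ Finset.univ.erase j := by simp [hij]
      exact le_mx (restr z (Finset.univ.erase j)) ⟨i, hmem⟩ g
  · refine max_le (le_mx z j g) ?_
    refine mx_le fun i => ?_
    exact le_mx z i.1 g

/-- The positive part formula. -/
theorem F_sub_F_restr (z : Fin k → E) (j : Fin k) (hT : (Finset.univ.erase j).Nonempty) :
    F z - F (restr z (Finset.univ.erase j))
      = ∫ g, max 0 (⟪z j, g⟫ - mx (restr z (Finset.univ.erase j)) g) ∂(stdGaussian E) := by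
  unfold F
  rw [← integral_sub (integrable_mx z) (integrable_mx _)]
  refine integral_congr_ae (Filter.Eventually.of_forall fun g => ?_)
  simp only
  rw [mx_eq_max z j hT g]
  rcases le_total ⟪z j, g⟫ (mx (restr z (Finset.univ.erase j)) g) with h | h
  · rw [max_eq_right h, max_eq_left (by linarith)]
    ring
  · rw [max_eq_left h, max_eq_right (by linarith)]


/-- The thresholds after splitting along `e`. -/
noncomputable def yy (z : Fin k → E) (e : E) (s n w : ℝ) (i : Fin k) : ℝ :=
  n * (s - ⟪z i, e⟫) - w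

lemma mx_lt_iff {ι : Type*} [Fintype ι] [Nonempty ι] (z : ι → E) (g : E) (c : ℝ) :
    mx z g < c ↔ ∀ i, ⟪z i, g⟫ < c := by
  constructor
  · intro h i
    exact (le_mx z i g).trans_lt h
  · intro h
    obtain ⟨i, hi⟩ := exists_mx_eq z g
    rw [hi]
    exact h i

/-- The exact layer-cake formula. -/
theorem ofReal_gain_eq (z : Fin k → E) (j : Fin k) (hT : (Finset.univ.erase j).Nonempty)
    (hs : 0 < ‖z j‖) :
    ENNReal.ofReal (F z - F (restr z (Finset.univ.erase j)))
      = ∫⁻ n, (∫⁻ w in Set.Ioi (0 : ℝ),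
          stdGaussian E (below (Finset.univ.erase j) (fun i => prp (‖z j‖⁻¹ • z j) (z i))
            (yy z (‖z j‖⁻¹ • z j) ‖z j‖ n w))) ∂(gaussianReal 0 1) := by
  set T := Finset.univ.erase j with hTdef
  set s := ‖z j‖ with hsdef
  set e : E := s⁻¹ • z j with he_def
  have he : ‖e‖ = 1 := by
    rw [he_def, norm_smul, norm_inv, Real.norm_eq_abs, abs_of_pos hs, ← hsdef]
    exact inv_mul_cancel₀ hs.ne'
  have hze : z j = s • e := by
    rw [he_def, smul_smul, mul_inv_cancel₀ hs.ne', one_smul]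
  have : Nonempty {i // i ∈ T} := hT.to_subtype
  have hinteg : Integrable (fun g => max 0 (⟪z j, g⟫ - mx (restr z T) g)) (stdGaussian E) := by
    have := ((integrable_inner_std (z j)).sub (integrable_mx (restr z T))).pos_part
    refine this.congr (Filter.Eventually.of_forall fun g => ?_)
    simp only [Pi.sub_apply, max_comm]
  rw [F_sub_F_restr z j hT, ofReal_integral_eq_lintegral_ofReal hinteg
    (Filter.Eventually.of_forall fun g => le_max_left _ _)]
  have hmeasf : Measurable (fun g => ENNReal.ofReal (max 0 (⟪z j, g⟫ - mx (restr z T) g))) := by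
    apply ENNReal.measurable_ofReal.comp
    exact measurable_const.max
      ((continuous_const.inner continuous_id).measurable.sub (measurable_mx _))
  rw [lintegral_split e he hmeasf]
  refine lintegral_congr fun n => ?_
  -- the inner Tonelli
  have hh : Measurable (fun g' : E => ⟪z j, n • e + prp e g'⟫
      - mx (restr z T) (n • e + prp e g')) := by
    have hc : Continuous (fun g' : E => n • e + prp e g') := by
      have := continuous_prp e
      fun_prop
    exact (continuous_const.inner hc).measurable.sub ((measurable_mx _).comp hc.measurable)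
  have hlayer : ∀ g' : E, ENNReal.ofReal (max 0 (⟪z j, n • e + prp e g'⟫
        - mx (restr z T) (n • e + prp e g')))
      = ∫⁻ w in Set.Ioi (0 : ℝ), Set.indicator
          {p : E × ℝ | p.2 < ⟪z j, n • e + prp e p.1⟫ - mx (restr z T) (n • e + prp e p.1)}
          1 (g', w) := by
    intro g'
    set x := ⟪z j, n • e + prp e g'⟫ - mx (restr z T) (n • e + prp e g') with hx
    have h1 : (fun w : ℝ => Set.indicator
          {p : E × ℝ | p.2 < ⟪z j, n • e + prp e p.1⟫ - mx (restr z T) (n • e + prp e p.1)}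
          (1 : E × ℝ → ℝ≥0∞) (g', w)) = Set.indicator (Set.Iio x) 1 := by
      funext w
      by_cases hw : w < x
      · rw [Set.indicator_of_mem (show w ∈ Set.Iio x from hw), Set.indicator_of_mem]
        · rfl
        · exact hw
      · rw [Set.indicator_of_notMem (show w ∉ Set.Iio x from hw), Set.indicator_of_notMem]
        exact hw
    rw [h1, lintegral_indicator_one₀ (measurableSet_Iio.nullMeasurableSet),
      Measure.restrict_apply measurableSet_Iio]
    have h2 : Set.Iio x ∩ Set.Ioi (0 : ℝ) = Set.Ioo 0 x := by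
      ext w; simp [and_comm]
    rw [h2, Real.volume_Ioo, sub_zero]
    rcases le_total x 0 with h | h
    · rw [max_eq_left h, ENNReal.ofReal_of_nonpos h]; simp
    · rw [max_eq_right h]
  simp_rw [hlayer]
  have hjoint : Measurable (Set.indicator
      {p : E × ℝ | p.2 < ⟪z j, n • e + prp e p.1⟫ - mx (restr z T) (n • e + prp e p.1)}
      (1 : E × ℝ → ℝ≥0∞)) := by
    apply Measurable.indicator measurable_one
    exact measurableSet_lt measurable_snd (hh.comp measurable_fst)
  have hunc : Function.uncurry (fun (g' : E) (w : ℝ) => Set.indicator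
      {p : E × ℝ | p.2 < ⟪z j, n • e + prp e p.1⟫ - mx (restr z T) (n • e + prp e p.1)}
      (1 : E × ℝ → ℝ≥0∞) (g', w)) = Set.indicator
      {p : E × ℝ | p.2 < ⟪z j, n • e + prp e p.1⟫ - mx (restr z T) (n • e + prp e p.1)}
      (1 : E × ℝ → ℝ≥0∞) := by
    funext p
    rfl
  rw [lintegral_lintegral_swap (by rw [hunc]; exact hjoint.aemeasurable)]
  refine lintegral_congr fun w => ?_
  -- the slice
  have hset : {g' : E | (g', w) ∈
      {p : E × ℝ | p.2 < ⟪z j, n • e + prp e p.1⟫ - mx (restr z T) (n • e + prp e p.1)}}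
      = below T (fun i => prp e (z i)) (yy z e s n w) := by
    ext g'
    simp only [Set.mem_ofPred_eq, below, yy]
    have h3 : ⟪z j, n • e + prp e g'⟫ = n * s := by
      rw [inner_split]
      have : prp e (z j) = 0 := by rw [hze, prp, inner_smul_right, real_inner_self_eq_norm_sq, he]; simp
      rw [this, inner_zero_left, add_zero, hze, inner_smul_left, real_inner_self_eq_norm_sq, he]
      simp
    rw [h3]
    constructor
    · intro h i hi
      have h4 : mx (restr z T) (n • e + prp e g') < n * s - w := by linarith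
      rw [mx_lt_iff] at h4
      have h5 := h4 ⟨i, hi⟩
      simp only [restr] at h5
      rw [inner_split] at h5
      nlinarith
    · intro h
      have h4 : mx (restr z T) (n • e + prp e g') < n * s - w := by
        rw [mx_lt_iff]
        rintro ⟨i, hi⟩
        simp only [restr]
        rw [inner_split]
        have := h i hi
        nlinarith
      linarith
  have hind : (fun g' : E => Set.indicator
      {p : E × ℝ | p.2 < ⟪z j, n • e + prp e p.1⟫ - mx (restr z T) (n • e + prp e p.1)}
      (1 : E × ℝ → ℝ≥0∞) (g', w))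
      = Set.indicator (below T (fun i => prp e (z i)) (yy z e s n w)) 1 := by
    funext g'
    rw [← hset]
    rfl
  rw [hind, lintegral_indicator_one (measurableSet_below _ _ _)]

/-- Zero-sum of the projected family. -/
lemma sum_prp_erase (z : Fin k → E) (j : Fin k) (hsum : ∑ i, z i = 0) (hs : 0 < ‖z j‖) :
    ∑ i ∈ Finset.univ.erase j, prp (‖z j‖⁻¹ • z j) (z i) = 0 := by
  rw [sum_prp]
  have h1 : ∑ i ∈ Finset.univ.erase j, z i = - z j := by
    have := Finset.add_sum_erase Finset.univ z (Finset.mem_univ j)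
    rw [hsum] at this
    exact eq_neg_of_add_eq_zero_right this
  rw [h1]
  set s := ‖z j‖ with hsdef
  set e : E := s⁻¹ • z j with he_def
  have he : ‖e‖ = 1 := by
    rw [he_def, norm_smul, norm_inv, Real.norm_eq_abs, abs_of_pos hs, ← hsdef]
    exact inv_mul_cancel₀ hs.ne'
  have hze : z j = s • e := by
    rw [he_def, smul_smul, mul_inv_cancel₀ hs.ne', one_smul]
  rw [prp, inner_neg_right, hze, inner_smul_right, real_inner_self_eq_norm_sq, he]
  simp

/-- The sum of the thresholds. -/
lemma sum_yy (z : Fin k → E) (j : Fin k) (hsum : ∑ i, z i = 0) (hs : 0 < ‖z j‖) (n w : ℝ) :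
    ∑ i ∈ Finset.univ.erase j, yy z (‖z j‖⁻¹ • z j) ‖z j‖ n w i
      = (k : ℝ) * n * ‖z j‖ - ((k : ℝ) - 1) * w := by
  set s := ‖z j‖ with hsdef
  set e : E := s⁻¹ • z j with he_def
  have he : ‖e‖ = 1 := by
    rw [he_def, norm_smul, norm_inv, Real.norm_eq_abs, abs_of_pos hs, ← hsdef]
    exact inv_mul_cancel₀ hs.ne'
  have hze : z j = s • e := by
    rw [he_def, smul_smul, mul_inv_cancel₀ hs.ne', one_smul]
  have h1 : ∑ i ∈ Finset.univ.erase j, z i = - z j := by
    have := Finset.add_sum_erase Finset.univ z (Finset.mem_univ j)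
    rw [hsum] at this
    exact eq_neg_of_add_eq_zero_right this
  have h2 : ∑ i ∈ Finset.univ.erase j, ⟪z i, e⟫ = -s := by
    rw [← sum_inner, h1, inner_neg_left, hze, inner_smul_left, real_inner_self_eq_norm_sq, he]
    simp
  have hk : (1 : ℕ) ≤ k := by
    have := j.pos
    omega
  have hcard : ((Finset.univ.erase j).card : ℝ) = k - 1 := by
    rw [Finset.card_erase_of_mem (Finset.mem_univ j), Finset.card_univ, Fintype.card_fin,
      Nat.cast_sub hk]
    simp
  unfold yy
  rw [Finset.sum_sub_distrib, ← Finset.mul_sum, Finset.sum_sub_distrib, h2, Finset.sum_const,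
    Finset.sum_const, nsmul_eq_mul, nsmul_eq_mul, hcard]
  ring

/-- **Main bound**: any pointwise bound on the `below` probabilities on the relevant range
bounds the gain. -/
theorem gain_le_of_bound (z : Fin k → E) (j : Fin k) (hT : (Finset.univ.erase j).Nonempty)
    (hsum : ∑ i, z i = 0) (hs : 0 < ‖z j‖) (hk2 : 2 ≤ k) (B : ℝ → ℝ → ℝ≥0∞)
    (hB : ∀ n, 0 < n → ∀ w ∈ Set.Ioo (0 : ℝ) ((k : ℝ) * n * ‖z j‖ / ((k : ℝ) - 1)),
      stdGaussian E (below (Finset.univ.erase j) (fun i => prp (‖z j‖⁻¹ • z j) (z i))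
            (yy z (‖z j‖⁻¹ • z j) ‖z j‖ n w)) ≤ B n w) :
    ENNReal.ofReal (F z - F (restr z (Finset.univ.erase j)))
      ≤ ∫⁻ n in Set.Ioi (0 : ℝ), (∫⁻ w in Set.Ioo (0 : ℝ) ((k : ℝ) * n * ‖z j‖ / ((k : ℝ) - 1)), B n w)
          ∂(gaussianReal 0 1) := by
  rw [ofReal_gain_eq z j hT hs]
  set T := Finset.univ.erase j with hTdef
  set s := ‖z j‖ with hsdef
  set e : E := s⁻¹ • z j with he_def
  have hk1 : (0 : ℝ) < (k : ℝ) - 1 := by
    have : (2 : ℝ) ≤ k := by exact_mod_cast hk2
    linarith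
  have hempty : ∀ n w : ℝ, below T (fun i => prp e (z i)) (yy z e s n w) ≠ ∅ →
      0 < (k : ℝ) * n * s - ((k : ℝ) - 1) * w := by
    intro n w hne
    obtain ⟨g, hg⟩ := Set.nonempty_iff_ne_empty.2 hne
    have h1 : ∑ i ∈ T, ⟪prp e (z i), g⟫ < ∑ i ∈ T, yy z e s n w i :=
      Finset.sum_lt_sum_of_nonempty hT hg
    rw [← sum_inner, hTdef, sum_prp_erase z j hsum hs, inner_zero_left, sum_yy z j hsum hs] at h1
    exact h1
  -- restrict `w`
  have hinner : ∀ n : ℝ, ∫⁻ w in Set.Ioi (0 : ℝ), stdGaussian E (below T (fun i => prp e (z i))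
        (yy z e s n w))
      ≤ ∫⁻ w in Set.Ioo (0 : ℝ) ((k : ℝ) * n * s / ((k : ℝ) - 1)), stdGaussian E (below T (fun i => prp e (z i))
        (yy z e s n w)) := by
    intro n
    have hsplit : Set.Ioi (0 : ℝ) ⊆ Set.Ioo (0 : ℝ) ((k : ℝ) * n * s / ((k : ℝ) - 1))
        ∪ Set.Ici ((k : ℝ) * n * s / ((k : ℝ) - 1)) := by
      intro w hw
      by_cases hw2 : w < k * n * s / (k - 1)
      · exact Or.inl ⟨hw, hw2⟩
      · exact Or.inr (not_lt.1 hw2)
    have h0 : ∫⁻ w in Set.Ici ((k : ℝ) * n * s / ((k : ℝ) - 1)), stdGaussian E (below T (fun i => prp e (z i))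
        (yy z e s n w)) = 0 := by
      refine setLIntegral_eq_zero measurableSet_Ici fun w hw => ?_
      by_contra hne
      have h2 : below T (fun i => prp e (z i)) (yy z e s n w) ≠ ∅ := by
        intro h3
        rw [h3] at hne
        simp at hne
      have h3 := hempty n w h2
      have h4 : (k : ℝ) * n * s / ((k : ℝ) - 1) ≤ w := hw
      rw [div_le_iff₀ hk1] at h4
      nlinarith
    calc ∫⁻ w in Set.Ioi (0 : ℝ), stdGaussian E (below T (fun i => prp e (z i)) (yy z e s n w))
        ≤ ∫⁻ w in Set.Ioo (0 : ℝ) ((k : ℝ) * n * s / ((k : ℝ) - 1)) ∪ Set.Ici ((k : ℝ) * n * s / ((k : ℝ) - 1)),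
            stdGaussian E (below T (fun i => prp e (z i)) (yy z e s n w)) :=
          lintegral_mono_set hsplit
      _ ≤ (∫⁻ w in Set.Ioo (0 : ℝ) ((k : ℝ) * n * s / ((k : ℝ) - 1)),
            stdGaussian E (below T (fun i => prp e (z i)) (yy z e s n w)))
          + ∫⁻ w in Set.Ici ((k : ℝ) * n * s / ((k : ℝ) - 1)),
            stdGaussian E (below T (fun i => prp e (z i)) (yy z e s n w)) :=
          lintegral_union_le _ _ _
      _ = _ := by rw [h0, add_zero]
  -- the integrand vanishes for `n ≤ 0`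
  have hzero : ∀ n : ℝ, n ≤ 0 → ∫⁻ w in Set.Ioi (0 : ℝ), stdGaussian E (below T
      (fun i => prp e (z i)) (yy z e s n w)) = 0 := by
    intro n hn
    refine setLIntegral_eq_zero measurableSet_Ioi fun w hw => ?_
    by_contra hne
    have h2 : below T (fun i => prp e (z i)) (yy z e s n w) ≠ ∅ := by
      intro h3
      rw [h3] at hne
      simp at hne
    have h3 := hempty n w h2
    have h4 : 0 < w := hw
    have h5 : (k : ℝ) * n * s ≤ 0 := by
      have : 0 ≤ (k : ℝ) * s := by positivity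
      nlinarith
    nlinarith
  have hind : (fun n : ℝ => ∫⁻ w in Set.Ioi (0 : ℝ), stdGaussian E (below T
      (fun i => prp e (z i)) (yy z e s n w)))
      = (Set.Ioi (0 : ℝ)).indicator (fun n : ℝ => ∫⁻ w in Set.Ioi (0 : ℝ), stdGaussian E (below T
      (fun i => prp e (z i)) (yy z e s n w))) := by
    funext n
    by_cases hn : 0 < n
    · rw [Set.indicator_of_mem (show n ∈ Set.Ioi (0 : ℝ) from hn)]
    · rw [Set.indicator_of_notMem (show n ∉ Set.Ioi (0 : ℝ) from hn)]
      exact hzero n (not_lt.1 hn)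
  rw [hind, lintegral_indicator measurableSet_Ioi]
  refine setLIntegral_mono' measurableSet_Ioi fun n hn => ?_
  refine (hinner n).trans ?_
  exact setLIntegral_mono' measurableSet_Ioo fun w hw => hB n hn w hw

/-- `E n₊³ = √(2/π)`. -/
lemma lintegral_cube_gaussian (C : ℝ) (hC : 0 ≤ C) :
    ∫⁻ n in Set.Ioi (0 : ℝ), ENNReal.ofReal (C * n ^ 3) ∂(gaussianReal 0 1)
      = ENNReal.ofReal (C * Real.sqrt (2 / Real.pi)) := by
  have hv : (1 : NNReal) ≠ 0 := one_ne_zero
  have hpi := Real.pi_pos
  have hform : ∀ x : ℝ, 0 < x → gaussianPDFReal 0 1 x * (C * x ^ 3)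
      = (C * (Real.sqrt (2 * Real.pi))⁻¹) * (x ^ (3 : ℝ) * Real.exp (-(1 / 2) * x ^ (2 : ℝ))) := by
    intro x _
    simp only [gaussianPDFReal, NNReal.coe_one, mul_one, sub_zero]
    rw [Real.rpow_two]
    have h1 : x ^ (3 : ℝ) = x ^ 3 := by
      rw [← Real.rpow_natCast]; norm_num
    rw [h1]
    have : -x ^ 2 / 2 = -(1 / 2) * x ^ 2 := by ring
    rw [this]
    ring
  have hint : IntegrableOn (fun x : ℝ => gaussianPDFReal 0 1 x * (C * x ^ 3)) (Set.Ioi 0) := by
    have h := integrableOn_rpow_mul_exp_neg_mul_rpow (s := 3) (p := 2) (b := 1 / 2)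
      (by norm_num) (by norm_num) (by norm_num)
    have h2 : IntegrableOn (fun x : ℝ => (C * (Real.sqrt (2 * Real.pi))⁻¹)
        * (x ^ (3 : ℝ) * Real.exp (-(1 / 2) * x ^ (2 : ℝ)))) (Set.Ioi 0) :=
      h.const_mul (C * (Real.sqrt (2 * Real.pi))⁻¹)
    exact h2.congr_fun (fun x hx => (hform x hx).symm) measurableSet_Ioi
  have hval : ∫ x in Set.Ioi (0 : ℝ), gaussianPDFReal 0 1 x * (C * x ^ 3)
      = C * Real.sqrt (2 / Real.pi) := by
    rw [setIntegral_congr_fun measurableSet_Ioi (fun x hx => hform x hx), integral_const_mul]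
    have h := integral_rpow_mul_exp_neg_mul_rpow (p := 2) (q := 3) (b := 1 / 2)
      (by norm_num) (by norm_num) (by norm_num)
    rw [h]
    have h3 : (3 + 1 : ℝ) / 2 = 2 := by norm_num
    have h3' : (-(3 + 1) / 2 : ℝ) = -2 := by norm_num
    rw [h3, h3']
    have hG : Real.Gamma 2 = 1 := by
      have := Real.Gamma_nat_eq_factorial 1
      simp at this
      simp
    rw [hG]
    have h4 : ((1 : ℝ) / 2) ^ (-(2 : ℝ)) = 4 := by
      rw [Real.rpow_neg (by norm_num)]
      norm_num
    rw [h4]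
    have h5 : Real.sqrt (2 / Real.pi) = 2 * (Real.sqrt (2 * Real.pi))⁻¹ := by
      have hs : 0 < Real.sqrt (2 * Real.pi) := by positivity
      rw [Real.sqrt_div (by norm_num), Real.sqrt_mul (by norm_num)]
      have h2 : Real.sqrt 2 * Real.sqrt 2 = 2 := Real.mul_self_sqrt (by norm_num)
      have h3 : 0 < Real.sqrt Real.pi := by positivity
      have h6 : 0 < Real.sqrt 2 := by positivity
      field_simp
      nlinarith
    rw [h5]
    ring
  rw [gaussianReal_of_var_ne_zero _ hv, restrict_withDensity measurableSet_Ioi,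
    lintegral_withDensity_eq_lintegral_mul _ (measurable_gaussianPDF _ _)
      (by
        apply ENNReal.measurable_ofReal.comp
        fun_prop), ← hval,
    ofReal_integral_eq_lintegral_ofReal hint
      (by
        rw [Filter.EventuallyLE, ae_restrict_iff' measurableSet_Ioi]
        refine Filter.Eventually.of_forall fun x hx => ?_
        have := gaussianPDFReal_nonneg 0 1 x
        have hx' : 0 < x := hx
        simp only [Pi.zero_apply]
        positivity)]
  refine setLIntegral_congr_fun measurableSet_Ioi fun x hx => ?_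
  simp only [Pi.mul_apply, gaussianPDF]
  rw [ENNReal.ofReal_mul (gaussianPDFReal_nonneg _ _ _)]

/-- The inner integral of the pair bound. -/
lemma lintegral_square_ramp (A m D : ℝ) (hA : 0 ≤ A) (hm : 0 < m) (hD : 0 < D) :
    ∫⁻ w in Set.Ioo (0 : ℝ) (A / m), ENNReal.ofReal ((A - m * w) ^ 2 / D)
      = ENNReal.ofReal (A ^ 3 / (3 * m * D)) := by
  rw [← ofReal_integral_eq_lintegral_ofReal]
  · congr 1
    rw [← integral_Ioc_eq_integral_Ioo, ← intervalIntegral.integral_of_le (by positivity)]
    have h1 : ∀ w : ℝ, (A - m * w) ^ 2 / D = (A ^ 2 / D) - (2 * A * m / D) * w + (m ^ 2 / D) * w ^ 2 := by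
      intro w; ring
    simp_rw [h1]
    rw [intervalIntegral.integral_add (by apply Continuous.intervalIntegrable; fun_prop)
        (by apply Continuous.intervalIntegrable; fun_prop),
      intervalIntegral.integral_sub (by apply Continuous.intervalIntegrable; fun_prop)
        (by apply Continuous.intervalIntegrable; fun_prop),
      intervalIntegral.integral_const_mul, intervalIntegral.integral_const_mul, integral_id,
      integral_pow, intervalIntegral.integral_const, smul_eq_mul]
    have hm' : m ≠ 0 := hm.ne'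
    have hX : A = m * (A / m) := by field_simp
    set X := A / m with hXdef
    rw [hX]
    norm_num
    field_simp
    ring
  · apply IntegrableOn.mono_set (t := Set.Icc (0 : ℝ) (A / m)) _ Set.Ioo_subset_Icc_self
    apply Continuous.integrableOn_Icc
    fun_prop
  · refine Filter.Eventually.of_forall fun w => ?_
    simp only [Pi.zero_apply]
    positivity

/-- **Pair bound for the gain.** -/
theorem gain_le_pair (z : Fin k → E) (j : Fin k) (hT : (Finset.univ.erase j).Nonempty)
    (hsum : ∑ i, z i = 0) (hs : 0 < ‖z j‖) (hk2 : 2 ≤ k) {a b : Fin k}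
    (ha : a ∈ Finset.univ.erase j) (hb : b ∈ Finset.univ.erase j) (hab : a ≠ b)
    (Δ : ℝ) (hΔ : 0 < Δ)
    (hΔ2 : Δ ^ 2 ≤ ‖prp (‖z j‖⁻¹ • z j) (z a)‖ ^ 2 * ‖prp (‖z j‖⁻¹ • z j) (z b)‖ ^ 2
        - ⟪prp (‖z j‖⁻¹ • z j) (z a), prp (‖z j‖⁻¹ • z j) (z b)⟫ ^ 2) :
    F z - F (restr z (Finset.univ.erase j))
      ≤ ((k : ℝ) * ‖z j‖) ^ 3 * Real.sqrt (2 / Real.pi)
        / (12 * Real.pi * ((k : ℝ) - 1) * Δ) := by
  set s := ‖z j‖ with hsdef
  have hpi := Real.pi_pos
  have hk1 : (0 : ℝ) < (k : ℝ) - 1 := by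
    have : (2 : ℝ) ≤ k := by exact_mod_cast hk2
    linarith
  have hk0 : (0 : ℝ) < k := by linarith
  have hbound := gain_le_of_bound z j hT hsum hs hk2
    (fun n w => ENNReal.ofReal (((k : ℝ) * n * s - ((k : ℝ) - 1) * w) ^ 2 / (4 * Real.pi * Δ)))
    (by
      intro n hn w hw
      have h1 := below_zero_sum (Finset.univ.erase j) (fun i => prp (s⁻¹ • z j) (z i))
        (yy z (s⁻¹ • z j) s n w) (sum_prp_erase z j hsum hs) ha hb hab Δ hΔ hΔ2
      refine h1.trans (ENNReal.ofReal_le_ofReal ?_)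
      rw [sum_yy z j hsum hs n w]
      have hpos : 0 ≤ (k : ℝ) * n * s - ((k : ℝ) - 1) * w := by
        have := hw.2
        rw [lt_div_iff₀ hk1] at this
        linarith
      rw [max_eq_right hpos])
  have hinner : ∀ n ∈ Set.Ioi (0 : ℝ),
      ∫⁻ w in Set.Ioo (0 : ℝ) ((k : ℝ) * n * s / ((k : ℝ) - 1)),
        ENNReal.ofReal (((k : ℝ) * n * s - ((k : ℝ) - 1) * w) ^ 2 / (4 * Real.pi * Δ))
      = ENNReal.ofReal ((((k : ℝ) * s) ^ 3 / (3 * ((k : ℝ) - 1) * (4 * Real.pi * Δ))) * n ^ 3) := by
    intro n hn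
    have hn' : 0 < n := hn
    rw [lintegral_square_ramp _ _ _ (by positivity) hk1 (by positivity)]
    congr 1
    ring
  rw [setLIntegral_congr_fun measurableSet_Ioi hinner,
    lintegral_cube_gaussian _ (by positivity)] at hbound
  have h2 := (ENNReal.ofReal_le_ofReal_iff (by positivity)).1 hbound
  refine h2.trans (le_of_eq ?_)
  field_simp
  ring

/-- Deletion inequality at one point in terms of the gain. -/
theorem Critical.deletion_one {z : Fin k → E} {A : Fin k → Set E} (hc : Critical z A) (hR : R < S z)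
    (hP : PF E (k - 1)) (j : Fin k) (hk2 : 2 ≤ k) :
    ‖z j‖ ^ 2 * ((k : ℝ) / ((k : ℝ) - 1))
      ≤ 2 * (F z - F (restr z (Finset.univ.erase j)))
        - (F z - F (restr z (Finset.univ.erase j))) ^ 2 / S z := by
  have hk1 : (0 : ℝ) < (k : ℝ) - 1 := by
    have : (2 : ℝ) ≤ k := by exact_mod_cast hk2
    linarith
  have hne : (Finset.univ.erase j).Nonempty := by
    have : 1 < (Finset.univ : Finset (Fin k)).card := by simpa using (by omega : 1 < k)
    obtain ⟨i, hi, hij⟩ := Finset.exists_mem_ne this j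
    exact ⟨i, Finset.mem_erase.2 ⟨hij, hi⟩⟩
  have hcard : (Finset.univ.erase j).card = k - 1 := by
    rw [Finset.card_erase_of_mem (Finset.mem_univ j), Finset.card_univ, Fintype.card_fin]
  have h := hc.deletion' hR hP (Finset.univ.erase j) hne (by rw [hcard])
  have hcompl : (Finset.univ.erase j)ᶜ = {j} := by
    ext i
    simp
  rw [hcompl, Finset.sum_singleton, Finset.sum_singleton, hcard] at h
  have hL : Lam z (Finset.univ.erase j) = F z - F (restr z (Finset.univ.erase j)) := by
    unfold Lam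
    rw [hc.F_eq]
  rw [hL] at h
  refine le_trans (le_of_eq ?_) h
  have : ((k - 1 : ℕ) : ℝ) = (k : ℝ) - 1 := by
    rw [Nat.cast_sub (by omega)]
    simp
  rw [this]
  field_simp
  ring

/-- Existence of a pair with small weight in a zero-sum family. -/
lemma exists_small_weight {ι : Type*} [DecidableEq ι] (T : Finset ι) (v : ι → E)
    (hsum : ∑ i ∈ T, v i = 0) (hneg : ∀ i ∈ T, ∀ j ∈ T, i ≠ j → ⟪v i, v j⟫ ≤ 0) {a : ι} (ha : a ∈ T)
    (Q : Finset ι) (hQ : Q ⊆ T.erase a) (hQne : Q.Nonempty) :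
    ∃ b ∈ Q, -⟪v a, v b⟫ ≤ ‖v a‖ ^ 2 / Q.card := by
  have h1 : ‖v a‖ ^ 2 + ∑ i ∈ T.erase a, ⟪v a, v i⟫ = 0 := by
    have h := congrArg (fun x => ⟪v a, x⟫) hsum
    simp only [inner_sum, inner_zero_right] at h
    rw [← Finset.add_sum_erase _ _ ha, real_inner_self_eq_norm_sq] at h
    exact h
  have h2 : ∑ i ∈ Q, (-⟪v a, v i⟫) ≤ ∑ i ∈ T.erase a, (-⟪v a, v i⟫) := by
    refine Finset.sum_le_sum_of_subset_of_nonneg hQ fun i hi _ => ?_
    have := hneg a ha i (Finset.mem_of_mem_erase hi) (Finset.ne_of_mem_erase hi).symm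
    linarith
  have h3 : ∑ i ∈ T.erase a, (-⟪v a, v i⟫) = ‖v a‖ ^ 2 := by
    rw [Finset.sum_neg_distrib]
    linarith
  rw [h3] at h2
  have hc : (0 : ℝ) < Q.card := by exact_mod_cast hQne.card_pos
  by_contra hcon
  push Not at hcon
  have h4 : ∑ i ∈ Q, ‖v a‖ ^ 2 / Q.card < ∑ i ∈ Q, (-⟪v a, v i⟫) :=
    Finset.sum_lt_sum_of_nonempty hQne hcon
  rw [Finset.sum_const, nsmul_eq_mul] at h4
  have h5 : (Q.card : ℝ) * (‖v a‖ ^ 2 / Q.card) = ‖v a‖ ^ 2 := by field_simp
  rw [h5] at h4
  linarith

end Crest.Agent.Propeller
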