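import Crest.Agent.Lib.Propeller.HLemma

/-!
# Propeller: the deletion gain as a finite double sum

For a grid `0 = x 0 ≤ x 1 ≤ ...`, with `P u n = γ{∀ i ≠ j, ⟪v i, g⟫ < s (u + q i n)}`:

`F z - F (z|T) ≤ ∑_{a < J} (Φ(x (a+1)) - Φ(x a)) s ( x(a+1)/(k-1) P(0, x(a+1))
      + ∑_{b ≤ a} (x (b+1) - x b) P(x (b+1), x (a+1)) ) + tail`.

`P` is monotone in `u` and `n`; this is all that is used.
-/

set_option autoImplicit false
set_option linter.unusedSectionVars false
open MeasureTheory ProbabilityTheory Set Filter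
open scoped RealInnerProductSpace ENNReal Topology

namespace Crest.Agent.Propeller

universe u

/-! ### Tail moments -/

lemma hasDerivAt_cube_prim (x : ℝ) :
    HasDerivAt (fun x : ℝ => -((x ^ 2 + 2) * Real.exp (-x ^ 2 / 2)))
      (x ^ 3 * Real.exp (-x ^ 2 / 2)) x := by
  have h1 : HasDerivAt (fun x : ℝ => -x ^ 2 / 2) (-x) x :=
    ((hasDerivAt_pow 2 x).fun_neg.div_const 2).congr_deriv (by simp; ring)
  have h2 := h1.exp
  have h3 : HasDerivAt (fun x : ℝ => x ^ 2 + 2) (2 * x) x :=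
    ((hasDerivAt_pow 2 x).add_const 2).congr_deriv (by simp)
  have h4 := (h3.mul h2).fun_neg
  refine h4.congr_deriv ?_
  ring

lemma integrable_cube_exp_half : Integrable (fun x : ℝ => x ^ 3 * Real.exp (-x ^ 2 / 2)) := by
  have h3 : Integrable (fun x : ℝ => x ^ 3) (gaussianReal 0 1) := by
    have h1 : MemLp (fun x : ℝ => x) 3 (gaussianReal 0 1) := memLp_id_gaussianReal 3
    have h2 := h1.integrable_norm_rpow (by norm_num) (by norm_num)
    refine Integrable.mono h2 ?_ (Eventually.of_forall fun x => ?_)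
    · exact (by fun_prop : Measurable fun x : ℝ => x ^ 3).aestronglyMeasurable
    · simp only [norm_pow, Real.norm_eq_abs]
      norm_num
  rw [gaussianReal_of_var_ne_zero _ (by norm_num : (1 : NNReal) ≠ 0)] at h3
  rw [integrable_withDensity_iff_integrable_smul₀'] at h3
  · have h4 := h3.const_mul (Real.sqrt (2 * Real.pi))
    refine h4.congr (Eventually.of_forall fun x => ?_)
    simp only [gaussianPDF, gaussianPDFReal, NNReal.coe_one, mul_one, sub_zero]
    have hpi := Real.pi_pos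
    rw [ENNReal.toReal_ofReal (by positivity)]
    have hs : Real.sqrt (2 * Real.pi) ≠ 0 := by positivity
    simp only [smul_eq_mul]
    field_simp
  · exact (measurable_gaussianPDF 0 1).aemeasurable
  · exact Eventually.of_forall fun x => by simp [gaussianPDF]

lemma tendsto_cube_prim :
    Tendsto (fun x : ℝ => -((x ^ 2 + 2) * Real.exp (-x ^ 2 / 2))) atTop (𝓝 0) := by
  have h1 : Tendsto (fun x : ℝ => x ^ 2 / 2) atTop atTop := by
    have h2 : Tendsto (fun x : ℝ => x ^ 2) atTop atTop := tendsto_pow_atTop (by norm_num)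
    exact h2.atTop_div_const (by norm_num)
  have h3 : Tendsto (fun y : ℝ => y * Real.exp (-y)) atTop (𝓝 0) := by
    simpa using Real.tendsto_pow_mul_exp_neg_atTop_nhds_zero 1
  have h4 : Tendsto (fun y : ℝ => Real.exp (-y)) atTop (𝓝 0) :=
    Real.tendsto_exp_atBot.comp tendsto_neg_atTop_atBot
  have h5 := (h3.comp h1).const_mul (2 : ℝ)
  have h6 := (h4.comp h1).const_mul (2 : ℝ)
  have h7 := (h5.add h6).neg
  simp only [mul_zero, add_zero, neg_zero] at h7
  refine h7.congr fun x => ?_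
  simp only [Function.comp]
  have : -x ^ 2 / 2 = -(x ^ 2 / 2) := by ring
  rw [this]
  ring

lemma integral_Ioi_cube_exp (c : ℝ) :
    ∫ x in Ioi c, x ^ 3 * Real.exp (-x ^ 2 / 2) = (c ^ 2 + 2) * Real.exp (-c ^ 2 / 2) := by
  have h := integral_Ioi_of_hasDerivAt_of_tendsto' (a := c) (m := 0)
    (f := fun x : ℝ => -((x ^ 2 + 2) * Real.exp (-x ^ 2 / 2)))
    (f' := fun x : ℝ => x ^ 3 * Real.exp (-x ^ 2 / 2))
    (fun x _ => hasDerivAt_cube_prim x) integrable_cube_exp_half.integrableOn tendsto_cube_prim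
  rw [h]
  ring

/-- `E[ξ³ ; ξ > c] = φ₀ (c² + 2) e^{-c²/2}`. -/
lemma integral_gaussian_Ioi_cube (c : ℝ) :
    ∫ x in Ioi c, x ^ 3 ∂(gaussianReal 0 1) = phi0 * ((c ^ 2 + 2) * Real.exp (-c ^ 2 / 2)) := by
  rw [← integral_indicator measurableSet_Ioi, integral_gaussianReal_std]
  have : ∀ x : ℝ, phi0 * Real.exp (-x ^ 2 / 2) * (Ioi c).indicator (fun x => x ^ 3) x
      = (Ioi c).indicator (fun x => phi0 * (x ^ 3 * Real.exp (-x ^ 2 / 2))) x := by
    intro x
    by_cases hx : x ∈ Ioi c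
    · simp only [indicator_of_mem hx]; ring
    · simp only [indicator_of_notMem hx]; ring
  simp_rw [this]
  rw [integral_indicator measurableSet_Ioi, integral_const_mul, integral_Ioi_cube_exp]

lemma integrable_cube_gaussian : Integrable (fun x : ℝ => x ^ 3) (gaussianReal 0 1) := by
  have h1 : MemLp (fun x : ℝ => x) 3 (gaussianReal 0 1) := memLp_id_gaussianReal 3
  have h2 := h1.integrable_norm_rpow (by norm_num) (by norm_num)
  refine Integrable.mono h2 ?_ (Eventually.of_forall fun x => ?_)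
  · exact (by fun_prop : Measurable fun x : ℝ => x ^ 3).aestronglyMeasurable
  · simp only [norm_pow, Real.norm_eq_abs]
    norm_num

/-- The tail of the outer integral. -/
lemma lintegral_tail (a C c2 c0 : ℝ) (ha : 0 ≤ a) (hC : 0 ≤ C) (hc2 : 0 ≤ c2) (hc0 : 0 ≤ c0) :
    ∫⁻ n in Ioi a, ENNReal.ofReal (C * n * (c2 * n ^ 2 + c0)) ∂(gaussianReal 0 1)
      = ENNReal.ofReal (C * (c2 * (phi0 * ((a ^ 2 + 2) * Real.exp (-a ^ 2 / 2)))
          + c0 * (phi0 * Real.exp (-a ^ 2 / 2)))) := by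
  have hid : Integrable (fun x : ℝ => x) (gaussianReal 0 1) := IsGaussian.integrable_id
  have hint : IntegrableOn (fun n : ℝ => C * n * (c2 * n ^ 2 + c0)) (Ioi a) (gaussianReal 0 1) := by
    have h1 : (fun n : ℝ => C * n * (c2 * n ^ 2 + c0)) = fun n => (C * c2) * n ^ 3 + (C * c0) * n := by
      ext n; ring
    rw [h1]
    exact ((integrable_cube_gaussian.const_mul _).add (hid.const_mul _)).integrableOn
  rw [← ofReal_integral_eq_lintegral_ofReal hint]
  · congr 1
    have h1 : ∫ n in Ioi a, C * n * (c2 * n ^ 2 + c0) ∂(gaussianReal 0 1)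
        = ∫ n in Ioi a, ((C * c2) * n ^ 3 + (C * c0) * n) ∂(gaussianReal 0 1) := by
      congr 1
      ext n
      ring
    rw [h1, integral_add (integrable_cube_gaussian.const_mul _).integrableOn
      (hid.const_mul _).integrableOn, integral_const_mul, integral_const_mul,
      integral_gaussian_Ioi_cube, integral_gaussian_Ioi_id]
    ring
  · filter_upwards [ae_restrict_mem measurableSet_Ioi] with n hn
    have hn0 : 0 ≤ n := ha.trans (le_of_lt hn)
    simp only [Pi.zero_apply]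
    positivity

/-- The Gaussian mass of a cell. -/
lemma gauss_Ioc (p q : ℝ) (hpq : p ≤ q) :
    gaussianReal 0 1 (Ioc p q) = ENNReal.ofReal (Phi q - Phi p) := by
  have h1 : Iic q = Iic p ∪ Ioc p q := (Iic_union_Ioc_eq_Iic hpq).symm
  have h2 : (gaussianReal 0 1).real (Iic q) = (gaussianReal 0 1).real (Iic p)
      + (gaussianReal 0 1).real (Ioc p q) := by
    rw [h1, measureReal_union _ measurableSet_Ioc]
    exact Set.disjoint_left.2 fun x hx hx' => absurd hx'.1 (not_lt.2 hx)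
  rw [Phi_eq_Iic, Phi_eq_Iic, h2, add_sub_cancel_left, ofReal_measureReal]

/-- Discrete intermediate value. -/
lemma exists_cell {x : ℕ → ℝ} (hx0 : x 0 = 0) {u : ℝ} (hu : 0 ≤ u) (a : ℕ) (hua : u ≤ x (a + 1)) :
    ∃ b ∈ Finset.range (a + 1), x b ≤ u ∧ u ≤ x (b + 1) := by
  induction a with
  | zero => exact ⟨0, by simp, by rw [hx0]; exact hu, hua⟩
  | succ a ih =>
    rcases le_total u (x (a + 1)) with h | h
    · obtain ⟨b, hb, h1, h2⟩ := ih h
      exact ⟨b, Finset.mem_range.2 (by have := Finset.mem_range.1 hb; omega), h1, h2⟩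
    · exact ⟨a + 1, by simp, h, hua⟩

/-- The cell of a positive number. -/
lemma exists_cell_outer {x : ℕ → ℝ} (hx0 : x 0 = 0) {n : ℝ} (hn : 0 < n) (J : ℕ) (hnJ : n ≤ x J) :
    ∃ a ∈ Finset.range J, x a < n ∧ n ≤ x (a + 1) := by
  induction J with
  | zero => rw [hx0] at hnJ; exact absurd hn (not_lt.2 hnJ)
  | succ J ih =>
    rcases le_or_gt n (x J) with h | h
    · obtain ⟨a, ha, h1, h2⟩ := ih h
      exact ⟨a, Finset.mem_range.2 (by have := Finset.mem_range.1 ha; omega), h1, h2⟩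
    · exact ⟨J, by simp, h, hnJ⟩

variable {E : Type u} [NormedAddCommGroup E] [InnerProductSpace ℝ E] [FiniteDimensional ℝ E]
  [MeasurableSpace E] [BorelSpace E]
variable {k : ℕ} {z : Fin k → E}

/-- The measure of the deletion event. -/
noncomputable def Pdel (z : Fin k → E) (j : Fin k) (u n : ℝ) : ℝ≥0∞ :=
  stdGaussian E (below (Finset.univ.erase j) (fun i => prp (uvec z j) (z i)) (yth z j u n))

/-- The real form. -/
noncomputable def Pre (z : Fin k → E) (j : Fin k) (u n : ℝ) : ℝ :=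
  (stdGaussian E).real (below (Finset.univ.erase j) (fun i => prp (uvec z j) (z i)) (yth z j u n))

lemma Pdel_eq (j : Fin k) (u n : ℝ) : Pdel z j u n = ENNReal.ofReal (Pre z j u n) := by
  unfold Pdel Pre
  rw [ofReal_measureReal]

lemma Pre_nonneg (j : Fin k) (u n : ℝ) : 0 ≤ Pre z j u n := measureReal_nonneg

lemma yy_eq_yth (j i : Fin k) (hs : 0 < ‖z j‖) (n w : ℝ) :
    yy z (uvec z j) ‖z j‖ n w i = yth z j (n - w / ‖z j‖) n i := by
  unfold yy yth
  rw [real_inner_comm, inner_uvec j i hs]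
  field_simp
  ring

lemma Pdel_mono {j : Fin k} (hs : 0 < ‖z j‖)
    (hq : ∀ i ∈ Finset.univ.erase j, 0 ≤ qc z j i) {u u' n n' : ℝ} (hu : u ≤ u') (hn : n ≤ n') :
    Pdel z j u n ≤ Pdel z j u' n' := by
  unfold Pdel
  apply measure_mono
  intro g hg i hi
  refine lt_of_lt_of_le (hg i hi) ?_
  unfold yth
  apply mul_le_mul_of_nonneg_left _ hs.le
  have := mul_le_mul_of_nonneg_left hn (hq i hi)
  linarith

lemma Pre_mono {j : Fin k} (hs : 0 < ‖z j‖)
    (hq : ∀ i ∈ Finset.univ.erase j, 0 ≤ qc z j i) {u u' n n' : ℝ} (hu : u ≤ u') (hn : n ≤ n') :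
    Pre z j u n ≤ Pre z j u' n' := by
  have h := Pdel_mono hs hq hu hn
  unfold Pdel at h
  exact ENNReal.toReal_mono (measure_ne_top _ _) h

/-- The inner integral on a cell. -/
lemma inner_grid {j : Fin k} (hs : 0 < ‖z j‖) (hk2 : 2 ≤ k)
    (hq : ∀ i ∈ Finset.univ.erase j, 0 ≤ qc z j i) {x : ℕ → ℝ} (hx0 : x 0 = 0) (hx : Monotone x)
    (a : ℕ) {n : ℝ} (hn0 : 0 < n) (hn : n ≤ x (a + 1)) :
    ∫⁻ w in Ioo (0 : ℝ) ((k : ℝ) * n * ‖z j‖ / ((k : ℝ) - 1)), Pdel z j (n - w / ‖z j‖) n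
      ≤ ENNReal.ofReal (‖z j‖ * x (a + 1) / ((k : ℝ) - 1)) * Pdel z j 0 (x (a + 1))
        + ∑ b ∈ Finset.range (a + 1),
            ENNReal.ofReal (‖z j‖ * (x (b + 1) - x b)) * Pdel z j (x (b + 1)) (x (a + 1)) := by
  set s := ‖z j‖ with hsdef
  have hk1 : (0 : ℝ) < (k : ℝ) - 1 := by
    have : (2 : ℝ) ≤ k := by exact_mod_cast hk2
    linarith
  set L := (k : ℝ) * n * s / ((k : ℝ) - 1) with hL
  have hLeq : L - s * n = s * n / ((k : ℝ) - 1) := by
    rw [hL]
    field_simp
    ring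
  set g₀ : ℝ → ℝ≥0∞ := (Ico (s * n) L).indicator (fun _ => Pdel z j 0 (x (a + 1))) with hg₀
  set gb : ℕ → ℝ → ℝ≥0∞ := fun b =>
    (Icc (s * (n - x (b + 1))) (s * (n - x b))).indicator (fun _ => Pdel z j (x (b + 1)) (x (a + 1)))
    with hgb
  have hpt : ∀ w ∈ Ioo (0 : ℝ) L, Pdel z j (n - w / s) n
      ≤ g₀ w + ∑ b ∈ Finset.range (a + 1), gb b w := by
    intro w hw
    rcases le_or_gt (n - w / s) 0 with hu | hu
    · have hw1 : s * n ≤ w := by
        have : n ≤ w / s := by linarith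
        rwa [le_div_iff₀ hs, mul_comm] at this
      have hmem : w ∈ Ico (s * n) L := ⟨hw1, hw.2⟩
      have h1 : g₀ w = Pdel z j 0 (x (a + 1)) := indicator_of_mem hmem _
      have h2 := Pdel_mono hs hq hu hn
      rw [← h1] at h2
      exact h2.trans le_self_add
    · have hun : n - w / s ≤ x (a + 1) := by
        have : 0 < w / s := div_pos hw.1 hs
        linarith
      obtain ⟨b, hb, h1, h2⟩ := exists_cell hx0 hu.le a hun
      have hmem : w ∈ Icc (s * (n - x (b + 1))) (s * (n - x b)) := by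
        have e : w = s * (w / s) := by field_simp
        constructor
        · rw [e]
          apply mul_le_mul_of_nonneg_left _ hs.le
          linarith
        · rw [e]
          apply mul_le_mul_of_nonneg_left _ hs.le
          linarith
      have h3 : gb b w = Pdel z j (x (b + 1)) (x (a + 1)) := indicator_of_mem hmem _
      have h4 := Pdel_mono hs hq h2 hn
      rw [← h3] at h4
      refine h4.trans (le_trans ?_ le_add_self)
      exact Finset.single_le_sum (f := fun b => gb b w) (fun _ _ => zero_le) hb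
  have hmeas₀ : Measurable g₀ := measurable_const.indicator measurableSet_Ico
  have hmeasb : ∀ b, Measurable (gb b) := fun b => measurable_const.indicator measurableSet_Icc
  calc ∫⁻ w in Ioo (0 : ℝ) L, Pdel z j (n - w / s) n
      ≤ ∫⁻ w in Ioo (0 : ℝ) L, (g₀ w + ∑ b ∈ Finset.range (a + 1), gb b w) :=
        setLIntegral_mono' measurableSet_Ioo hpt
    _ ≤ ∫⁻ w, (g₀ w + ∑ b ∈ Finset.range (a + 1), gb b w) := setLIntegral_le_lintegral _ _
    _ = (∫⁻ w, g₀ w) + ∫⁻ w, ∑ b ∈ Finset.range (a + 1), gb b w := lintegral_add_left hmeas₀ _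
    _ = (∫⁻ w, g₀ w) + ∑ b ∈ Finset.range (a + 1), ∫⁻ w, gb b w := by
        rw [lintegral_finsetSum _ fun b _ => hmeasb b]
    _ ≤ _ := by
        gcongr with b hb
        · rw [hg₀, lintegral_indicator_const measurableSet_Ico, Real.volume_Ico, hLeq, mul_comm]
          gcongr
        · simp only [hgb]
          rw [lintegral_indicator_const measurableSet_Icc, Real.volume_Icc, mul_comm]
          apply le_of_eq
          congr 2
          ring

/-- **The grid bound.** -/
theorem gain_grid {j : Fin k} (hT : (Finset.univ.erase j).Nonempty) (hsum : ∑ i, z i = 0)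
    (hs : 0 < ‖z j‖) (hk2 : 2 ≤ k) (hq : ∀ i ∈ Finset.univ.erase j, 0 ≤ qc z j i)
    {x : ℕ → ℝ} (hx0 : x 0 = 0) (hx : Monotone x) (J : ℕ) {c2 c0 : ℝ} (hc2 : 0 ≤ c2) (hc0 : 0 ≤ c0)
    (htail : ∀ n, x J ≤ n → Pre z j n n ≤ c2 * n ^ 2 + c0) :
    F z - F (restr z (Finset.univ.erase j))
      ≤ ∑ a ∈ Finset.range J, (Phi (x (a + 1)) - Phi (x a)) * (‖z j‖ *
          (x (a + 1) / ((k : ℝ) - 1) * Pre z j 0 (x (a + 1))
            + ∑ b ∈ Finset.range (a + 1), (x (b + 1) - x b) * Pre z j (x (b + 1)) (x (a + 1))))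
        + (k : ℝ) * ‖z j‖ / ((k : ℝ) - 1) * (c2 * (phi0 * ((x J ^ 2 + 2) * Real.exp (-x J ^ 2 / 2)))
          + c0 * (phi0 * Real.exp (-x J ^ 2 / 2))) := by
  set s := ‖z j‖ with hsdef
  have hk1 : (0 : ℝ) < (k : ℝ) - 1 := by
    have : (2 : ℝ) ≤ k := by exact_mod_cast hk2
    linarith
  have hk0 : (0 : ℝ) < k := by linarith
  have hx00 : ∀ a, 0 ≤ x a := fun a => by rw [← hx0]; exact hx (Nat.zero_le a)
  have hgain := gain_le_of_bound z j hT hsum hs hk2
    (fun n w => Pdel z j (n - w / s) n) (by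
      intro n _ w _
      apply le_of_eq
      unfold Pdel
      congr 1
      ext g
      simp only [below, mem_ofPred_eq]
      refine forall₂_congr fun i _ => ?_
      rw [show (yy z (‖z j‖⁻¹ • z j) ‖z j‖ n w i) = yy z (uvec z j) ‖z j‖ n w i from rfl,
        yy_eq_yth j i hs]
      rfl)
  -- the constants of the cells
  set ca : ℕ → ℝ := fun a => s * (x (a + 1) / ((k : ℝ) - 1) * Pre z j 0 (x (a + 1))
      + ∑ b ∈ Finset.range (a + 1), (x (b + 1) - x b) * Pre z j (x (b + 1)) (x (a + 1))) with hca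
  have hca0 : ∀ a, 0 ≤ ca a := by
    intro a
    simp only [hca]
    refine mul_nonneg hs.le (add_nonneg ?_ (Finset.sum_nonneg fun b _ => ?_))
    · exact mul_nonneg (div_nonneg (hx00 _) hk1.le) (Pre_nonneg _ _ _)
    · exact mul_nonneg (sub_nonneg.2 (hx (Nat.le_succ b))) (Pre_nonneg _ _ _)
  have hinner : ∀ (a : ℕ) (n : ℝ), 0 < n → n ≤ x (a + 1) →
      ∫⁻ w in Ioo (0 : ℝ) ((k : ℝ) * n * s / ((k : ℝ) - 1)), Pdel z j (n - w / s) n
        ≤ ENNReal.ofReal (ca a) := by
    intro a n hn0 hn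
    refine (inner_grid hs hk2 hq hx0 hx a hn0 hn).trans (le_of_eq ?_)
    rw [← hsdef]
    have hA : 0 ≤ s * x (a + 1) / ((k : ℝ) - 1) := div_nonneg (mul_nonneg hs.le (hx00 _)) hk1.le
    have hcb : ∀ b, 0 ≤ s * (x (b + 1) - x b) := fun b =>
      mul_nonneg hs.le (sub_nonneg.2 (hx (Nat.le_succ b)))
    have e1 : ∀ b, ENNReal.ofReal (s * (x (b + 1) - x b)) * Pdel z j (x (b + 1)) (x (a + 1))
        = ENNReal.ofReal (s * (x (b + 1) - x b) * Pre z j (x (b + 1)) (x (a + 1))) := fun b => by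
      rw [Pdel_eq, ENNReal.ofReal_mul (hcb b)]
    simp_rw [e1]
    rw [Pdel_eq, ← ENNReal.ofReal_mul hA, ← ENNReal.ofReal_sum_of_nonneg
      (fun b _ => mul_nonneg (hcb b) (Pre_nonneg _ _ _)),
      ← ENNReal.ofReal_add (mul_nonneg hA (Pre_nonneg _ _ _))
        (Finset.sum_nonneg fun b _ => mul_nonneg (hcb b) (Pre_nonneg _ _ _))]
    congr 1
    change _ = s * (x (a + 1) / ((k : ℝ) - 1) * Pre z j 0 (x (a + 1))
      + ∑ b ∈ Finset.range (a + 1), (x (b + 1) - x b) * Pre z j (x (b + 1)) (x (a + 1)))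
    rw [mul_add, Finset.mul_sum]
    congr 1
    · ring
    · exact Finset.sum_congr rfl fun b _ => by ring
  set C : ℝ := (k : ℝ) * s / ((k : ℝ) - 1) with hC
  have hC0 : 0 ≤ C := by positivity
  have htail2 : ∀ n, 0 < n → x J < n →
      ∫⁻ w in Ioo (0 : ℝ) ((k : ℝ) * n * s / ((k : ℝ) - 1)), Pdel z j (n - w / s) n
        ≤ ENNReal.ofReal (C * n * (c2 * n ^ 2 + c0)) := by
    intro n hn0 hnJ
    have h1 : ∀ w ∈ Ioo (0 : ℝ) ((k : ℝ) * n * s / ((k : ℝ) - 1)), Pdel z j (n - w / s) n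
        ≤ ENNReal.ofReal (c2 * n ^ 2 + c0) := by
      intro w hw
      have h2 : n - w / s ≤ n := by
        have : 0 < w / s := div_pos hw.1 hs
        linarith
      refine (Pdel_mono hs hq h2 le_rfl).trans ?_
      rw [Pdel_eq]
      exact ENNReal.ofReal_le_ofReal (htail n hnJ.le)
    calc _ ≤ ∫⁻ w in Ioo (0 : ℝ) ((k : ℝ) * n * s / ((k : ℝ) - 1)), ENNReal.ofReal (c2 * n ^ 2 + c0) :=
          setLIntegral_mono' measurableSet_Ioo h1
      _ = _ := by
          rw [setLIntegral_const, Real.volume_Ioo, sub_zero, mul_comm,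
            ← ENNReal.ofReal_mul (by positivity)]
          congr 1
          rw [hC]
          field_simp
  -- the outer integrand
  set g : ℝ → ℝ≥0∞ := fun n =>
    ∑ a ∈ Finset.range J, (Ioc (x a) (x (a + 1))).indicator (fun _ => ENNReal.ofReal (ca a)) n
      + (Ioi (x J)).indicator (fun n => ENNReal.ofReal (C * n * (c2 * n ^ 2 + c0))) n with hg
  have hgpt : ∀ n ∈ Ioi (0 : ℝ),
      ∫⁻ w in Ioo (0 : ℝ) ((k : ℝ) * n * s / ((k : ℝ) - 1)), Pdel z j (n - w / s) n ≤ g n := by
    intro n hn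
    have hn0 : 0 < n := hn
    rcases le_or_gt n (x J) with h | h
    · obtain ⟨a, ha, h1, h2⟩ := exists_cell_outer hx0 hn0 J h
      refine (hinner a n hn0 h2).trans (le_trans ?_ le_self_add)
      have h3 : (Ioc (x a) (x (a + 1))).indicator (fun _ => ENNReal.ofReal (ca a)) n
          = ENNReal.ofReal (ca a) := indicator_of_mem (show n ∈ Ioc (x a) (x (a + 1)) from ⟨h1, h2⟩) _
      rw [← h3]
      exact Finset.single_le_sum
        (f := fun a => (Ioc (x a) (x (a + 1))).indicator (fun _ => ENNReal.ofReal (ca a)) n)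
        (fun _ _ => zero_le) ha
    · refine (htail2 n hn0 h).trans (le_trans ?_ le_add_self)
      exact le_of_eq (indicator_of_mem (show n ∈ Ioi (x J) from h)
        (fun n => ENNReal.ofReal (C * n * (c2 * n ^ 2 + c0)))).symm
  rw [← hsdef] at hgain
  have hmeasa : ∀ a, Measurable ((Ioc (x a) (x (a + 1))).indicator
      (fun _ : ℝ => ENNReal.ofReal (ca a))) := fun a => measurable_const.indicator measurableSet_Ioc
  have hfinal : ENNReal.ofReal (F z - F (restr z (Finset.univ.erase j)))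
      ≤ ENNReal.ofReal (∑ a ∈ Finset.range J, (Phi (x (a + 1)) - Phi (x a)) * ca a
        + C * (c2 * (phi0 * ((x J ^ 2 + 2) * Real.exp (-x J ^ 2 / 2)))
          + c0 * (phi0 * Real.exp (-x J ^ 2 / 2)))) := by
    refine hgain.trans ?_
    have hP : ∀ a, 0 ≤ Phi (x (a + 1)) - Phi (x a) := fun a =>
      sub_nonneg.2 (Phi_mono (hx (Nat.le_succ a)))
    calc _ ≤ ∫⁻ n in Ioi (0 : ℝ), g n ∂(gaussianReal 0 1) :=
          setLIntegral_mono' measurableSet_Ioi hgpt
      _ ≤ ∫⁻ n, g n ∂(gaussianReal 0 1) := setLIntegral_le_lintegral _ _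
      _ = (∫⁻ n, ∑ a ∈ Finset.range J, (Ioc (x a) (x (a + 1))).indicator
              (fun _ => ENNReal.ofReal (ca a)) n ∂(gaussianReal 0 1))
            + ∫⁻ n, (Ioi (x J)).indicator (fun n => ENNReal.ofReal (C * n * (c2 * n ^ 2 + c0))) n
                ∂(gaussianReal 0 1) := by
          refine lintegral_add_left ?_ _
          exact Finset.measurable_sum _ fun a _ => hmeasa a
      _ = _ := by
          rw [lintegral_finsetSum _ fun a _ => hmeasa a, lintegral_indicator measurableSet_Ioi,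
            lintegral_tail (x J) C c2 c0 (hx00 J) hC0 hc2 hc0]
          rw [ENNReal.ofReal_add (Finset.sum_nonneg fun a _ => mul_nonneg (hP a) (hca0 a))
            (by have := phi0_pos; positivity), ENNReal.ofReal_sum_of_nonneg
              (fun a _ => mul_nonneg (hP a) (hca0 a))]
          congr 1
          refine Finset.sum_congr rfl fun a _ => ?_
          rw [lintegral_indicator_const measurableSet_Ioc, gauss_Ioc _ _ (hx (Nat.le_succ a)),
            ENNReal.ofReal_mul (hP a), mul_comm]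
  have hRHS : 0 ≤ ∑ a ∈ Finset.range J, (Phi (x (a + 1)) - Phi (x a)) * ca a
        + C * (c2 * (phi0 * ((x J ^ 2 + 2) * Real.exp (-x J ^ 2 / 2)))
          + c0 * (phi0 * Real.exp (-x J ^ 2 / 2))) := by
    have hphi := phi0_pos
    refine add_nonneg (Finset.sum_nonneg fun a _ => mul_nonneg ?_ (hca0 a)) (by positivity)
    exact sub_nonneg.2 (Phi_mono (hx (Nat.le_succ a)))
  exact (ENNReal.ofReal_le_ofReal_iff hRHS).1 hfinal

end Crest.Agent.Propeller
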