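import Crest.Agent.Lib.Propeller.Crit

/-!
# Gaussian tools for the propeller route

* `map_line_split`, `integral_line_split`: `g = ξ u + (g' - ⟪u, g'⟫ u)` with `ξ` and `g'` independent;
* `map_add_prod_stdGaussian`, `integral_split`: splitting along `W ⊕ Wᗮ`;
* `harris`: Gaussian vectors with nonpositive covariances are negatively orthant dependent.
-/

set_option autoImplicit false
set_option linter.unusedSectionVars false
open MeasureTheory ProbabilityTheory
open scoped RealInnerProductSpace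

namespace Crest.Agent.Propeller

universe u v

variable {E : Type u} [NormedAddCommGroup E] [InnerProductSpace ℝ E] [FiniteDimensional ℝ E]
  [MeasurableSpace E] [BorelSpace E]

section split

lemma integral_exp_inner_subspace (W : Submodule ℝ E) (t : E) :
    ∫ x : W, Complex.exp ((⟪(x : E), t⟫ : ℝ) * Complex.I) ∂(stdGaussian W)
      = Complex.exp (-((‖W.orthogonalProjectionOnto t‖ ^ 2 : ℝ) : ℂ) / 2) := by
  have := charFun_stdGaussian (E := W) (W.orthogonalProjectionOnto t)
  rw [charFun_apply] at this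
  push_cast
  rw [← this]
  congr 1
  ext x
  rw [Submodule.inner_orthogonalProjectionOnto_eq_of_mem_left]

/-- Orthogonal decomposition of the standard Gaussian. -/
theorem map_add_prod_stdGaussian (W : Submodule ℝ E) :
    ((stdGaussian W).prod (stdGaussian Wᗮ)).map (fun p : W × Wᗮ => (p.1 : E) + (p.2 : E))
      = stdGaussian E := by
  have hmeas : Measurable (fun p : W × Wᗮ => (p.1 : E) + (p.2 : E)) := by
    have h1 : Continuous (fun p : W × Wᗮ => (p.1 : E) + (p.2 : E)) := by fun_prop
    exact h1.measurable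
  apply Measure.ext_of_charFun
  ext t
  rw [charFun_stdGaussian, charFun_apply, integral_map hmeas.aemeasurable
    (by
      apply Continuous.aestronglyMeasurable
      fun_prop)]
  have h1 : ∀ p : W × Wᗮ, Complex.exp ((⟪(p.1 : E) + (p.2 : E), t⟫ : ℝ) * Complex.I)
      = Complex.exp ((⟪(p.1 : E), t⟫ : ℝ) * Complex.I) *
        Complex.exp ((⟪(p.2 : E), t⟫ : ℝ) * Complex.I) := by
    intro p
    rw [inner_add_left, ← Complex.exp_add]
    congr 1
    push_cast
    ring
  simp_rw [h1]
  rw [integral_prod_mul (fun x : W => Complex.exp ((⟪(x : E), t⟫ : ℝ) * Complex.I))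
    (fun y : Wᗮ => Complex.exp ((⟪(y : E), t⟫ : ℝ) * Complex.I)),
    integral_exp_inner_subspace, integral_exp_inner_subspace, ← Complex.exp_add]
  congr 1
  have h3 := Submodule.norm_sq_eq_add_norm_sq_projection t W
  have h4 : (‖t‖ ^ 2 : ℝ) = ‖W.orthogonalProjectionOnto t‖ ^ 2
      + ‖Wᗮ.orthogonalProjectionOnto t‖ ^ 2 := by
    rw [h3]
  have h5 : ((‖t‖ : ℝ) : ℂ) ^ 2 = ((‖W.orthogonalProjectionOnto t‖ ^ 2 : ℝ) : ℂ)
      + ((‖Wᗮ.orthogonalProjectionOnto t‖ ^ 2 : ℝ) : ℂ) := by
    rw [← Complex.ofReal_add, ← h4]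
    push_cast
    ring
  rw [h5]
  ring

/-- Conditioning on the `W` component. -/
theorem integral_split (W : Submodule ℝ E) {f : E → ℝ} (hf : Integrable f (stdGaussian E)) :
    ∫ g, f g ∂(stdGaussian E)
      = ∫ x : W, ∫ y : Wᗮ, f ((x : E) + (y : E)) ∂(stdGaussian Wᗮ) ∂(stdGaussian W) := by
  have hmeas : Measurable (fun p : W × Wᗮ => (p.1 : E) + (p.2 : E)) := by
    have h1 : Continuous (fun p : W × Wᗮ => (p.1 : E) + (p.2 : E)) := by fun_prop
    exact h1.measurable
  have hmap := map_add_prod_stdGaussian W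
  rw [← hmap] at hf ⊢
  have hfm : AEStronglyMeasurable f
      (((stdGaussian W).prod (stdGaussian Wᗮ)).map (fun p : W × Wᗮ => (p.1 : E) + (p.2 : E))) :=
    hf.aestronglyMeasurable
  rw [integral_map hmeas.aemeasurable hfm, integral_prod]
  exact (integrable_map_measure hfm hmeas.aemeasurable).1 hf

/-- The real-valued form for sets. -/
theorem real_split (W : Submodule ℝ E) {A : Set E} (hA : MeasurableSet A) :
    (stdGaussian E).real A
      = ∫ x : W, (stdGaussian Wᗮ).real {y : Wᗮ | (x : E) + (y : E) ∈ A} ∂(stdGaussian W) := by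
  have hint : Integrable (A.indicator (fun _ => (1 : ℝ))) (stdGaussian E) :=
    (integrable_const (1 : ℝ)).indicator hA
  rw [← integral_indicator_one hA, show ((1 : E → ℝ)) = fun _ => (1 : ℝ) from rfl] 
  rw [integral_split W hint]
  congr 1
  ext x
  have hm : MeasurableSet {y : Wᗮ | (x : E) + (y : E) ∈ A} := by
    have : Measurable (fun y : Wᗮ => (x : E) + (y : E)) := by
      have h1 : Continuous (fun y : Wᗮ => (x : E) + (y : E)) := by fun_prop
      exact h1.measurable
    exact this hA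
  rw [← integral_indicator_one hm]
  congr 1

end split

section line

/-- One-dimensional splitting: `g = ξ u + (g' - ⟪u, g'⟫ u)` with `ξ` standard normal independent of `g'`. -/
theorem map_line_split (u : E) (hu : ‖u‖ = 1) :
    ((gaussianReal 0 1).prod (stdGaussian E)).map
        (fun p : ℝ × E => p.1 • u + (p.2 - ⟪u, p.2⟫ • u)) = stdGaussian E := by
  have hc : Continuous (fun p : ℝ × E => p.1 • u + (p.2 - ⟪u, p.2⟫ • u)) := by fun_prop
  apply Measure.ext_of_charFun
  ext t
  rw [charFun_stdGaussian, charFun_apply, integral_map hc.measurable.aemeasurable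
    (by
      apply Continuous.aestronglyMeasurable
      fun_prop)]
  have h1 : ∀ p : ℝ × E, Complex.exp ((⟪p.1 • u + (p.2 - ⟪u, p.2⟫ • u), t⟫ : ℝ) * Complex.I)
      = Complex.exp (((⟪u, t⟫ * p.1 : ℝ) : ℂ) * Complex.I) *
        Complex.exp ((⟪p.2, t - ⟪u, t⟫ • u⟫ : ℝ) * Complex.I) := by
    intro p
    rw [← Complex.exp_add]
    congr 1
    have : ⟪p.1 • u + (p.2 - ⟪u, p.2⟫ • u), t⟫ = ⟪u, t⟫ * p.1 + ⟪p.2, t - ⟪u, t⟫ • u⟫ := by
      rw [inner_add_left, inner_sub_left, inner_sub_right, inner_smul_left, inner_smul_left,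
        inner_smul_right, real_inner_comm u p.2]
      simp
      ring
    rw [this]
    push_cast
    ring
  simp_rw [h1]
  rw [integral_prod_mul (fun ξ : ℝ => Complex.exp (((⟪u, t⟫ * ξ : ℝ) : ℂ) * Complex.I))
    (fun g : E => Complex.exp ((⟪g, t - ⟪u, t⟫ • u⟫ : ℝ) * Complex.I))]
  have h2 := charFun_stdGaussian (E := E) (t - ⟪u, t⟫ • u)
  rw [charFun_apply] at h2
  rw [h2]
  have h3 := charFun_gaussianReal (μ := 0) (v := 1) (⟪u, t⟫)
  rw [charFun_apply_real] at h3
  have h4 : ∫ ξ : ℝ, Complex.exp (((⟪u, t⟫ * ξ : ℝ) : ℂ) * Complex.I) ∂(gaussianReal 0 1)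
      = Complex.exp (-(((⟪u, t⟫ ^ 2 : ℝ)) : ℂ) / 2) := by
    have h5 : ∀ ξ : ℝ, Complex.exp (((⟪u, t⟫ * ξ : ℝ) : ℂ) * Complex.I)
        = Complex.exp ((⟪u, t⟫ : ℂ) * ξ * Complex.I) := by
      intro ξ
      push_cast
      rfl
    simp_rw [h5]
    rw [h3]
    congr 1
    push_cast
    simp
    ring
  rw [h4, ← Complex.exp_add]
  congr 1
  have h6 : (‖t‖ ^ 2 : ℝ) = ⟪u, t⟫ ^ 2 + ‖t - ⟪u, t⟫ • u‖ ^ 2 := by
    rw [norm_sub_sq_real, norm_smul, inner_smul_right, mul_pow, hu]
    simp
    rw [real_inner_comm]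
    ring
  have h7 : ((‖t‖ : ℝ) : ℂ) ^ 2 = ((⟪u, t⟫ ^ 2 : ℝ) : ℂ) + ((‖t - ⟪u, t⟫ • u‖ : ℝ) : ℂ) ^ 2 := by
    rw [← Complex.ofReal_pow, h6]
    push_cast
    ring
  rw [h7]
  ring

/-- Integrals along the one-dimensional splitting. -/
theorem real_line_split (u : E) (hu : ‖u‖ = 1) {C : Set E} (hC : MeasurableSet C) :
    (stdGaussian E).real C
      = ∫ ξ : ℝ, (stdGaussian E).real {g' : E | ξ • u + (g' - ⟪u, g'⟫ • u) ∈ C} ∂(gaussianReal 0 1) := by
  have hc : Continuous (fun p : ℝ × E => p.1 • u + (p.2 - ⟪u, p.2⟫ • u)) := by fun_prop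
  have hint : Integrable (C.indicator (fun _ => (1 : ℝ))) (stdGaussian E) :=
    (integrable_const (1 : ℝ)).indicator hC
  have hmap := map_line_split u hu
  have hfm : AEStronglyMeasurable (C.indicator (fun _ => (1 : ℝ))) (stdGaussian E) :=
    hint.aestronglyMeasurable
  rw [← integral_indicator_one hC, show ((1 : E → ℝ)) = fun _ => (1 : ℝ) from rfl]
  conv_lhs => rw [← hmap]
  rw [← hmap] at hint hfm
  rw [integral_map hc.measurable.aemeasurable hfm, integral_prod]
  · congr 1
    ext ξ
    have hm : MeasurableSet {g' : E | ξ • u + (g' - ⟪u, g'⟫ • u) ∈ C} := by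
      have h1 : Continuous (fun g' : E => ξ • u + (g' - ⟪u, g'⟫ • u)) := by fun_prop
      exact h1.measurable hC
    rw [← integral_indicator_one hm]
    congr 1
  · exact (integrable_map_measure hfm hc.measurable.aemeasurable).1 hint

/-- One-dimensional Chebyshev association. -/
lemma cheb_assoc (ν : Measure ℝ) [IsProbabilityMeasure ν] {h : ℝ → ℝ} (hmono : Monotone h)
    (hint : Integrable h ν) (c : ℝ) :
    ∫ ξ in Set.Iic c, h ξ ∂ν ≤ ν.real (Set.Iic c) * ∫ ξ, h ξ ∂ν := by
  have hsplit : ∫ ξ, h ξ ∂ν = ∫ ξ in Set.Iic c, h ξ ∂ν + ∫ ξ in Set.Ioi c, h ξ ∂ν := by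
    rw [← Set.compl_Iic, integral_add_compl measurableSet_Iic hint]
  have h1 : ∫ ξ in Set.Iic c, h ξ ∂ν ≤ h c * ν.real (Set.Iic c) := by
    have : ∫ ξ in Set.Iic c, h ξ ∂ν ≤ ∫ _ in Set.Iic c, h c ∂ν := by
      apply setIntegral_mono_on hint.integrableOn (integrable_const _) measurableSet_Iic
      intro x hx
      exact hmono hx
    simpa [mul_comm] using this
  have h2 : h c * ν.real (Set.Ioi c) ≤ ∫ ξ in Set.Ioi c, h ξ ∂ν := by
    have : ∫ _ in Set.Ioi c, h c ∂ν ≤ ∫ ξ in Set.Ioi c, h ξ ∂ν := by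
      apply setIntegral_mono_on (integrable_const _) hint.integrableOn measurableSet_Ioi
      intro x hx
      exact hmono (le_of_lt hx)
    simpa [mul_comm] using this
  have h3 : ν.real (Set.Iic c) + ν.real (Set.Ioi c) = 1 := by
    rw [← Set.compl_Iic, probReal_add_probReal_compl measurableSet_Iic]
  have h4 : 0 ≤ ν.real (Set.Iic c) := measureReal_nonneg
  have h5 : 0 ≤ ν.real (Set.Ioi c) := measureReal_nonneg
  rw [hsplit]
  set I1 := ∫ ξ in Set.Iic c, h ξ ∂ν
  set I2 := ∫ ξ in Set.Ioi c, h ξ ∂ν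
  set α := ν.real (Set.Iic c)
  set β := ν.real (Set.Ioi c)
  have h6 : β * I1 ≤ α * I2 := by
    calc β * I1 ≤ β * (h c * α) := mul_le_mul_of_nonneg_left h1 h5
      _ = α * (h c * β) := by ring
      _ ≤ α * I2 := mul_le_mul_of_nonneg_left h2 h4
  have h7 : β = 1 - α := by linarith
  rw [h7] at h6
  nlinarith

lemma inner_line_split (u : E) (hu : ‖u‖ = 1) (ξ : ℝ) (g' : E) :
    ⟪u, ξ • u + (g' - ⟪u, g'⟫ • u)⟫ = ξ := by
  rw [inner_add_right, inner_sub_right, inner_smul_right, inner_smul_right,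
    real_inner_self_eq_norm_sq, hu]
  simp

lemma inner_shift (v u w : E) (a b : ℝ) :
    ⟪v, b • u + w⟫ = ⟪v, a • u + w⟫ + (b - a) * ⟪v, u⟫ := by
  rw [inner_add_right, inner_add_right, inner_smul_right, inner_smul_right]
  ring

/-- **Harris / Slepian**: Gaussian vectors with nonpositive covariances are negatively orthant
dependent. -/
theorem harris {ι : Type v} (S : Finset ι) (z : ι → E)
    (hz : ∀ a ∈ S, ∀ b ∈ S, a ≠ b → ⟪z a, z b⟫ ≤ 0) (y : ι → ℝ) :
    (stdGaussian E).real {g : E | ∀ a ∈ S, ⟪z a, g⟫ ≤ y a}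
      ≤ ∏ a ∈ S, (stdGaussian E).real {g : E | ⟪z a, g⟫ ≤ y a} := by
  classical
  induction S using Finset.induction_on with
  | empty => simp
  | insert b S hb ih =>
    have hz' : ∀ a ∈ S, ∀ c ∈ S, a ≠ c → ⟪z a, z c⟫ ≤ 0 := fun a ha c hc hac =>
      hz a (Finset.mem_insert_of_mem ha) c (Finset.mem_insert_of_mem hc) hac
    have hbS : ∀ a ∈ S, ⟪z a, z b⟫ ≤ 0 := fun a ha =>
      hz a (Finset.mem_insert_of_mem ha) b (Finset.mem_insert_self _ _)
        (fun h => hb (h ▸ ha))
    rw [Finset.prod_insert hb]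
    have hmeasA : MeasurableSet {g : E | ∀ a ∈ S, ⟪z a, g⟫ ≤ y a} := by
      have : {g : E | ∀ a ∈ S, ⟪z a, g⟫ ≤ y a} = ⋂ a ∈ S, {g : E | ⟪z a, g⟫ ≤ y a} := by
        ext g; simp
      rw [this]
      refine Finset.measurableSet_biInter _ fun a _ => ?_
      exact measurableSet_le (continuous_const.inner continuous_id).measurable measurable_const
    have hAB : {g : E | ∀ a ∈ insert b S, ⟪z a, g⟫ ≤ y a}
        = {g : E | ⟪z b, g⟫ ≤ y b} ∩ {g : E | ∀ a ∈ S, ⟪z a, g⟫ ≤ y a} := by
      ext g; simp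
    have hmeasB : MeasurableSet {g : E | ⟪z b, g⟫ ≤ y b} :=
      measurableSet_le (continuous_const.inner continuous_id).measurable measurable_const
    rw [hAB]
    have hprodnn : 0 ≤ ∏ a ∈ S, (stdGaussian E).real {g : E | ⟪z a, g⟫ ≤ y a} :=
      Finset.prod_nonneg fun _ _ => measureReal_nonneg
    have hkey : (stdGaussian E).real ({g : E | ⟪z b, g⟫ ≤ y b} ∩ {g : E | ∀ a ∈ S, ⟪z a, g⟫ ≤ y a})
        ≤ (stdGaussian E).real {g : E | ⟪z b, g⟫ ≤ y b}
          * (stdGaussian E).real {g : E | ∀ a ∈ S, ⟪z a, g⟫ ≤ y a} := by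
      by_cases hzb : z b = 0
      · by_cases hy : 0 ≤ y b
        · have : {g : E | ⟪z b, g⟫ ≤ y b} = Set.univ := by
            ext g; simp [hzb, hy]
          rw [this]
          simp
        · have : {g : E | ⟪z b, g⟫ ≤ y b} = ∅ := by
            ext g; simp [hzb, not_le.1 hy]
          rw [this]
          simp
      · have hn : 0 < ‖z b‖ := norm_pos_iff.2 hzb
        set u : E := (‖z b‖)⁻¹ • z b with hu_def
        have hu : ‖u‖ = 1 := by
          rw [hu_def, norm_smul, norm_inv, norm_norm]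
          field_simp
        have hub : z b = ‖z b‖ • u := by
          rw [hu_def, smul_smul]
          field_simp
          simp
        have hproj : ∀ (ξ : ℝ) (g' : E), ⟪z b, ξ • u + (g' - ⟪u, g'⟫ • u)⟫ = ‖z b‖ * ξ := by
          intro ξ g'
          have h0 : ⟪u, ξ • u + (g' - ⟪u, g'⟫ • u)⟫ = ξ := inner_line_split u hu ξ g'
          conv_lhs => rw [hub, inner_smul_left]
          simp [h0]
        set c : ℝ := y b / ‖z b‖ with hc_def
        have hle : ∀ ξ : ℝ, ‖z b‖ * ξ ≤ y b ↔ ξ ≤ c := by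
          intro ξ
          rw [hc_def, le_div_iff₀ hn, mul_comm]
        set A := {g : E | ∀ a ∈ S, ⟪z a, g⟫ ≤ y a} with hA
        set h : ℝ → ℝ := fun ξ => (stdGaussian E).real {g' : E | ξ • u + (g' - ⟪u, g'⟫ • u) ∈ A}
          with hh
        have hmono : Monotone h := by
          intro ξ₁ ξ₂ h12
          apply measureReal_mono _ (by simp)
          intro g' hg' a ha
          have h1 := hg' a ha
          have hua : ⟪z a, u⟫ ≤ 0 := by
            rw [hu_def, inner_smul_right]
            exact mul_nonpos_of_nonneg_of_nonpos (by positivity) (hbS a ha)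
          have h2 : ⟪z a, ξ₂ • u + (g' - ⟪u, g'⟫ • u)⟫
              = ⟪z a, ξ₁ • u + (g' - ⟪u, g'⟫ • u)⟫ + (ξ₂ - ξ₁) * ⟪z a, u⟫ :=
            inner_shift _ _ _ _ _
          rw [h2]
          have h3 : (ξ₂ - ξ₁) * ⟪z a, u⟫ ≤ 0 :=
            mul_nonpos_of_nonneg_of_nonpos (by linarith) hua
          linarith
        have hhmeas : Measurable h := by
          have hs : MeasurableSet {p : ℝ × E | p.1 • u + (p.2 - ⟪u, p.2⟫ • u) ∈ A} := by
            have h1 : Continuous (fun p : ℝ × E => p.1 • u + (p.2 - ⟪u, p.2⟫ • u)) := by fun_prop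
            exact h1.measurable hmeasA
          have := measurable_measure_prodMk_left (ν := stdGaussian E) hs
          exact this.ennreal_toReal
        have hhint : Integrable h (gaussianReal 0 1) := by
          refine Integrable.mono' (integrable_const (1 : ℝ)) hhmeas.aestronglyMeasurable
            (Filter.Eventually.of_forall fun ξ => ?_)
          rw [Real.norm_of_nonneg measureReal_nonneg]
          exact measureReal_le_one
        have h1 : (stdGaussian E).real A = ∫ ξ, h ξ ∂(gaussianReal 0 1) :=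
          real_line_split u hu hmeasA
        have h2 : (stdGaussian E).real {g : E | ⟪z b, g⟫ ≤ y b}
            = (gaussianReal 0 1).real (Set.Iic c) := by
          rw [real_line_split u hu hmeasB, ← integral_indicator_one measurableSet_Iic]
          congr 1
          ext ξ
          by_cases hξ : ξ ≤ c
          · have : {g' : E | ξ • u + (g' - ⟪u, g'⟫ • u) ∈ {g : E | ⟪z b, g⟫ ≤ y b}} = Set.univ := by
              ext g'
              simp only [Set.mem_ofPred_eq, Set.mem_univ, iff_true]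
              rw [hproj, hle]
              exact hξ
            rw [this]
            simp [hξ]
          · have : {g' : E | ξ • u + (g' - ⟪u, g'⟫ • u) ∈ {g : E | ⟪z b, g⟫ ≤ y b}} = ∅ := by
              ext g'
              simp only [Set.mem_ofPred_eq, Set.mem_empty_iff_false, iff_false]
              rw [hproj, hle]
              exact hξ
            rw [this]
            simp [hξ]
        have h3 : (stdGaussian E).real ({g : E | ⟪z b, g⟫ ≤ y b} ∩ A)
            = ∫ ξ in Set.Iic c, h ξ ∂(gaussianReal 0 1) := by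
          rw [real_line_split u hu (hmeasB.inter hmeasA),
            ← integral_indicator measurableSet_Iic]
          congr 1
          ext ξ
          by_cases hξ : ξ ≤ c
          · have : {g' : E | ξ • u + (g' - ⟪u, g'⟫ • u) ∈ {g : E | ⟪z b, g⟫ ≤ y b} ∩ A}
                = {g' : E | ξ • u + (g' - ⟪u, g'⟫ • u) ∈ A} := by
              ext g'
              simp only [Set.mem_ofPred_eq, Set.mem_inter_iff, and_iff_right_iff_imp]
              intro _
              rw [hproj, hle]
              exact hξ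
            rw [this]
            simp [hξ, hh]
          · have : {g' : E | ξ • u + (g' - ⟪u, g'⟫ • u) ∈ {g : E | ⟪z b, g⟫ ≤ y b} ∩ A} = ∅ := by
              ext g'
              simp only [Set.mem_ofPred_eq, Set.mem_inter_iff, Set.mem_empty_iff_false, iff_false,
                not_and]
              intro h'
              rw [hproj, hle] at h'
              exact absurd h' hξ
            rw [this]
            simp [hξ]
        rw [h3, h2, h1]
        exact cheb_assoc _ hmono hhint c
    calc _ ≤ _ := hkey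
      _ ≤ _ := mul_le_mul_of_nonneg_left (ih hz') measureReal_nonneg

end line

end Crest.Agent.Propeller
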