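import Crest.Agent.Lib.Propeller.Cap1D

/-!
# Rigorous numerics for `Phi`, `phi0`, `psi`

* `tNeg n u = ∑_{k ≤ n} (-u)^k / k!`, `tNeg_odd_le`, `le_tNeg_even` : alternating bounds for `exp (-u)`;
* `gI n c = ∑_{k ≤ n} (-1)^k c^(2k+1) / (2^k k! (2k+1))`: bounds for `∫_0^c exp(-x²/2)`;
* `Phi_zero`, `Phi_sub`, `Phi_le`, `le_Phi`, `Phi_neg`;
* `phi0_lt`, `lt_phi0`;
* `psi_le`: `psi c ≤ phi0 (tNeg (2m) (c²/2) + c gI (2m) c) - c/2`.
-/

set_option autoImplicit false
set_option linter.unusedSectionVars false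
open MeasureTheory ProbabilityTheory Set
open scoped RealInnerProductSpace NNReal

namespace Crest.Agent.Propeller

/-- The alternating Taylor polynomial of `exp (-u)`. -/
noncomputable def tNeg (n : ℕ) (u : ℝ) : ℝ :=
  ∑ k ∈ Finset.range (n + 1), (-u) ^ k / (k.factorial : ℝ)

lemma tNeg_zero (n : ℕ) : tNeg n 0 = 1 := by
  unfold tNeg
  rw [Finset.sum_eq_single 0]
  · simp
  · intro k _ hk
    simp [hk]
  · simp

lemma tNeg_succ (n : ℕ) (u : ℝ) :
    tNeg (n + 1) u = tNeg n u + (-u) ^ (n + 1) / ((n + 1).factorial : ℝ) := by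
  unfold tNeg
  rw [Finset.sum_range_succ]

lemma hasDerivAt_tNeg (n : ℕ) (u : ℝ) : HasDerivAt (tNeg (n + 1)) (- tNeg n u) u := by
  induction n with
  | zero =>
    have h : tNeg 1 = fun u => 1 - u := by
      ext u
      simp [tNeg, Finset.sum_range_succ]
      ring
    rw [h]
    simpa [tNeg] using (hasDerivAt_id u).const_sub 1
  | succ n ih =>
    have h1 : tNeg (n + 1 + 1) = fun u => tNeg (n + 1) u + (-u) ^ (n + 1 + 1) / ((n + 1 + 1).factorial : ℝ) := by
      ext u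
      exact tNeg_succ (n + 1) u
    rw [h1]
    have h2 : HasDerivAt (fun u : ℝ => (-u) ^ (n + 1 + 1) / ((n + 1 + 1).factorial : ℝ))
        (-((-u) ^ (n + 1) / ((n + 1).factorial : ℝ))) u := by
      have h3 : HasDerivAt (fun u : ℝ => (-u) ^ (n + 1 + 1))
          (((n + 1 + 1 : ℕ) : ℝ) * (-u) ^ (n + 1) * (-1)) u := by
        have h0 : HasDerivAt (fun u : ℝ => -u) (-1) u := hasDerivAt_neg u
        have := h0.fun_pow (n + 1 + 1)
        refine this.congr_deriv ?_
        simp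
      have h4 := h3.div_const ((n + 1 + 1).factorial : ℝ)
      refine h4.congr_deriv ?_
      rw [Nat.factorial_succ (n + 1)]
      have hf : ((n + 1).factorial : ℝ) ≠ 0 := by positivity
      push_cast
      field_simp
    have h5 := ih.add h2
    refine h5.congr_deriv ?_
    rw [tNeg_succ n u]
    ring

/-- The sign pattern of the alternating remainder. -/
lemma tNeg_sign (n : ℕ) {u : ℝ} (hu : 0 ≤ u) :
    0 ≤ (-1 : ℝ) ^ (n + 1) * (Real.exp (-u) - tNeg n u) := by
  induction n generalizing u with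
  | zero =>
    have h : tNeg 0 u = 1 := by simp [tNeg]
    rw [h]
    have := Real.exp_le_one_iff.2 (neg_nonpos.2 hu)
    simp
    linarith
  | succ n ih =>
    set f : ℝ → ℝ := fun u => (-1 : ℝ) ^ (n + 1 + 1) * (Real.exp (-u) - tNeg (n + 1) u) with hf
    have hderiv : ∀ x, HasDerivAt f ((-1 : ℝ) ^ (n + 1) * (Real.exp (-x) - tNeg n x)) x := by
      intro x
      have h1 : HasDerivAt (fun u : ℝ => Real.exp (-u)) (Real.exp (-x) * (-1)) x :=
        ((hasDerivAt_id x).neg).exp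
      have h2 := (h1.sub (hasDerivAt_tNeg n x)).const_mul ((-1 : ℝ) ^ (n + 1 + 1))
      refine h2.congr_deriv ?_
      rw [pow_succ (-1 : ℝ) (n + 1)]
      ring
    have hmono : MonotoneOn f (Ici 0) := by
      refine monotoneOn_of_deriv_nonneg (convex_Ici 0) ?_ ?_ ?_
      · exact fun x _ => (hderiv x).continuousAt.continuousWithinAt
      · exact fun x _ => (hderiv x).differentiableAt.differentiableWithinAt
      · intro x hx
        rw [(hderiv x).deriv]
        rw [interior_Ici] at hx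
        exact ih (le_of_lt hx)
    have h0 : f 0 = 0 := by
      simp only [hf]
      rw [tNeg_zero]
      simp
    have := hmono (mem_Ici.2 le_rfl) (mem_Ici.2 hu) hu
    rw [h0] at this
    exact this

lemma tNeg_odd_le (m : ℕ) {u : ℝ} (hu : 0 ≤ u) : tNeg (2 * m + 1) u ≤ Real.exp (-u) := by
  have h := tNeg_sign (2 * m + 1) hu
  have h2 : (-1 : ℝ) ^ (2 * m + 1 + 1) = 1 := by
    rw [show 2 * m + 1 + 1 = 2 * (m + 1) by ring, pow_mul]
    simp
  rw [h2] at h
  linarith

lemma exp_le_tNeg_even (m : ℕ) {u : ℝ} (hu : 0 ≤ u) : Real.exp (-u) ≤ tNeg (2 * m) u := by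
  have h := tNeg_sign (2 * m) hu
  have h2 : (-1 : ℝ) ^ (2 * m + 1) = -1 := by
    rw [pow_succ, pow_mul]
    simp
  rw [h2] at h
  linarith

/-- `∑_{k ≤ n} (-1)^k c^(2k+1) / (2^k k! (2k+1))`. -/
noncomputable def gI (n : ℕ) (c : ℝ) : ℝ :=
  ∑ k ∈ Finset.range (n + 1), (-1 : ℝ) ^ k * c ^ (2 * k + 1)
    / ((2 : ℝ) ^ k * (k.factorial : ℝ) * ((2 * k + 1 : ℕ) : ℝ))

lemma integral_tNeg (n : ℕ) (c : ℝ) :
    ∫ x in (0 : ℝ)..c, tNeg n (x ^ 2 / 2) = gI n c := by
  unfold tNeg gI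
  rw [intervalIntegral.integral_finsetSum]
  · refine Finset.sum_congr rfl fun k _ => ?_
    have h1 : ∀ x : ℝ, (-(x ^ 2 / 2)) ^ k / (k.factorial : ℝ)
        = ((-1 : ℝ) ^ k / ((2 : ℝ) ^ k * (k.factorial : ℝ))) * x ^ (2 * k) := by
      intro x
      rw [neg_eq_neg_one_mul, mul_pow, div_pow, ← pow_mul]
      have : (k.factorial : ℝ) ≠ 0 := by positivity
      field_simp
    simp_rw [h1]
    rw [intervalIntegral.integral_const_mul, integral_pow]
    have hk : ((2 * k + 1 : ℕ) : ℝ) ≠ 0 := by positivity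
    have : (k.factorial : ℝ) ≠ 0 := by positivity
    simp only [zero_pow (Nat.succ_ne_zero (2 * k)), sub_zero]
    push_cast
    field_simp
  · intro k _
    apply Continuous.intervalIntegrable
    fun_prop

lemma continuous_tNeg (n : ℕ) : Continuous (fun x : ℝ => tNeg n (x ^ 2 / 2)) := by
  unfold tNeg
  fun_prop

lemma continuous_exp_sq : Continuous (fun x : ℝ => Real.exp (-(x ^ 2 / 2))) := by fun_prop

lemma gI_odd_le (m : ℕ) {c : ℝ} (hc : 0 ≤ c) :
    gI (2 * m + 1) c ≤ ∫ x in (0 : ℝ)..c, Real.exp (-(x ^ 2 / 2)) := by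
  rw [← integral_tNeg]
  refine intervalIntegral.integral_mono_on hc ((continuous_tNeg _).intervalIntegrable _ _)
    (continuous_exp_sq.intervalIntegrable _ _) fun x _ => tNeg_odd_le m (by positivity)

lemma le_gI_even (m : ℕ) {c : ℝ} (hc : 0 ≤ c) :
    ∫ x in (0 : ℝ)..c, Real.exp (-(x ^ 2 / 2)) ≤ gI (2 * m) c := by
  rw [← integral_tNeg]
  refine intervalIntegral.integral_mono_on hc (continuous_exp_sq.intervalIntegrable _ _)
    ((continuous_tNeg _).intervalIntegrable _ _) fun x _ => exp_le_tNeg_even m (by positivity)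

/-! ### `Phi` -/

lemma Phi_neg (x : ℝ) : Phi (-x) = 1 - Phi x := by
  have h := gaussianReal_map_neg (μ := 0) (v := 1)
  have h1 : Phi (-x) = (gaussianReal 0 1).real (Ioi x) := by
    unfold Phi
    have : gaussianReal (0 : ℝ) 1 = (gaussianReal 0 1).map (fun y => -y) := by simpa using h.symm
    conv_lhs => rw [this]
    rw [map_measureReal_apply measurable_neg measurableSet_Iio]
    congr 1
    ext y
    simp
  rw [h1, real_Ioi_eq]

lemma Phi_zero : Phi 0 = 1 / 2 := by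
  have := Phi_neg 0
  simp only [neg_zero] at this
  linarith

/-- `Phi c - 1/2 = φ₀ ∫_0^c exp(-x²/2)` for `c ≥ 0`. -/
lemma Phi_sub_half {c : ℝ} (hc : 0 ≤ c) :
    Phi c - 1 / 2 = phi0 * ∫ x in (0 : ℝ)..c, Real.exp (-(x ^ 2 / 2)) := by
  have h1 : Phi c - Phi 0 = (gaussianReal 0 1).real (Ico 0 c) := by
    unfold Phi
    have hsub : Iio (0 : ℝ) ⊆ Iio c := Iio_subset_Iio hc
    have : Iio c = Iio 0 ∪ Ico 0 c := by
      rw [Iio_union_Ico_eq_Iio hc]
    rw [this, measureReal_union]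
    · ring
    · exact Set.disjoint_left.2 fun x hx hx' => absurd hx'.1 (not_le.2 hx)
    · exact measurableSet_Ico
  rw [Phi_zero] at h1
  rw [h1, ← integral_indicator_one measurableSet_Ico, integral_gaussianReal_std]
  rw [intervalIntegral.integral_of_le hc, integral_Ioc_eq_integral_Ioo,
    ← integral_Ico_eq_integral_Ioo, ← integral_const_mul, ← integral_indicator measurableSet_Ico]
  congr 1
  ext x
  by_cases hx : x ∈ Ico 0 c
  · simp [Set.indicator, hx]
    left
    ring_nf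
  · simp [Set.indicator, hx]

lemma Phi_le (m : ℕ) {c : ℝ} (hc : 0 ≤ c) : Phi c ≤ 1 / 2 + phi0 * gI (2 * m) c := by
  have := Phi_sub_half hc
  have h2 := mul_le_mul_of_nonneg_left (le_gI_even m hc) phi0_pos.le
  linarith

lemma le_Phi (m : ℕ) {c : ℝ} (hc : 0 ≤ c) : 1 / 2 + phi0 * gI (2 * m + 1) c ≤ Phi c := by
  have := Phi_sub_half hc
  have h2 := mul_le_mul_of_nonneg_left (gI_odd_le m hc) phi0_pos.le
  linarith

/-- The simplest polynomial bound. -/
lemma Phi_le_half_add {c : ℝ} (hc : 0 ≤ c) : Phi c ≤ 1 / 2 + phi0 * c := by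
  have h := Phi_le 0 hc
  simpa [gI] using h

/-! ### `phi0` -/

lemma phi0_lt : phi0 < 0.39895 := by
  have h1 : phi0 ^ 2 < (0.39895 : ℝ) ^ 2 := by
    rw [phi0_sq]
    have := Real.pi_gt_d6
    rw [div_lt_iff₀ (by positivity)]
    nlinarith
  exact lt_of_pow_lt_pow_left₀ 2 (by norm_num) h1

lemma lt_phi0 : 0.39894 < phi0 := by
  have h1 : (0.39894 : ℝ) ^ 2 < phi0 ^ 2 := by
    rw [phi0_sq]
    have := Real.pi_lt_d6
    rw [lt_div_iff₀ (by positivity)]
    nlinarith
  exact lt_of_pow_lt_pow_left₀ 2 phi0_pos.le h1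

/-! ### `psi` -/

/-- Upper bound for `psi`. -/
lemma psi_le (m : ℕ) {c : ℝ} (hc : 0 ≤ c) :
    psi c ≤ phi0 * (tNeg (2 * m) (c ^ 2 / 2) + c * gI (2 * m) c) - c / 2 := by
  unfold psi
  have h1 := exp_le_tNeg_even m (u := c ^ 2 / 2) (by positivity)
  have h2 := Phi_le m hc
  have h3 : Real.exp (-c ^ 2 / 2) = Real.exp (-(c ^ 2 / 2)) := by
    congr 1
    ring
  rw [h3]
  have h4 := mul_le_mul_of_nonneg_left h1 phi0_pos.le
  have h5 := mul_le_mul_of_nonneg_left h2 hc
  nlinarith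

end Crest.Agent.Propeller
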