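/-
The certificate layer of the top lemma: cost lower bounds from rational tangents of the `I`-cap.
-/
import Crest.Agent.Lib.Propeller.PhiNum

set_option autoImplicit false
set_option linter.unusedSectionVars false

namespace Crest.Agent.Propeller.Top

/-! ### Rational evaluation of the upper bound of `psi` -/

/-- `tNeg` over `ℚ`. -/
def tNegQ : ℕ → ℚ → ℚ
  | 0, _ => 1
  | n + 1, u => tNegQ n u + (-u) ^ (n + 1) / ((n + 1).factorial : ℚ)

lemma tNegQ_cast (n : ℕ) (u : ℚ) : ((tNegQ n u : ℚ) : ℝ) = tNeg n (u : ℝ) := by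
  induction n with
  | zero => simp [tNegQ, tNeg]
  | succ n ih =>
    rw [tNegQ, tNeg_succ]
    push_cast
    rw [ih]

/-- `gI` over `ℚ`. -/
def gIQ : ℕ → ℚ → ℚ
  | 0, c => c
  | n + 1, c => gIQ n c + (-1) ^ (n + 1) * c ^ (2 * (n + 1) + 1)
      / ((2 : ℚ) ^ (n + 1) * ((n + 1).factorial : ℚ) * ((2 * (n + 1) + 1 : ℕ) : ℚ))

lemma gIQ_cast (n : ℕ) (c : ℚ) : ((gIQ n c : ℚ) : ℝ) = gI n (c : ℝ) := by
  induction n with
  | zero => simp [gIQ, gI]
  | succ n ih =>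
    rw [gIQ]
    unfold gI at ih ⊢
    rw [Finset.sum_range_succ]
    push_cast at ih ⊢
    rw [ih]

/-- A sharp upper bound of `phi0`. -/
lemma phi0_le_hi : phi0 ≤ 3989424 / 10000000 := by
  have h1 : phi0 ^ 2 < ((3989424 : ℝ) / 10000000) ^ 2 := by
    rw [phi0_sq]
    have := Real.pi_gt_d6
    rw [div_lt_iff₀ (by positivity)]
    nlinarith
  exact (lt_of_pow_lt_pow_left₀ 2 (by norm_num) h1).le

/-- The bracket in `psi_le`. -/
def bracketQ (c : ℚ) : ℚ := tNegQ (2 * 7) (c ^ 2 / 2) + c * gIQ (2 * 7) c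

/-- The check of `psi c ≤ p`. -/
def psiOK (c p : ℚ) : Bool :=
  decide (0 ≤ c) && decide (0 ≤ bracketQ c) && decide ((3989424 / 10000000) * bracketQ c - c / 2 ≤ p)

lemma psiOK_sound {c p : ℚ} (h : psiOK c p = true) : psi (c : ℝ) ≤ (p : ℝ) := by
  simp only [psiOK, Bool.and_eq_true, decide_eq_true_eq] at h
  obtain ⟨⟨h0, h1⟩, h2⟩ := h
  have hc : (0 : ℝ) ≤ (c : ℝ) := by exact_mod_cast h0
  have h3 := psi_le 7 hc
  have hB : ((bracketQ c : ℚ) : ℝ) = tNeg (2 * 7) ((c : ℝ) ^ 2 / 2) + (c : ℝ) * gI (2 * 7) (c : ℝ) := by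
    unfold bracketQ
    push_cast
    rw [tNegQ_cast, gIQ_cast]
    push_cast
    rfl
  have h1' : (0 : ℝ) ≤ ((bracketQ c : ℚ) : ℝ) := by exact_mod_cast h1
  have h2' : ((3989424 : ℝ) / 10000000) * ((bracketQ c : ℚ) : ℝ) - (c : ℝ) / 2 ≤ (p : ℝ) := by
    have h5 := (Rat.cast_le (K := ℝ)).2 h2
    push_cast at h5
    exact h5
  rw [← hB] at h3
  have h4 := mul_le_mul_of_nonneg_right phi0_le_hi h1'
  linarith

/-! ### The grid and the cost of a node -/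

/-- Grid points of the norms, in units `10⁻⁴`. -/
def gg (i : ℕ) : ℕ := 600 + 20 * i

/-- Grid points of the norms. -/
noncomputable def gr (i : ℕ) : ℝ := (gg i : ℝ) / 10000

lemma gr_lt_gr {i j : ℕ} (h : i < j) : gr i < gr j := by
  unfold gr gg
  have : (i : ℝ) + 1 ≤ j := by exact_mod_cast h
  push_cast
  linarith

lemma lt_of_gr_lt {i j : ℕ} (h : gr i < gr j) : i < j := by
  by_contra hc
  have h2 : j ≤ i := by omega
  have : gr j ≤ gr i := by
    unfold gr gg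
    have : (j : ℝ) ≤ i := by exact_mod_cast h2
    push_cast
    linarith
  linarith

/-- Tangent data: `c / 10⁴` and an upper bound `p / 10⁷` of `psi (c / 10⁴)`. -/
structure Ent where
  c : ℕ
  p : ℕ

/-- The check of an entry. -/
def entOK (e : Ent) : Bool :=
  Nat.blt 0 e.c && psiOK ((e.c : ℚ) / 10000) ((e.p : ℚ) / 10000000)

/-- Semantic goodness of an entry. -/
structure Ent.Good (e : Ent) : Prop where
  pos : 0 < e.c
  le : psi ((e.c : ℝ) / 10000) ≤ (e.p : ℝ) / 10000000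

lemma entOK_sound {e : Ent} (h : entOK e = true) : e.Good := by
  simp only [entOK, Bool.and_eq_true] at h
  refine ⟨Nat.le_of_ble_eq_true h.1, ?_⟩
  have := psiOK_sound h.2
  push_cast at this
  exact this

/-- The cost at a grid point, in units `10⁻¹⁰`, rounded down. -/
def costAt (L U C P : ℕ) : ℤ :=
  ((L : ℤ) * ((U : ℤ) * 1000 - (P : ℤ)) * 1000) / (C : ℤ) - 100 * (U : ℤ) ^ 2

lemma costAt_le (L U C P : ℕ) (hC : 0 < C) :
    ((costAt L U C P : ℤ) : ℝ) / 10 ^ 10 ≤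
      ((L : ℝ) / 10000) * ((U : ℝ) / 10000 - (P : ℝ) / 10000000) / ((C : ℝ) / 10000)
        - ((U : ℝ) / 10000) ^ 2 := by
  have hC' : (0 : ℤ) < (C : ℤ) := by exact_mod_cast hC
  have hCr : (0 : ℝ) < (C : ℝ) := by exact_mod_cast hC
  set n : ℤ := (L : ℤ) * ((U : ℤ) * 1000 - (P : ℤ)) * 1000 with hn
  have h1 : n / (C : ℤ) * (C : ℤ) ≤ n := Int.ediv_mul_le n hC'.ne'
  have h2 : ((n / (C : ℤ) : ℤ) : ℝ) * (C : ℝ) ≤ (n : ℝ) := by exact_mod_cast h1
  have h3 : ((n / (C : ℤ) : ℤ) : ℝ) ≤ (n : ℝ) / (C : ℝ) := by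
    rw [le_div_iff₀ hCr]
    exact h2
  have h4 : ((costAt L U C P : ℤ) : ℝ) = ((n / (C : ℤ) : ℤ) : ℝ) - 100 * (U : ℝ) ^ 2 := by
    unfold costAt
    push_cast
    ring
  have hnr : (n : ℝ) = (L : ℝ) * ((U : ℝ) * 1000 - (P : ℝ)) * 1000 := by
    rw [hn]
    push_cast
    ring
  rw [h4]
  have e : ((L : ℝ) / 10000) * ((U : ℝ) / 10000 - (P : ℝ) / 10000000) / ((C : ℝ) / 10000)
        - ((U : ℝ) / 10000) ^ 2 = ((n : ℝ) / (C : ℝ) - 100 * (U : ℝ) ^ 2) / 10 ^ 10 := by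
    rw [hnr]
    field_simp
    ring
  rw [e]
  apply div_le_div_of_nonneg_right _ (by positivity)
  linarith

/-- The cost of a concave function on an interval, from the two end points. -/
lemma cell_cost {lam c P a σ u v Lb : ℝ} (hc : 0 < c) (hlam : 0 ≤ lam) (hcap : σ ≤ P + c * a)
    (hu : u ≤ σ) (hv : σ ≤ v)
    (h1 : Lb ≤ lam * (u - P) / c - u ^ 2) (h2 : Lb ≤ lam * (v - P) / c - v ^ 2) :
    Lb ≤ lam * a - σ ^ 2 := by
  have ha : (σ - P) / c ≤ a := by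
    rw [div_le_iff₀ hc]
    linarith
  have hb : lam * (σ - P) / c ≤ lam * a := by
    have := mul_le_mul_of_nonneg_left ha hlam
    rwa [mul_div_assoc]
  suffices Lb ≤ lam * (σ - P) / c - σ ^ 2 by linarith
  rcases eq_or_lt_of_le (hu.trans hv) with huv | huv
  · have : σ = u := le_antisymm (huv ▸ hv) hu
    rw [this]
    exact h1
  have hpos : 0 < v - u := by linarith
  set d := lam / c with hd
  have e1 : ∀ t : ℝ, lam * (t - P) / c = d * (t - P) := by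
    intro t
    rw [hd]
    ring
  rw [e1] at h1 h2 ⊢
  have h3 := mul_le_mul_of_nonneg_left h1 (sub_nonneg.2 hv)
  have h4 := mul_le_mul_of_nonneg_left h2 (sub_nonneg.2 hu)
  have h5 : 0 ≤ (σ - u) * (v - σ) * (v - u) := by
    have := mul_nonneg (sub_nonneg.2 hu) (sub_nonneg.2 hv)
    positivity
  have h6 : Lb * (v - u) ≤ (d * (σ - P) - σ ^ 2) * (v - u) := by
    have e2 : (d * (σ - P) - σ ^ 2) * (v - u)
        = (v - σ) * (d * (u - P) - u ^ 2) + (σ - u) * (d * (v - P) - v ^ 2)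
          + (σ - u) * (v - σ) * (v - u) := by ring
    rw [e2]
    nlinarith
  exact le_of_mul_le_mul_right h6 hpos

/-- Minimum on integers. -/
def imin (a b : ℤ) : ℤ := if a ≤ b then a else b

lemma imin_le_left (a b : ℤ) : imin a b ≤ a := by
  unfold imin
  split_ifs <;> omega

lemma imin_le_right (a b : ℤ) : imin a b ≤ b := by
  unfold imin
  split_ifs <;> omega

/-- The cost on one cell of the grid. -/
def cellCost (L : ℕ) (e : Ent) (i : ℕ) : ℤ :=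
  imin (costAt L (gg i) e.c e.p) (costAt L (gg (i + 1)) e.c e.p)

/-- A node: norm, mass, all tangents. -/
def Tang (σ a : ℝ) : Prop := ∀ c : ℝ, 0 ≤ c → σ ≤ psi c + c * a

lemma cellCost_sound {L : ℕ} {e : Ent} (he : e.Good) {i : ℕ} {σ a : ℝ} (hn : Tang σ a)
    (h1 : gr i ≤ σ) (h2 : σ ≤ gr (i + 1)) :
    ((cellCost L e i : ℤ) : ℝ) / 10 ^ 10 ≤ ((L : ℝ) / 10000) * a - σ ^ 2 := by
  have hcpos : (0 : ℝ) < (e.c : ℝ) / 10000 := by
    have : (0 : ℝ) < (e.c : ℝ) := by exact_mod_cast he.pos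
    positivity
  have hcap : σ ≤ (e.p : ℝ) / 10000000 + ((e.c : ℝ) / 10000) * a := by
    have h3 := hn _ hcpos.le
    have h4 := he.le
    linarith
  have e1 : ((imin (costAt L (gg i) e.c e.p) (costAt L (gg (i + 1)) e.c e.p) : ℤ) : ℝ)
      ≤ ((costAt L (gg i) e.c e.p : ℤ) : ℝ) := by exact_mod_cast imin_le_left _ _
  have e2 : ((imin (costAt L (gg i) e.c e.p) (costAt L (gg (i + 1)) e.c e.p) : ℤ) : ℝ)
      ≤ ((costAt L (gg (i + 1)) e.c e.p : ℤ) : ℝ) := by exact_mod_cast imin_le_right _ _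
  refine cell_cost hcpos (by positivity) hcap h1 h2 ?_ ?_
  · refine le_trans ?_ (costAt_le L (gg i) e.c e.p he.pos)
    unfold cellCost
    exact div_le_div_of_nonneg_right e1 (by positivity)
  · refine le_trans ?_ (costAt_le L (gg (i + 1)) e.c e.p he.pos)
    unfold cellCost
    exact div_le_div_of_nonneg_right e2 (by positivity)

/-- The minimum of the cost on `n` consecutive cells. -/
def minCost (L : ℕ) : List Ent → ℕ → ℕ → ℤ
  | _, _, 0 => 1000000000000000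
  | [], _, _ + 1 => 1000000000000000
  | e :: t, i, n + 1 =>
      match n with
      | 0 => cellCost L e i
      | m + 1 => imin (cellCost L e i) (minCost L t (i + 1) (m + 1))

lemma minCost_sound {L : ℕ} {σ a : ℝ} (hn : Tang σ a) :
    ∀ (n : ℕ) (l : List Ent) (i : ℕ), (∀ e ∈ l, e.Good) → n ≤ l.length →
      gr i ≤ σ → σ < gr (i + n) →
      ((minCost L l i n : ℤ) : ℝ) / 10 ^ 10 ≤ ((L : ℝ) / 10000) * a - σ ^ 2 := by
  intro n
  induction n with
  | zero =>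
    intro l i _ _ h1 h2
    simp only [add_zero] at h2
    linarith
  | succ n ih =>
    intro l i hl hlen h1 h2
    cases l with
    | nil => simp at hlen
    | cons e t =>
      have hgood : e.Good := hl e (by simp)
      have hlt : ∀ e' ∈ t, e'.Good := fun e' he' => hl e' (by simp [he'])
      have hlen' : n ≤ t.length := by simpa using hlen
      cases n with
      | zero =>
        have := cellCost_sound (L := L) hgood hn h1 h2.le
        simpa [minCost] using this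
      | succ m =>
        simp only [minCost]
        rcases le_or_gt σ (gr (i + 1)) with h3 | h3
        · refine le_trans ?_ (cellCost_sound (L := L) hgood hn h1 h3)
          apply div_le_div_of_nonneg_right _ (by positivity)
          exact_mod_cast imin_le_left _ _
        · have h4 := ih t (i + 1) hlt hlen' h3.le (by
            have e : i + 1 + (m + 1) = i + (m + 1 + 1) := by omega
            rw [e]
            exact h2)
          refine le_trans ?_ h4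
          apply div_le_div_of_nonneg_right _ (by positivity)
          exact_mod_cast imin_le_right _ _

/-! ### The corner test -/

/-- The lower bound for the pair determinant of the top lemma. -/
noncomputable def D3 (e2 e3 xx : ℝ) : ℝ :=
  min (e3 * (e2 - e3 / 4 - xx)) ((e3 - xx) * (e2 - (e3 - xx) / 4))

lemma D3_ge {E2 E3 XX e2 e3 xx : ℝ} (h2 : E2 ≤ e2) (h3 : E3 ≤ e3) (hx : xx ≤ XX) (h32 : e3 ≤ e2)
    (hE : 2 * XX ≤ E2) (hpos : XX ≤ E3) (hE3 : 0 ≤ E3) (hxx : 0 ≤ xx) :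
    min (E3 * (E2 - E3 / 4 - XX)) ((E3 - XX) * (E2 - (E3 - XX) / 4)) ≤ D3 e2 e3 xx := by
  unfold D3
  apply le_min
  · refine (min_le_left _ _).trans ?_
    have h4 : 0 ≤ (e3 - E3) * (e2 - xx - (e3 + E3) / 4) := by
      apply mul_nonneg (by linarith)
      linarith
    have h5 : E3 * (E2 - E3 / 4 - XX) ≤ E3 * (e2 - E3 / 4 - xx) :=
      mul_le_mul_of_nonneg_left (by linarith) hE3
    nlinarith
  · refine (min_le_right _ _).trans ?_
    set t := e3 - xx with ht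
    set t' := E3 - XX with ht'
    have htt : t' ≤ t := by
      rw [ht, ht']
      linarith
    have ht0 : 0 ≤ t' := by
      rw [ht']
      linarith
    have h4 : 0 ≤ (t - t') * (e2 - (t + t') / 4) := by
      apply mul_nonneg (by linarith)
      have h6 : t ≤ e2 := by
        rw [ht]
        linarith
      have h7 : 0 ≤ e2 := by linarith
      linarith
    have h5 : t' * (E2 - t' / 4) ≤ t' * (e2 - t' / 4) :=
      mul_le_mul_of_nonneg_left (by linarith) ht0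
    nlinarith

/-- The corner test, in units `10⁻⁸`. -/
def cornerOK (Dl Cc X Y Mt : ℕ) : Bool :=
  decide (14 * (Mt : ℤ) ≤ (Y : ℤ) ^ 2) && decide (2 * (14 * (Mt : ℤ)) ≤ (X : ℤ) ^ 2)
    && decide (4 * (Dl : ℤ) ^ 2 * 100000000
        ≤ (Y : ℤ) ^ 2 * (4 * (X : ℤ) ^ 2 - (Y : ℤ) ^ 2 - 4 * (14 * (Mt : ℤ))))
    && decide (4 * (Dl : ℤ) ^ 2 * 100000000
        ≤ ((Y : ℤ) ^ 2 - 14 * (Mt : ℤ)) * (4 * (X : ℤ) ^ 2 - (Y : ℤ) ^ 2 + 14 * (Mt : ℤ)))
    && decide (4 * 10000000000 * (Mt : ℤ) ^ 2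
        ≤ (Cc : ℤ) ^ 2 * ((Y : ℤ) ^ 2 * (4 * (X : ℤ) ^ 2 - (Y : ℤ) ^ 2 - 4 * (14 * (Mt : ℤ)))))
    && decide (4 * 10000000000 * (Mt : ℤ) ^ 2
        ≤ (Cc : ℤ) ^ 2 * (((Y : ℤ) ^ 2 - 14 * (Mt : ℤ)) * (4 * (X : ℤ) ^ 2 - (Y : ℤ) ^ 2 + 14 * (Mt : ℤ))))

/-- The statement proved by the check trees. -/
def Goal (Dl Cc : ℕ) (e2 e3 xx M : ℝ) : Prop :=
  ((Dl : ℝ) / 10000) ^ 2 ≤ D3 e2 e3 xx ∧ M ^ 2 ≤ ((Cc : ℝ) / 1000) ^ 2 * D3 e2 e3 xx

lemma cornerOK_sound {Dl Cc X Y Mt : ℕ} (h : cornerOK Dl Cc X Y Mt = true) {x y M : ℝ}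
    (hx : (X : ℝ) / 10000 ≤ x) (hy : (Y : ℝ) / 10000 ≤ y) (hyx : y ≤ x) (hM0 : 0 ≤ M)
    (hM : M < (Mt : ℝ) / 1000000) :
    Goal Dl Cc (x ^ 2) (y ^ 2) (14 / 100 * M) M := by
  simp only [cornerOK, Bool.and_eq_true, decide_eq_true_eq] at h
  obtain ⟨⟨⟨⟨⟨h1, h2⟩, h3⟩, h4⟩, h5⟩, h6⟩ := h
  have r1 : 14 * (Mt : ℝ) ≤ (Y : ℝ) ^ 2 := by exact_mod_cast h1
  have r2 : 2 * (14 * (Mt : ℝ)) ≤ (X : ℝ) ^ 2 := by exact_mod_cast h2
  have r3 : 4 * (Dl : ℝ) ^ 2 * 100000000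
      ≤ (Y : ℝ) ^ 2 * (4 * (X : ℝ) ^ 2 - (Y : ℝ) ^ 2 - 4 * (14 * (Mt : ℝ))) := by exact_mod_cast h3
  have r4 : 4 * (Dl : ℝ) ^ 2 * 100000000
      ≤ ((Y : ℝ) ^ 2 - 14 * (Mt : ℝ)) * (4 * (X : ℝ) ^ 2 - (Y : ℝ) ^ 2 + 14 * (Mt : ℝ)) := by
    exact_mod_cast h4
  have r5 : 4 * 10000000000 * (Mt : ℝ) ^ 2
      ≤ (Cc : ℝ) ^ 2 * ((Y : ℝ) ^ 2 * (4 * (X : ℝ) ^ 2 - (Y : ℝ) ^ 2 - 4 * (14 * (Mt : ℝ)))) := by
    exact_mod_cast h5
  have r6 : 4 * 10000000000 * (Mt : ℝ) ^ 2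
      ≤ (Cc : ℝ) ^ 2 * (((Y : ℝ) ^ 2 - 14 * (Mt : ℝ)) * (4 * (X : ℝ) ^ 2 - (Y : ℝ) ^ 2 + 14 * (Mt : ℝ))) := by
    exact_mod_cast h6
  have hY0 : (0 : ℝ) ≤ (Y : ℝ) / 10000 := by positivity
  have hX0 : (0 : ℝ) ≤ (X : ℝ) / 10000 := by positivity
  have hy0 : 0 ≤ y := hY0.trans hy
  have hx0 : 0 ≤ x := hy0.trans hyx
  set E2 : ℝ := (X : ℝ) ^ 2 / 100000000 with hE2
  set E3 : ℝ := (Y : ℝ) ^ 2 / 100000000 with hE3
  set XX : ℝ := 14 * (Mt : ℝ) / 100000000 with hXX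
  have g2 : E2 ≤ x ^ 2 := by
    have := pow_le_pow_left₀ hX0 hx 2
    rw [hE2]
    calc (X : ℝ) ^ 2 / 100000000 = ((X : ℝ) / 10000) ^ 2 := by ring
      _ ≤ x ^ 2 := this
  have g3 : E3 ≤ y ^ 2 := by
    have := pow_le_pow_left₀ hY0 hy 2
    rw [hE3]
    calc (Y : ℝ) ^ 2 / 100000000 = ((Y : ℝ) / 10000) ^ 2 := by ring
      _ ≤ y ^ 2 := this
  have gx : 14 / 100 * M ≤ XX := by
    rw [hXX]
    have : M * 1000000 ≤ (Mt : ℝ) := by
      rw [lt_div_iff₀ (by norm_num)] at hM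
      exact hM.le
    linarith
  have g32 : y ^ 2 ≤ x ^ 2 := pow_le_pow_left₀ hy0 hyx 2
  have gE : 2 * XX ≤ E2 := by
    rw [hXX, hE2]
    linarith
  have gpos : XX ≤ E3 := by
    rw [hXX, hE3]
    linarith
  have gE3 : 0 ≤ E3 := by
    rw [hE3]
    positivity
  have hD := D3_ge g2 g3 gx g32 gE gpos gE3 (by positivity)
  set A := E3 * (E2 - E3 / 4 - XX) with hA
  set B := (E3 - XX) * (E2 - (E3 - XX) / 4) with hB
  have eA : (Y : ℝ) ^ 2 * (4 * (X : ℝ) ^ 2 - (Y : ℝ) ^ 2 - 4 * (14 * (Mt : ℝ))) = 4 * 10 ^ 16 * A := by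
    rw [hA, hE2, hE3, hXX]
    ring
  have eB : ((Y : ℝ) ^ 2 - 14 * (Mt : ℝ)) * (4 * (X : ℝ) ^ 2 - (Y : ℝ) ^ 2 + 14 * (Mt : ℝ))
      = 4 * 10 ^ 16 * B := by
    rw [hB, hE2, hE3, hXX]
    ring
  rw [eA] at r3 r5
  rw [eB] at r4 r6
  have hmin : (((Dl : ℝ) / 10000) ^ 2) ≤ min A B := by
    apply le_min
    · have : ((Dl : ℝ) / 10000) ^ 2 = (4 * (Dl : ℝ) ^ 2 * 100000000) / (4 * 10 ^ 16) := by ring
      rw [this, div_le_iff₀ (by norm_num)]
      linarith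
    · have : ((Dl : ℝ) / 10000) ^ 2 = (4 * (Dl : ℝ) ^ 2 * 100000000) / (4 * 10 ^ 16) := by ring
      rw [this, div_le_iff₀ (by norm_num)]
      linarith
  have hCc : 0 ≤ ((Cc : ℝ) / 1000) ^ 2 := by positivity
  have hMsq : M ^ 2 ≤ ((Mt : ℝ) / 1000000) ^ 2 := pow_le_pow_left₀ hM0 hM.le 2
  have hmin2 : ((Mt : ℝ) / 1000000) ^ 2 ≤ ((Cc : ℝ) / 1000) ^ 2 * min A B := by
    rcases le_total A B with hab | hab
    · rw [min_eq_left hab]
      have e1 : ((Cc : ℝ) / 1000) ^ 2 * A = ((Cc : ℝ) ^ 2 * (4 * 10 ^ 16 * A)) / (4 * 10 ^ 22) := by ring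
      have e2 : ((Mt : ℝ) / 1000000) ^ 2 = (4 * 10000000000 * (Mt : ℝ) ^ 2) / (4 * 10 ^ 22) := by ring
      rw [e1, e2]
      exact div_le_div_of_nonneg_right r5 (by norm_num)
    · rw [min_eq_right hab]
      have e1 : ((Cc : ℝ) / 1000) ^ 2 * B = ((Cc : ℝ) ^ 2 * (4 * 10 ^ 16 * B)) / (4 * 10 ^ 22) := by ring
      have e2 : ((Mt : ℝ) / 1000000) ^ 2 = (4 * 10000000000 * (Mt : ℝ) ^ 2) / (4 * 10 ^ 22) := by ring
      rw [e1, e2]
      exact div_le_div_of_nonneg_right r6 (by norm_num)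
  exact ⟨hmin.trans hD, hMsq.trans (hmin2.trans (mul_le_mul_of_nonneg_left hD hCc))⟩

/-! ### Check trees -/

/-- Check trees on the pairs `(σ₂, σ₃)`. -/
inductive Tr where
  /-- The box is outside `σ₃ ≤ σ₂`. -/
  | none
  /-- The multiplier `L` excludes the box. -/
  | empty (L : ℕ)
  /-- The multiplier `L` gives the dust mass bound `Mt / 10⁶` on the box. -/
  | leaf (L Mt : ℕ)
  /-- Split in `σ₂`. -/
  | sx (m : ℕ) (a b : Tr)
  /-- Split in `σ₃`. -/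
  | sy (m : ℕ) (a b : Tr)

/-- The numerator of the dust mass bound, in units `10⁻¹⁰`. -/
def numOf (tab : List Ent) (kk xl xh yl yh L : ℕ) : ℤ :=
  (L : ℤ) * 1000000 - 3580900000 - minCost L (tab.drop xl) xl (tab.length - xl)
    - minCost L (tab.drop xl) xl (xh - xl) - minCost L (tab.drop yl) yl (yh - yl)
    - (kk : ℤ) * minCost L tab 0 yh

/-- The check of a tree. -/
def chk (tab : List Ent) (kk Dl Cc : ℕ) : Tr → ℕ → ℕ → ℕ → ℕ → Bool
  | .none, _, xh, yl, _ => Nat.ble xh yl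
  | .empty L, xl, xh, yl, yh =>
      Nat.blt 1400 L && Nat.ble xh tab.length && Nat.ble yh tab.length
        && decide (numOf tab kk xl xh yl yh L < 0)
  | .leaf L Mt, xl, xh, yl, yh =>
      Nat.blt 1400 L && Nat.ble xh tab.length && Nat.ble yh tab.length
        && decide (numOf tab kk xl xh yl yh L * 1000000 ≤ (Mt : ℤ) * (((L : ℤ) - 1400) * 1000000))
        && cornerOK Dl Cc (gg xl) (gg yl) Mt
  | .sx m a b, xl, xh, yl, yh =>
      Nat.ble m xh && chk tab kk Dl Cc a xl m yl yh && chk tab kk Dl Cc b m xh yl yh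
  | .sy m a b, xl, xh, yl, yh =>
      Nat.ble m yh && chk tab kk Dl Cc a xl xh yl m && chk tab kk Dl Cc b xl xh m yh

section sound

variable {ι : Type*} (T : Finset ι) (σ a : ι → ℝ) {s1 a1 s2 a2 s3 a3 M : ℝ}

/-- What a tree needs to know on the configuration. -/
structure Conf (tab : List Ent) (T : Finset ι) (σ a : ι → ℝ) (s1 a1 s2 a2 s3 a3 M : ℝ) : Prop where
  good : ∀ e ∈ tab, e.Good
  t1 : Tang s1 a1
  t2 : Tang s2 a2
  t3 : Tang s3 a3
  tr : ∀ l ∈ T, Tang (σ l) (a l)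
  low : ∀ l ∈ T, gr 0 ≤ σ l
  up : ∀ l ∈ T, σ l ≤ s3
  le12 : s2 ≤ s1
  le23 : s3 ≤ s2
  top : s1 < gr tab.length
  M0 : 0 ≤ M
  budget : ∀ lam : ℝ, (lam * a1 - s1 ^ 2) + (lam * a2 - s2 ^ 2) + (lam * a3 - s3 ^ 2)
    + ∑ l ∈ T, (lam * a l - σ l ^ 2) + (lam - 14 / 100) * M < lam - 35809 / 100000

variable {T σ a}

lemma Conf.key {tab : List Ent} (h : Conf tab T σ a s1 a1 s2 a2 s3 a3 M)
    {xl xh yl yh L : ℕ} (hxh : xh ≤ tab.length) (hyh : yh ≤ tab.length)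
    (hx1 : gr xl ≤ s2) (hx2 : s2 < gr xh) (hy1 : gr yl ≤ s3) (hy2 : s3 < gr yh) :
    (((L : ℝ) - 1400) * 1000000) * M < ((numOf tab T.card xl xh yl yh L : ℤ) : ℝ) := by
  have hxlt : xl < xh := lt_of_gr_lt (hx1.trans_lt hx2)
  have hylt : yl < yh := lt_of_gr_lt (hy1.trans_lt hy2)
  have gdrop : ∀ n, ∀ e ∈ tab.drop n, e.Good := fun n e he => h.good e (List.mem_of_mem_drop he)
  have hm1 := minCost_sound (L := L) h.t1 (tab.length - xl) (tab.drop xl) xl (gdrop xl)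
    (by simp) (hx1.trans h.le12) (by
      have e : xl + (tab.length - xl) = tab.length := by omega
      rw [e]
      exact h.top)
  have hm2 := minCost_sound (L := L) h.t2 (xh - xl) (tab.drop xl) xl (gdrop xl)
    (by simp; omega) hx1 (by
      have e : xl + (xh - xl) = xh := by omega
      rw [e]
      exact hx2)
  have hm3 := minCost_sound (L := L) h.t3 (yh - yl) (tab.drop yl) yl (gdrop yl)
    (by simp; omega) hy1 (by
      have e : yl + (yh - yl) = yh := by omega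
      rw [e]
      exact hy2)
  have hmo : ∀ l ∈ T, ((minCost L tab 0 yh : ℤ) : ℝ) / 10 ^ 10 ≤ (L : ℝ) / 10000 * a l - σ l ^ 2 := by
    intro l hl
    refine minCost_sound (L := L) (h.tr l hl) yh tab 0 h.good hyh (h.low l hl) ?_
    rw [zero_add]
    exact (h.up l hl).trans_lt hy2
  have hsum := Finset.card_nsmul_le_sum T (fun l => (L : ℝ) / 10000 * a l - σ l ^ 2) _ hmo
  rw [nsmul_eq_mul] at hsum
  have hb := h.budget ((L : ℝ) / 10000)
  have hnum : ((numOf tab T.card xl xh yl yh L : ℤ) : ℝ)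
      = (L : ℝ) * 1000000 - 3580900000
        - ((minCost L (tab.drop xl) xl (tab.length - xl) : ℤ) : ℝ)
        - ((minCost L (tab.drop xl) xl (xh - xl) : ℤ) : ℝ)
        - ((minCost L (tab.drop yl) yl (yh - yl) : ℤ) : ℝ)
        - (T.card : ℝ) * ((minCost L tab 0 yh : ℤ) : ℝ) := by
    unfold numOf
    push_cast
    ring
  rw [hnum]
  set m1 : ℝ := ((minCost L (tab.drop xl) xl (tab.length - xl) : ℤ) : ℝ)
  set m2 : ℝ := ((minCost L (tab.drop xl) xl (xh - xl) : ℤ) : ℝ)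
  set m3 : ℝ := ((minCost L (tab.drop yl) yl (yh - yl) : ℤ) : ℝ)
  set mo : ℝ := ((minCost L tab 0 yh : ℤ) : ℝ)
  have e10 : (10 : ℝ) ^ 10 = 10000000000 := by norm_num
  rw [e10] at hm1 hm2 hm3 hsum
  have hs2 : (T.card : ℝ) * (mo / 10000000000) = (T.card : ℝ) * mo / 10000000000 := by ring
  rw [hs2] at hsum
  have hb2 : ((L : ℝ) / 10000 - 14 / 100) * M = (((L : ℝ) - 1400) * 1000000) * M / 10000000000 := by
    ring
  rw [hb2] at hb
  set W := ((L : ℝ) - 1400) * 1000000 * M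
  linarith

/-- **Soundness of the check trees.** -/
theorem chk_sound {tab : List Ent} (h : Conf tab T σ a s1 a1 s2 a2 s3 a3 M) {Dl Cc : ℕ} (t : Tr) :
    ∀ {xl xh yl yh : ℕ}, chk tab T.card Dl Cc t xl xh yl yh = true →
      gr xl ≤ s2 → s2 < gr xh → gr yl ≤ s3 → s3 < gr yh →
      xh ≤ tab.length → yh ≤ tab.length →
      Goal Dl Cc (s2 ^ 2) (s3 ^ 2) (14 / 100 * M) M := by
  induction t with
  | none =>
    intro xl xh yl yh hc hx1 hx2 hy1 hy2 _ _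
    have h1 : xh ≤ yl := Nat.le_of_ble_eq_true hc
    exfalso
    have h2 : gr xh ≤ gr yl := by
      unfold gr gg
      have : (xh : ℝ) ≤ yl := by exact_mod_cast h1
      push_cast
      linarith
    have := h.le23
    linarith
  | empty L =>
    intro xl xh yl yh hc hx1 hx2 hy1 hy2 hxh hyh
    simp only [chk, Bool.and_eq_true, decide_eq_true_eq] at hc
    obtain ⟨⟨⟨h1, _⟩, _⟩, h4⟩ := hc
    exfalso
    have hk := h.key (L := L) hxh hyh hx1 hx2 hy1 hy2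
    have hL : (1400 : ℝ) < L := by
      have : 1400 < L := Nat.le_of_ble_eq_true h1
      exact_mod_cast this
    have hneg : ((numOf tab T.card xl xh yl yh L : ℤ) : ℝ) < 0 := by exact_mod_cast h4
    have := mul_nonneg (by nlinarith : (0 : ℝ) ≤ ((L : ℝ) - 1400) * 1000000) h.M0
    linarith
  | leaf L Mt =>
    intro xl xh yl yh hc hx1 hx2 hy1 hy2 hxh hyh
    simp only [chk, Bool.and_eq_true, decide_eq_true_eq] at hc
    obtain ⟨⟨⟨⟨h1, _⟩, _⟩, h4⟩, h5⟩ := hc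
    have hk := h.key (L := L) hxh hyh hx1 hx2 hy1 hy2
    have hL : (1400 : ℝ) < L := by
      have : 1400 < L := Nat.le_of_ble_eq_true h1
      exact_mod_cast this
    have hnum : ((numOf tab T.card xl xh yl yh L : ℤ) : ℝ) * 1000000
        ≤ (Mt : ℝ) * (((L : ℝ) - 1400) * 1000000) := by exact_mod_cast h4
    have hden : (0 : ℝ) < ((L : ℝ) - 1400) * 1000000 := by nlinarith
    have hM : M < (Mt : ℝ) / 1000000 := by
      rw [lt_div_iff₀ (by norm_num)]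
      have h6 : (((L : ℝ) - 1400) * 1000000) * (M * 1000000)
          < (((L : ℝ) - 1400) * 1000000) * (Mt : ℝ) := by nlinarith
      exact lt_of_mul_lt_mul_left h6 hden.le
    refine cornerOK_sound h5 ?_ ?_ h.le23 h.M0 hM
    · exact hx1
    · exact hy1
  | sx m p q ihp ihq =>
    intro xl xh yl yh hc hx1 hx2 hy1 hy2 hxh hyh
    simp only [chk, Bool.and_eq_true] at hc
    obtain ⟨⟨h1, h2⟩, h3⟩ := hc
    have hm : m ≤ xh := Nat.le_of_ble_eq_true h1
    rcases lt_or_ge s2 (gr m) with h4 | h4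
    · exact ihp h2 hx1 h4 hy1 hy2 (hm.trans hxh) hyh
    · exact ihq h3 h4 hx2 hy1 hy2 hxh hyh
  | sy m p q ihp ihq =>
    intro xl xh yl yh hc hx1 hx2 hy1 hy2 hxh hyh
    simp only [chk, Bool.and_eq_true] at hc
    obtain ⟨⟨h1, h2⟩, h3⟩ := hc
    have hm : m ≤ yh := Nat.le_of_ble_eq_true h1
    rcases lt_or_ge s3 (gr m) with h4 | h4
    · exact ihp h2 hx1 hx2 hy1 h4 hxh (hm.trans hyh)
    · exact ihq h3 hx1 hx2 h4 hy2 hxh hyh

end sound

end Crest.Agent.Propeller.Top
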