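/- GENERATED by gen.py: tangents of the I cap on the sigma grid and the check trees of the top lemma. -/
import Crest.Agent.Lib.Propeller.TopCost

set_option autoImplicit false

namespace Crest.Agent.Propeller.Top

/-- One tangent per cell of the grid: `c/10⁴`, upper bound `p/10⁷` of `psi`. -/
def tab : List Ent := [
  ⟨19380, 100097⟩,
  ⟨19213, 104577⟩,
  ⟨19050, 109119⟩,
  ⟨18890, 113746⟩,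
  ⟨18733, 118452⟩,
  ⟨18580, 123202⟩,
  ⟨18430, 128020⟩,
  ⟨18283, 132902⟩,
  ⟨18138, 137875⟩,
  ⟨17996, 142903⟩,
  ⟨17857, 147979⟩,
  ⟨17720, 153134⟩,
  ⟨17585, 158367⟩,
  ⟨17452, 163674⟩,
  ⟨17322, 169010⟩,
  ⟨17193, 174453⟩,
  ⟨17066, 179960⟩,
  ⟨16941, 185527⟩,
  ⟨16817, 191196⟩,
  ⟨16695, 196919⟩,
  ⟨16575, 202691⟩,
  ⟨16457, 208510⟩,
  ⟨16339, 214472⟩,
  ⟨16223, 220475⟩,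
  ⟨16109, 226515⟩,
  ⟨15996, 232642⟩,
  ⟨15884, 238854⟩,
  ⟨15773, 245151⟩,
  ⟨15663, 251531⟩,
  ⟨15554, 257993⟩,
  ⟨15447, 264473⟩,
  ⟨15340, 271092⟩,
  ⟨15235, 277725⟩,
  ⟨15130, 284495⟩,
  ⟨15027, 291272⟩,
  ⟨14924, 298186⟩,
  ⟨14822, 305169⟩,
  ⟨14721, 312221⟩,
  ⟨14621, 319339⟩,
  ⟨14521, 326593⟩,
  ⟨14423, 333837⟩,
  ⟨14325, 341217⟩,
  ⟨14227, 348734⟩,
  ⟨14131, 356233⟩,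
  ⟨14035, 363867⟩,
  ⟨13939, 371638⟩,
  ⟨13845, 379383⟩,
  ⟨13751, 387262⟩,
  ⟨13657, 395279⟩,
  ⟨13564, 403346⟩,
  ⟨13472, 411463⟩,
  ⟨13380, 419715⟩,
  ⟨13288, 428106⟩,
  ⟨13197, 436542⟩,
  ⟨13107, 445022⟩,
  ⟨13017, 453639⟩,
  ⟨12927, 462394⟩,
  ⟨12838, 471190⟩,
  ⟨12749, 480125⟩,
  ⟨12660, 489199⟩,
  ⟨12572, 498312⟩,
  ⟨12485, 507458⟩,
  ⟨12397, 516850⟩,
  ⟨12310, 526277⟩,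
  ⟨12223, 535845⟩,
  ⟨12137, 545444⟩,
  ⟨12051, 555184⟩,
  ⟨11965, 565066⟩,
  ⟨11880, 574976⟩,
  ⟨11794, 585147⟩,
  ⟨11709, 595344⟩,
  ⟨11624, 605687⟩,
  ⟨11540, 616051⟩,
  ⟨11455, 626687⟩,
  ⟨11371, 637344⟩,
  ⟨11287, 648149⟩,
  ⟨11203, 659103⟩,
  ⟨11119, 670207⟩,
  ⟨11036, 681328⟩,
  ⟨10952, 692735⟩,
  ⟨10869, 704158⟩,
  ⟨10786, 715733⟩,
  ⟨10702, 727604⟩,
  ⟨10619, 739489⟩,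
  ⟨10537, 751386⟩,
  ⟨10454, 763583⟩,
  ⟨10371, 775941⟩,
  ⟨10288, 788458⟩,
  ⟨10205, 801138⟩,
  ⟨10123, 813825⟩,
  ⟨10040, 826830⟩,
  ⟨9957, 840002⟩,
  ⟨9875, 853179⟩,
  ⟨9792, 866684⟩,
  ⟨9709, 880360⟩,
  ⟨9627, 894040⟩,
  ⟨9544, 908058⟩,
  ⟨9461, 922250⟩,
  ⟨9378, 936618⟩,
  ⟨9295, 951163⟩,
  ⟨9212, 965887⟩,
  ⟨9129, 980790⟩,
  ⟨9045, 996058⟩,
  ⟨8962, 1011327⟩,
  ⟨8878, 1026968⟩,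
  ⟨8794, 1042798⟩,
  ⟨8710, 1058820⟩,
  ⟨8626, 1075034⟩,
  ⟨8542, 1091442⟩,
  ⟨8457, 1108245⟩,
  ⟨8372, 1125249⟩,
  ⟨8287, 1142456⟩,
  ⟨8202, 1159867⟩,
  ⟨8116, 1177693⟩,
  ⟨8030, 1195732⟩,
  ⟨7943, 1214197⟩,
  ⟨7857, 1232667⟩,
  ⟨7770, 1251572⟩,
  ⟨7682, 1270922⟩,
  ⟨7594, 1290501⟩,
  ⟨7506, 1310312⟩,
  ⟨7417, 1330585⟩,
  ⟨7328, 1351098⟩,
  ⟨7238, 1372088⟩,
  ⟨7148, 1393326⟩,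
  ⟨7057, 1415054⟩,
  ⟨6966, 1437041⟩,
  ⟨6874, 1459532⟩,
  ⟨6781, 1482538⟩,
  ⟨6688, 1505819⟩,
  ⟨6594, 1529631⟩,
  ⟨6499, 1553984⟩,
  ⟨6403, 1578889⟩,
  ⟨6306, 1604358⟩,
  ⟨6209, 1630135⟩,
  ⟨6111, 1656492⟩,
  ⟨6011, 1683714⟩,
  ⟨5911, 1711270⟩,
  ⟨5809, 1739722⟩,
  ⟨5706, 1768808⟩,
  ⟨5602, 1798542⟩,
  ⟨5497, 1828936⟩,
  ⟨5390, 1860298⟩,
  ⟨5282, 1892353⟩,
  ⟨5172, 1925418⟩,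
  ⟨5060, 1959518⟩,
  ⟨4947, 1994369⟩,
  ⟨4831, 2030614⟩,
  ⟨4713, 2067974⟩,
  ⟨4593, 2106478⟩,
  ⟨4471, 2146152⟩,
  ⟨4345, 2187692⟩,
  ⟨4217, 2230481⟩,
  ⟨4085, 2275234⟩,
  ⟨3950, 2321665⟩,
  ⟨3811, 2370175⟩,
  ⟨3667, 2421185⟩,
  ⟨3518, 2474782⟩,
  ⟨3364, 2531051⟩,
  ⟨3203, 2590834⟩,
  ⟨3034, 2654645⟩,
  ⟨2856, 2723031⟩,
  ⟨2667, 2796971⟩,
  ⟨2465, 2877518⟩,
  ⟨2247, 2966216⟩,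
  ⟨2005, 3066845⟩,
  ⟨1732, 3183113⟩,
  ⟨1409, 3324460⟩,
  ⟨988, 3514880⟩,
  ⟨400, 3792616⟩
]

/-- The tree for `t0 = 3`. -/
def tree3 : Tr := Tr.sx 85 (Tr.sy 85 (Tr.empty 1500) (Tr.none)) (Tr.sy 85 (Tr.sx 127 (Tr.empty 1500) (Tr.sy 42 (Tr.empty 1500) (Tr.sx 148 (Tr.empty 1500) (Tr.sy 63 (Tr.empty 1500) (Tr.sx 159 (Tr.empty 1500) (Tr.sy 74 (Tr.empty 1500) (Tr.sx 164 (Tr.sy 79 (Tr.empty 1500) (Tr.leaf 1793 76639)) (Tr.leaf 2059 61776)))))))) (Tr.sx 127 (Tr.sy 127 (Tr.sx 106 (Tr.empty 1500) (Tr.sy 106 (Tr.empty 1500) (Tr.sx 116 (Tr.empty 1500) (Tr.sy 116 (Tr.empty 1500) (Tr.sx 121 (Tr.sy 121 (Tr.empty 1500) (Tr.none)) (Tr.sy 121 (Tr.leaf 1500 71933) (Tr.sx 124 (Tr.sy 124 (Tr.leaf 1500 69446) (Tr.none)) (Tr.sy 124 (Tr.sx 125 (Tr.leaf 1592 127276) (Tr.leaf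 2142 139443)) (Tr.sx 125 (Tr.sy 125 (Tr.leaf 1793 137866) (Tr.none)) (Tr.sy 125 (Tr.leaf 2142 148024) (Tr.sx 126 (Tr.leaf 2365 150422) (Tr.leaf 2273 159071)))))))))))) (Tr.none)) (Tr.sy 127 (Tr.sx 148 (Tr.sy 106 (Tr.sx 137 (Tr.empty 1500) (Tr.sy 95 (Tr.empty 1500) (Tr.sx 142 (Tr.sy 100 (Tr.empty 1500) (Tr.leaf 1561 127896)) (Tr.sy 100 (Tr.leaf 1793 117202) (Tr.leaf 2229 153955))))) (Tr.sx 137 (Tr.sy 116 (Tr.sx 132 (Tr.leaf 1500 86847) (Tr.sy 111 (Tr.leaf 1500 113985) (Tr.leaf 2019 164184))) (Tr.sy 121 (Tr.sx 132 (Tr.sx 129 (Tr.leaf 1757 140834) (Tr.leaf 2100 158644)) (Tr.leaf 2664 166563)) (Tr.sx 132 (Tr.sy 124 (Tr.sx 129 (Tr.leaf 2142 156600) (Tr.leaf 2461 164463)) (Tr.sx 129 (Tr.leaf 2510 163361) (Tr.leaf 2883 167288))) (Tr.sy 124 (Tr.leaf 2941 170565)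 (Tr.leaf 3378 171887))))) (Tr.sy 116 (Tr.leaf 3121 164780) (Tr.leaf 3585 174274)))) (Tr.sy 106 (Tr.sx 159 (Tr.sy 95 (Tr.sx 153 (Tr.sy 90 (Tr.empty 1500) (Tr.leaf 1940 109484)) (Tr.sy 90 (Tr.leaf 2229 95557) (Tr.leaf 2229 127431))) (Tr.leaf 3000 144981)) (Tr.leaf 3657 115513)) (Tr.leaf 3515 174915))) (Tr.sx 148 (Tr.sy 148 (Tr.sx 137 (Tr.sy 137 (Tr.sx 132 (Tr.sy 132 (Tr.sx 129 (Tr.sy 129 (Tr.leaf 2827 165228) (Tr.none)) (Tr.sy 129 (Tr.leaf 3312 168873) (Tr.sx 130 (Tr.sy 130 (Tr.leaf 2941 169354) (Tr.none)) (Tr.sy 130 (Tr.leaf 3183 171048) (Tr.sx 131 (Tr.leaf 3312 171829) (Tr.leaf 3312 173255)))))) (Tr.none)) (Tr.sy 132 (Tr.sx 134 (Tr.sy 129 (Tr.leaf 3121 173370) (Tr.leaf 3446 174750)) (Tr.leaf 3515 176848)) (Tr.sx 134 (Tr.sy 134 (Tr.leaf 3515 176259) (Tr.none))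 (Tr.leaf 3657 178881)))) (Tr.none)) (Tr.leaf 3730 180092)) (Tr.none)) (Tr.leaf 3378 197671)))))

/-- The tree for `t0 = 4`. -/
def tree4 : Tr := Tr.sx 85 (Tr.sy 85 (Tr.empty 1500) (Tr.none)) (Tr.sy 85 (Tr.sx 127 (Tr.sy 42 (Tr.empty 1500) (Tr.sy 63 (Tr.empty 1500) (Tr.sx 106 (Tr.empty 1500) (Tr.sy 74 (Tr.empty 1500) (Tr.sx 116 (Tr.empty 1500) (Tr.sx 121 (Tr.leaf 1500 50267) (Tr.leaf 2229 114658))))))) (Tr.sy 42 (Tr.empty 1500) (Tr.sx 148 (Tr.sy 63 (Tr.empty 1500) (Tr.sy 74 (Tr.sx 137 (Tr.leaf 1500 44702) (Tr.sx 142 (Tr.leaf 2413 93121) (Tr.leaf 2941 102732))) (Tr.leaf 3378 130487))) (Tr.sy 63 (Tr.sx 159 (Tr.sy 52 (Tr.empty 1500) (Tr.sx 153 (Tr.leaf 1828 58058) (Tr.leaf 2461 65078))) (Tr.sy 52 (Tr.empty 1500) (Tr.leaf 2273 73172))) (Tr.sx 159 (Tr.sy 74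 (Tr.leaf 2827 111520) (Tr.leaf 3060 145881)) (Tr.leaf 3121 128388)))))) (Tr.sx 127 (Tr.sy 127 (Tr.sx 106 (Tr.sy 106 (Tr.sx 95 (Tr.sy 95 (Tr.empty 1500) (Tr.none)) (Tr.sy 95 (Tr.sx 100 (Tr.empty 1500) (Tr.sy 90 (Tr.empty 1500) (Tr.leaf 1828 94542))) (Tr.sx 100 (Tr.sy 100 (Tr.sx 97 (Tr.sy 97 (Tr.empty 1500) (Tr.none)) (Tr.sy 97 (Tr.leaf 1500 48197) (Tr.sx 98 (Tr.sy 98 (Tr.leaf 1500 46643) (Tr.none)) (Tr.sy 98 (Tr.leaf 1723 98091) (Tr.sx 99 (Tr.sy 99 (Tr.leaf 1902 99739) (Tr.none)) (Tr.leaf 2365 108516)))))) (Tr.none)) (Tr.sy 100 (Tr.sx 103 (Tr.sy 97 (Tr.leaf 1793 110034) (Tr.sx 101 (Tr.leaf 2365 114014) (Tr.leaf 2461 121555))) (Tr.leaf 2560 131888)) (Tr.sx 103 (Tr.sy 103 (Tr.sx 101 (Tr.sy 101 (Tr.leaf 2510 120081) (Tr.none)) (Tr.leaf 3312 128146)) (Tr.none))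 (Tr.sy 103 (Tr.leaf 3121 135561) (Tr.sx 104 (Tr.sy 104 (Tr.leaf 3060 136635) (Tr.none)) (Tr.sy 104 (Tr.leaf 3183 138655) (Tr.sx 105 (Tr.leaf 3585 138810) (Tr.leaf 3515 140661)))))))))) (Tr.none)) (Tr.sy 106 (Tr.sx 116 (Tr.sy 95 (Tr.leaf 2941 125114) (Tr.sy 100 (Tr.leaf 3515 137994) (Tr.sx 111 (Tr.sy 103 (Tr.leaf 3446 140036) (Tr.sx 108 (Tr.leaf 3657 141823) (Tr.leaf 3657 145161))) (Tr.leaf 3805 148108)))) (Tr.sy 95 (Tr.leaf 3378 140642) (Tr.leaf 3958 152605))) (Tr.sx 116 (Tr.sy 116 (Tr.sx 111 (Tr.sy 111 (Tr.sx 108 (Tr.sy 108 (Tr.sx 107 (Tr.leaf 3958 143125) (Tr.leaf 3805 144672)) (Tr.none)) (Tr.sy 108 (Tr.leaf 3881 146554) (Tr.sx 109 (Tr.leaf 4118 147449) (Tr.leaf 4037 149218)))) (Tr.none)) (Tr.sy 111 (Tr.leaf 4118 150933) (Tr.leaf 4200 154026))) (Tr.none))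 (Tr.leaf 4285 158734)))) (Tr.none)) (Tr.sy 127 (Tr.sx 148 (Tr.sy 106 (Tr.leaf 4200 148953) (Tr.leaf 4037 174746)) (Tr.leaf 4037 164153)) (Tr.leaf 3958 186471))))

/-- The tree for `t0 = 5`. -/
def tree5 : Tr := Tr.sx 85 (Tr.sy 85 (Tr.sx 42 (Tr.empty 1500) (Tr.sy 42 (Tr.empty 1500) (Tr.sx 63 (Tr.empty 1500) (Tr.sy 63 (Tr.empty 1500) (Tr.sx 74 (Tr.empty 1500) (Tr.sy 74 (Tr.empty 1500) (Tr.sx 79 (Tr.sy 79 (Tr.empty 1500) (Tr.none)) (Tr.sy 79 (Tr.empty 1500) (Tr.sx 82 (Tr.sy 82 (Tr.empty 1500) (Tr.none)) (Tr.sy 82 (Tr.empty 1500) (Tr.sx 83 (Tr.sy 83 (Tr.leaf 1500 14716) (Tr.none)) (Tr.sy 83 (Tr.leaf 1689 51113) (Tr.sx 84 (Tr.leaf 2612 55197) (Tr.leaf 2413 61827)))))))))))))) (Tr.none)) (Tr.sy 85 (Tr.sx 127 (Tr.sy 42 (Tr.empty 1500) (Tr.sy 63 (Tr.empty 1500)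 (Tr.sx 106 (Tr.sy 74 (Tr.empty 1500) (Tr.sx 95 (Tr.sy 79 (Tr.leaf 1592 37157) (Tr.sx 90 (Tr.sy 82 (Tr.leaf 1940 56765) (Tr.sx 87 (Tr.leaf 2612 65699) (Tr.leaf 2560 78260))) (Tr.leaf 2717 89996))) (Tr.leaf 3446 93768))) (Tr.sy 74 (Tr.leaf 3446 83797) (Tr.leaf 3958 102549))))) (Tr.sy 42 (Tr.empty 1500) (Tr.sx 148 (Tr.sy 63 (Tr.sx 137 (Tr.sy 52 (Tr.empty 1500) (Tr.leaf 2319 73303)) (Tr.sy 52 (Tr.leaf 1561 34587) (Tr.leaf 2771 87391))) (Tr.sy 74 (Tr.leaf 3446 99914) (Tr.leaf 3805 112296))) (Tr.sy 63 (Tr.sx 159 (Tr.sy 52 (Tr.leaf 2273 55230) (Tr.leaf 2827 91239)) (Tr.leaf 3060 65004)) (Tr.leaf 3805 107700))))) (Tr.sx 127 (Tr.sy 127 (Tr.sx 106 (Tr.sy 106 (Tr.sx 95 (Tr.sy 95 (Tr.sx 90 (Tr.sy 90 (Tr.sx 87 (Tr.sy 87 (Tr.sx 86 (Tr.sy 86 (Tr.leaf 2612 72666) (Tr.none))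 (Tr.leaf 2883 78345)) (Tr.none)) (Tr.sy 87 (Tr.leaf 2941 84512) (Tr.leaf 3585 89124))) (Tr.none)) (Tr.sy 90 (Tr.leaf 3657 93854) (Tr.sx 92 (Tr.sy 92 (Tr.leaf 3730 95797) (Tr.none)) (Tr.sy 92 (Tr.leaf 3730 98708) (Tr.leaf 4118 99657))))) (Tr.none)) (Tr.sy 95 (Tr.sx 100 (Tr.sy 90 (Tr.leaf 3657 99322) (Tr.leaf 4118 102404)) (Tr.leaf 4118 105694)) (Tr.sx 100 (Tr.sy 100 (Tr.sx 97 (Tr.sy 97 (Tr.leaf 4118 104036) (Tr.none)) (Tr.sy 97 (Tr.leaf 4118 105689) (Tr.leaf 4200 108260))) (Tr.none)) (Tr.sy 100 (Tr.leaf 4200 111062) (Tr.sx 103 (Tr.sy 103 (Tr.sx 101 (Tr.leaf 4200 112968) (Tr.leaf 4200 113908)) (Tr.none)) (Tr.leaf 4285 117446)))))) (Tr.none)) (Tr.sy 106 (Tr.sx 116 (Tr.sy 95 (Tr.leaf 4037 113668) (Tr.sy 100 (Tr.leaf 4118 119023) (Tr.leaf 4285 120848))) (Tr.sy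 95 (Tr.leaf 4037 118740) (Tr.leaf 4200 126751))) (Tr.sx 116 (Tr.sy 116 (Tr.sx 111 (Tr.sy 111 (Tr.leaf 4285 122700) (Tr.none)) (Tr.leaf 4285 129062)) (Tr.none)) (Tr.leaf 4285 137388)))) (Tr.none)) (Tr.sy 127 (Tr.sx 148 (Tr.sy 106 (Tr.leaf 4200 127099) (Tr.leaf 4200 148942)) (Tr.leaf 4200 132918)) (Tr.leaf 4118 163758))))

/-- The tree for `t0 = 6`. -/
def tree6 : Tr := Tr.sx 85 (Tr.sy 85 (Tr.sx 42 (Tr.sy 42 (Tr.empty 1500) (Tr.none)) (Tr.sy 42 (Tr.empty 1500) (Tr.sx 63 (Tr.sy 63 (Tr.empty 1500) (Tr.none)) (Tr.sy 63 (Tr.empty 1500) (Tr.sx 74 (Tr.sy 74 (Tr.empty 2273) (Tr.none)) (Tr.sy 74 (Tr.sx 79 (Tr.sy 68 (Tr.empty 1500) (Tr.sy 71 (Tr.empty 1500) (Tr.sx 76 (Tr.leaf 2319 8052) (Tr.leaf 2365 20445)))) (Tr.sy 68 (Tr.empty 1500) (Tr.leaf 2717 29704))) (Tr.sx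 79 (Tr.sy 79 (Tr.sx 76 (Tr.sy 76 (Tr.sx 75 (Tr.sy 75 (Tr.leaf 2461 16454) (Tr.none)) (Tr.leaf 2827 22851)) (Tr.none)) (Tr.sy 76 (Tr.leaf 2883 28853) (Tr.sx 77 (Tr.leaf 3585 34485) (Tr.leaf 3312 40568)))) (Tr.none)) (Tr.sy 79 (Tr.leaf 3378 47348) (Tr.leaf 3805 58763))))))))) (Tr.none)) (Tr.sy 85 (Tr.sx 127 (Tr.sy 42 (Tr.empty 1500) (Tr.sy 63 (Tr.sx 106 (Tr.empty 1624) (Tr.sx 116 (Tr.sy 52 (Tr.empty 1500) (Tr.leaf 2185 56613)) (Tr.sy 52 (Tr.empty 1500) (Tr.leaf 2717 65153)))) (Tr.sx 106 (Tr.sy 74 (Tr.leaf 3805 44131) (Tr.leaf 4037 65244)) (Tr.sy 74 (Tr.leaf 3585 72513) (Tr.leaf 3958 81946))))) (Tr.sy 42 (Tr.empty 2229) (Tr.sx 148 (Tr.sy 63 (Tr.leaf 3515 49492) (Tr.leaf 4037 77913)) (Tr.leaf 4037 67320)))) (Tr.sx 127 (Tr.sy 127 (Tr.sx 106 (Tr.sy 106 (Tr.sx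 95 (Tr.sy 95 (Tr.sx 90 (Tr.sy 90 (Tr.leaf 3958 70827) (Tr.none)) (Tr.leaf 4118 76861)) (Tr.none)) (Tr.sy 95 (Tr.leaf 4200 80512) (Tr.sx 100 (Tr.sy 100 (Tr.leaf 4200 83604) (Tr.none)) (Tr.sy 100 (Tr.leaf 4200 86406) (Tr.leaf 4285 91612))))) (Tr.none)) (Tr.sy 106 (Tr.sx 116 (Tr.sy 95 (Tr.leaf 4118 87985) (Tr.leaf 4285 95014)) (Tr.leaf 4285 97095)) (Tr.sx 116 (Tr.sy 116 (Tr.sx 111 (Tr.sy 111 (Tr.leaf 4285 97682) (Tr.none)) (Tr.leaf 4285 105635)) (Tr.none)) (Tr.leaf 4370 105026)))) (Tr.none)) (Tr.leaf 4370 105008)))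

/-- The tree for `t0 = 7`. -/
def tree7 : Tr := Tr.sx 85 (Tr.sy 85 (Tr.sx 42 (Tr.sy 42 (Tr.empty 1500) (Tr.none)) (Tr.sy 42 (Tr.empty 1500) (Tr.sx 63 (Tr.sy 63 (Tr.empty 1500) (Tr.none)) (Tr.sy 63 (Tr.empty 1940) (Tr.sx 74 (Tr.sy 74 (Tr.empty 3657) (Tr.none)) (Tr.sy 74 (Tr.sx 79 (Tr.empty 3881) (Tr.sy 68 (Tr.empty 3060) (Tr.leaf 3585 13188))) (Tr.sx 79 (Tr.sy 79 (Tr.sx 76 (Tr.sy 76 (Tr.leaf 3805 4977) (Tr.none)) (Tr.leaf 3881 14473)) (Tr.none)) (Tr.leaf 3958 33562)))))))) (Tr.none)) (Tr.sy 85 (Tr.sx 127 (Tr.sy 42 (Tr.empty 1500) (Tr.sy 63 (Tr.sx 106 (Tr.empty 3247) (Tr.sx 116 (Tr.leaf 3515 5932) (Tr.leaf 3446 23532))) (Tr.sx 106 (Tr.sy 74 (Tr.leaf 3730 27798) (Tr.leaf 3958 48288)) (Tr.leaf 4037 51908)))) (Tr.sy 42 (Tr.empty 2510) (Tr.sx 148 (Tr.sy 63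 (Tr.leaf 3446 39649) (Tr.leaf 3958 63928)) (Tr.leaf 4037 42931)))) (Tr.sx 127 (Tr.sy 127 (Tr.sx 106 (Tr.sy 106 (Tr.sx 95 (Tr.sy 95 (Tr.leaf 4118 54066) (Tr.none)) (Tr.sy 95 (Tr.leaf 4118 60103) (Tr.sx 100 (Tr.leaf 4285 63451) (Tr.leaf 4285 65778)))) (Tr.none)) (Tr.sy 106 (Tr.sx 116 (Tr.sy 95 (Tr.leaf 4118 65190) (Tr.leaf 4285 69180)) (Tr.leaf 4285 71261)) (Tr.sx 116 (Tr.sy 116 (Tr.sx 111 (Tr.leaf 4370 75639) (Tr.leaf 4370 76832)) (Tr.none)) (Tr.leaf 4370 79193)))) (Tr.none)) (Tr.leaf 4370 79175)))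

/-- The tree for `t0 = 8`. -/
def tree8 : Tr := Tr.sx 85 (Tr.sy 85 (Tr.sx 42 (Tr.sy 42 (Tr.empty 1500) (Tr.none)) (Tr.sy 42 (Tr.empty 1500) (Tr.sx 63 (Tr.empty 4037) (Tr.sy 63 (Tr.empty 2717) (Tr.sx 74 (Tr.empty 4037) (Tr.sy 74 (Tr.empty 3657) (Tr.sx 79 (Tr.sy 79 (Tr.empty 3881) (Tr.none)) (Tr.sy 79 (Tr.empty 3881) (Tr.sx 82 (Tr.sy 82 (Tr.empty 3958) (Tr.none)) (Tr.sy 82 (Tr.empty 4037) (Tr.leaf 4037 3491))))))))))) (Tr.none)) (Tr.sy 85 (Tr.sx 127 (Tr.sy 42 (Tr.empty 1500) (Tr.sy 63 (Tr.empty 3585) (Tr.sx 106 (Tr.sy 74 (Tr.empty 3881) (Tr.sx 95 (Tr.sy 79 (Tr.empty 3958) (Tr.leaf 4037 9509)) (Tr.leaf 3958 27684))) (Tr.leaf 4037 27519)))) (Tr.sy 42 (Tr.empty 2612) (Tr.sx 148 (Tr.sy 63 (Tr.empty 3657) (Tr.leaf 4037 29135)) (Tr.leaf 3958 35018)))) (Tr.sx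 127 (Tr.sy 127 (Tr.sx 106 (Tr.sy 106 (Tr.sx 95 (Tr.sy 95 (Tr.leaf 4118 31270) (Tr.none)) (Tr.sy 95 (Tr.leaf 4118 37307) (Tr.leaf 4285 39945))) (Tr.none)) (Tr.sy 106 (Tr.sx 116 (Tr.leaf 4285 43346) (Tr.leaf 4285 45427)) (Tr.sx 116 (Tr.sy 116 (Tr.sx 111 (Tr.sy 111 (Tr.leaf 4285 47647) (Tr.none)) (Tr.leaf 4370 50999)) (Tr.none)) (Tr.leaf 4370 53360)))) (Tr.none)) (Tr.sy 127 (Tr.sx 148 (Tr.sy 106 (Tr.leaf 4285 45488) (Tr.leaf 4370 53342)) (Tr.leaf 4285 54165)) (Tr.leaf 4370 53333))))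

/-- The tree for `t0 = 9`. -/
def tree9 : Tr := Tr.sx 85 (Tr.sy 85 (Tr.empty 3958) (Tr.none)) (Tr.sy 85 (Tr.sx 127 (Tr.sy 42 (Tr.empty 1940) (Tr.sy 63 (Tr.empty 3446) (Tr.sx 106 (Tr.empty 4037) (Tr.sy 74 (Tr.empty 3805) (Tr.sx 116 (Tr.empty 4037) (Tr.leaf 3958 20135)))))) (Tr.sy 42 (Tr.empty 2612) (Tr.sx 148 (Tr.sy 63 (Tr.empty 3585) (Tr.leaf 4037 4745)) (Tr.empty 4037)))) (Tr.sx 127 (Tr.sy 127 (Tr.sx 106 (Tr.sy 106 (Tr.sx 95 (Tr.sy 95 (Tr.empty 4200) (Tr.none)) (Tr.sy 95 (Tr.sx 100 (Tr.sy 90 (Tr.empty 4118) (Tr.sx 97 (Tr.empty 4200) (Tr.sy 92 (Tr.empty 4118) (Tr.leaf 4200 204)))) (Tr.sy 90 (Tr.empty 4118) (Tr.leaf 4118 14512))) (Tr.sx 100 (Tr.sy 100 (Tr.sx 97 (Tr.sy 97 (Tr.empty 4200) (Tr.none)) (Tr.leaf 4200 9636)) (Tr.none)) (Tr.leaf 4285 14111))))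 (Tr.none)) (Tr.sy 106 (Tr.leaf 4285 19594) (Tr.sx 116 (Tr.sy 116 (Tr.sx 111 (Tr.sy 111 (Tr.leaf 4285 22629) (Tr.none)) (Tr.sy 111 (Tr.leaf 4370 23974) (Tr.sx 113 (Tr.leaf 4370 24485) (Tr.leaf 4370 25166)))) (Tr.none)) (Tr.sy 116 (Tr.sx 121 (Tr.sy 111 (Tr.leaf 4370 24816) (Tr.sx 118 (Tr.leaf 4370 25553) (Tr.leaf 4370 26008))) (Tr.leaf 4370 26347)) (Tr.sx 121 (Tr.sy 121 (Tr.sx 118 (Tr.leaf 4370 26394) (Tr.leaf 4370 26850)) (Tr.none)) (Tr.leaf 4370 27527)))))) (Tr.none)) (Tr.sy 127 (Tr.sx 148 (Tr.sy 106 (Tr.leaf 4285 19654) (Tr.leaf 4370 27509)) (Tr.leaf 4370 4804)) (Tr.leaf 4370 27500))))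

/-- The tree for `t0 = 10`. -/
def tree10 : Tr := Tr.sx 85 (Tr.sy 85 (Tr.empty 3881) (Tr.none)) (Tr.sy 85 (Tr.empty 4037) (Tr.sx 127 (Tr.sy 127 (Tr.sx 106 (Tr.empty 4370) (Tr.sy 106 (Tr.empty 4285) (Tr.sx 116 (Tr.sy 116 (Tr.empty 4370) (Tr.none)) (Tr.sy 116 (Tr.sx 121 (Tr.sy 111 (Tr.empty 4370) (Tr.leaf 4370 175)) (Tr.leaf 4370 514)) (Tr.leaf 4370 1695))))) (Tr.none)) (Tr.sy 127 (Tr.sx 148 (Tr.sy 106 (Tr.empty 4285) (Tr.leaf 4370 1677)) (Tr.empty 4370)) (Tr.leaf 4370 1668))))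

/-- The multiplier for eleven nodes. -/
def lamBig : ℕ := 4370

/-- The multiplier for two nodes. -/
def lamSmall : ℕ := 1500

end Crest.Agent.Propeller.Top
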