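/-
The top lemma (module M5 of finding #1591): from the `I`-cap and the budget, for the norms `≥ κ₀ = .06`:
between 3 and 10 such nodes, a lower bound for the pair determinant and a bound of the dust mass by it.
-/
import Crest.Agent.Lib.Propeller.TopData

set_option autoImplicit false
set_option linter.unusedSectionVars false
open MeasureTheory ProbabilityTheory

namespace Crest.Agent.Propeller.Top

theorem tab_length : tab.length = 170 := by decide +kernel

theorem tab_ok : tab.all entOK = true := by decide +kernel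

theorem tab_good : ∀ e ∈ tab, e.Good := fun e he => entOK_sound (List.all_eq_true.1 tab_ok e he)

theorem chk3 : chk tab 0 700 2340 tree3 0 170 0 170 = true := by decide +kernel
theorem chk4 : chk tab 1 478 2800 tree4 0 170 0 170 = true := by decide +kernel
theorem chk5 : chk tab 2 395 2340 tree5 0 170 0 170 = true := by decide +kernel
theorem chk6 : chk tab 3 360 1830 tree6 0 170 0 170 = true := by decide +kernel
theorem chk7 : chk tab 4 370 1320 tree7 0 170 0 170 = true := by decide +kernel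
theorem chk8 : chk tab 5 430 810 tree8 0 170 0 170 = true := by decide +kernel
theorem chk9 : chk tab 6 540 370 tree9 0 170 0 170 = true := by decide +kernel
theorem chk10 : chk tab 7 720 30 tree10 0 170 0 170 = true := by decide +kernel

theorem big_ok : 0 ≤ minCost lamBig tab 0 170
    ∧ (lamBig : ℤ) * 1000000 - 3580900000 - 11 * minCost lamBig tab 0 170 < 0 := by decide +kernel

theorem small_ok : minCost lamSmall tab 0 170 ≤ 0
    ∧ (lamSmall : ℤ) * 1000000 - 3580900000 - 2 * minCost lamSmall tab 0 170 < 0 := by decide +kernel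

lemma lamBig_gt : (1400 : ℝ) < lamBig := by norm_num [lamBig]
lemma lamSmall_gt : (1400 : ℝ) < lamSmall := by norm_num [lamSmall]

/-- The lower bounds of the determinant, units `10⁻⁴`. -/
def dTab : ℕ → ℕ
  | 3 => 700 | 4 => 478 | 5 => 395 | 6 => 360 | 7 => 370 | 8 => 430 | 9 => 540 | 10 => 720 | _ => 0

/-- The constants of the dust mass bound, units `10⁻³`. -/
def cTab : ℕ → ℕ
  | 3 => 2340 | 4 => 2800 | 5 => 2340 | 6 => 1830 | 7 => 1320 | 8 => 810 | 9 => 370 | 10 => 30 | _ => 0

lemma R_gt : (35809 / 100000 : ℝ) < R := by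
  unfold R
  have := Real.pi_lt_d4
  rw [lt_div_iff₀ (by positivity)]
  nlinarith

lemma psi_zero : psi 0 = phi0 := by
  simp [psi]

lemma Tang.le_phi0 {σ a : ℝ} (h : Tang σ a) : σ ≤ phi0 := by
  have := h 0 le_rfl
  rw [psi_zero] at this
  simpa using this

lemma gr_zero : gr 0 = 6 / 100 := by norm_num [gr, gg]
lemma gr_top : gr 170 = 4 / 10 := by norm_num [gr, gg]

lemma Tang.lt_top {σ a : ℝ} (h : Tang σ a) : σ < gr 170 := by
  rw [gr_top]
  have h1 := h.le_phi0
  have h2 := phi0_le_hi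
  linarith

section top

variable {ι : Type*} [DecidableEq ι] {B : Finset ι} {σ a : ι → ℝ} {M : ℝ}

/-- The hypotheses on the nodes above `κ₀`. -/
structure TopHyp (B : Finset ι) (σ a : ι → ℝ) (M : ℝ) : Prop where
  M0 : 0 ≤ M
  tang : ∀ l ∈ B, Tang (σ l) (a l)
  low : ∀ l ∈ B, 6 / 100 ≤ σ l
  sum : ∑ l ∈ B, a l + M = 1
  big : R < ∑ l ∈ B, σ l ^ 2 + 14 / 100 * M

lemma TopHyp.budget (h : TopHyp B σ a M) (lam : ℝ) :
    ∑ l ∈ B, (lam * a l - σ l ^ 2) + (lam - 14 / 100) * M < lam - 35809 / 100000 := by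
  have h1 : ∑ l ∈ B, (lam * a l - σ l ^ 2) = lam * ∑ l ∈ B, a l - ∑ l ∈ B, σ l ^ 2 := by
    rw [Finset.sum_sub_distrib, Finset.mul_sum]
  have h2 := h.sum
  have h3 := h.big
  have h4 := R_gt
  have h5 : lam * ∑ l ∈ B, a l = lam - lam * M := by
    have : ∑ l ∈ B, a l = 1 - M := by linarith
    rw [this]
    ring
  rw [h1, h5]
  nlinarith

lemma TopHyp.cost_ge (h : TopHyp B σ a M) (L : ℕ) {l : ι} (hl : l ∈ B) :
    ((minCost L tab 0 170 : ℤ) : ℝ) / 10 ^ 10 ≤ (L : ℝ) / 10000 * a l - σ l ^ 2 := by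
  refine minCost_sound (L := L) (h.tang l hl) 170 tab 0 tab_good (by rw [tab_length]) ?_ ?_
  · rw [gr_zero]
    exact h.low l hl
  · rw [zero_add]
    exact (h.tang l hl).lt_top

/-- At most ten nodes. -/
theorem TopHyp.card_le (h : TopHyp B σ a M) : B.card ≤ 10 := by
  by_contra hc
  have hc' : 11 ≤ B.card := by omega
  obtain ⟨h0, h1⟩ := big_ok
  have hsum := Finset.card_nsmul_le_sum B (fun l => (lamBig : ℝ) / 10000 * a l - σ l ^ 2) _
    (fun l hl => h.cost_ge lamBig hl)
  rw [nsmul_eq_mul] at hsum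
  generalize minCost lamBig tab 0 170 = mo at hsum h0 h1
  have hb := h.budget ((lamBig : ℝ) / 10000)
  have hm0 : (0 : ℝ) ≤ (mo : ℝ) := by exact_mod_cast h0
  have h1' : (lamBig : ℝ) * 1000000 - 3580900000 - 11 * (mo : ℝ) < 0 := by exact_mod_cast h1
  have hcr : (11 : ℝ) ≤ (B.card : ℝ) := by exact_mod_cast hc'
  have hM := mul_nonneg (by linarith [lamBig_gt] : (0 : ℝ) ≤ (lamBig : ℝ) / 10000 - 14 / 100) h.M0
  have h2 : (11 : ℝ) * ((mo : ℝ) / 10 ^ 10) ≤ (B.card : ℝ) * ((mo : ℝ) / 10 ^ 10) :=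
    mul_le_mul_of_nonneg_right hcr (div_nonneg hm0 (by positivity))
  have e10 : (10 : ℝ) ^ 10 = 10000000000 := by norm_num
  rw [e10] at h2 hsum
  linarith

/-- At least three nodes. -/
theorem TopHyp.le_card (h : TopHyp B σ a M) : 3 ≤ B.card := by
  by_contra hc
  have hc' : B.card ≤ 2 := by omega
  obtain ⟨h0, h1⟩ := small_ok
  have hsum := Finset.card_nsmul_le_sum B (fun l => (lamSmall : ℝ) / 10000 * a l - σ l ^ 2) _
    (fun l hl => h.cost_ge lamSmall hl)
  rw [nsmul_eq_mul] at hsum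
  generalize minCost lamSmall tab 0 170 = mo at hsum h0 h1
  have hb := h.budget ((lamSmall : ℝ) / 10000)
  have hm0 : (mo : ℝ) ≤ 0 := by exact_mod_cast h0
  have h1' : (lamSmall : ℝ) * 1000000 - 3580900000 - 2 * (mo : ℝ) < 0 := by exact_mod_cast h1
  have hcr : (B.card : ℝ) ≤ 2 := by exact_mod_cast hc'
  have hM := mul_nonneg (by linarith [lamSmall_gt] : (0 : ℝ) ≤ (lamSmall : ℝ) / 10000 - 14 / 100) h.M0
  have h2 : (2 : ℝ) * ((mo : ℝ) / 10 ^ 10) ≤ (B.card : ℝ) * ((mo : ℝ) / 10 ^ 10) :=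
    mul_le_mul_of_nonpos_right hcr (by
      have : (0 : ℝ) < 10 ^ 10 := by positivity
      exact div_nonpos_of_nonpos_of_nonneg hm0 this.le)
  have e10 : (10 : ℝ) ^ 10 = 10000000000 := by norm_num
  rw [e10] at h2 hsum
  linarith

/-- **The top lemma.** -/
theorem TopHyp.top (h : TopHyp B σ a M) {i1 i2 i3 : ι} (h1 : i1 ∈ B) (h2 : i2 ∈ B) (h3 : i3 ∈ B)
    (h12 : i1 ≠ i2) (h13 : i1 ≠ i3) (h23 : i2 ≠ i3) (l12 : σ i2 ≤ σ i1) (l23 : σ i3 ≤ σ i2)
    (hrest : ∀ l ∈ B, l ≠ i1 → l ≠ i2 → l ≠ i3 → σ l ≤ σ i3) :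
    Goal (dTab B.card) (cTab B.card) (σ i2 ^ 2) (σ i3 ^ 2) (14 / 100 * M) M := by
  set T := ((B.erase i1).erase i2).erase i3 with hT
  have m2 : i2 ∈ B.erase i1 := Finset.mem_erase.2 ⟨h12.symm, h2⟩
  have m3 : i3 ∈ (B.erase i1).erase i2 :=
    Finset.mem_erase.2 ⟨h23.symm, Finset.mem_erase.2 ⟨h13.symm, h3⟩⟩
  have hcard : T.card = B.card - 3 := by
    rw [hT, Finset.card_erase_of_mem m3, Finset.card_erase_of_mem m2, Finset.card_erase_of_mem h1]
    omega
  have hTB : ∀ l ∈ T, l ∈ B ∧ l ≠ i1 ∧ l ≠ i2 ∧ l ≠ i3 := by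
    intro l hl
    simp only [hT, Finset.mem_erase] at hl
    exact ⟨hl.2.2.2, hl.2.2.1, hl.2.1, hl.1⟩
  have hsplit : ∀ f : ι → ℝ, ∑ l ∈ B, f l = f i1 + f i2 + f i3 + ∑ l ∈ T, f l := by
    intro f
    rw [hT, ← Finset.add_sum_erase B f h1, ← Finset.add_sum_erase (B.erase i1) f m2,
      ← Finset.add_sum_erase ((B.erase i1).erase i2) f m3]
    ring
  have hconf : Conf tab T σ a (σ i1) (a i1) (σ i2) (a i2) (σ i3) (a i3) M :=
    { good := tab_good
      t1 := h.tang i1 h1
      t2 := h.tang i2 h2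
      t3 := h.tang i3 h3
      tr := fun l hl => h.tang l (hTB l hl).1
      low := fun l hl => by
        rw [gr_zero]
        exact h.low l (hTB l hl).1
      up := fun l hl => hrest l (hTB l hl).1 (hTB l hl).2.1 (hTB l hl).2.2.1 (hTB l hl).2.2.2
      le12 := l12
      le23 := l23
      top := by
        rw [tab_length]
        exact (h.tang i1 h1).lt_top
      M0 := h.M0
      budget := fun lam => by
        have := h.budget lam
        rw [hsplit (fun l => lam * a l - σ l ^ 2)] at this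
        exact this }
  have hx1 : gr 0 ≤ σ i2 := by
    rw [gr_zero]
    exact h.low i2 h2
  have hx2 : σ i2 < gr 170 := (h.tang i2 h2).lt_top
  have hy1 : gr 0 ≤ σ i3 := by
    rw [gr_zero]
    exact h.low i3 h3
  have hy2 : σ i3 < gr 170 := (h.tang i3 h3).lt_top
  have hc3 := h.le_card
  have hc10 := h.card_le
  have key : ∀ {Dl Cc : ℕ} (t : Tr), chk tab T.card Dl Cc t 0 170 0 170 = true →
      Goal Dl Cc (σ i2 ^ 2) (σ i3 ^ 2) (14 / 100 * M) M := fun t hc =>
    chk_sound hconf t hc hx1 hx2 hy1 hy2 (by rw [tab_length]) (by rw [tab_length])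
  have hBT : B.card = T.card + 3 := by omega
  rw [hBT] at hc10 ⊢
  generalize T.card = n at hc10 key
  have hn : n ≤ 7 := by omega
  interval_cases n
  · exact key (Dl := 700) (Cc := 2340) tree3 chk3
  · exact key (Dl := 478) (Cc := 2800) tree4 chk4
  · exact key (Dl := 395) (Cc := 2340) tree5 chk5
  · exact key (Dl := 360) (Cc := 1830) tree6 chk6
  · exact key (Dl := 370) (Cc := 1320) tree7 chk7
  · exact key (Dl := 430) (Cc := 810) tree8 chk8
  · exact key (Dl := 540) (Cc := 370) tree9 chk9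
  · exact key (Dl := 720) (Cc := 30) tree10 chk10

end top

/-! ### The dust -/

/-- A crude bound of `psi`. -/
lemma psi_le_exp {c : ℝ} (hc : 0 < c) :
    psi c ≤ Real.exp (-c ^ 2 / 2) / (Real.exp 1 * c) := by
  rw [← integral_ramp_gaussian]
  have hE : 0 < Real.exp 1 * c := by positivity
  have hpt : ∀ x : ℝ, max 0 (x - c) ≤ Real.exp (c * x) * (Real.exp (-c ^ 2) / (Real.exp 1 * c)) := by
    intro x
    apply max_le (by positivity)
    have h1 : c * (x - c) - 1 + 1 ≤ Real.exp (c * (x - c) - 1) := Real.add_one_le_exp _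
    have h2 : Real.exp (c * (x - c) - 1) = Real.exp (c * x) * Real.exp (-c ^ 2) / Real.exp 1 := by
      rw [Real.exp_sub, show c * (x - c) = c * x + -c ^ 2 by ring, Real.exp_add]
    rw [h2] at h1
    rw [← mul_div_assoc, le_div_iff₀ hE]
    have h3 : 0 < Real.exp 1 := Real.exp_pos 1
    rw [le_div_iff₀ h3] at h1
    nlinarith
  have hint : Integrable (fun x : ℝ => Real.exp (c * x) * (Real.exp (-c ^ 2) / (Real.exp 1 * c)))
      (gaussianReal 0 1) := (integrable_exp_mul_gaussianReal c).mul_const _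
  have h1 : ∫ x, max 0 (x - c) ∂(gaussianReal 0 1)
      ≤ ∫ x, Real.exp (c * x) * (Real.exp (-c ^ 2) / (Real.exp 1 * c)) ∂(gaussianReal 0 1) :=
    integral_mono_of_nonneg (Filter.Eventually.of_forall fun x => le_max_left _ _) hint
      (Filter.Eventually.of_forall hpt)
  refine h1.trans (le_of_eq ?_)
  rw [integral_mul_const]
  have h2 : ∫ x, Real.exp (c * x) ∂(gaussianReal 0 1) = Real.exp (c ^ 2 / 2) := by
    have := congrFun (mgf_id_gaussianReal (μ := 0) (v := 1)) c
    simpa [mgf] using this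
  rw [h2, ← mul_div_assoc, ← Real.exp_add]
  congr 2
  ring

theorem psi_dust : psiOK (18770 / 10000) (117328 / 10000000) = true := by decide +kernel

/-- **The dust**: a small norm has a small square, compared with the mass. -/
theorem dust_sq_le {σ a : ℝ} (hT : Tang σ a) (h0 : 0 ≤ σ) (ha : 0 ≤ a) (h1 : σ < 6 / 100) :
    σ ^ 2 ≤ 14 / 100 * a := by
  rcases le_or_gt (3 / 100) σ with h3 | h3
  · have hp : psi (18770 / 10000 : ℝ) ≤ 117328 / 10000000 := by
      have := psiOK_sound psi_dust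
      push_cast at this
      exact this
    have hcap : σ ≤ 117328 / 10000000 + (18770 / 10000 : ℝ) * a := by
      have := hT (18770 / 10000 : ℝ) (by norm_num)
      linarith
    have := cell_cost (lam := 14 / 100) (Lb := 0) (u := 3 / 100) (v := 6 / 100) (by norm_num)
      (by norm_num) hcap h3 h1.le (by norm_num) (by norm_num)
    linarith
  · rcases eq_or_lt_of_le h0 with h4 | h4
    · rw [← h4]
      nlinarith
    set c : ℝ := 7 / (100 * σ) with hc
    have hcpos : 0 < c := by positivity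
    have hcσ : c * σ = 7 / 100 := by
      rw [hc]
      field_simp
    have hc2 : 7 / 3 ≤ c := by
      rw [hc, le_div_iff₀ (by positivity)]
      nlinarith
    have h5 := hT c hcpos.le
    have h6 := psi_le_exp hcpos
    have h7 : Real.exp (-c ^ 2 / 2) ≤ 1 / 12 := by
      have h8 : Real.exp (-c ^ 2 / 2) ≤ Real.exp (-(5 / 2)) := by
        apply Real.exp_le_exp.2
        nlinarith
      refine h8.trans ?_
      rw [Real.exp_neg, inv_le_comm₀ (Real.exp_pos _) (by norm_num)]
      have h9 : Real.exp (5 / 2) = Real.exp 1 * Real.exp 1 * Real.exp (1 / 2) := by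
        rw [← Real.exp_add, ← Real.exp_add]
        norm_num
      rw [h9]
      have h10 := Real.exp_one_gt_d9
      have h11 := Real.quadratic_le_exp_of_nonneg (x := 1 / 2) (by norm_num)
      have h12 : (2.7182818283 : ℝ) ^ 2 ≤ Real.exp 1 * Real.exp 1 := by nlinarith
      norm_num at h11 h12 ⊢
      nlinarith
    have h13 : Real.exp (-c ^ 2 / 2) / (Real.exp 1 * c) ≤ σ / 2 := by
      rw [div_le_iff₀ (by positivity)]
      have h14 := Real.exp_one_gt_d9
      have h15 : σ / 2 * (Real.exp 1 * c) = (Real.exp 1) * (c * σ) / 2 := by ring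
      rw [h15, hcσ]
      nlinarith
    have h16 : σ / 2 ≤ c * a := by linarith
    have h17 := mul_le_mul_of_nonneg_left h16 h0
    have h18 : σ * (c * a) = (c * σ) * a := by ring
    rw [h18, hcσ] at h17
    nlinarith

section family

variable {ι : Type*} [Fintype ι] [DecidableEq ι] {σ a : ι → ℝ}

/-- The family form: `B` is the set of nodes of norm at least `κ₀`. -/
theorem topHyp_family (h0 : ∀ i, 0 ≤ σ i) (ha : ∀ i, 0 ≤ a i) (hsum : ∑ i, a i = 1)
    (hT : ∀ i, Tang (σ i) (a i)) (hR : R < ∑ i, σ i ^ 2) :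
    TopHyp (Finset.univ.filter fun i => 6 / 100 ≤ σ i) σ a
      (∑ i ∈ Finset.univ.filter (fun i => ¬ 6 / 100 ≤ σ i), a i) := by
  refine ⟨Finset.sum_nonneg fun i _ => ha i, fun l _ => hT l, fun l hl => (Finset.mem_filter.1 hl).2,
    ?_, ?_⟩
  · rw [Finset.sum_filter_add_sum_filter_not]
    exact hsum
  · rw [← Finset.sum_filter_add_sum_filter_not Finset.univ (fun i => 6 / 100 ≤ σ i)] at hR
    have h2 : ∑ i ∈ Finset.univ.filter (fun i => ¬ 6 / 100 ≤ σ i), σ i ^ 2
        ≤ 14 / 100 * ∑ i ∈ Finset.univ.filter (fun i => ¬ 6 / 100 ≤ σ i), a i := by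
      rw [Finset.mul_sum]
      refine Finset.sum_le_sum fun i hi => ?_
      have := (Finset.mem_filter.1 hi).2
      exact dust_sq_le (hT i) (h0 i) (ha i) (not_le.1 this)
    linarith

end family

section critical

universe u

variable {E : Type u} [NormedAddCommGroup E] [InnerProductSpace ℝ E] [FiniteDimensional ℝ E]
  [MeasurableSpace E] [BorelSpace E]
variable {ι : Type*} [Fintype ι] [DecidableEq ι] {z : ι → E} {A : ι → Set E}

/-- All tangents of a critical configuration. -/
lemma tang_of_critical (hc : Critical z A) (i : ι) :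
    Tang ‖z i‖ ((stdGaussian E).real (A i)) := fun c _ => by
  rw [← hc.mom_eq]
  exact norm_setIntegral_le_tangent (hc.part.meas i) c

/-- The dust of a critical configuration. -/
theorem dust_of_critical (hc : Critical z A) {i : ι} (h : ‖z i‖ < 6 / 100) :
    ‖z i‖ ^ 2 ≤ 14 / 100 * (stdGaussian E).real (A i) :=
  dust_sq_le (tang_of_critical hc i) (norm_nonneg _) measureReal_nonneg h

/-- **The hypotheses of the top lemma** for a critical configuration above the bound: the nodes of
norm at least `κ₀ = 6/100`, the dust mass is the total mass of the others. With `TopHyp.le_card`,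
`TopHyp.card_le`, `TopHyp.top`. -/
theorem topHyp_of_critical (hc : Critical z A) (hR : R < S z) :
    TopHyp (Finset.univ.filter fun i => 6 / 100 ≤ ‖z i‖) (fun i => ‖z i‖)
      (fun i => (stdGaussian E).real (A i))
      (∑ i ∈ Finset.univ.filter (fun i => ¬ 6 / 100 ≤ ‖z i‖), (stdGaussian E).real (A i)) :=
  topHyp_family (σ := fun i => ‖z i‖) (a := fun i => (stdGaussian E).real (A i))
    (fun _ => norm_nonneg _) (fun _ => measureReal_nonneg) (sum_real_cells_cap hc.part)
    (tang_of_critical hc) hR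

end critical

end Crest.Agent.Propeller.Top
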