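import Crest.Agent.Lib.Propeller.HData
import Crest.Agent.Lib.Propeller.TopLemma

/-!
# Propeller: the check of the table of entries `(t0, c, p)` and the real closure

`okEntry t0 c p tail` is the rational inequality of the entry; `close_real` is the contradiction
from the two master inequalities, the tangent bound and the Tool A bound.
-/

set_option autoImplicit false
set_option linter.unusedSectionVars false
open MeasureTheory ProbabilityTheory

namespace Crest.Agent.Propeller.HT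

open Crest.Agent.Propeller Crest.Agent.Propeller.Top

/-! ### The tails at `L = 5` -/

lemma exp_25_half : (264476 : ℝ) ≤ Real.exp (25 / 2) := by
  have h1 : Real.exp (25 / 2) = Real.exp 1 ^ 12 * Real.exp (1 / 2) := by
    rw [← Real.exp_nat_mul, ← Real.exp_add]
    norm_num
  have h2 := Real.exp_one_gt_d9
  have h3 : (2.7182818283 : ℝ) ^ 12 ≤ Real.exp 1 ^ 12 := pow_le_pow_left₀ (by norm_num) h2.le 12
  have h4 := Real.quadratic_le_exp_of_nonneg (x := 1 / 2) (by norm_num)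
  rw [h1]
  have h5 : (264476 : ℝ) ≤ (2.7182818283 : ℝ) ^ 12 * (1 + 1 / 2 + (1 / 2) ^ 2 / 2) := by norm_num
  refine h5.trans ?_
  exact mul_le_mul h3 h4 (by norm_num) (by positivity)

lemma exp_neg_25_half : Real.exp (-(5 : ℝ) ^ 2 / 2) ≤ 1 / 264476 := by
  have h1 : -(5 : ℝ) ^ 2 / 2 = -(25 / 2) := by norm_num
  rw [h1, Real.exp_neg, one_div]
  exact inv_anti₀ (by norm_num) exp_25_half

lemma xg_JJ : xg JJ = 5 := by
  unfold xg
  rw [gg_JJ]
  norm_num

/-- The bound of the first tail. -/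
def t1Q : ℚ := 151 / 100000000

/-- The bound of the third tail. -/
def t3Q : ℚ := 408 / 10000000

lemma HT1_le : HT1 (xg JJ) ≤ (t1Q : ℝ) := by
  rw [xg_JJ]
  unfold HT1 t1Q
  have h1 := exp_neg_25_half
  have h2 := phi0_le_hi
  have h3 := phi0_pos
  have h4 := Real.exp_pos (-(5 : ℝ) ^ 2 / 2)
  push_cast
  calc phi0 * Real.exp (-(5 : ℝ) ^ 2 / 2) ≤ 3989424 / 10000000 * (1 / 264476) :=
        mul_le_mul h2 h1 h4.le (by norm_num)
    _ ≤ _ := by norm_num

lemma HT3_le : HT3 (xg JJ) ≤ (t3Q : ℝ) := by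
  rw [xg_JJ]
  unfold HT3 t3Q
  have h1 := exp_neg_25_half
  have h2 := phi0_le_hi
  have h3 := phi0_pos
  have h4 := Real.exp_pos (-(5 : ℝ) ^ 2 / 2)
  push_cast
  calc phi0 * (((5 : ℝ) ^ 2 + 2) * Real.exp (-(5 : ℝ) ^ 2 / 2))
      ≤ 3989424 / 10000000 * (((5 : ℝ) ^ 2 + 2) * (1 / 264476)) := by
        apply mul_le_mul h2 _ (by positivity) (by norm_num)
        exact mul_le_mul_of_nonneg_left h1 (by norm_num)
    _ ≤ _ := by norm_num

/-! ### The rational bounds of the sums -/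

/-- The bound of `r`. -/
def r0Q : ℚ := ((eD : ℚ) + 1) / eD

/-- The scale of the quadratic form. -/
def SUq : ℚ := (DD : ℚ) * (100 ^ 3 * (DD : ℚ) * (eD : ℚ))

/-- The scale of the variance sum. -/
def SVq : ℚ := (DD : ℚ) * (100 * (DD : ℚ) * (eD : ℚ))

/-- The upper bound of the sum with the quadratic weight. -/
def Uq (m : Mo) (τ : ℚ) : ℚ :=
  (τ ^ 2 * (m.A : ℚ) + τ * (m.B : ℚ) + (m.C : ℚ)) / SUq + r0Q * ((τ + 1) ^ 2 * t3Q)

/-- The upper bound of the variance sum. -/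
def Vq (m : Mo) : ℚ := (m.V : ℚ) / SVq + r0Q * t1Q

lemma cast_SUq : ((SUq : ℚ) : ℝ) = SU := by
  unfold SUq SU
  push_cast
  rfl

lemma cast_SVq : ((SVq : ℚ) : ℝ) = SV := by
  unfold SVq SV
  push_cast
  rfl

lemma moBeq_eq {m n : Mo} (h : moBeq m n = true) : m = n := by
  simp only [moBeq, Bool.and_eq_true] at h
  obtain ⟨⟨⟨h1, h2⟩, h3⟩, h4⟩ := h
  cases m
  cases n
  simp_all

/-- Lookup of the moments. -/
def findMo (c p : ℕ) : Option Mo :=
  (momList.find? fun e => Nat.beq e.1 c && Nat.beq e.2.1 p).map fun e => e.2.2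

theorem findMo_eq {c p : ℕ} {m : Mo} (h : findMo c p = some m) : momAll c p = m := by
  unfold findMo at h
  rw [Option.map_eq_some_iff] at h
  obtain ⟨e, he, rfl⟩ := h
  have hmem := List.mem_of_find?_eq_some he
  have hp := List.find?_some he
  simp only [Bool.and_eq_true] at hp
  have hall := List.all_eq_true.1 momList_ok e hmem
  have := moBeq_eq hall
  rw [Nat.eq_of_beq_eq_true hp.1, Nat.eq_of_beq_eq_true hp.2] at this
  exact this

lemma r0_cast : ((r0Q : ℚ) : ℝ) = ((eD : ℝ) + 1) / eD := by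
  unfold r0Q
  push_cast
  rfl

/-- **The bound of the quadratic sum.** -/
theorem U_bound {c p : ℕ} {m : Mo} (hm : findMo c p = some m) (τ : ℕ) {ε r : ℝ} (hε0 : 0 ≤ ε)
    (hε : ε ≤ 1 / (eD : ℝ)) (hr0 : 0 ≤ r) (hr : r ≤ (r0Q : ℝ)) :
    HIu ε (τ : ℝ) c p xg JJ + r * (((τ : ℝ) + 1) ^ 2 * HT3 (xg JJ)) ≤ (Uq m (τ : ℚ) : ℝ) := by
  have h1 := HIu_le c p hε0 hε (Nat.cast_nonneg τ)
  rw [findMo_eq hm] at h1
  have h2 : HT3 (xg JJ) ≤ (t3Q : ℝ) := HT3_le
  have h3 : 0 ≤ HT3 (xg JJ) := by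
    unfold HT3
    have := phi0_pos
    positivity
  have h4 : r * (((τ : ℝ) + 1) ^ 2 * HT3 (xg JJ)) ≤ (r0Q : ℝ) * (((τ : ℝ) + 1) ^ 2 * (t3Q : ℝ)) := by
    apply mul_le_mul hr _ (by positivity) (hr0.trans hr)
    exact mul_le_mul_of_nonneg_left h2 (by positivity)
  unfold Uq
  push_cast
  rw [cast_SUq]
  have e : (momAll c p).evalU (τ : ℝ) = m.evalU (τ : ℝ) := by rw [findMo_eq hm]
  unfold Mo.evalU at h1
  exact add_le_add h1 h4

/-- **The bound of the variance sum.** -/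
theorem V_bound {c p : ℕ} {m : Mo} (hm : findMo c p = some m) {ε r : ℝ} (hε0 : 0 ≤ ε)
    (hε : ε ≤ 1 / (eD : ℝ)) (hr0 : 0 ≤ r) (hr : r ≤ (r0Q : ℝ)) :
    HIv ε c p xg JJ + r * HT1 (xg JJ) ≤ (Vq m : ℝ) := by
  have h1 := HIv_le c p hε0 hε
  rw [findMo_eq hm] at h1
  have h2 : HT1 (xg JJ) ≤ (t1Q : ℝ) := HT1_le
  have h3 : 0 ≤ HT1 (xg JJ) := by
    unfold HT1
    have := phi0_pos
    positivity
  have h4 : r * HT1 (xg JJ) ≤ (r0Q : ℝ) * (t1Q : ℝ) := mul_le_mul hr h2 h3 (hr0.trans hr)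
  unfold Vq
  push_cast
  rw [cast_SVq]
  exact add_le_add h1 h4

/-! ### `psi` -/

/-- The bracket of `psi_le` with `m = 20`. -/
def brQ (c : ℚ) : ℚ := tNegQ (2 * 20) (c ^ 2 / 2) + c * gIQ (2 * 20) c

/-- The check of `psi c ≤ p`. -/
def psiChk (c p : ℚ) : Bool :=
  decide (0 ≤ c) && decide (0 ≤ brQ c) && decide ((3989424 / 10000000) * brQ c - c / 2 ≤ p)

lemma psiChk_sound {c p : ℚ} (h : psiChk c p = true) : psi (c : ℝ) ≤ (p : ℝ) := by
  simp only [psiChk, Bool.and_eq_true, decide_eq_true_eq] at h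
  obtain ⟨⟨h0, h1⟩, h2⟩ := h
  have hc : (0 : ℝ) ≤ (c : ℝ) := by exact_mod_cast h0
  have h3 := psi_le 20 hc
  have hB : ((brQ c : ℚ) : ℝ) = tNeg (2 * 20) ((c : ℝ) ^ 2 / 2) + (c : ℝ) * gI (2 * 20) (c : ℝ) := by
    unfold brQ
    push_cast
    rw [tNegQ_cast, gIQ_cast]
    push_cast
    rfl
  have h1' : (0 : ℝ) ≤ ((brQ c : ℚ) : ℝ) := by exact_mod_cast h1
  have h2' : ((3989424 : ℝ) / 10000000) * ((brQ c : ℚ) : ℝ) - (c : ℝ) / 2 ≤ (p : ℝ) := by
    have h5 := (Rat.cast_le (K := ℝ)).2 h2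
    push_cast at h5
    exact h5
  rw [← hB] at h3
  have h4 := mul_le_mul_of_nonneg_right phi0_le_hi h1'
  linarith

theorem psiList_ok : psiList.all (fun e => psiChk ((e.1 : ℚ) / 10) ((e.2 : ℚ) / 10000000)) = true := by
  decide +kernel

/-- Lookup of `psi`. -/
def findPsi (i : ℕ) : Option ℕ :=
  (psiList.find? fun e => Nat.beq e.1 i).map fun e => e.2

theorem findPsi_le {i v : ℕ} (h : findPsi i = some v) :
    psi ((i : ℝ) / 10) ≤ (v : ℝ) / 10000000 := by
  unfold findPsi at h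
  rw [Option.map_eq_some_iff] at h
  obtain ⟨e, he, rfl⟩ := h
  have hmem := List.mem_of_find?_eq_some he
  have hp := List.find?_some he
  have hall := List.all_eq_true.1 psiList_ok e hmem
  have := psiChk_sound hall
  push_cast at this
  rw [Nat.eq_of_beq_eq_true hp] at this
  exact this

/-! ### The entries -/

/-- `δ_t`. -/
def δq (t0 : ℕ) : ℚ := (dTab t0 : ℚ) / 10000

/-- `c_t`. -/
def ctq (t0 : ℕ) : ℚ := (cTab t0 : ℚ) / 1000

/-- The Tool A lower bound of `s / Δ`. -/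
def bLq (t0 c p : ℕ) : ℚ := (998 / 100) / (((t0 + c + p : ℕ) : ℚ)) ^ 2

/-- The upper bound of `s / Δ`. -/
def Sq (t0 c p i v : ℕ) : ℚ :=
  (ctq t0 * ((i : ℚ) / 10) + ((c + 1 + p : ℕ) : ℚ) * ((v : ℚ) / 10000000) / δq t0)
    / ((c + 1 + 2 * p : ℕ) : ℚ)

/-- The lower bound of `r`. -/
def rq (t0 c p : ℕ) (tail : Bool) : ℚ :=
  bif tail then 1 else ((t0 + c + p + 1 : ℕ) : ℚ) / ((t0 + c + p : ℕ) : ℚ)

/-- The constant of the tail energy. -/
def Kq (tail : Bool) : ℚ := bif tail then 42 / 10 else 0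

/-- The rational inequalities of an entry. -/
def okCore (t0 c p : ℕ) (tail : Bool) (β : ℚ) (i v : ℕ) (U1 V1 U2 V2 : ℚ) : Bool :=
  decide (0 < ((t0 + c + p : ℕ) : ℚ)) && decide (0 < δq t0) &&
  decide (0 ≤ ctq t0) &&
  decide ((14 / 100) * ctq t0 * (2 / (31415 / 10000)) ≤ 36 * (31415 / 10000) ^ 2 * δq t0 * (35 / 100) ^ 4) &&
  (decide (β < bLq t0 c p)
    || decide (β * (U1 + 4 * (c : ℚ) * V1) + Kq tail * ctq t0 * V1 < 2 * (31415 / 10000) * rq t0 c p tail)) &&
  (decide (Sq t0 c p i v ≤ β)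
    || decide (Sq t0 c p i v * U2 + (14 / 100) * ctq t0 * V2 / (max β (bLq t0 c p) * δq t0)
        < 2 * (31415 / 10000) * rq t0 c p tail)) &&
  (!tail || decide (8 / 10000 ≤ bLq t0 c p * δq t0))

/-- The entry. -/
def okEntry (t0 c p : ℕ) (tail : Bool) : Bool :=
  match certList.find? (fun e => Nat.beq e.1 t0 && Nat.beq e.2.1 c && Nat.beq e.2.2.1 p) with
  | some e =>
    match findMo c 0, findMo c p, findPsi e.2.2.2.2 with
    | some m1, some m2, some v =>
      okCore t0 c p tail ((e.2.2.2.1 : ℚ) / 1000000) e.2.2.2.2 v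
        (Uq m1 ((t0 + p : ℕ) : ℚ)) (Vq m1) (Uq m2 ((t0 : ℕ) : ℚ)) (Vq m2)
    | _, _, _ => false
  | none => false

/-- All the entries needed. -/
def allEntries : Bool :=
  (List.range 8).all fun i =>
    (List.range mRank).all fun s =>
      (List.range (s + 1)).all fun p =>
        bif Nat.beq (s + 1) mRank then okEntry (i + 3) (s - p) p true
        else bif Nat.ble K0 (i + 3 + s + 1) then okEntry (i + 3) (s - p) p false else true

set_option maxRecDepth 100000 in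
theorem allEntries_ok : allEntries = true := by decide +kernel

/-! ### Unpacking the table -/

lemma all_range {n : ℕ} {f : ℕ → Bool} (h : (List.range n).all f = true) {i : ℕ} (hi : i < n) :
    f i = true :=
  List.all_eq_true.1 h i (List.mem_range.2 hi)

/-- The entries with full `U`. -/
theorem entry_tail {t0 c p : ℕ} (h3 : 3 ≤ t0) (h10 : t0 ≤ 10) (hs : c + p + 1 = mRank) :
    okEntry t0 c p true = true := by
  have h := allEntries_ok
  unfold allEntries at h
  have h1 := all_range h (i := t0 - 3) (by omega)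
  have h2 := all_range h1 (i := c + p) (by omega)
  have h4 := all_range h2 (i := p) (by omega)
  have e1 : t0 - 3 + 3 = t0 := by omega
  have e2 : c + p - p = c := by omega
  rw [e1, e2, hs] at h4
  simpa [Nat.beq_refl] using h4

/-- The entries with `U` equal to the dust. -/
theorem entry_full {t0 c p : ℕ} (h3 : 3 ≤ t0) (h10 : t0 ≤ 10) (hs : c + p + 1 < mRank)
    (hk : K0 ≤ t0 + c + p + 1) : okEntry t0 c p false = true := by
  have h := allEntries_ok
  unfold allEntries at h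
  have h1 := all_range h (i := t0 - 3) (by omega)
  have h2 := all_range h1 (i := c + p) (by omega)
  have h4 := all_range h2 (i := p) (by omega)
  have e1 : t0 - 3 + 3 = t0 := by omega
  have e2 : c + p - p = c := by omega
  rw [e1, e2] at h4
  have e3 : Nat.beq (c + p + 1) mRank = false := by
    rw [← Bool.not_eq_true, Nat.beq_eq]
    omega
  have e4 : Nat.ble K0 (t0 + (c + p) + 1) = true := Nat.ble_eq_true_of_le (by omega)
  rw [e3, e4] at h4
  simpa using h4

/-- What an entry provides. -/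
theorem okEntry_unpack {t0 c p : ℕ} {tail : Bool} (h : okEntry t0 c p tail = true) :
    ∃ (βn i v : ℕ) (m1 m2 : Mo), findMo c 0 = some m1 ∧ findMo c p = some m2 ∧ findPsi i = some v ∧
      okCore t0 c p tail ((βn : ℚ) / 1000000) i v (Uq m1 ((t0 + p : ℕ) : ℚ)) (Vq m1)
        (Uq m2 ((t0 : ℕ) : ℚ)) (Vq m2) = true := by
  unfold okEntry at h
  split at h
  · rename_i e he
    split at h
    · rename_i m1 m2 v h1 h2 h3
      exact ⟨_, _, v, m1, m2, h1, h2, h3, h⟩
    · exact absurd h (by simp)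
  · exact absurd h (by simp)

/-! ### The real closure -/

/-- **The contradiction.** -/
theorem close_real {rhs β bL S δ ct K ρ c U1 V1 U2 V2 Δ s M : ℝ} (hδ0 : 0 < δ) (hδ : δ ≤ Δ)
    (hs : 0 < s) (hM0 : 0 ≤ M) (hM : M ≤ ct * Δ) (hK : 0 ≤ K) (hV1 : 0 ≤ V1) (hV2 : 0 ≤ V2)
    (hU1 : 0 ≤ U1 + c * V1) (hU2 : 0 ≤ U2) (hρ : 0 ≤ ρ) (hbL0 : 0 < bL)
    (Q1 : rhs * Δ * s ≤ s ^ 2 * U1 + (c * s ^ 2 + K * s * M) * V1)
    (Q2 : rhs * Δ * s ≤ s ^ 2 * U2 + (ρ * M) * V2)
    (hS : s ≤ S * Δ) (hL : bL * Δ ≤ s)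
    (chk1 : β < bL ∨ β * (U1 + c * V1) + K * ct * V1 < rhs)
    (chk2 : S ≤ β ∨ S * U2 + ρ * ct * V2 / (max β bL * δ) < rhs) : False := by
  have hΔ : 0 < Δ := lt_of_lt_of_le hδ0 hδ
  have hsΔ : 0 < s * Δ := mul_pos hs hΔ
  rcases le_or_gt s (β * Δ) with h | h
  · rcases chk1 with h1 | h1
    · have := mul_lt_mul_of_pos_right h1 hΔ
      linarith
    · have h2 : s * (s * (U1 + c * V1)) ≤ s * (β * Δ * (U1 + c * V1)) :=
        mul_le_mul_of_nonneg_left (mul_le_mul_of_nonneg_right h hU1) hs.le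
      have h3 : K * s * M * V1 ≤ K * s * (ct * Δ) * V1 :=
        mul_le_mul_of_nonneg_right (mul_le_mul_of_nonneg_left hM (by positivity)) hV1
      have h4 : s * Δ * (β * (U1 + c * V1) + K * ct * V1) < s * Δ * rhs :=
        mul_lt_mul_of_pos_left h1 hsΔ
      nlinarith
  · rcases chk2 with h1 | h1
    · have := mul_le_mul_of_nonneg_right h1 hΔ.le
      linarith
    · set b := max β bL with hb
      have hb0 : 0 < b := lt_of_lt_of_le hbL0 (le_max_right _ _)
      have hs0 : b * δ ≤ s := by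
        have h2 : b * Δ ≤ s := by
          rcases max_cases β bL with ⟨h3, _⟩ | ⟨h3, _⟩
          · rw [hb, h3]
            exact h.le
          · rw [hb, h3]
            exact hL
        exact (mul_le_mul_of_nonneg_left hδ hb0.le).trans h2
      have hbd : 0 < b * δ := mul_pos hb0 hδ0
      have h2 : s * (s * U2) ≤ s * (S * Δ * U2) :=
        mul_le_mul_of_nonneg_left (mul_le_mul_of_nonneg_right hS hU2) hs.le
      have h3 : ρ * M * V2 ≤ ρ * (ct * Δ) * V2 :=
        mul_le_mul_of_nonneg_right (mul_le_mul_of_nonneg_left hM hρ) hV2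
      have hct : 0 ≤ ρ * (ct * Δ) * V2 := le_trans (by positivity) h3
      have h5 : ρ * (ct * Δ) * V2 ≤ s * Δ * (ρ * ct * V2 / (b * δ)) := by
        have h6 : ρ * (ct * Δ) * V2 = Δ * (ρ * ct * V2) := by ring
        have h7 : 0 ≤ ρ * ct * V2 := by
          have : 0 ≤ Δ * (ρ * ct * V2) := by rw [← h6]; exact hct
          exact nonneg_of_mul_nonneg_right this hΔ
        have h8 : ρ * ct * V2 ≤ s * (ρ * ct * V2 / (b * δ)) := by
          have h9 : 1 ≤ s / (b * δ) := (one_le_div hbd).2 hs0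
          have h10 : s * (ρ * ct * V2 / (b * δ)) = (s / (b * δ)) * (ρ * ct * V2) := by
            field_simp
          rw [h10]
          nlinarith
        rw [h6]
        have := mul_le_mul_of_nonneg_left h8 hΔ.le
        nlinarith
      have h4 : s * Δ * (S * U2 + ρ * ct * V2 / (b * δ)) < s * Δ * rhs :=
        mul_lt_mul_of_pos_left h1 hsΔ
      nlinarith

end Crest.Agent.Propeller.HT
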