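import Mathlib.Tactic
/-!
# The grid of the finite sums (generated)
-/

set_option autoImplicit false

namespace Crest.Agent.Propeller.HT

/-- The grid, in units `1/100`. -/
def gg (a : ℕ) : ℕ :=
  cond (Nat.ble a 10) (10 * a) (cond (Nat.ble a 50) (100 + 5 * (a - 10)) (cond (Nat.ble a 60) (300 + 10 * (a - 50)) (400 + 20 * (a - 60))))

/-- The number of cells. -/
def JJ : ℕ := 65

/-- The bound `ε ≤ 1/eD`. -/
def eD : ℕ := 17

lemma gg_eq (a : ℕ) : gg a = if a ≤ 10 then 10 * a else if a ≤ 50 then 100 + 5 * (a - 10) else if a ≤ 60 then 300 + 10 * (a - 50) else 400 + 20 * (a - 60) := by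
  unfold gg
  by_cases h0 : a ≤ 10
  · rw [Nat.ble_eq_true_of_le h0, if_pos h0]
    rfl
  · rw [(by rw [← Bool.not_eq_true, Nat.ble_eq]; exact h0 : Nat.ble a 10 = false), if_neg h0]
    by_cases h1 : a ≤ 50
    · rw [Nat.ble_eq_true_of_le h1, if_pos h1]
      rfl
    · rw [(by rw [← Bool.not_eq_true, Nat.ble_eq]; exact h1 : Nat.ble a 50 = false), if_neg h1]
      by_cases h2 : a ≤ 60
      · rw [Nat.ble_eq_true_of_le h2, if_pos h2]
        rfl
      · rw [(by rw [← Bool.not_eq_true, Nat.ble_eq]; exact h2 : Nat.ble a 60 = false), if_neg h2]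
        rfl

lemma gg_zero : gg 0 = 0 := by rw [gg_eq]; simp

lemma gg_succ (a : ℕ) : gg a ≤ gg (a + 1) := by
  rw [gg_eq, gg_eq]
  split_ifs <;> omega

lemma gg_JJ : gg JJ = 500 := by decide

end Crest.Agent.Propeller.HT
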