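import Crest.Agent.Lib.Propeller.PhiNum
import Crest.Agent.Lib.Propeller.SingleClosure

/-!
# Propeller: removal of the coefficients `q` from the Harris product

`Phi` is concave on `[0, ∞)`.  With AM-GM and Jensen, for `q ≥ 0`, `∑ q ≤ 1`:
`∏ Phi (a + q l ν) ≤ Phi (a + ν / N) ^ N`.

For the deletion of `j` (`s = ‖z j‖`), `v l = prp e (z l)`, thresholds `s (u + q l n)`:
* `q l ≤ 1/2`, `s ≤ ‖z l‖`: the half-space has measure `≤ Phi (u + q l (0.31 u + 1.155 n))`;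
* `q l ≤ 1/2`, `2 s ≤ ‖z l‖`: the half-space has measure `≤ Phi (b (u + q l n))`, `b = 0.5165`.

At most one `l` has `q l > 1/2`; it is dropped.  The result is `prod_hsp_le_Hb`.
-/

set_option autoImplicit false
set_option linter.unusedSectionVars false
open MeasureTheory ProbabilityTheory Set
open scoped RealInnerProductSpace

namespace Crest.Agent.Propeller

universe u v

/-! ### Concavity of `Phi` -/

/-- `Phi` on `[0, ∞)` as an integral, as a function on all of `ℝ`. -/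
noncomputable def PhiI (c : ℝ) : ℝ := 1 / 2 + phi0 * ∫ x in (0 : ℝ)..c, Real.exp (-(x ^ 2 / 2))

lemma PhiI_eq {c : ℝ} (hc : 0 ≤ c) : PhiI c = Phi c := by
  have := Phi_sub_half hc
  unfold PhiI
  linarith

lemma hasDerivAt_PhiI (c : ℝ) : HasDerivAt PhiI (phi0 * Real.exp (-(c ^ 2 / 2))) c := by
  have h : HasDerivAt (fun c => ∫ x in (0 : ℝ)..c, Real.exp (-(x ^ 2 / 2))) (Real.exp (-(c ^ 2 / 2))) c :=
    intervalIntegral.integral_hasDerivAt_right (continuous_exp_sq.intervalIntegrable _ _)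
      continuous_exp_sq.stronglyMeasurable.stronglyMeasurableAtFilter continuous_exp_sq.continuousAt
  have h2 := (h.const_mul phi0).const_add (1 / 2 : ℝ)
  exact h2

lemma concaveOn_PhiI : ConcaveOn ℝ (Ici 0) PhiI := by
  refine AntitoneOn.concaveOn_of_deriv (convex_Ici 0) ?_ ?_ ?_
  · exact fun x _ => (hasDerivAt_PhiI x).continuousAt.continuousWithinAt
  · exact fun x _ => (hasDerivAt_PhiI x).differentiableAt.differentiableWithinAt
  · intro x hx y hy hxy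
    rw [interior_Ici] at hx hy
    rw [(hasDerivAt_PhiI x).deriv, (hasDerivAt_PhiI y).deriv]
    refine mul_le_mul_of_nonneg_left ?_ phi0_pos.le
    apply Real.exp_le_exp.2
    have hx' : (0 : ℝ) < x := hx
    nlinarith

lemma Phi_concaveOn : ConcaveOn ℝ (Ici 0) Phi := by
  refine concaveOn_PhiI.congr ?_
  intro x hx
  exact PhiI_eq hx

/-- AM-GM for a finite product. -/
lemma prod_le_mean_pow {ι : Type*} (C : Finset ι) (f : ι → ℝ) (hf : ∀ l ∈ C, 0 ≤ f l) :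
    ∏ l ∈ C, f l ≤ ((∑ l ∈ C, f l) / C.card) ^ C.card := by
  classical
  rcases C.eq_empty_or_nonempty with rfl | hne
  · simp
  have hN : (0 : ℝ) < C.card := by exact_mod_cast hne.card_pos
  have hw := Real.geom_mean_le_arith_mean_weighted C (fun _ => (C.card : ℝ)⁻¹) f
    (fun _ _ => by positivity) (by simp [Finset.sum_const, nsmul_eq_mul, hN.ne']) hf
  have hmean : ∑ i ∈ C, (C.card : ℝ)⁻¹ * f i = (∑ l ∈ C, f l) / C.card := by
    rw [← Finset.mul_sum]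
    field_simp
  rw [hmean] at hw
  have hprod0 : 0 ≤ ∏ l ∈ C, f l ^ ((C.card : ℝ)⁻¹) :=
    Finset.prod_nonneg fun l hl => Real.rpow_nonneg (hf l hl) _
  have hpow := pow_le_pow_left₀ hprod0 hw C.card
  refine le_trans (le_of_eq ?_) hpow
  rw [← Finset.prod_pow]
  refine Finset.prod_congr rfl fun l hl => ?_
  rw [← Real.rpow_natCast, ← Real.rpow_mul (hf l hl), inv_mul_cancel₀ hN.ne', Real.rpow_one]

/-- **AM-GM + Jensen.** -/
theorem prod_Phi_le {ι : Type*} (C : Finset ι) {a ν : ℝ} (ha : 0 ≤ a) (hν : 0 ≤ ν) (q : ι → ℝ)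
    (hq : ∀ l ∈ C, 0 ≤ q l) (hsum : ∑ l ∈ C, q l ≤ 1) :
    ∏ l ∈ C, Phi (a + q l * ν) ≤ Phi (a + ν / C.card) ^ C.card := by
  classical
  rcases C.eq_empty_or_nonempty with rfl | hne
  · simp
  have hN : (0 : ℝ) < C.card := by exact_mod_cast hne.card_pos
  have h1 := prod_le_mean_pow C (fun l => Phi (a + q l * ν)) fun l _ => Phi_nonneg _
  refine h1.trans (pow_le_pow_left₀ ?_ ?_ _)
  · exact div_nonneg (Finset.sum_nonneg fun _ _ => Phi_nonneg _) hN.le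
  have hmem : ∀ l ∈ C, a + q l * ν ∈ Ici (0 : ℝ) := fun l hl => by
    have := mul_nonneg (hq l hl) hν
    simp only [mem_Ici]
    linarith
  have hJ := Phi_concaveOn.le_map_sum (t := C) (w := fun _ => (C.card : ℝ)⁻¹)
    (p := fun l => a + q l * ν) (fun _ _ => by positivity)
    (by simp [Finset.sum_const, nsmul_eq_mul, hN.ne']) hmem
  have e1 : ∑ i ∈ C, (C.card : ℝ)⁻¹ • Phi (a + q i * ν) = (∑ l ∈ C, Phi (a + q l * ν)) / C.card := by
    simp only [smul_eq_mul]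
    rw [← Finset.mul_sum, div_eq_inv_mul]
  have e2 : ∑ i ∈ C, (C.card : ℝ)⁻¹ • (a + q i * ν) = a + (∑ l ∈ C, q l) * ν / C.card := by
    simp only [smul_eq_mul]
    rw [← Finset.mul_sum, Finset.sum_add_distrib, Finset.sum_const, nsmul_eq_mul, ← Finset.sum_mul]
    field_simp
  rw [e1, e2] at hJ
  refine hJ.trans (Phi_mono ?_)
  have h3 : (∑ l ∈ C, q l) * ν / C.card ≤ 1 * ν / C.card := by
    apply div_le_div_of_nonneg_right _ hN.le
    exact mul_le_mul_of_nonneg_right hsum hν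
  rw [one_mul] at h3
  linarith

/-! ### The two bounds with a count -/

/-- The Jensen bound for nodes of norm at least `s`. -/
noncomputable def Hc (N : ℕ) (u n : ℝ) : ℝ := Phi (u + (0.31 * u + 1.155 * n) / N) ^ N

/-- The constant `b`, slightly above `2 / √15`. -/
noncomputable def bH : ℝ := 0.5165

/-- The Jensen bound for nodes of norm at least `2 s`. -/
noncomputable def Hp (N : ℕ) (u n : ℝ) : ℝ := Phi (bH * u + bH * n / N) ^ N

/-- The bound for the Harris product. -/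
noncomputable def Hb (c p : ℕ) (u n : ℝ) : ℝ :=
  max (Hc (c - 1) u n * Hp p u n) (Hc c u n * Hp (p - 1) u n)

lemma Hc_nonneg (N : ℕ) (u n : ℝ) : 0 ≤ Hc N u n := pow_nonneg (Phi_nonneg _) _
lemma Hp_nonneg (N : ℕ) (u n : ℝ) : 0 ≤ Hp N u n := pow_nonneg (Phi_nonneg _) _
lemma Hc_le_one (N : ℕ) (u n : ℝ) : Hc N u n ≤ 1 := pow_le_one₀ (Phi_nonneg _) (Phi_le_one _)
lemma Hp_le_one (N : ℕ) (u n : ℝ) : Hp N u n ≤ 1 := pow_le_one₀ (Phi_nonneg _) (Phi_le_one _)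

lemma Hb_nonneg (c p : ℕ) (u n : ℝ) : 0 ≤ Hb c p u n :=
  le_max_of_le_left (mul_nonneg (Hc_nonneg _ _ _) (Hp_nonneg _ _ _))

lemma Hb_le_one (c p : ℕ) (u n : ℝ) : Hb c p u n ≤ 1 :=
  max_le (mul_le_one₀ (Hc_le_one _ _ _) (Hp_nonneg _ _ _) (Hp_le_one _ _ _))
    (mul_le_one₀ (Hc_le_one _ _ _) (Hp_nonneg _ _ _) (Hp_le_one _ _ _))

lemma Hp_pred_le (p : ℕ) {u n : ℝ} (hn : 0 ≤ n) : Hp p u n ≤ Hp (p - 1) u n := by
  rcases Nat.eq_zero_or_pos p with rfl | hp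
  · exact le_rfl
  rcases Nat.lt_or_ge p 2 with hp1 | hp2
  · have : p = 1 := by omega
    subst this
    have h0 : Hp (1 - 1) u n = 1 := by simp [Hp]
    rw [h0]
    exact Hp_le_one _ _ _
  obtain ⟨N, rfl⟩ : ∃ N, p = N + 1 := ⟨p - 1, by omega⟩
  have hN : (0 : ℝ) < N := by
    have : 0 < N := by omega
    exact_mod_cast this
  simp only [Nat.add_sub_cancel]
  unfold Hp
  have hb : (0 : ℝ) ≤ bH := by unfold bH; norm_num
  have h1 : Phi (bH * u + bH * n / ((N + 1 : ℕ) : ℝ)) ≤ Phi (bH * u + bH * n / N) := by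
    apply Phi_mono
    have : bH * n / ((N + 1 : ℕ) : ℝ) ≤ bH * n / N := by
      apply div_le_div_of_nonneg_left (mul_nonneg hb hn) hN
      push_cast
      linarith
    linarith
  calc Phi (bH * u + bH * n / ((N + 1 : ℕ) : ℝ)) ^ (N + 1)
      ≤ Phi (bH * u + bH * n / N) ^ (N + 1) := pow_le_pow_left₀ (Phi_nonneg _) h1 _
    _ ≤ Phi (bH * u + bH * n / N) ^ N :=
        pow_le_pow_of_le_one (Phi_nonneg _) (Phi_le_one _) (by omega)

/-- `Hb` is monotone in `u` and `n` (on the nonnegative range). -/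
lemma Hc_mono (N : ℕ) {u u' n n' : ℝ} (hu : u ≤ u') (hn : n ≤ n') : Hc N u n ≤ Hc N u' n' := by
  unfold Hc
  refine pow_le_pow_left₀ (Phi_nonneg _) (Phi_mono ?_) _
  have h1 : (0.31 * u + 1.155 * n) / (N : ℝ) ≤ (0.31 * u' + 1.155 * n') / (N : ℝ) :=
    div_le_div_of_nonneg_right (by linarith) (Nat.cast_nonneg _)
  linarith

lemma Hp_mono (N : ℕ) {u u' n n' : ℝ} (hu : u ≤ u') (hn : n ≤ n') : Hp N u n ≤ Hp N u' n' := by
  unfold Hp
  refine pow_le_pow_left₀ (Phi_nonneg _) (Phi_mono ?_) _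
  have hb : (0 : ℝ) ≤ bH := by unfold bH; norm_num
  have h1 : bH * n / (N : ℝ) ≤ bH * n' / (N : ℝ) :=
    div_le_div_of_nonneg_right (mul_le_mul_of_nonneg_left hn hb) (Nat.cast_nonneg _)
  have h2 := mul_le_mul_of_nonneg_left hu hb
  linarith

lemma Hb_mono (c p : ℕ) {u u' n n' : ℝ} (hu : u ≤ u') (hn : n ≤ n') :
    Hb c p u n ≤ Hb c p u' n' := by
  unfold Hb
  refine max_le_max ?_ ?_ <;>
  exact mul_le_mul (Hc_mono _ hu hn) (Hp_mono _ hu hn) (Hp_nonneg _ _ _) (Hc_nonneg _ _ _)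

/-! ### The node bounds -/

variable {E : Type u} [NormedAddCommGroup E] [InnerProductSpace ℝ E] [FiniteDimensional ℝ E]
  [MeasurableSpace E] [BorelSpace E]
variable {k : ℕ} {z : Fin k → E}

/-- The deletion thresholds. -/
noncomputable def yth (z : Fin k → E) (j : Fin k) (u n : ℝ) (l : Fin k) : ℝ :=
  ‖z j‖ * (u + qc z j l * n)

/-- `q ≤ 1/2`, `s ≤ ‖z l‖`. -/
lemma node_bound_one {j l : Fin k} (hs : 0 < ‖z j‖) (hq0 : 0 ≤ qc z j l) (hq1 : qc z j l ≤ 1 / 2)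
    (hσ : ‖z j‖ ≤ ‖z l‖) {u n : ℝ} (hu : 0 ≤ u) (hn : 0 ≤ n) :
    (stdGaussian E).real {g | ⟪prp (uvec z j) (z l), g⟫ < yth z j u n l}
      ≤ Phi (u + qc z j l * (0.31 * u + 1.155 * n)) := by
  set q := qc z j l with hq
  set s := ‖z j‖ with hsdef
  have hK : ‖prp (uvec z j) (z l)‖ ^ 2 = ‖z l‖ ^ 2 - q ^ 2 * s ^ 2 := Kp_eq j l hs
  have hσ2 : s ^ 2 ≤ ‖z l‖ ^ 2 := pow_le_pow_left₀ hs.le hσ 2
  have hq2 : q ^ 2 ≤ 1 / 4 := by nlinarith
  have hK1 : s ^ 2 * (1 - q ^ 2) ≤ ‖prp (uvec z j) (z l)‖ ^ 2 := by rw [hK]; nlinarith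
  have hs2 : 0 < s ^ 2 := by positivity
  have hKpos : 0 < ‖prp (uvec z j) (z l)‖ ^ 2 := lt_of_lt_of_le (by nlinarith) hK1
  have hw : prp (uvec z j) (z l) ≠ 0 := by
    intro h0
    rw [h0, norm_zero] at hKpos
    norm_num at hKpos
  have hwn : 0 < ‖prp (uvec z j) (z l)‖ := norm_pos_iff.2 hw
  rw [real_halfspace _ hw]
  apply Phi_mono
  unfold yth
  rw [← hq, ← hsdef, div_le_iff₀ hwn]
  set ν := 0.31 * u + 1.155 * n with hν
  have hb0 : 0 ≤ u + q * n := add_nonneg hu (mul_nonneg hq0 hn)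
  have hb1 : (u + q * n) * (1 + 0.31 * q) ≤ u + q * ν := by
    rw [hν]
    nlinarith [mul_nonneg hq0 hn, mul_nonneg (mul_nonneg hq0 hn) (sub_nonneg.2 hq1)]
  have hpoly : 1 ≤ (1 + 0.31 * q) ^ 2 * (1 - q ^ 2) := by
    have e : (1 + 0.31 * q) ^ 2 * (1 - q ^ 2) - 1
        = q * (0.62 - 0.9039 * q - 0.62 * q ^ 2 - 0.0961 * q ^ 3) := by ring
    have h3 : 0 ≤ 0.62 - 0.9039 * q - 0.62 * q ^ 2 - 0.0961 * q ^ 3 := by
      have h4 : q ^ 3 ≤ 1 / 8 := by nlinarith [mul_nonneg hq0 hq0]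
      nlinarith
    have := mul_nonneg hq0 h3
    linarith
  -- compare squares
  have hsq : (s * (u + q * n)) ^ 2 ≤ ((u + q * ν) * ‖prp (uvec z j) (z l)‖) ^ 2 := by
    have h1 : (s * (u + q * n)) ^ 2 = s ^ 2 * (u + q * n) ^ 2 := by ring
    have h2 : ((u + q * ν) * ‖prp (uvec z j) (z l)‖) ^ 2
        = (u + q * ν) ^ 2 * ‖prp (uvec z j) (z l)‖ ^ 2 := by ring
    rw [h1, h2]
    have h5 : ((u + q * n) * (1 + 0.31 * q)) ^ 2 ≤ (u + q * ν) ^ 2 :=
      pow_le_pow_left₀ (mul_nonneg hb0 (by linarith)) hb1 2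
    have h6 : (u + q * n) ^ 2 ≤ ((u + q * n) * (1 + 0.31 * q)) ^ 2 * (1 - q ^ 2) := by
      have : ((u + q * n) * (1 + 0.31 * q)) ^ 2 * (1 - q ^ 2)
          = (u + q * n) ^ 2 * ((1 + 0.31 * q) ^ 2 * (1 - q ^ 2)) := by ring
      rw [this]
      nlinarith [sq_nonneg (u + q * n)]
    have h7 : 0 ≤ 1 - q ^ 2 := by linarith
    calc s ^ 2 * (u + q * n) ^ 2 ≤ s ^ 2 * (((u + q * n) * (1 + 0.31 * q)) ^ 2 * (1 - q ^ 2)) :=
          mul_le_mul_of_nonneg_left h6 hs2.le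
      _ ≤ s ^ 2 * ((u + q * ν) ^ 2 * (1 - q ^ 2)) := by
          apply mul_le_mul_of_nonneg_left _ hs2.le
          exact mul_le_mul_of_nonneg_right h5 h7
      _ = (u + q * ν) ^ 2 * (s ^ 2 * (1 - q ^ 2)) := by ring
      _ ≤ _ := mul_le_mul_of_nonneg_left hK1 (sq_nonneg _)
  have hq' : 0 ≤ q * ν := mul_nonneg hq0 (by rw [hν]; positivity)
  exact (pow_le_pow_iff_left₀ (mul_nonneg hs.le hb0) (mul_nonneg (by linarith) hwn.le)
    two_ne_zero).1 hsq

/-- `q ≤ 1/2`, `2 s ≤ ‖z l‖`. -/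
lemma node_bound_two {j l : Fin k} (hs : 0 < ‖z j‖) (hq0 : 0 ≤ qc z j l) (hq1 : qc z j l ≤ 1 / 2)
    (hσ : 2 * ‖z j‖ ≤ ‖z l‖) {u n : ℝ} (hu : 0 ≤ u) (hn : 0 ≤ n) :
    (stdGaussian E).real {g | ⟪prp (uvec z j) (z l), g⟫ < yth z j u n l}
      ≤ Phi (bH * u + qc z j l * (bH * n)) := by
  set q := qc z j l with hq
  set s := ‖z j‖ with hsdef
  have hK : ‖prp (uvec z j) (z l)‖ ^ 2 = ‖z l‖ ^ 2 - q ^ 2 * s ^ 2 := Kp_eq j l hs
  have hσ2 : (2 * s) ^ 2 ≤ ‖z l‖ ^ 2 := pow_le_pow_left₀ (by positivity) hσ 2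
  have hq2 : q ^ 2 ≤ 1 / 4 := by nlinarith
  have hs2 : 0 < s ^ 2 := by positivity
  have hK1 : (15 / 4) * s ^ 2 ≤ ‖prp (uvec z j) (z l)‖ ^ 2 := by rw [hK]; nlinarith
  have hKpos : 0 < ‖prp (uvec z j) (z l)‖ ^ 2 := lt_of_lt_of_le (by positivity) hK1
  have hw : prp (uvec z j) (z l) ≠ 0 := by
    intro h0
    rw [h0, norm_zero] at hKpos
    norm_num at hKpos
  have hwn : 0 < ‖prp (uvec z j) (z l)‖ := norm_pos_iff.2 hw
  rw [real_halfspace _ hw]
  apply Phi_mono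
  unfold yth
  rw [← hq, ← hsdef, div_le_iff₀ hwn]
  have hb0 : 0 ≤ u + q * n := add_nonneg hu (mul_nonneg hq0 hn)
  have hb : (0 : ℝ) < bH := by unfold bH; norm_num
  have hsb : s ≤ bH * ‖prp (uvec z j) (z l)‖ := by
    have hsq : s ^ 2 ≤ (bH * ‖prp (uvec z j) (z l)‖) ^ 2 := by
      rw [mul_pow]
      have hb2 : (4 / 15 : ℝ) ≤ bH ^ 2 := by unfold bH; norm_num
      nlinarith [sq_nonneg (‖prp (uvec z j) (z l)‖)]
    exact (pow_le_pow_iff_left₀ hs.le (by positivity) two_ne_zero).1 hsq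
  calc s * (u + q * n) ≤ (bH * ‖prp (uvec z j) (z l)‖) * (u + q * n) :=
        mul_le_mul_of_nonneg_right hsb hb0
    _ = (bH * u + q * (bH * n)) * ‖prp (uvec z j) (z l)‖ := by ring

/-! ### The product bound -/

lemma two_le_one_of_sum {ι : Type*} [DecidableEq ι] {C : Finset ι} {q : ι → ℝ} (hq : ∀ l ∈ C, 0 ≤ q l)
    (hsum : ∑ l ∈ C, q l ≤ 1) {x l : ι} (hx : x ∈ C) (hl : l ∈ C) (hxl : l ≠ x) : q x + q l ≤ 1 := by
  have hsub : ({x, l} : Finset ι) ⊆ C := by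
    intro i hi
    simp only [Finset.mem_insert, Finset.mem_singleton] at hi
    rcases hi with rfl | rfl <;> assumption
  have h1 := Finset.sum_le_sum_of_subset_of_nonneg (f := q) hsub (fun i hi _ => hq i hi)
  rw [Finset.sum_pair (Ne.symm hxl)] at h1
  linarith

section product

variable [DecidableEq (Fin k)]

/-- The half-space measure at the deletion threshold. -/
noncomputable def hsp (z : Fin k → E) (j : Fin k) (u n : ℝ) (l : Fin k) : ℝ :=
  (stdGaussian E).real {g | ⟪prp (uvec z j) (z l), g⟫ < yth z j u n l}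

lemma hsp_nonneg (j : Fin k) (u n : ℝ) (l : Fin k) : 0 ≤ hsp z j u n l := measureReal_nonneg
lemma hsp_le_one (j : Fin k) (u n : ℝ) (l : Fin k) : hsp z j u n l ≤ 1 := measureReal_le_one

/-- Product over nodes with small coefficient, norm at least `s`. -/
lemma prod_small_one {j : Fin k} (hs : 0 < ‖z j‖) (C : Finset (Fin k))
    (hq0 : ∀ l ∈ C, 0 ≤ qc z j l) (hq1 : ∀ l ∈ C, qc z j l ≤ 1 / 2) (hsum : ∑ l ∈ C, qc z j l ≤ 1)
    (hσ : ∀ l ∈ C, ‖z j‖ ≤ ‖z l‖) {u n : ℝ} (hu : 0 ≤ u) (hn : 0 ≤ n) :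
    ∏ l ∈ C, hsp z j u n l ≤ Hc C.card u n := by
  have h1 : ∏ l ∈ C, hsp z j u n l
      ≤ ∏ l ∈ C, Phi (u + qc z j l * (0.31 * u + 1.155 * n)) :=
    Finset.prod_le_prod (fun l _ => hsp_nonneg j u n l) fun l hl =>
      node_bound_one hs (hq0 l hl) (hq1 l hl) (hσ l hl) hu hn
  exact h1.trans (prod_Phi_le C hu (by positivity) _ hq0 hsum)

/-- Product over nodes with small coefficient, norm at least `2 s`. -/
lemma prod_small_two {j : Fin k} (hs : 0 < ‖z j‖) (C : Finset (Fin k))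
    (hq0 : ∀ l ∈ C, 0 ≤ qc z j l) (hq1 : ∀ l ∈ C, qc z j l ≤ 1 / 2) (hsum : ∑ l ∈ C, qc z j l ≤ 1)
    (hσ : ∀ l ∈ C, 2 * ‖z j‖ ≤ ‖z l‖) {u n : ℝ} (hu : 0 ≤ u) (hn : 0 ≤ n) :
    ∏ l ∈ C, hsp z j u n l ≤ Hp C.card u n := by
  have hb : (0 : ℝ) < bH := by unfold bH; norm_num
  have h1 : ∏ l ∈ C, hsp z j u n l ≤ ∏ l ∈ C, Phi (bH * u + qc z j l * (bH * n)) :=
    Finset.prod_le_prod (fun l _ => hsp_nonneg j u n l) fun l hl =>
      node_bound_two hs (hq0 l hl) (hq1 l hl) (hσ l hl) hu hn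
  exact h1.trans (prod_Phi_le C (by positivity) (by positivity) _ hq0 hsum)

/-- **The Harris product without the coefficients.** `C₁` nodes of norm at least `s`, `C₂` nodes of
norm at least `2 s`, coefficients nonnegative of sum at most one. -/
theorem prod_hsp_le_Hb {j : Fin k} (hs : 0 < ‖z j‖) (C₁ C₂ : Finset (Fin k)) (hdisj : Disjoint C₁ C₂)
    (hq0 : ∀ l ∈ C₁ ∪ C₂, 0 ≤ qc z j l) (hsum : ∑ l ∈ C₁ ∪ C₂, qc z j l ≤ 1)
    (hσ₁ : ∀ l ∈ C₁, ‖z j‖ ≤ ‖z l‖) (hσ₂ : ∀ l ∈ C₂, 2 * ‖z j‖ ≤ ‖z l‖)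
    {u n : ℝ} (hu : 0 ≤ u) (hn : 0 ≤ n) :
    ∏ l ∈ C₁ ∪ C₂, hsp z j u n l ≤ Hb C₁.card C₂.card u n := by
  have hsum1 : ∑ l ∈ C₁, qc z j l ≤ 1 :=
    le_trans (Finset.sum_le_sum_of_subset_of_nonneg Finset.subset_union_left
      fun i hi _ => hq0 i hi) hsum
  have hsum2 : ∑ l ∈ C₂, qc z j l ≤ 1 :=
    le_trans (Finset.sum_le_sum_of_subset_of_nonneg Finset.subset_union_right
      fun i hi _ => hq0 i hi) hsum
  have hq01 : ∀ l ∈ C₁, 0 ≤ qc z j l := fun l hl => hq0 l (Finset.mem_union_left _ hl)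
  have hq02 : ∀ l ∈ C₂, 0 ≤ qc z j l := fun l hl => hq0 l (Finset.mem_union_right _ hl)
  rw [Finset.prod_union hdisj]
  by_cases h1 : ∃ x ∈ C₁, 1 / 2 < qc z j x
  · -- the heavy node is in `C₁`
    obtain ⟨x, hx, hqx⟩ := h1
    have hxU := Finset.mem_union_left C₂ hx
    have hrest : ∀ l ∈ C₁ ∪ C₂, l ≠ x → qc z j l ≤ 1 / 2 := fun l hl hlx => by
      have := two_le_one_of_sum hq0 hsum hxU hl hlx
      linarith
    have hA : ∏ l ∈ C₁, hsp z j u n l ≤ Hc (C₁.card - 1) u n := by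
      rw [← Finset.mul_prod_erase C₁ _ hx]
      have hcard : (C₁.erase x).card = C₁.card - 1 := Finset.card_erase_of_mem hx
      have h2 := prod_small_one hs (C₁.erase x) (fun l hl => hq01 l (Finset.mem_of_mem_erase hl))
        (fun l hl => hrest l (Finset.mem_union_left _ (Finset.mem_of_mem_erase hl))
          (Finset.ne_of_mem_erase hl))
        (le_trans (Finset.sum_le_sum_of_subset_of_nonneg (Finset.erase_subset _ _)
          fun i hi _ => hq01 i hi) hsum1)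
        (fun l hl => hσ₁ l (Finset.mem_of_mem_erase hl)) hu hn
      rw [hcard] at h2
      calc hsp z j u n x * ∏ l ∈ C₁.erase x, hsp z j u n l
          ≤ 1 * ∏ l ∈ C₁.erase x, hsp z j u n l :=
            mul_le_mul_of_nonneg_right (hsp_le_one j u n x)
              (Finset.prod_nonneg fun l _ => hsp_nonneg j u n l)
        _ ≤ _ := by rw [one_mul]; exact h2
    have hB := prod_small_two hs C₂ hq02
      (fun l hl => hrest l (Finset.mem_union_right _ hl)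
        (fun h => Finset.disjoint_left.1 hdisj hx (h ▸ hl))) hsum2 hσ₂ hu hn
    refine le_trans ?_ (le_max_left _ _)
    exact mul_le_mul hA hB (Finset.prod_nonneg fun l _ => hsp_nonneg j u n l) (Hc_nonneg _ _ _)
  · push Not at h1
    have hA := prod_small_one hs C₁ hq01 h1 hsum1 hσ₁ hu hn
    by_cases h2 : ∃ x ∈ C₂, 1 / 2 < qc z j x
    · obtain ⟨x, hx, hqx⟩ := h2
      have hxU := Finset.mem_union_right C₁ hx
      have hB : ∏ l ∈ C₂, hsp z j u n l ≤ Hp (C₂.card - 1) u n := by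
        rw [← Finset.mul_prod_erase C₂ _ hx]
        have hcard : (C₂.erase x).card = C₂.card - 1 := Finset.card_erase_of_mem hx
        have h3 := prod_small_two hs (C₂.erase x) (fun l hl => hq02 l (Finset.mem_of_mem_erase hl))
          (fun l hl => by
            have := two_le_one_of_sum hq0 hsum hxU
              (Finset.mem_union_right _ (Finset.mem_of_mem_erase hl)) (Finset.ne_of_mem_erase hl)
            linarith)
          (le_trans (Finset.sum_le_sum_of_subset_of_nonneg (Finset.erase_subset _ _)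
            fun i hi _ => hq02 i hi) hsum2)
          (fun l hl => hσ₂ l (Finset.mem_of_mem_erase hl)) hu hn
        rw [hcard] at h3
        calc hsp z j u n x * ∏ l ∈ C₂.erase x, hsp z j u n l
            ≤ 1 * ∏ l ∈ C₂.erase x, hsp z j u n l :=
              mul_le_mul_of_nonneg_right (hsp_le_one j u n x)
                (Finset.prod_nonneg fun l _ => hsp_nonneg j u n l)
          _ ≤ _ := by rw [one_mul]; exact h3
      refine le_trans ?_ (le_max_right _ _)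
      exact mul_le_mul hA hB (Finset.prod_nonneg fun l _ => hsp_nonneg j u n l) (Hc_nonneg _ _ _)
    · push Not at h2
      have hB := prod_small_two hs C₂ hq02 h2 hsum2 hσ₂ hu hn
      refine le_trans ?_ (le_max_right _ _)
      exact mul_le_mul hA (hB.trans (Hp_pred_le _ hn))
        (Finset.prod_nonneg fun l _ => hsp_nonneg j u n l) (Hc_nonneg _ _ _)

end product

end Crest.Agent.Propeller
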