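import Crest.Agent.Lib.Propeller.HPhi
import Crest.Agent.Lib.Propeller.BlockH
import Crest.Agent.Lib.Propeller.HGrid

/-!
# Propeller: fixed point upper bounds for the finite sums of the master inequality

`hbB c p gb ga / DD` bounds `Hb c p (gb/100) (ga/100)`. `momAll c p` is a quadruple of natural numbers
with `HIu ε τ c p xg JJ ≤ (τ² A + τ B + C) / SU`, `HIv ε c p xg JJ ≤ V / SV`, for the grid
`xg a = gg a / 100`, `ε ≤ 1 / eD`.  Everything is computed by the kernel.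
-/

set_option autoImplicit false
set_option linter.unusedSectionVars false
open MeasureTheory ProbabilityTheory

namespace Crest.Agent.Propeller.HT

open Crest.Agent.Propeller

/-! ### Fixed point -/

/-- Upper bound of `(v/DD)^N`, scale `DD`. -/
def pu (v N : ℕ) : ℕ := match N with
  | 0 => DD
  | M + 1 => Nat.pow v (M + 1) / Nat.pow DD M + 1

/-- Index of the argument of `Hc`. -/
def idxC (N gb ga : ℕ) : ℕ := gb + (310 * gb + 1155 * ga) / (1000 * N) + 1

/-- Index of the argument of `Hp`. -/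
def idxP (N gb ga : ℕ) : ℕ := (5165 * (N * gb + ga)) / (10000 * N) + 1

/-- Upper bound of `Hc`. -/
def hcB (N gb ga : ℕ) : ℕ := match N with
  | 0 => DD
  | M + 1 => pu (hiP (idxC (M + 1) gb ga)) (M + 1)

/-- Upper bound of `Hp`. -/
def hpB (N gb ga : ℕ) : ℕ := match N with
  | 0 => DD
  | M + 1 => pu (hiP (idxP (M + 1) gb ga)) (M + 1)

/-- Product, rounded up. -/
def mulU (x y : ℕ) : ℕ := x * y / DD + 1

/-- Maximum. -/
def mx (a b : ℕ) : ℕ := cond (Nat.ble a b) b a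

/-- Upper bound of `Hb`. -/
def hbB (c p gb ga : ℕ) : ℕ :=
  mx (mulU (hcB (c - 1) gb ga) (hpB p gb ga)) (mulU (hcB c gb ga) (hpB (p - 1) gb ga))

lemma div_succ_ge (a b : ℕ) (hb : 0 < b) : (a : ℝ) / b ≤ ((a / b + 1 : ℕ) : ℝ) := by
  have hb' : (0 : ℝ) < b := by exact_mod_cast hb
  rw [div_le_iff₀ hb']
  have h := Nat.lt_mul_div_succ a hb
  have h2 : (a : ℝ) ≤ ((b * (a / b + 1) : ℕ) : ℝ) := by exact_mod_cast h.le
  push_cast at h2 ⊢
  linarith

lemma DD_ne : (DD : ℝ) ≠ 0 := DD_pos.ne'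

lemma pu_spec {x : ℝ} {v : ℕ} (N : ℕ) (h0 : 0 ≤ x) (h : x ≤ (v : ℝ) / DD) :
    x ^ N ≤ (pu v N : ℝ) / DD := by
  cases N with
  | zero =>
    simp only [pu, pow_zero]
    rw [div_self DD_ne]
  | succ M =>
    have h1 : x ^ (M + 1) ≤ ((v : ℝ) / DD) ^ (M + 1) := pow_le_pow_left₀ h0 h _
    refine h1.trans ?_
    have hDM : 0 < Nat.pow DD M := by
      have : 0 < DD := by norm_num [DD]
      exact Nat.pow_pos this
    have h2 := div_succ_ge (Nat.pow v (M + 1)) (Nat.pow DD M) hDM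
    simp only [pu]
    have h3 : ((v : ℝ) / DD) ^ (M + 1)
        = ((Nat.pow v (M + 1) : ℕ) : ℝ) / ((Nat.pow DD M : ℕ) : ℝ) / DD := by
      simp only [Nat.pow_eq]
      push_cast
      rw [div_pow, div_div, pow_succ' (DD : ℝ) M, mul_comm]
    rw [h3]
    exact div_le_div_of_nonneg_right h2 DD_pos.le

lemma Phi_le_of_le {y : ℝ} {i : ℕ} (h : y ≤ (i : ℝ) / 100) : Phi y ≤ (hiP i : ℝ) / DD :=
  (Phi_mono h).trans (Phi_le_hiP i)

lemma hcB_spec (N gb ga : ℕ) :
    Hc N ((gb : ℝ) / 100) ((ga : ℝ) / 100) ≤ (hcB N gb ga : ℝ) / DD := by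
  cases N with
  | zero =>
    simp only [Hc, hcB, pow_zero]
    rw [div_self DD_ne]
  | succ M =>
    simp only [Hc, hcB]
    refine pu_spec (M + 1) (Phi_nonneg _) (Phi_le_of_le ?_)
    unfold idxC
    have h1 := div_succ_ge (310 * gb + 1155 * ga) (1000 * (M + 1)) (by positivity)
    have hM : (0 : ℝ) < ((M + 1 : ℕ) : ℝ) := by positivity
    have h2 : ((310 * gb + 1155 * ga : ℕ) : ℝ) / ((1000 * (M + 1) : ℕ) : ℝ)
        = (310 * (gb : ℝ) + 1155 * ga) / (1000 * ((M + 1 : ℕ) : ℝ)) := by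
      push_cast
      ring
    rw [h2] at h1
    have h3 : (gb : ℝ) / 100 + (0.31 * ((gb : ℝ) / 100) + 1.155 * ((ga : ℝ) / 100)) / ((M + 1 : ℕ) : ℝ)
        = ((gb : ℝ) + (310 * (gb : ℝ) + 1155 * ga) / (1000 * ((M + 1 : ℕ) : ℝ))) / 100 := by
      field_simp
      norm_num
      ring
    rw [h3]
    apply div_le_div_of_nonneg_right _ (by norm_num)
    have h4 : ((gb + (310 * gb + 1155 * ga) / (1000 * (M + 1)) + 1 : ℕ) : ℝ)
        = (gb : ℝ) + (((310 * gb + 1155 * ga) / (1000 * (M + 1)) + 1 : ℕ) : ℝ) := by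
      push_cast
      ring
    rw [h4]
    linarith

lemma hpB_spec (N gb ga : ℕ) :
    Hp N ((gb : ℝ) / 100) ((ga : ℝ) / 100) ≤ (hpB N gb ga : ℝ) / DD := by
  cases N with
  | zero =>
    simp only [Hp, hpB, pow_zero]
    rw [div_self DD_ne]
  | succ M =>
    simp only [Hp, hpB]
    refine pu_spec (M + 1) (Phi_nonneg _) (Phi_le_of_le ?_)
    unfold idxP bH
    have h1 := div_succ_ge (5165 * ((M + 1) * gb + ga)) (10000 * (M + 1)) (by positivity)
    have hM : (0 : ℝ) < ((M + 1 : ℕ) : ℝ) := by positivity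
    have h2 : ((5165 * ((M + 1) * gb + ga) : ℕ) : ℝ) / ((10000 * (M + 1) : ℕ) : ℝ)
        = (0.5165 * ((gb : ℝ) / 100) + 0.5165 * ((ga : ℝ) / 100) / ((M + 1 : ℕ) : ℝ)) * 100 := by
      push_cast
      field_simp
      norm_num
      ring
    rw [h2] at h1
    rw [le_div_iff₀ (by norm_num)]
    exact h1

lemma mulU_spec {x y : ℝ} {a b : ℕ} (hx0 : 0 ≤ x) (hY0 : 0 ≤ y) (hx : x ≤ (a : ℝ) / DD)
    (hy : y ≤ (b : ℝ) / DD) : x * y ≤ (mulU a b : ℝ) / DD := by
  have h0 : 0 < DD := by norm_num [DD]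
  have h1 := div_succ_ge (a * b) DD h0
  have h2 : x * y ≤ (a : ℝ) / DD * ((b : ℝ) / DD) :=
    mul_le_mul hx hy hY0 (hx0.trans hx)
  refine h2.trans ?_
  have h3 : (a : ℝ) / DD * ((b : ℝ) / DD) = ((a * b : ℕ) : ℝ) / DD / DD := by
    push_cast
    field_simp
  rw [h3]
  exact div_le_div_of_nonneg_right h1 DD_pos.le

lemma mx_left (a b : ℕ) : a ≤ mx a b := by
  unfold mx
  cases h : Nat.ble a b with
  | true => simpa using Nat.le_of_ble_eq_true h
  | false => exact le_rfl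

lemma mx_right (a b : ℕ) : b ≤ mx a b := by
  unfold mx
  cases h : Nat.ble a b with
  | true => exact le_rfl
  | false =>
    have : ¬ a ≤ b := by
      intro h2
      rw [Nat.ble_eq_true_of_le h2] at h
      exact absurd h (by simp)
    simp only [cond_false]
    omega

theorem hbB_spec (c p gb ga : ℕ) :
    Hb c p ((gb : ℝ) / 100) ((ga : ℝ) / 100) ≤ (hbB c p gb ga : ℝ) / DD := by
  unfold Hb hbB
  apply max_le
  · refine (mulU_spec (Hc_nonneg _ _ _) (Hp_nonneg _ _ _) (hcB_spec _ _ _)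
      (hpB_spec _ _ _)).trans ?_
    apply div_le_div_of_nonneg_right _ DD_pos.le
    exact_mod_cast mx_left _ _
  · refine (mulU_spec (Hc_nonneg _ _ _) (Hp_nonneg _ _ _) (hcB_spec _ _ _)
      (hpB_spec _ _ _)).trans ?_
    apply div_le_div_of_nonneg_right _ DD_pos.le
    exact_mod_cast mx_right _ _

/-! ### The grid and the constants -/

lemma gg_mono : Monotone gg := monotone_nat_of_le_succ gg_succ

/-- The grid as real numbers. -/
noncomputable def xg (a : ℕ) : ℝ := (gg a : ℝ) / 100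

lemma xg_zero : xg 0 = 0 := by simp [xg, gg_zero]

lemma xg_mono : Monotone xg := fun a b h => by
  unfold xg
  apply div_le_div_of_nonneg_right _ (by norm_num)
  exact_mod_cast gg_mono h

lemma xg_nonneg (a : ℕ) : 0 ≤ xg a := by unfold xg; positivity

/-- The Gaussian mass of a cell, rounded up. -/
def nN (a : ℕ) : ℕ := hiP (gg (a + 1)) - loP (gg a)

/-- The width of a cell. -/
def dG (b : ℕ) : ℕ := gg (b + 1) - gg b

lemma nN_spec (a : ℕ) : Phi (xg (a + 1)) - Phi (xg a) ≤ (nN a : ℝ) / DD := by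
  have h1 := Phi_le_hiP (gg (a + 1))
  have h2 := loP_le_Phi (gg a)
  unfold xg
  have h3 : ((hiP (gg (a + 1)) : ℝ) - loP (gg a)) ≤ (nN a : ℝ) := by
    unfold nN
    have : hiP (gg (a + 1)) ≤ hiP (gg (a + 1)) - loP (gg a) + loP (gg a) := by omega
    have h4 : (hiP (gg (a + 1)) : ℝ) ≤ ((hiP (gg (a + 1)) - loP (gg a) : ℕ) : ℝ) + loP (gg a) := by
      exact_mod_cast this
    linarith
  have h5 : ((hiP (gg (a + 1)) : ℝ) - loP (gg a)) / DD ≤ (nN a : ℝ) / DD :=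
    div_le_div_of_nonneg_right h3 DD_pos.le
  rw [sub_div] at h5
  linarith

lemma dG_spec (b : ℕ) : xg (b + 1) - xg b = (dG b : ℝ) / 100 := by
  unfold xg dG
  rw [Nat.cast_sub (gg_succ b)]
  ring

/-! ### The moments -/

/-- Four natural numbers. -/
structure Mo where
  A : ℕ
  B : ℕ
  C : ℕ
  V : ℕ
  deriving DecidableEq

/-- Addition. -/
def Mo.add (m n : Mo) : Mo := ⟨m.A + n.A, m.B + n.B, m.C + n.C, m.V + n.V⟩

/-- Scalar multiple. -/
def Mo.smul (k : ℕ) (n : Mo) : Mo := ⟨k * n.A, k * n.B, k * n.C, k * n.V⟩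

/-- One cell of the inner sum. -/
def cellMo (d gb ga h : ℕ) : Mo :=
  ⟨eD * d * (gb * gb) * h, eD * d * (2 * gb * ga) * h, eD * d * (ga * ga) * h, eD * d * h⟩

/-- The strip `u < 0`. -/
def stripMo (ga h : ℕ) : Mo := ⟨0, 0, ga * ga * ga * h, ga * h⟩

/-- A finite sum. -/
def sumMo (f : ℕ → Mo) : ℕ → Mo
  | 0 => ⟨0, 0, 0, 0⟩
  | n + 1 => (sumMo f n).add (f n)

/-- The inner sum. -/
def inner (c p a : ℕ) : Mo :=
  (stripMo (gg (a + 1)) (hbB c p 0 (gg (a + 1)))).add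
    (sumMo (fun b => cellMo (dG b) (gg (b + 1)) (gg (a + 1)) (hbB c p (gg (b + 1)) (gg (a + 1))))
      (a + 1))

/-- The moments. -/
def momAll (c p : ℕ) : Mo := sumMo (fun a => (inner c p a).smul (nN a)) JJ

/-- The quadratic form. -/
noncomputable def Mo.evalU (m : Mo) (τ : ℝ) : ℝ := τ ^ 2 * m.A + τ * m.B + m.C

lemma evalU_add (m n : Mo) (τ : ℝ) : (m.add n).evalU τ = m.evalU τ + n.evalU τ := by
  simp only [Mo.evalU, Mo.add]
  push_cast
  ring

lemma evalU_smul (k : ℕ) (m : Mo) (τ : ℝ) : (m.smul k).evalU τ = (k : ℝ) * m.evalU τ := by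
  simp only [Mo.evalU, Mo.smul]
  push_cast
  ring

lemma evalU_sum (f : ℕ → Mo) (n : ℕ) (τ : ℝ) :
    (sumMo f n).evalU τ = ∑ i ∈ Finset.range n, (f i).evalU τ := by
  induction n with
  | zero => simp [sumMo, Mo.evalU]
  | succ n ih => rw [sumMo, evalU_add, ih, Finset.sum_range_succ]

lemma V_add (m n : Mo) : ((m.add n).V : ℝ) = (m.V : ℝ) + (n.V : ℝ) := by
  simp only [Mo.add]
  push_cast
  ring

lemma V_sum (f : ℕ → Mo) (n : ℕ) :
    ((sumMo f n).V : ℝ) = ∑ i ∈ Finset.range n, ((f i).V : ℝ) := by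
  induction n with
  | zero => simp [sumMo]
  | succ n ih => rw [sumMo, V_add, ih, Finset.sum_range_succ]

lemma evalU_cell (d gb ga h : ℕ) (τ : ℝ) :
    (cellMo d gb ga h).evalU τ = (eD : ℝ) * d * h * (τ * gb + ga) ^ 2 := by
  simp only [Mo.evalU, cellMo]
  push_cast
  ring

lemma evalU_strip (ga h : ℕ) (τ : ℝ) :
    (stripMo ga h).evalU τ = (ga : ℝ) ^ 3 * h := by
  simp only [Mo.evalU, stripMo]
  push_cast
  ring

lemma eD_pos : (0 : ℝ) < (eD : ℝ) := by norm_num [eD]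

/-- The scale of the quadratic form. -/
noncomputable def SU : ℝ := (DD : ℝ) * (100 ^ 3 * (DD : ℝ) * eD)

/-- The scale of the variance sum. -/
noncomputable def SV : ℝ := (DD : ℝ) * (100 * (DD : ℝ) * eD)

lemma SU_pos : 0 < SU := by
  have := DD_pos
  have := eD_pos
  unfold SU
  positivity

lemma SV_pos : 0 < SV := by
  have := DD_pos
  have := eD_pos
  unfold SV
  positivity

/-- The bracket of `HIu`. -/
lemma bracketU_le (c p a : ℕ) {ε τ : ℝ} (hε0 : 0 ≤ ε) (hε : ε ≤ 1 / (eD : ℝ)) (hτ : 0 ≤ τ) :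
    xg (a + 1) * ε * xg (a + 1) ^ 2 * Hb c p 0 (xg (a + 1))
      + ∑ b ∈ Finset.range (a + 1),
          (xg (b + 1) - xg b) * (τ * xg (b + 1) + xg (a + 1)) ^ 2 * Hb c p (xg (b + 1)) (xg (a + 1))
      ≤ (inner c p a).evalU τ / (100 ^ 3 * (DD : ℝ) * eD) := by
  have hD := DD_pos
  have he := eD_pos
  set ga := gg (a + 1) with hga
  have hxa : xg (a + 1) = (ga : ℝ) / 100 := rfl
  have hS : (0 : ℝ) < 100 ^ 3 * (DD : ℝ) * eD := by positivity
  unfold inner
  rw [evalU_add, evalU_strip, evalU_sum, add_div, Finset.sum_div]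
  apply add_le_add
  · -- the strip
    have h1 : Hb c p 0 (xg (a + 1)) ≤ (hbB c p 0 ga : ℝ) / DD := by
      have := hbB_spec c p 0 ga
      simpa [hxa] using this
    have h0 : 0 ≤ Hb c p 0 (xg (a + 1)) := Hb_nonneg _ _ _ _
    have hx := xg_nonneg (a + 1)
    have h2 : xg (a + 1) * ε * xg (a + 1) ^ 2 * Hb c p 0 (xg (a + 1))
        ≤ xg (a + 1) * (1 / (eD : ℝ)) * xg (a + 1) ^ 2 * ((hbB c p 0 ga : ℝ) / DD) := by
      apply mul_le_mul _ h1 h0 (by positivity)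
      apply mul_le_mul_of_nonneg_right _ (by positivity)
      exact mul_le_mul_of_nonneg_left hε hx
    refine h2.trans (le_of_eq ?_)
    rw [hxa]
    field_simp
    rw [hga]
  · refine Finset.sum_le_sum fun b _ => ?_
    rw [evalU_cell]
    have hgb : xg (b + 1) = (gg (b + 1) : ℝ) / 100 := rfl
    have h1 : Hb c p (xg (b + 1)) (xg (a + 1)) ≤ (hbB c p (gg (b + 1)) ga : ℝ) / DD :=
      hbB_spec c p (gg (b + 1)) ga
    have h0 : 0 ≤ Hb c p (xg (b + 1)) (xg (a + 1)) := Hb_nonneg _ _ _ _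
    have h2 : (xg (b + 1) - xg b) * (τ * xg (b + 1) + xg (a + 1)) ^ 2 * Hb c p (xg (b + 1)) (xg (a + 1))
        ≤ (xg (b + 1) - xg b) * (τ * xg (b + 1) + xg (a + 1)) ^ 2
          * ((hbB c p (gg (b + 1)) ga : ℝ) / DD) := by
      apply mul_le_mul_of_nonneg_left h1
      apply mul_nonneg _ (sq_nonneg _)
      exact sub_nonneg.2 (xg_mono (Nat.le_succ b))
    refine h2.trans (le_of_eq ?_)
    rw [dG_spec, hgb, hxa]
    field_simp
    rw [hga]
    ring

/-- The bracket of `HIv`. -/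
lemma bracketV_le (c p a : ℕ) {ε : ℝ} (hε0 : 0 ≤ ε) (hε : ε ≤ 1 / (eD : ℝ)) :
    xg (a + 1) * ε * Hb c p 0 (xg (a + 1))
      + ∑ b ∈ Finset.range (a + 1), (xg (b + 1) - xg b) * Hb c p (xg (b + 1)) (xg (a + 1))
      ≤ ((inner c p a).V : ℝ) / (100 * (DD : ℝ) * eD) := by
  have hD := DD_pos
  have he := eD_pos
  set ga := gg (a + 1) with hga
  have hxa : xg (a + 1) = (ga : ℝ) / 100 := rfl
  have hS : (0 : ℝ) < 100 * (DD : ℝ) * eD := by positivity
  unfold inner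
  rw [V_add, V_sum, add_div, Finset.sum_div]
  apply add_le_add
  · have h1 : Hb c p 0 (xg (a + 1)) ≤ (hbB c p 0 ga : ℝ) / DD := by
      have := hbB_spec c p 0 ga
      simpa [hxa] using this
    have h0 : 0 ≤ Hb c p 0 (xg (a + 1)) := Hb_nonneg _ _ _ _
    have hx := xg_nonneg (a + 1)
    have h2 : xg (a + 1) * ε * Hb c p 0 (xg (a + 1))
        ≤ xg (a + 1) * (1 / (eD : ℝ)) * ((hbB c p 0 ga : ℝ) / DD) := by
      apply mul_le_mul _ h1 h0 (by positivity)
      exact mul_le_mul_of_nonneg_left hε hx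
    refine h2.trans (le_of_eq ?_)
    rw [hxa]
    simp only [stripMo]
    push_cast
    field_simp
    rw [hga]
  · refine Finset.sum_le_sum fun b _ => ?_
    have h1 : Hb c p (xg (b + 1)) (xg (a + 1)) ≤ (hbB c p (gg (b + 1)) ga : ℝ) / DD :=
      hbB_spec c p (gg (b + 1)) ga
    have h2 : (xg (b + 1) - xg b) * Hb c p (xg (b + 1)) (xg (a + 1))
        ≤ (xg (b + 1) - xg b) * ((hbB c p (gg (b + 1)) ga : ℝ) / DD) :=
      mul_le_mul_of_nonneg_left h1 (sub_nonneg.2 (xg_mono (Nat.le_succ b)))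
    refine h2.trans (le_of_eq ?_)
    rw [dG_spec]
    simp only [cellMo]
    push_cast
    field_simp
    rw [hga]

lemma bracketU_nonneg (c p a : ℕ) {ε τ : ℝ} (hε0 : 0 ≤ ε) (hτ : 0 ≤ τ) :
    0 ≤ xg (a + 1) * ε * xg (a + 1) ^ 2 * Hb c p 0 (xg (a + 1))
      + ∑ b ∈ Finset.range (a + 1),
          (xg (b + 1) - xg b) * (τ * xg (b + 1) + xg (a + 1)) ^ 2 * Hb c p (xg (b + 1)) (xg (a + 1)) := by
  have hx := xg_nonneg (a + 1)
  refine add_nonneg (mul_nonneg (by positivity) (Hb_nonneg _ _ _ _)) (Finset.sum_nonneg fun b _ => ?_)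
  refine mul_nonneg (mul_nonneg (sub_nonneg.2 (xg_mono (Nat.le_succ b))) (sq_nonneg _))
    (Hb_nonneg _ _ _ _)

lemma bracketV_nonneg (c p a : ℕ) {ε : ℝ} (hε0 : 0 ≤ ε) :
    0 ≤ xg (a + 1) * ε * Hb c p 0 (xg (a + 1))
      + ∑ b ∈ Finset.range (a + 1), (xg (b + 1) - xg b) * Hb c p (xg (b + 1)) (xg (a + 1)) := by
  have hx := xg_nonneg (a + 1)
  refine add_nonneg (mul_nonneg (by positivity) (Hb_nonneg _ _ _ _)) (Finset.sum_nonneg fun b _ => ?_)
  exact mul_nonneg (sub_nonneg.2 (xg_mono (Nat.le_succ b))) (Hb_nonneg _ _ _ _)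

/-- **The bound of `HIu`.** -/
theorem HIu_le (c p : ℕ) {ε τ : ℝ} (hε0 : 0 ≤ ε) (hε : ε ≤ 1 / (eD : ℝ)) (hτ : 0 ≤ τ) :
    HIu ε τ c p xg JJ ≤ (momAll c p).evalU τ / SU := by
  have hD := DD_pos
  have he := eD_pos
  unfold HIu momAll
  rw [evalU_sum, Finset.sum_div]
  refine Finset.sum_le_sum fun a _ => ?_
  rw [evalU_smul]
  have h1 := nN_spec a
  have h2 := bracketU_le c p a hε0 hε hτ
  have h3 := bracketU_nonneg c p a hε0 hτ
  have h4 : 0 ≤ (nN a : ℝ) / DD := by positivity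
  refine (mul_le_mul h1 h2 h3 h4).trans (le_of_eq ?_)
  unfold SU
  field_simp

/-- **The bound of `HIv`.** -/
theorem HIv_le (c p : ℕ) {ε : ℝ} (hε0 : 0 ≤ ε) (hε : ε ≤ 1 / (eD : ℝ)) :
    HIv ε c p xg JJ ≤ ((momAll c p).V : ℝ) / SV := by
  have hD := DD_pos
  have he := eD_pos
  unfold HIv momAll
  rw [V_sum, Finset.sum_div]
  refine Finset.sum_le_sum fun a _ => ?_
  have h5 : (((inner c p a).smul (nN a)).V : ℝ) = (nN a : ℝ) * ((inner c p a).V : ℝ) := by
    simp only [Mo.smul]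
    push_cast
    ring
  rw [h5]
  have h1 := nN_spec a
  have h2 := bracketV_le c p a hε0 hε
  have h3 := bracketV_nonneg c p a hε0
  have h4 : 0 ≤ (nN a : ℝ) / DD := by positivity
  refine (mul_le_mul h1 h2 h3 h4).trans (le_of_eq ?_)
  unfold SV
  field_simp

end Crest.Agent.Propeller.HT
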