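import Crest.Agent.Lib.Propeller.Tetra

/-!
# Propeller: the algebra of a zero-sum obtuse quadruple

`ha + hb + hc + hd = 0`, all six inner products `≤ 0`. Pairing `{a c | b d}`,
`w_ij = -⟪h_i, h_j⟫`, `m₁ = w_ac`, `m₂ = w_bd`, `C = ‖ha + hc‖² = w_ab + w_ad + w_cb + w_cd`,
`P = w_ab + w_cb`, `P' = w_ad + w_cd`, `Q = w_ab + w_ad`, `Q' = w_cb + w_cd`.

* `gram3_eq_tree`: `gram3 ha hb hc = C m₁ m₂ + m₁ P P' + m₂ Q Q' + e₃(w_ab, w_ad, w_cb, w_cd)`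
  (the sixteen spanning trees of `K₄`), so `gram3 ha hb hc ≥ C G`, `C G = C m₁ m₂ + m₁ P P' + m₂ Q Q'`;
* `gram2_proj`: `‖p‖² (‖π u‖²‖π v‖² - ⟪π u, π v⟫²) = gram3 u v p`, `π` the projection off `p`;
* `cut_mul_G_ge_of_min_cut` (min-cut pairing): `C M / 3 ≤ C G` as soon as `M` is below all six
  products `d_i d_j`, `d_i = ‖h_i‖²`;
* `cut_mul_G_ge_pair` (any pairing): `C (d₁ d₂ - (C/4)(d₁ + d₂)) ≤ C G` for `0 ≤ d₁ ≤ d_a, d_c` and
  `0 ≤ d₂ ≤ d_b, d_d`;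
* `rect_det_ge_of_min_cut`, `rect_det_ge_pair`: the same for the rectangle determinant
  `‖π ha‖²‖π hb‖² - ⟪π ha, π hb⟫²`, `π = (ℝ ∙ (ha + hc))ᗮ.starProjection`;
* `tetra_ge_of_min_cut`, `tetra_ge_pair`: the same for `gram3 ha hb hc`;
* `exists_min_cut`: one of the three pairings has the minimal cut.
-/

set_option autoImplicit false
set_option linter.unusedSectionVars false
open scoped RealInnerProductSpace

namespace Crest.Agent.Propeller

namespace K4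

/-- Scaled core of the min-cut bound: `α, β ≤ 1/2`, `m₂ ≤ m₁`. -/
lemma core (m1 m2 α β M : ℝ) (hm2 : 0 ≤ m2) (hm : m2 ≤ m1) (hα0 : 0 ≤ α) (hα : α ≤ 1 / 2)
    (hβ0 : 0 ≤ β) (hβ : β ≤ 1 / 2) (hs : 1 / 2 ≤ m1 + m2)
    (h1 : M ≤ (m1 + β) * (m2 + α)) (h2 : M ≤ (m2 + α) * (m2 + 1 - α)) :
    M ≤ 3 * (m1 * m2 + m1 * (α * (1 - α)) + m2 * (β * (1 - β))) := by
  have hm1 : 0 ≤ m1 := le_trans hm2 hm
  have hA : 0 ≤ α * (1 - α) := mul_nonneg hα0 (by linarith)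
  have hB : 0 ≤ β * (1 - β) := mul_nonneg hβ0 (by linarith)
  rcases le_total (1 / 4) m2 with h14 | h14
  · -- F ≥ X, both m ≥ 1/4
    have hm1' : 1 / 4 ≤ m1 := le_trans h14 hm
    have key : (m1 + β) * (m2 + α) ≤ 3 * (m1 * m2 + m1 * (α * (1 - α)) + m2 * (β * (1 - β))) := by
      nlinarith [mul_nonneg (sub_nonneg.2 hm1') (sub_nonneg.2 h14), mul_nonneg hα0 hβ0,
        mul_nonneg hα0 (sub_nonneg.2 hα), mul_nonneg hβ0 (sub_nonneg.2 hβ),
        mul_nonneg (sub_nonneg.2 hα) (sub_nonneg.2 hβ),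
        mul_nonneg hα0 (sub_nonneg.2 hβ), mul_nonneg hβ0 (sub_nonneg.2 hα),
        mul_nonneg (sub_nonneg.2 hm1') hα0, mul_nonneg (sub_nonneg.2 hm1') (sub_nonneg.2 hα),
        mul_nonneg (sub_nonneg.2 h14) hβ0, mul_nonneg (sub_nonneg.2 h14) (sub_nonneg.2 hβ),
        mul_nonneg (sub_nonneg.2 hm1') hβ0, mul_nonneg (sub_nonneg.2 h14) hα0]
    linarith
  · rcases le_total m2 (1 / 8) with h18 | h18
    · -- F ≥ Z
      have key : (m2 + α) * (m2 + 1 - α)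
          ≤ 3 * (m1 * m2 + m1 * (α * (1 - α)) + m2 * (β * (1 - β))) := by
        have e1 : 0 ≤ (m1 - (1 / 2 - m2)) * (m2 + α * (1 - α)) :=
          mul_nonneg (by linarith) (by linarith)
        have e2 : 0 ≤ m2 * (1 / 2 - 4 * m2) := mul_nonneg hm2 (by linarith)
        have e3 : 0 ≤ α * (1 - α) * (1 / 2 - 3 * m2) := mul_nonneg hA (by linarith)
        have e4 : 0 ≤ m2 * (β * (1 - β)) := mul_nonneg hm2 hB
        nlinarith
      linarith
    · -- X + Z ≤ 2F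
      have key : (m1 + β) * (m2 + α) + (m2 + α) * (m2 + 1 - α)
          ≤ 2 * (3 * (m1 * m2 + m1 * (α * (1 - α)) + m2 * (β * (1 - β)))) := by
        have e1 : 0 ≤ (m1 - (1 / 2 - m2)) * (5 * m2 + α * (5 - 6 * α)) :=
          mul_nonneg (by linarith) (add_nonneg (by linarith) (mul_nonneg hα0 (by linarith)))
        have hb0 : 0 ≤ 3 / 2 * m2 * (1 - 4 * m2) + 5 * m2 * β - 6 * m2 * β ^ 2 := by
          have a1 : 0 ≤ m2 * (1 - 4 * m2) := mul_nonneg hm2 (by linarith)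
          have a2 : 0 ≤ m2 * (β * (1 / 2 - β)) := mul_nonneg hm2 (mul_nonneg hβ0 (by linarith))
          have a3 : 0 ≤ m2 * β := mul_nonneg hm2 hβ0
          nlinarith
        have hb1 : 0 ≤ 1 / 4 + m2 / 2 - 6 * m2 ^ 2 + 5 * m2 * β - 6 * m2 * β ^ 2 - β / 2 := by
          have a1 : 0 ≤ m2 * (1 - 4 * m2) := mul_nonneg hm2 (by linarith)
          have a2 : 0 ≤ m2 * (β * (1 / 2 - β)) := mul_nonneg hm2 (mul_nonneg hβ0 (by linarith))
          have a3 : 0 ≤ (1 - 2 * β) * (1 / 4 + m2 / 2 - 6 * m2 ^ 2) :=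
            mul_nonneg (by linarith) (by nlinarith)
          have a4 : 0 ≤ β * (m2 * (1 - 4 * m2)) := mul_nonneg hβ0 a1
          nlinarith
        have e2 : 0 ≤ (1 - 2 * α) * (3 / 2 * m2 * (1 - 4 * m2) + 5 * m2 * β - 6 * m2 * β ^ 2) :=
          mul_nonneg (by linarith) hb0
        have e3 : 0 ≤ 2 * α * (1 / 4 + m2 / 2 - 6 * m2 ^ 2 + 5 * m2 * β - 6 * m2 * β ^ 2 - β / 2) :=
          mul_nonneg (by linarith) hb1
        have e4 : 0 ≤ (2 - 6 * m2) * (α * (1 / 2 - α)) :=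
          mul_nonneg (by linarith) (mul_nonneg hα0 (by linarith))
        nlinarith
      linarith

/-- Symmetric scaled form of the min-cut bound, `α, β ∈ [0,1]`. -/
lemma core2 (m1 m2 α β M : ℝ) (hm1 : 0 ≤ m1) (hm2 : 0 ≤ m2) (hα0 : 0 ≤ α) (hα : α ≤ 1)
    (hβ0 : 0 ≤ β) (hβ : β ≤ 1) (hs : 1 / 2 ≤ m1 + m2)
    (h1 : M ≤ (m1 + β) * (m2 + α)) (h2 : M ≤ (m1 + β) * (m2 + (1 - α)))
    (h3 : M ≤ (m1 + (1 - β)) * (m2 + α)) (h4 : M ≤ (m1 + (1 - β)) * (m2 + (1 - α)))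
    (h5 : M ≤ (m1 + β) * (m1 + (1 - β))) (h6 : M ≤ (m2 + α) * (m2 + (1 - α))) :
    M ≤ 3 * (m1 * m2 + m1 * (α * (1 - α)) + m2 * (β * (1 - β))) := by
  have A : ∀ (m1 m2 α β : ℝ), 0 ≤ m2 → m2 ≤ m1 → 0 ≤ α → α ≤ 1 → 0 ≤ β → β ≤ 1 → 1 / 2 ≤ m1 + m2 →
      M ≤ (m1 + β) * (m2 + α) → M ≤ (m1 + β) * (m2 + (1 - α)) →
      M ≤ (m1 + (1 - β)) * (m2 + α) → M ≤ (m1 + (1 - β)) * (m2 + (1 - α)) →
      M ≤ (m2 + α) * (m2 + (1 - α)) →
      M ≤ 3 * (m1 * m2 + m1 * (α * (1 - α)) + m2 * (β * (1 - β))) := by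
    intro m1 m2 α β hm2 hm hα0 hα hβ0 hβ hs h1 h2 h3 h4 h6
    rcases le_total α (1 / 2) with ha | ha <;> rcases le_total β (1 / 2) with hb | hb
    · exact core m1 m2 α β M hm2 hm hα0 ha hβ0 hb hs h1 (by linarith)
    · have := core m1 m2 α (1 - β) M hm2 hm hα0 ha (by linarith) (by linarith) hs h3 (by linarith)
      have e : (1 - β) * (1 - (1 - β)) = β * (1 - β) := by ring
      rwa [e] at this
    · have := core m1 m2 (1 - α) β M hm2 hm (by linarith) (by linarith) hβ0 hb hs h2 (by nlinarith)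
      have e : (1 - α) * (1 - (1 - α)) = α * (1 - α) := by ring
      rwa [e] at this
    · have := core m1 m2 (1 - α) (1 - β) M hm2 hm (by linarith) (by linarith) (by linarith)
        (by linarith) hs h4 (by nlinarith)
      have e : (1 - α) * (1 - (1 - α)) = α * (1 - α) := by ring
      have e' : (1 - β) * (1 - (1 - β)) = β * (1 - β) := by ring
      rwa [e, e'] at this
  rcases le_total m2 m1 with hm | hm
  · exact A m1 m2 α β hm2 hm hα0 hα hβ0 hβ hs h1 h2 h3 h4 h6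
  · have := A m2 m1 β α hm1 hm hβ0 hβ hα0 hα (by linarith) (by linarith) (by linarith) (by linarith)
      (by linarith) h5
    linarith

/-- Scaled core of the any-pairing bound, `α, β ≤ 1/2`. -/
lemma pair_core (m1 m2 α β x y : ℝ) (hm1 : 0 ≤ m1) (hm2 : 0 ≤ m2) (hα0 : 0 ≤ α) (hα : α ≤ 1 / 2)
    (hβ0 : 0 ≤ β) (hβ : β ≤ 1 / 2) (hx0 : 0 ≤ x) (hy0 : 0 ≤ y)
    (hx : x ≤ m1 + β) (hy : y ≤ m2 + α) :
    x * y - (x + y) / 4 ≤ m1 * m2 + m1 * (α * (1 - α)) + m2 * (β * (1 - β)) := by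
  have hA : 0 ≤ α * (1 - α) := mul_nonneg hα0 (by linarith)
  have hB : 0 ≤ β * (1 - β) := mul_nonneg hβ0 (by linarith)
  have hG : 0 ≤ m1 * m2 + m1 * (α * (1 - α)) + m2 * (β * (1 - β)) :=
    add_nonneg (add_nonneg (mul_nonneg hm1 hm2) (mul_nonneg hm1 hA)) (mul_nonneg hm2 hB)
  have hf : x * y - (x + y) / 4 = (x - 1 / 4) * (y - 1 / 4) - 1 / 16 := by ring
  rcases le_total (1 / 4) x with h1 | h1 <;> rcases le_total (1 / 4) y with h2 | h2
  · have e1 : (x - 1 / 4) * (y - 1 / 4) ≤ (m1 + β - 1 / 4) * (m2 + α - 1 / 4) :=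
      mul_le_mul (by linarith) (by linarith) (by linarith) (by linarith)
    have e2 : 0 ≤ m1 * (1 / 4 - α ^ 2) := mul_nonneg hm1 (by nlinarith)
    have e3 : 0 ≤ m2 * (1 / 4 - β ^ 2) := mul_nonneg hm2 (by nlinarith)
    have e4 : 0 ≤ α * (1 / 2 - β) := mul_nonneg hα0 (by linarith)
    have e5 : 0 ≤ β * (1 / 2 - α) := mul_nonneg hβ0 (by linarith)
    rw [hf]
    nlinarith
  · have : (x - 1 / 4) * (y - 1 / 4) ≤ 0 := mul_nonpos_of_nonneg_of_nonpos (by linarith) (by linarith)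
    rw [hf]; linarith
  · have : (x - 1 / 4) * (y - 1 / 4) ≤ 0 := mul_nonpos_of_nonpos_of_nonneg (by linarith) (by linarith)
    rw [hf]; linarith
  · have : (x - 1 / 4) * (y - 1 / 4) ≤ 1 / 16 := by nlinarith
    rw [hf]; linarith

/-- Scaled any-pairing bound, `α, β ∈ [0,1]`. -/
lemma pair_core2 (m1 m2 α β x y : ℝ) (hm1 : 0 ≤ m1) (hm2 : 0 ≤ m2) (hα0 : 0 ≤ α) (hα : α ≤ 1)
    (hβ0 : 0 ≤ β) (hβ : β ≤ 1) (hx0 : 0 ≤ x) (hy0 : 0 ≤ y)
    (hx : x ≤ m1 + β) (hx' : x ≤ m1 + (1 - β)) (hy : y ≤ m2 + α) (hy' : y ≤ m2 + (1 - α)) :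
    x * y - (x + y) / 4 ≤ m1 * m2 + m1 * (α * (1 - α)) + m2 * (β * (1 - β)) := by
  rcases le_total α (1 / 2) with ha | ha <;> rcases le_total β (1 / 2) with hb | hb
  · exact pair_core m1 m2 α β x y hm1 hm2 hα0 ha hβ0 hb hx0 hy0 hx hy
  · have := pair_core m1 m2 α (1 - β) x y hm1 hm2 hα0 ha (by linarith) (by linarith) hx0 hy0 hx' hy
    have e : (1 - β) * (1 - (1 - β)) = β * (1 - β) := by ring
    rwa [e] at this
  · have := pair_core m1 m2 (1 - α) β x y hm1 hm2 (by linarith) (by linarith) hβ0 hb hx0 hy0 hx hy'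
    have e : (1 - α) * (1 - (1 - α)) = α * (1 - α) := by ring
    rwa [e] at this
  · have := pair_core m1 m2 (1 - α) (1 - β) x y hm1 hm2 (by linarith) (by linarith)
      (by linarith) (by linarith) hx0 hy0 hx' hy'
    have e : (1 - α) * (1 - (1 - α)) = α * (1 - α) := by ring
    have e' : (1 - β) * (1 - (1 - β)) = β * (1 - β) := by ring
    rwa [e, e'] at this

/-- Homogeneous form of the min-cut bound. -/
lemma min_cut_real (m1 m2 wab wad wcb wcd M : ℝ) (hm1 : 0 ≤ m1) (hm2 : 0 ≤ m2)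
    (hab : 0 ≤ wab) (had : 0 ≤ wad) (hcb : 0 ≤ wcb) (hcd : 0 ≤ wcd)
    (hC : 0 < wab + wad + wcb + wcd)
    (hs : wab + wad + wcb + wcd ≤ 2 * (m1 + m2))
    (h1 : M ≤ (m1 + (wab + wad)) * (m2 + (wab + wcb)))
    (h2 : M ≤ (m1 + (wab + wad)) * (m2 + (wad + wcd)))
    (h3 : M ≤ (m1 + (wcb + wcd)) * (m2 + (wab + wcb)))
    (h4 : M ≤ (m1 + (wcb + wcd)) * (m2 + (wad + wcd)))
    (h5 : M ≤ (m1 + (wab + wad)) * (m1 + (wcb + wcd)))
    (h6 : M ≤ (m2 + (wab + wcb)) * (m2 + (wad + wcd))) :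
    (wab + wad + wcb + wcd) * M ≤ 3 * ((wab + wad + wcb + wcd) * (m1 * m2)
      + m1 * ((wab + wcb) * (wad + wcd)) + m2 * ((wab + wad) * (wcb + wcd))) := by
  set C := wab + wad + wcb + wcd with hCdef
  have hC' : C ≠ 0 := hC.ne'
  have hsc : ∀ x y : ℝ, x * y / (C * C) = (x / C) * (y / C) := fun x y => by
    field_simp
  have key := core2 (m1 / C) (m2 / C) ((wab + wcb) / C) ((wab + wad) / C) (M / (C * C))
    (by positivity) (by positivity) (by positivity)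
    ((div_le_one hC).2 (by rw [hCdef]; linarith)) (by positivity)
    ((div_le_one hC).2 (by rw [hCdef]; linarith))
    (by
      rw [← add_div, le_div_iff₀ hC]; linarith)
    (by
      rw [div_le_iff₀ (by positivity)]
      have : (m1 / C + (wab + wad) / C) * (m2 / C + (wab + wcb) / C) * (C * C)
          = (m1 + (wab + wad)) * (m2 + (wab + wcb)) := by field_simp
      rw [this]; exact h1)
    (by
      rw [div_le_iff₀ (by positivity)]
      have : (m1 / C + (wab + wad) / C) * (m2 / C + (1 - (wab + wcb) / C)) * (C * C)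
          = (m1 + (wab + wad)) * (m2 + (wad + wcd)) := by
        field_simp; rw [hCdef]; ring
      rw [this]; exact h2)
    (by
      rw [div_le_iff₀ (by positivity)]
      have : (m1 / C + (1 - (wab + wad) / C)) * (m2 / C + (wab + wcb) / C) * (C * C)
          = (m1 + (wcb + wcd)) * (m2 + (wab + wcb)) := by
        field_simp; rw [hCdef]; ring
      rw [this]; exact h3)
    (by
      rw [div_le_iff₀ (by positivity)]
      have : (m1 / C + (1 - (wab + wad) / C)) * (m2 / C + (1 - (wab + wcb) / C)) * (C * C)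
          = (m1 + (wcb + wcd)) * (m2 + (wad + wcd)) := by
        field_simp; rw [hCdef]; ring
      rw [this]; exact h4)
    (by
      rw [div_le_iff₀ (by positivity)]
      have : (m1 / C + (wab + wad) / C) * (m1 / C + (1 - (wab + wad) / C)) * (C * C)
          = (m1 + (wab + wad)) * (m1 + (wcb + wcd)) := by
        field_simp; rw [hCdef]; ring
      rw [this]; exact h5)
    (by
      rw [div_le_iff₀ (by positivity)]
      have : (m2 / C + (wab + wcb) / C) * (m2 / C + (1 - (wab + wcb) / C)) * (C * C)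
          = (m2 + (wab + wcb)) * (m2 + (wad + wcd)) := by
        field_simp; rw [hCdef]; ring
      rw [this]; exact h6)
  rw [div_le_iff₀ (by positivity)] at key
  have e : 3 * (m1 / C * (m2 / C) + m1 / C * ((wab + wcb) / C * (1 - (wab + wcb) / C))
      + m2 / C * ((wab + wad) / C * (1 - (wab + wad) / C))) * (C * C) * C
      = 3 * (C * (m1 * m2) + m1 * ((wab + wcb) * (wad + wcd)) + m2 * ((wab + wad) * (wcb + wcd))) := by
    field_simp; rw [hCdef]; ring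
  rw [← e]
  nlinarith

/-- Homogeneous form of the any-pairing bound. -/
lemma pair_real (m1 m2 wab wad wcb wcd x y : ℝ) (hm1 : 0 ≤ m1) (hm2 : 0 ≤ m2)
    (hab : 0 ≤ wab) (had : 0 ≤ wad) (hcb : 0 ≤ wcb) (hcd : 0 ≤ wcd)
    (hC : 0 < wab + wad + wcb + wcd) (hx0 : 0 ≤ x) (hy0 : 0 ≤ y)
    (hx : x ≤ m1 + (wab + wad)) (hx' : x ≤ m1 + (wcb + wcd))
    (hy : y ≤ m2 + (wab + wcb)) (hy' : y ≤ m2 + (wad + wcd)) :
    (wab + wad + wcb + wcd) * (x * y - (wab + wad + wcb + wcd) / 4 * (x + y))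
      ≤ (wab + wad + wcb + wcd) * (m1 * m2)
        + m1 * ((wab + wcb) * (wad + wcd)) + m2 * ((wab + wad) * (wcb + wcd)) := by
  set C := wab + wad + wcb + wcd with hCdef
  have hC' : C ≠ 0 := hC.ne'
  have key := pair_core2 (m1 / C) (m2 / C) ((wab + wcb) / C) ((wab + wad) / C) (x / C) (y / C)
    (by positivity) (by positivity) (by positivity)
    ((div_le_one hC).2 (by rw [hCdef]; linarith)) (by positivity)
    ((div_le_one hC).2 (by rw [hCdef]; linarith)) (by positivity) (by positivity)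
    (by rw [← add_div]; exact div_le_div_of_nonneg_right hx hC.le)
    (by
      have : m1 / C + (1 - (wab + wad) / C) = (m1 + (wcb + wcd)) / C := by
        field_simp; rw [hCdef]; ring
      rw [this]; exact div_le_div_of_nonneg_right hx' hC.le)
    (by rw [← add_div]; exact div_le_div_of_nonneg_right hy hC.le)
    (by
      have : m2 / C + (1 - (wab + wcb) / C) = (m2 + (wad + wcd)) / C := by
        field_simp; rw [hCdef]; ring
      rw [this]; exact div_le_div_of_nonneg_right hy' hC.le)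
  have e1 : x / C * (y / C) - (x / C + y / C) / 4 = (x * y - C / 4 * (x + y)) / (C * C) := by
    field_simp
  have e2 : m1 / C * (m2 / C) + m1 / C * ((wab + wcb) / C * (1 - (wab + wcb) / C))
      + m2 / C * ((wab + wad) / C * (1 - (wab + wad) / C))
      = (C * (m1 * m2) + m1 * ((wab + wcb) * (wad + wcd)) + m2 * ((wab + wad) * (wcb + wcd)))
        / (C * (C * C)) := by
    field_simp; rw [hCdef]; ring
  rw [e1, e2, div_le_div_iff₀ (by positivity) (by positivity)] at key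
  have hCC : 0 < C * C := by positivity
  have : (C * (x * y - C / 4 * (x + y))) * (C * C)
      ≤ (C * (m1 * m2) + m1 * ((wab + wcb) * (wad + wcd)) + m2 * ((wab + wad) * (wcb + wcd)))
        * (C * C) := by
    nlinarith
  exact le_of_mul_le_mul_right this hCC

end K4

section vectors

universe u

variable {E : Type u} [NormedAddCommGroup E] [InnerProductSpace ℝ E] [FiniteDimensional ℝ E]
  [MeasurableSpace E] [BorelSpace E]

/-- The Gram determinant of two vectors. -/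
noncomputable def gram2 (u v : E) : ℝ := ‖u‖ ^ 2 * ‖v‖ ^ 2 - ⟪u, v⟫ ^ 2

lemma gram2_nonneg (u v : E) : 0 ≤ gram2 u v := by
  unfold gram2
  have := abs_real_inner_le_norm u v
  have h2 : ⟪u, v⟫ ^ 2 ≤ (‖u‖ * ‖v‖) ^ 2 := by
    rw [← sq_abs]; exact pow_le_pow_left₀ (abs_nonneg _) this 2
  nlinarith

/-- Adding `u` to the last argument does not change `gram3`. -/
lemma gram3_add_left_last (u v w : E) : gram3 u v (u + w) = gram3 u v w := by
  unfold gram3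
  have h1 : ‖u + w‖ ^ 2 = ‖u‖ ^ 2 + 2 * ⟪u, w⟫ + ‖w‖ ^ 2 := norm_add_sq_real u w
  rw [h1, inner_add_right, inner_add_right, real_inner_self_eq_norm_sq, real_inner_comm u v]
  ring

/-- The determinant of the projections off `p`. -/
theorem gram2_proj (u v p : E) (hp : p ≠ 0) :
    ‖p‖ ^ 2 * gram2 ((ℝ ∙ p)ᗮ.starProjection u) ((ℝ ∙ p)ᗮ.starProjection v) = gram3 u v p := by
  have hC : ‖p‖ ^ 2 ≠ 0 := pow_ne_zero _ (norm_ne_zero_iff.2 hp)
  have hproj : ∀ x, (ℝ ∙ p)ᗮ.starProjection x = x - (⟪p, x⟫ / ‖p‖ ^ 2) • p := by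
    intro x
    rw [Submodule.starProjection_orthogonal_val]
    rw [Submodule.starProjection_singleton]
    simp
  have hin : ∀ x y, ⟪(ℝ ∙ p)ᗮ.starProjection x, (ℝ ∙ p)ᗮ.starProjection y⟫
      = ⟪x, y⟫ - ⟪x, p⟫ * ⟪y, p⟫ / ‖p‖ ^ 2 := by
    intro x y
    rw [hproj, hproj, inner_sub_left, inner_sub_right, inner_sub_right, inner_smul_left,
      inner_smul_left, inner_smul_right, inner_smul_right, real_inner_self_eq_norm_sq,
      real_inner_comm x p, real_inner_comm y p]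
    simp only [conj_trivial]
    field_simp
    ring
  unfold gram2 gram3
  rw [← real_inner_self_eq_norm_sq ((ℝ ∙ p)ᗮ.starProjection u),
    ← real_inner_self_eq_norm_sq ((ℝ ∙ p)ᗮ.starProjection v), hin, hin, hin,
    real_inner_self_eq_norm_sq, real_inner_self_eq_norm_sq, real_inner_comm p v,
    real_inner_comm p u]
  field_simp
  ring

/-- The number of weighted spanning trees of `K₄`, organised by the pairing. -/
def treeK4 (wab wad wcb wcd m1 m2 : ℝ) : ℝ :=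
  (wab + wad + wcb + wcd) * (m1 * m2) + m1 * ((wab + wcb) * (wad + wcd))
    + m2 * ((wab + wad) * (wcb + wcd))
    + (wab * wad * wcb + wab * wad * wcd + wab * wcb * wcd + wad * wcb * wcd)

variable {ha hb hc hd : E}

section quad

variable (hsum : ha + hb + hc + hd = 0)

include hsum

lemma norm_sq_a : ‖ha‖ ^ 2 = -⟪ha, hc⟫ + (-⟪ha, hb⟫ + -⟪ha, hd⟫) := by
  have : ⟪ha, ha + hb + hc + hd⟫ = 0 := by rw [hsum, inner_zero_right]
  simp only [inner_add_right, real_inner_self_eq_norm_sq] at this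
  linarith

lemma norm_sq_b : ‖hb‖ ^ 2 = -⟪hb, hd⟫ + (-⟪ha, hb⟫ + -⟪hc, hb⟫) := by
  have : ⟪hb, ha + hb + hc + hd⟫ = 0 := by rw [hsum, inner_zero_right]
  simp only [inner_add_right, real_inner_self_eq_norm_sq, real_inner_comm ha hb,
    real_inner_comm hc hb] at this
  linarith

lemma norm_sq_c : ‖hc‖ ^ 2 = -⟪ha, hc⟫ + (-⟪hc, hb⟫ + -⟪hc, hd⟫) := by
  have : ⟪hc, ha + hb + hc + hd⟫ = 0 := by rw [hsum, inner_zero_right]
  simp only [inner_add_right, real_inner_self_eq_norm_sq, real_inner_comm ha hc] at this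
  linarith

lemma norm_sq_d : ‖hd‖ ^ 2 = -⟪hb, hd⟫ + (-⟪ha, hd⟫ + -⟪hc, hd⟫) := by
  have : ⟪hd, ha + hb + hc + hd⟫ = 0 := by rw [hsum, inner_zero_right]
  simp only [inner_add_right, real_inner_self_eq_norm_sq, real_inner_comm ha hd,
    real_inner_comm hb hd, real_inner_comm hc hd] at this
  linarith

/-- The spanning tree expansion of `gram3`. -/
theorem gram3_eq_tree :
    gram3 ha hb hc = treeK4 (-⟪ha, hb⟫) (-⟪ha, hd⟫) (-⟪hc, hb⟫) (-⟪hc, hd⟫) (-⟪ha, hc⟫) (-⟪hb, hd⟫) := by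
  unfold gram3 treeK4
  rw [norm_sq_a hsum, norm_sq_b hsum, norm_sq_c hsum, real_inner_comm hc hb]
  ring

/-- The cut of the pairing `{a c | b d}`. -/
lemma cut_ac : ‖ha + hc‖ ^ 2 = -⟪ha, hb⟫ + -⟪ha, hd⟫ + -⟪hc, hb⟫ + -⟪hc, hd⟫ := by
  rw [norm_add_sq_real, norm_sq_a hsum, norm_sq_c hsum]; ring

/-- The cut of the pairing `{a b | c d}`. -/
lemma cut_ab : ‖ha + hb‖ ^ 2 = -⟪ha, hc⟫ + -⟪ha, hd⟫ + -⟪hc, hb⟫ + -⟪hb, hd⟫ := by
  rw [norm_add_sq_real, norm_sq_a hsum, norm_sq_b hsum]; ring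

/-- The cut of the pairing `{a d | b c}`. -/
lemma cut_ad : ‖ha + hd‖ ^ 2 = -⟪ha, hb⟫ + -⟪ha, hc⟫ + -⟪hb, hd⟫ + -⟪hc, hd⟫ := by
  rw [norm_add_sq_real, norm_sq_a hsum, norm_sq_d hsum]; ring

end quad

variable (hsum : ha + hb + hc + hd = 0)
  (hab : ⟪ha, hb⟫ ≤ 0) (hac : ⟪ha, hc⟫ ≤ 0) (had : ⟪ha, hd⟫ ≤ 0)
  (hcb : ⟪hc, hb⟫ ≤ 0) (hbd : ⟪hb, hd⟫ ≤ 0) (hcd : ⟪hc, hd⟫ ≤ 0)

include hsum hab hac had hcb hbd hcd

/-- `|d_a - d_c| ≤ C` and `|d_b - d_d| ≤ C`. -/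
theorem abs_sub_le_cut :
    |‖ha‖ ^ 2 - ‖hc‖ ^ 2| ≤ ‖ha + hc‖ ^ 2 ∧ |‖hb‖ ^ 2 - ‖hd‖ ^ 2| ≤ ‖ha + hc‖ ^ 2 := by
  rw [cut_ac hsum, norm_sq_a hsum, norm_sq_b hsum, norm_sq_c hsum, norm_sq_d hsum]
  constructor <;> rw [abs_le] <;> constructor <;> linarith

/-- `gram3 ≥ C * M / 3` for the min-cut pairing, if `M` is below all products of two degrees. -/
theorem tetra_ge_of_min_cut (hcut1 : ‖ha + hc‖ ^ 2 ≤ ‖ha + hb‖ ^ 2)
    (hcut2 : ‖ha + hc‖ ^ 2 ≤ ‖ha + hd‖ ^ 2) (M : ℝ)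
    (h1 : M ≤ ‖ha‖ ^ 2 * ‖hb‖ ^ 2) (h2 : M ≤ ‖ha‖ ^ 2 * ‖hd‖ ^ 2)
    (h3 : M ≤ ‖hc‖ ^ 2 * ‖hb‖ ^ 2) (h4 : M ≤ ‖hc‖ ^ 2 * ‖hd‖ ^ 2)
    (h5 : M ≤ ‖ha‖ ^ 2 * ‖hc‖ ^ 2) (h6 : M ≤ ‖hb‖ ^ 2 * ‖hd‖ ^ 2) :
    ‖ha + hc‖ ^ 2 * (M / 3) ≤ gram3 ha hb hc := by
  have htree := gram3_eq_tree hsum (ha := ha) (hb := hb) (hc := hc) (hd := hd)
  have hC := cut_ac hsum
  have hC1 := cut_ab hsum
  have hC2 := cut_ad hsum
  rw [norm_sq_a hsum] at h1 h2 h5
  rw [norm_sq_b hsum] at h1 h3 h6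
  rw [norm_sq_c hsum] at h3 h4 h5
  rw [norm_sq_d hsum] at h2 h4 h6
  rw [hC] at hcut1 hcut2 ⊢
  rw [hC1] at hcut1
  rw [hC2] at hcut2
  rw [htree]
  unfold treeK4
  generalize ⟪ha, hb⟫ = ab at *
  generalize ⟪ha, hd⟫ = ad at *
  generalize ⟪hc, hb⟫ = cb at *
  generalize ⟪hc, hd⟫ = cd at *
  generalize ⟪ha, hc⟫ = ac at *
  generalize ⟪hb, hd⟫ = bd at *
  have e3 : 0 ≤ (-ab) * (-ad) * (-cb) + (-ab) * (-ad) * (-cd) + (-ab) * (-cb) * (-cd)
      + (-ad) * (-cb) * (-cd) := by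
    have a1 : 0 ≤ -ab := by linarith
    have a2 : 0 ≤ -ad := by linarith
    have a3 : 0 ≤ -cb := by linarith
    have a4 : 0 ≤ -cd := by linarith
    positivity
  rcases eq_or_lt_of_le (show 0 ≤ -ab + -ad + -cb + -cd by linarith) with h0 | h0
  · rw [← h0]
    have e4 : 0 ≤ (-ac) * ((-ab + -cb) * (-ad + -cd)) :=
      mul_nonneg (by linarith) (mul_nonneg (by linarith) (by linarith))
    have e5 : 0 ≤ (-bd) * ((-ab + -ad) * (-cb + -cd)) :=
      mul_nonneg (by linarith) (mul_nonneg (by linarith) (by linarith))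
    nlinarith
  · have key := K4.min_cut_real (-ac) (-bd) (-ab) (-ad) (-cb) (-cd) M (by linarith) (by linarith)
      (by linarith) (by linarith) (by linarith) (by linarith) h0 (by linarith)
      h1 h2 h3 h4 h5 h6
    nlinarith

/-- `gram3 ≥ C (x y - (C/4) (x + y))` for any pairing. -/
theorem tetra_ge_pair (x y : ℝ) (hx0 : 0 ≤ x) (hy0 : 0 ≤ y)
    (hx : x ≤ ‖ha‖ ^ 2) (hx' : x ≤ ‖hc‖ ^ 2) (hy : y ≤ ‖hb‖ ^ 2) (hy' : y ≤ ‖hd‖ ^ 2) :
    ‖ha + hc‖ ^ 2 * (x * y - ‖ha + hc‖ ^ 2 / 4 * (x + y)) ≤ gram3 ha hb hc := by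
  have htree := gram3_eq_tree hsum (ha := ha) (hb := hb) (hc := hc) (hd := hd)
  have hC := cut_ac hsum
  rw [norm_sq_a hsum] at hx
  rw [norm_sq_b hsum] at hy
  rw [norm_sq_c hsum] at hx'
  rw [norm_sq_d hsum] at hy'
  rw [hC, htree]
  unfold treeK4
  generalize ⟪ha, hb⟫ = ab at *
  generalize ⟪ha, hd⟫ = ad at *
  generalize ⟪hc, hb⟫ = cb at *
  generalize ⟪hc, hd⟫ = cd at *
  generalize ⟪ha, hc⟫ = ac at *
  generalize ⟪hb, hd⟫ = bd at *
  have e3 : 0 ≤ (-ab) * (-ad) * (-cb) + (-ab) * (-ad) * (-cd) + (-ab) * (-cb) * (-cd)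
      + (-ad) * (-cb) * (-cd) := by
    have a1 : 0 ≤ -ab := by linarith
    have a2 : 0 ≤ -ad := by linarith
    have a3 : 0 ≤ -cb := by linarith
    have a4 : 0 ≤ -cd := by linarith
    positivity
  rcases eq_or_lt_of_le (show 0 ≤ -ab + -ad + -cb + -cd by linarith) with h0 | h0
  · rw [← h0]
    have e4 : 0 ≤ (-ac) * ((-ab + -cb) * (-ad + -cd)) :=
      mul_nonneg (by linarith) (mul_nonneg (by linarith) (by linarith))
    have e5 : 0 ≤ (-bd) * ((-ab + -ad) * (-cb + -cd)) :=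
      mul_nonneg (by linarith) (mul_nonneg (by linarith) (by linarith))
    nlinarith
  · have key := K4.pair_real (-ac) (-bd) (-ab) (-ad) (-cb) (-cd) x y (by linarith) (by linarith)
      (by linarith) (by linarith) (by linarith) (by linarith) h0 hx0 hy0 hx hx' hy hy'
    nlinarith

/-- In the degenerate case `ha + hc = 0` the quadruple is an orthogonal rectangle. -/
lemma inner_eq_zero_of_cut (h0 : ha + hc = 0) : ⟪ha, hb⟫ = 0 := by
  have hC := cut_ac hsum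
  rw [h0, norm_zero] at hC
  have : (0 : ℝ) ^ 2 = 0 := by norm_num
  linarith

omit hsum hab hac had hcb hbd hcd in
lemma proj_off_zero (u : E) : (ℝ ∙ (0 : E))ᗮ.starProjection u = u := by
  simp [Submodule.starProjection_eq_self_iff]

/-- The rectangle determinant for the min-cut pairing: `Δ'² ≥ M / 3`. -/
theorem rect_det_ge_of_min_cut (hcut1 : ‖ha + hc‖ ^ 2 ≤ ‖ha + hb‖ ^ 2)
    (hcut2 : ‖ha + hc‖ ^ 2 ≤ ‖ha + hd‖ ^ 2) (M : ℝ)
    (h1 : M ≤ ‖ha‖ ^ 2 * ‖hb‖ ^ 2) (h2 : M ≤ ‖ha‖ ^ 2 * ‖hd‖ ^ 2)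
    (h3 : M ≤ ‖hc‖ ^ 2 * ‖hb‖ ^ 2) (h4 : M ≤ ‖hc‖ ^ 2 * ‖hd‖ ^ 2)
    (h5 : M ≤ ‖ha‖ ^ 2 * ‖hc‖ ^ 2) (h6 : M ≤ ‖hb‖ ^ 2 * ‖hd‖ ^ 2) :
    M / 3 ≤ gram2 ((ℝ ∙ (ha + hc))ᗮ.starProjection ha) ((ℝ ∙ (ha + hc))ᗮ.starProjection hb) := by
  by_cases h0 : ha + hc = 0
  · rw [h0, proj_off_zero, proj_off_zero]
    have e := inner_eq_zero_of_cut hsum hab hac had hcb hbd hcd h0
    unfold gram2
    rw [e]
    rcases le_total 0 M with hM | hM
    · nlinarith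
    · have : 0 ≤ ‖ha‖ ^ 2 * ‖hb‖ ^ 2 := by positivity
      nlinarith
  · have key := tetra_ge_of_min_cut hsum hab hac had hcb hbd hcd hcut1 hcut2 M h1 h2 h3 h4 h5 h6
    have e := gram2_proj ha hb (ha + hc) h0
    rw [gram3_add_left_last] at e
    rw [← e] at key
    have hp : 0 < ‖ha + hc‖ ^ 2 := by
      have := norm_pos_iff.2 h0
      positivity
    exact le_of_mul_le_mul_left key hp

/-- The rectangle determinant for any pairing: `Δ'² ≥ x y - (C/4) (x + y)`. -/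
theorem rect_det_ge_pair (x y : ℝ) (hx0 : 0 ≤ x) (hy0 : 0 ≤ y)
    (hx : x ≤ ‖ha‖ ^ 2) (hx' : x ≤ ‖hc‖ ^ 2) (hy : y ≤ ‖hb‖ ^ 2) (hy' : y ≤ ‖hd‖ ^ 2) :
    x * y - ‖ha + hc‖ ^ 2 / 4 * (x + y)
      ≤ gram2 ((ℝ ∙ (ha + hc))ᗮ.starProjection ha) ((ℝ ∙ (ha + hc))ᗮ.starProjection hb) := by
  by_cases h0 : ha + hc = 0
  · rw [h0, proj_off_zero, proj_off_zero]
    have e := inner_eq_zero_of_cut hsum hab hac had hcb hbd hcd h0
    unfold gram2
    rw [e, norm_zero]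
    have : x * y ≤ ‖ha‖ ^ 2 * ‖hb‖ ^ 2 := mul_le_mul hx hy hy0 (by positivity)
    norm_num
    linarith
  · have key := tetra_ge_pair hsum hab hac had hcb hbd hcd x y hx0 hy0 hx hx' hy hy'
    have e := gram2_proj ha hb (ha + hc) h0
    rw [gram3_add_left_last] at e
    rw [← e] at key
    have hp : 0 < ‖ha + hc‖ ^ 2 := by
      have := norm_pos_iff.2 h0
      positivity
    exact le_of_mul_le_mul_left key hp

omit hsum hab hac had hcb hbd hcd [FiniteDimensional ℝ E] [MeasurableSpace E] [BorelSpace E] in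
/-- One of the three pairings has the minimal cut. -/
theorem exists_min_cut (ha hb hc hd : E) :
    (‖ha + hc‖ ^ 2 ≤ ‖ha + hb‖ ^ 2 ∧ ‖ha + hc‖ ^ 2 ≤ ‖ha + hd‖ ^ 2)
    ∨ (‖ha + hb‖ ^ 2 ≤ ‖ha + hc‖ ^ 2 ∧ ‖ha + hb‖ ^ 2 ≤ ‖ha + hd‖ ^ 2)
    ∨ (‖ha + hd‖ ^ 2 ≤ ‖ha + hb‖ ^ 2 ∧ ‖ha + hd‖ ^ 2 ≤ ‖ha + hc‖ ^ 2) := by
  rcases le_total (‖ha + hc‖ ^ 2) (‖ha + hb‖ ^ 2) with h1 | h1 <;>
    rcases le_total (‖ha + hc‖ ^ 2) (‖ha + hd‖ ^ 2) with h2 | h2 <;>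
    rcases le_total (‖ha + hb‖ ^ 2) (‖ha + hd‖ ^ 2) with h3 | h3
  · exact Or.inl ⟨h1, h2⟩
  · exact Or.inl ⟨h1, h2⟩
  · exact Or.inr (Or.inr ⟨by linarith, h2⟩)
  · exact Or.inr (Or.inr ⟨h3, h2⟩)
  · exact Or.inr (Or.inl ⟨h1, h3⟩)
  · exact Or.inl ⟨by linarith, h2⟩
  · exact Or.inr (Or.inl ⟨h1, h3⟩)
  · exact Or.inr (Or.inr ⟨h3, h2⟩)

end vectors

end Crest.Agent.Propeller
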