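/-
Generated data: the certificate tree of the level 7 step (cap `J_7`, with the rectangle at `τ = 4`).
The table of tangents is the one of level 8.
-/
import Crest.Agent.Lib.Propeller.GenTree
import Crest.Agent.Lib.Propeller.K8Data

set_option autoImplicit false

namespace Crest.Agent.Propeller.Gen.K7

open Crest.Agent.Propeller.Gen

/-- The certificate. -/
def tree : Cert := (.sp 3 8250 (.sp 1 8250 (.L 1792) (.ss 4125 (.sp 5 4125 (.ss 2062 (.sp 1 11667 (.sp 4 4125 (.sp 2 5833 (.L 0) (.sp 1 9958 (.L 0) (.sp 2 8249 (.L 0) (.sp 3 4125 (.L 1280) (.sp 1 10812 (.L 1280) (.sp 2 9958 (.L 1280) (.sp 3 5833 (.L 1280) (.sp 1 11239 (.L 1280) (.sp 2 10812 (.L 1280) (.ss 1031 (.N 6) (.L 1792))))))))))) (.sp 2 6937 (.L 0) (.sp 1 9958 (.L 1280) (.sp 3 5833 (.L 1280) (.sp 2 8996 (.L 1792) (.ss 1031 (.sp 2 10331 (.ss 515 (.N 6) (.L 2099)) (.N 6)) (.L 2509))))))) (.sp 2 8250 (.sp 4 4125 (.sp 2 4125 (.L 1280) (.sp 2 5833 (.L 1280) (.sp 5 2062 (.sp 2 7041 (.L 1792) (.sp 3 4125 (.L 1280) (.ss 1031 (.sp 3 5833 (.L 1792) (.sp 1 14083 (.L 1280) (.sp 1 15291 (.sp 5 1031 (.sp 4 2062 (.sp 2 7645 (.ss 515 (.ss 257 (.N 6) (.N 5)) (.L 1792)) (.ss 515 (.N 6) (.sp 5 728 (.N 5) (.L 1792)))) (.sp 2 7645 (.L 1792) (.ss 515 (.N 6) (.L 1792)))) (.L 1792)) (.sp 1 15895 (.sp 5 1031 (.sp 4 2062 (.ss 515 (.ss 257 (.N 6) (.N 5)) (.sp 1 15593 (.sp 2 7645 (.L 1792) (.sp 5 728 (.N 5) (.L 2714))) (.L 2714))) (.L 2714)) (.L 2714)) (.L 3328))))) (.L 1792)))) (.L 2099)))) (.sp 2 5833 (.L 1792) (.sp 3 5833 (.L 1792) (.ss 1031 (.sp 2 7041 (.L 2099) (.sp 5 2062 (.sp 3 7041 (.L 2202) (.ss 515 (.sp 2 7645 (.L 2202) (.N 6)) (.L 2509))) (.L 2509))) (.L 2509))))) (.sp 4 4125 (.sp 5 2062 (.ss 1031 (.sp 2 11667 (.sp 2 9958 (.ss 515 (.N 6) (.sp 3 2061 (.sp 4 1030 (.N 4) (.sp 3 1456 (.N 3) (.L 1792))) (.sp 3 4123 (.sp 1 14083 (.L 1280) (.sp 2 9104 (.L 1792) (.sp 5 1030 (.N 5) (.L 1792)))) (.sp 3 5832 (.sp 1 14083 (.L 1280) (.sp 1 15291 (.sp 2 9104 (.L 1792) (.sp 5 1030 (.N 5) (.L 1792))) (.sp 1 15895 (.sp 2 9104 (.L 1792) (.sp 5 1030 (.N 5) (.L 2253))) (.L 3328)))) (.sp 5 1030 (.sp 2 9104 (.sp 4 1457 (.N 4) (.ss 728 (.N 5) (.sp 3 7041 (.L 1792) (.sp 1 14083 (.L 1792) (.sp 1 15291 (.sp 4 2451 (.sp 3 7645 (.L 2099) .R) (.L 2099)) (.L 3328)))))) (.N 5)) (.sp 2 9104 (.sp 3 7041 (.L 1792) (.sp 1 14083 (.L 1792) (.sp 1 15291 (.sp 4 2061 (.sp 4 1456 .R (.sp 3 7645 (.L 2099) (.sp 2 8677 (.L 2099) .R))) (.L 2099)) (.L 2714)))) (.ss 728 (.N 6) (.ss 879 (.sp 4 2061 (.N 4) (.sp 2 9531 (.L 2202) (.N 5))) (.sp 3 7041 (.sp 1 14083 (.L 1792) (.sp 1 15291 (.sp 4 2061 (.sp 5 1456 (.N 4) (.L 2099)) (.L 2099)) (.L 2714))) (.sp 4 2061 (.sp 5 1456 .R (.sp 5 1758 .R (.L 2202))) (.sp 4 2915 (.sp 2 9531 (.L 2202) (.sp 5 1457 (.N 5) (.L 2202))) (.L 2365)))))))))))) (.ss 515 (.N 6) (.N 5))) (.N 6)) (.sp 2 11667 (.sp 3 2916 (.sp 2 9958 (.L 1792) (.sp 3 1733 (.N 3) (.sp 1 14083 (.sp 1 12875 (.L 1280) (.sp 2 10812 (.L 1280) (.sp 2 11239 (.L 1280) (.N 3)))) (.sp 1 15291 (.sp 2 10812 (.sp 1 14687 (.L 1280) (.ss 1458 (.sp 4 1733 (.N 3) (.L 1792)) (.L 1792))) (.ss 1458 (.N 4) (.sp 2 11239 (.sp 4 2061 (.N 3) (.L 1792)) (.N 3)))) (.sp 1 15895 (.sp 1 15593 (.sp 2 10812 (.ss 1458 (.sp 4 1733 (.N 3) (.sp 3 2247 (.N 3) (.L 1792))) (.L 1792)) (.ss 1458 (.N 4) (.sp 4 2061 (.N 3) (.L 3328)))) (.L 3328)) (.L 1048576)))))) (.sp 3 4904 (.sp 2 9958 (.L 1792) (.sp 2 10812 (.sp 3 3781 (.sp 1 14083 (.L 1280) (.ss 1458 (.sp 2 10385 (.L 1792) (.sp 4 1974 (.N 4) (.L 1792))) (.L 1792))) (.sp 3 4342 (.sp 1 14083 (.L 1280) (.sp 1 15291 (.ss 1458 (.sp 2 10385 (.L 1792) (.sp 4 2062 (.N 4) (.L 1792))) (.L 1792)) (.L 2099))) (.sp 1 14083 (.L 1792) (.sp 1 15291 (.ss 1458 (.sp 2 10385 (.L 1792) (.sp 4 2062 (.N 4) (.L 2099))) (.L 2099)) (.L 2714))))) (.sp 5 1458 (.N 5) (.sp 1 14083 (.L 1792) (.sp 1 15291 (.sp 4 2452 (.ss 1458 (.N 4) (.ss 1760 (.sp 2 11239 (.ss 1609 (.N 4) (.L 2099)) (.N 4)) (.L 2099))) (.sp 2 11239 (.L 2099) (.ss 1458 (.N 5) (.L 2099)))) (.L 3328)))))) (.sp 2 9958 (.sp 3 6360 (.L 2099) (.ss 1458 (.sp 2 9104 (.L 2099) (.sp 4 2062 (.sp 5 1458 (.sp 3 7305 (.sp 1 14083 (.L 1792) (.sp 1 15291 (.ss 1244 (.sp 2 9531 (.L 2099) (.N 4)) (.L 2099)) (.L 3328))) (.sp 5 1244 .R (.sp 1 14083 (.sp 1 12875 (.L 1280) (.sp 1 13479 (.L 1792) (.sp 2 9531 (.L 1792) (.ss 1244 .R (.L 1792))))) (.sp 1 15291 (.sp 2 9531 (.sp 1 14687 (.sp 3 7777 (.L 1792) (.sp 4 1601 .R (.L 2099))) (.sp 3 7777 (.L 2099) (.sp 4 1601 .R (.L 2202)))) (.sp 3 7777 (.ss 1244 .R (.L 2202)) .R)) (.L 1048576))))) (.sp 3 7305 (.L 2099) (.sp 5 1760 (.sp 2 9531 (.L 2202) (.ss 1244 .R (.L 2202))) (.L 2202)))) (.sp 3 7305 (.L 2099) (.sp 4 2916 (.sp 2 9531 (.L 2202) (.ss 1244 (.sp 5 1458 (.sp 1 14083 (.L 1792) (.sp 1 15291 (.sp 3 7777 (.L 2202) (.sp 4 2489 .R (.L 2202))) (.L 1048576))) (.L 2202)) (.L 2202))) (.L 2365))))) (.L 2202))) (.ss 1458 (.sp 4 2062 (.sp 5 1458 (.N 4) (.sp 2 10812 (.sp 2 10385 (.sp 4 1760 (.N 4) (.ss 1244 (.N 4) (.sp 2 10171 (.L 2365) (.N 4)))) (.N 4)) (.N 4))) (.sp 3 6360 (.sp 2 10812 (.L 2202) (.sp 4 2916 (.N 4) (.ss 1244 (.N 5) (.L 2365)))) (.sp 1 14083 (.sp 1 12875 (.sp 2 10812 (.L 1792) (.sp 2 11239 (.L 1792) (.N 5))) (.sp 2 10812 (.sp 3 7305 (.sp 1 13479 (.L 1792) (.sp 2 10385 (.L 1792) (.ss 1244 (.N 5) (.L 2099)))) (.sp 1 13479 (.sp 2 10385 (.L 1792) (.ss 1244 (.N 5) (.L 2099))) (.sp 4 2916 (.sp 2 10385 (.sp 3 7777 (.L 2099) (.ss 1244 (.sp 4 2489 .R (.sp 5 1458 (.sp 2 10171 (.L 2099) (.N 5)) (.L 2202))) (.L 2099))) (.ss 1244 (.N 5) (.sp 3 7777 (.sp 5 1601 (.sp 2 10598 (.L 2099) (.N 4)) (.L 2202)) (.sp 5 1601 (.sp 4 2489 (.N 4) (.sp 2 10598 (.L 2202) (.N 4))) (.sp 4 2489 (.sp 2 10598 (.L 2202) (.N 4)) (.L 2365)))))) (.sp 2 10385 (.L 2202) (.ss 1244 (.N 5) (.L 2365)))))) (.sp 4 2916 (.N 4) (.ss 1244 (.N 5) (.sp 5 1601 (.N 5) (.sp 2 11239 (.L 2509) (.N 5))))))) (.sp 1 15291 (.sp 1 14687 (.sp 4 2916 (.sp 2 10812 (.sp 3 7305 (.sp 2 10385 (.L 2099) (.ss 1244 (.N 5) (.L 2365))) (.sp 1 14385 (.sp 2 10385 (.ss 1244 (.sp 5 1458 (.sp 4 2489 (.N 4) (.sp 2 10171 (.L 2202) (.N 5))) (.sp 3 7777 (.L 2202) (.sp 4 2489 .R (.L 2335)))) (.sp 3 7777 (.L 2202) (.sp 5 1601 (.sp 4 2489 (.ss 1351 .R (.L 2335)) (.L 2335)) (.L 2335)))) (.ss 1244 (.N 5) (.sp 5 1601 (.sp 4 2489 (.N 4) (.ss 1351 (.N 4) (.L 2365))) (.sp 4 2489 (.sp 2 10598 (.L 2365) (.N 4)) (.L 2365))))) (.ss 1244 (.sp 2 10385 (.sp 1 14536 (.sp 1 14460 (.sp 5 1458 (.sp 4 2489 (.N 4) (.sp 2 10171 (.L 2202) (.N 5))) (.sp 3 7777 (.L 2202) (.sp 4 2489 .R (.L 2365)))) (.sp 5 1458 (.sp 4 2489 (.N 4) (.ss 1137 (.N 5) (.L 2406))) (.sp 4 2489 (.sp 3 7777 (.L 2202) .R) (.L 2406)))) (.sp 5 1458 (.sp 4 2489 (.N 4) (.ss 1137 (.N 5) (.L 2714))) (.sp 4 2489 (.sp 5 1760 (.N 4) (.L 2714)) (.L 2714)))) (.N 5)) (.sp 4 2489 (.sp 5 1601 (.sp 2 10385 (.sp 1 14536 (.sp 3 7777 (.L 2202) (.ss 1351 .R (.L 2365))) (.sp 3 7777 (.L 2202) (.ss 1351 .R (.L 2714)))) (.N 4)) (.sp 2 10385 (.L 2406) (.sp 5 1831 (.N 4) (.L 2714)))) (.sp 5 1601 (.sp 2 10385 (.L 2406) (.ss 1351 (.N 4) (.L 2714))) (.L 2714)))))) (.N 4)) (.sp 2 10812 (.sp 1 14385 (.sp 3 7305 (.L 2202) (.ss 1244 (.sp 2 10385 (.L 2335) (.N 5)) (.L 2365))) (.ss 1244 (.sp 2 10385 (.L 2406) (.N 5)) (.L 2714))) (.ss 1244 (.N 5) (.sp 5 1601 (.N 5) (.sp 2 11239 (.L 2714) (.N 5)))))) (.sp 2 10812 (.sp 3 7305 (.sp 1 14989 (.sp 4 2916 (.ss 1244 (.sp 2 10385 (.L 2202) (.N 5)) (.L 2714)) (.L 2714)) (.L 3328)) (.sp 2 10385 (.sp 3 7777 (.sp 1 14989 (.sp 4 2916 (.sp 1 14838 (.ss 1244 (.sp 5 1458 (.sp 4 2489 (.N 4) (.L 2714)) (.L 2714)) (.L 2714)) (.L 3328)) (.L 3328)) (.L 1048576)) (.sp 2 10171 (.sp 3 8013 (.sp 1 14989 (.sp 1 14838 (.sp 4 2916 (.ss 1244 (.sp 4 2489 .R (.L 3328)) (.L 2714)) (.L 3328)) (.L 1048576)) (.L 1048576)) (.sp 1 14989 (.sp 1 14838 (.sp 4 2916 (.sp 1 14762 (.ss 1244 (.sp 5 1458 .R (.L 3328)) (.L 3328)) (.L 1048576)) (.L 1048576)) (.L 1048576)) (.L 1048576))) (.sp 1 14989 (.sp 1 14838 (.sp 4 2916 (.sp 1 14762 (.ss 1244 (.sp 5 1458 (.N 5) (.L 3328)) (.L 3328)) (.L 1048576)) (.L 1048576)) (.L 1048576)) (.L 1048576)))) (.ss 1244 (.N 5) (.L 3328)))) (.sp 4 2916 (.N 4) (.L 3328)))) (.L 1048576))))) (.sp 4 2452 (.ss 1760 (.sp 3 6360 (.sp 2 10812 (.L 2202) (.sp 2 11239 (.ss 1609 (.N 4) (.L 2202)) (.N 4))) (.sp 1 14083 (.sp 1 12875 (.sp 2 10812 (.L 1792) (.sp 2 11239 (.L 1792) (.N 4))) (.sp 2 10812 (.sp 3 7305 (.L 2099) (.sp 1 13479 (.L 1792) (.sp 2 10385 (.L 2099) (.sp 5 1760 (.ss 1609 (.sp 4 1890 (.N 4) (.sp 2 10598 (.L 2202) (.N 4))) (.sp 3 7777 (.L 2202) (.sp 4 1986 (.sp 2 10598 (.L 2202) (.ss 1684 (.N 4) (.L 2365))) (.L 2365)))) (.L 2365))))) (.ss 1609 (.N 4) (.sp 2 11239 (.sp 4 1986 (.N 4) (.sp 2 11025 (.sp 3 7305 (.L 2202) (.sp 1 13479 (.L 2099) (.sp 3 7777 (.L 2202) (.sp 5 1835 (.sp 4 2219 (.N 4) (.L 2365)) (.L 2365))))) (.N 4))) (.N 4))))) (.sp 1 15291 (.sp 1 14687 (.sp 2 10812 (.sp 5 1760 (.sp 3 7305 (.sp 2 10385 (.L 2202) (.ss 1609 (.sp 4 1890 (.N 4) (.L 2365)) (.L 2365))) (.sp 1 14385 (.sp 2 10385 (.ss 1609 (.sp 3 7777 (.L 2099) (.sp 4 1890 (.sp 5 1609 (.ss 1533 .R (.L 2202)) (.L 2202)) (.L 2335))) (.L 2335)) (.ss 1609 (.sp 4 1890 (.N 4) (.sp 2 10598 (.sp 3 7777 (.L 2202) (.sp 4 2171 (.sp 3 8013 (.L 2335) .R) (.L 2365))) (.N 4))) (.sp 4 1986 (.sp 3 7777 (.L 2335) (.sp 2 10598 (.L 2365) (.ss 1684 (.N 4) (.L 2365)))) (.L 2365)))) (.ss 1609 (.sp 4 1890 (.sp 2 10385 (.sp 1 14536 (.sp 1 14460 (.sp 1 14422 (.sp 3 7777 (.L 2202) (.sp 5 1609 (.ss 1533 .R (.L 2335)) (.L 2365))) (.sp 1 14441 (.sp 3 7777 (.L 2202) (.sp 5 1609 (.ss 1533 .R (.L 2365)) (.L 2365))) (.sp 3 7777 (.L 2202) (.sp 5 1609 (.ss 1533 .R (.L 2365)) (.L 2406))))) (.sp 3 7777 (.L 2202) (.sp 5 1609 (.ss 1533 .R (.L 2406)) (.L 2406)))) (.sp 5 1609 (.sp 3 7777 (.L 2202) (.ss 1533 .R (.L 2714))) (.L 2714))) (.N 4)) (.sp 2 10385 (.L 2406) (.sp 2 10598 (.L 2406) (.N 4)))) (.sp 4 1986 (.sp 2 10385 (.L 2406) (.ss 1684 (.sp 2 10598 (.L 2406) (.N 4)) (.L 2714))) (.L 2714))))) (.sp 1 14385 (.sp 3 7305 (.L 2202) (.sp 2 10385 (.L 2335) (.sp 3 7777 (.L 2335) (.sp 4 2106 (.sp 5 1911 (.sp 2 10598 (.L 2365) (.ss 1609 (.N 4) (.L 2365))) (.L 2365)) (.L 2365))))) (.L 2714))) (.ss 1609 (.N 4) (.sp 4 1986 (.N 4) (.sp 2 11239 (.sp 2 11025 (.sp 3 7305 (.L 2365) (.sp 3 7777 (.L 2365) (.sp 1 14385 (.sp 5 1835 (.sp 4 2219 (.N 4) (.L 2509)) (.L 2509)) (.L 3328)))) (.N 4)) (.N 4))))) (.sp 2 10812 (.sp 3 7305 (.L 2714) (.L 3328)) (.ss 1609 (.N 4) (.L 3328)))) (.L 1048576)))) (.sp 1 14083 (.sp 3 6360 (.L 2202) (.sp 1 12875 (.L 2099) (.sp 2 10812 (.L 2365) (.sp 3 7305 (.sp 2 11239 (.L 2202) (.sp 1 13479 (.L 2099) (.ss 1911 (.sp 4 2106 (.N 4) (.L 2365)) (.L 2365)))) (.ss 1911 (.sp 2 11239 (.sp 1 13479 (.L 2202) (.sp 4 2106 (.sp 3 7777 (.L 2365) (.sp 5 1911 (.ss 1835 (.sp 2 11025 (.L 2365) (.N 4)) (.L 2509)) (.L 2509))) (.L 2509))) (.sp 4 2106 (.N 4) (.sp 2 11453 (.L 2509) (.N 4)))) (.sp 2 11239 (.L 2509) (.sp 4 2181 (.sp 3 7777 (.L 2509) (.ss 1986 (.sp 2 11453 (.L 2509) (.N 4)) (.L 2509))) (.L 2509)))))))) (.sp 3 6360 (.L 2365) (.sp 1 15291 (.sp 1 14687 (.sp 2 10812 (.L 2365) (.ss 1911 (.sp 1 14385 (.sp 4 2106 (.sp 2 11239 (.sp 1 14234 (.sp 1 14158 (.sp 3 7305 (.L 2202) (.sp 5 1911 (.sp 3 7777 (.L 2365) (.ss 1835 (.sp 2 11025 (.L 2365) (.N 4)) (.L 2509))) (.L 2509))) (.sp 3 7305 (.L 2365) (.sp 5 1911 (.ss 1835 (.sp 2 11025 (.L 2509) (.N 4)) (.L 2714)) (.L 2714)))) (.sp 3 7305 (.L 2365) (.sp 5 1911 (.ss 1835 (.sp 2 11025 (.L 2714) (.N 4)) (.L 2714)) (.L 2714)))) (.N 4)) (.sp 3 7305 (.L 2509) (.sp 2 11239 (.L 2509) (.ss 1835 (.N 4) (.L 2714))))) (.sp 3 7305 (.L 2714) (.L 3328))) (.L 2714))) (.L 3328)) (.L 1048576))))) (.sp 1 14083 (.sp 3 6360 (.L 2202) (.sp 1 12875 (.L 2099) (.sp 2 10812 (.L 2365) (.ss 1760 (.sp 4 3180 (.sp 3 7305 (.sp 2 11239 (.L 2202) (.ss 1609 (.N 4) (.L 2365))) (.sp 2 11239 (.sp 1 13479 (.L 2202) (.ss 1609 (.sp 5 1760 (.sp 4 2816 (.N 4) (.L 2509)) (.L 2509)) (.L 2509))) (.ss 1609 (.N 4) (.sp 4 2816 (.N 4) (.L 2509))))) (.L 2509)) (.L 2509))))) (.sp 3 6360 (.L 2365) (.sp 1 15291 (.sp 1 14687 (.ss 1760 (.sp 2 10812 (.L 2365) (.sp 4 3180 (.sp 1 14385 (.ss 1609 (.sp 2 11239 (.sp 1 14234 (.sp 1 14158 (.sp 3 7305 (.L 2365) (.sp 1 14120 (.sp 5 1760 (.sp 4 2816 (.N 4) (.L 2714)) (.L 2509)) (.sp 1 14139 (.sp 1 14129 (.sp 5 1760 (.sp 4 2816 (.N 4) (.L 2714)) (.L 2714)) (.sp 5 1760 (.sp 4 2816 (.N 4) (.L 2714)) (.L 2714))) (.sp 5 1760 (.sp 4 2816 (.N 4) (.L 2714)) (.L 2714))))) (.sp 3 7305 (.L 2365) (.sp 5 1760 (.sp 4 2816 (.N 4) (.L 2714)) (.L 2714)))) (.sp 3 7305 (.L 2365) (.sp 5 1760 (.sp 4 2816 (.N 4) (.L 2714)) (.L 2714)))) (.N 4)) (.sp 4 2816 (.sp 2 11239 (.L 2714) (.N 4)) (.L 2714))) (.sp 3 7305 (.L 2714) (.L 3328))) (.L 2714))) (.L 2714)) (.L 3328)) (.L 1048576))))))))) (.sp 4 2062 (.N 4) (.ss 1458 (.N 5) (.sp 2 14083 (.sp 2 12875 (.sp 3 4124 (.sp 3 2916 (.N 3) (.sp 2 12271 (.sp 1 14083 (.sp 1 12875 (.L 1792) (.sp 1 13479 (.L 1792) (.sp 2 11969 (.L 1792) (.ss 1760 (.N 5) (.L 1792))))) (.sp 1 15291 (.sp 1 14687 (.sp 4 2916 (.ss 1760 (.N 4) (.sp 2 11969 (.ss 1911 (.N 4) (.L 2099)) (.N 4))) (.sp 4 3520 (.sp 5 1760 (.N 4) (.sp 2 11969 (.L 2099) (.ss 1760 (.N 4) (.L 2202)))) (.L 2365))) (.sp 1 14989 (.sp 4 2916 (.ss 1760 (.N 4) (.sp 2 11969 (.sp 3 3520 (.N 3) (.L 2202)) (.N 4))) (.sp 4 3520 (.sp 5 1760 (.N 4) (.sp 1 14838 (.sp 4 3218 (.ss 1760 (.N 4) (.L 2714)) (.L 2714)) (.L 3328))) (.L 3328))) (.sp 1 15140 (.sp 4 2916 (.sp 3 3520 (.N 3) (.L 1048576)) (.L 1048576)) (.L 1048576)))) (.L 1048576))) (.sp 4 2916 (.N 4) (.sp 4 3520 (.N 4) (.ss 1760 (.N 5) (.L 2365)))))) (.sp 3 5832 (.sp 4 2916 (.sp 2 12271 (.ss 1760 (.N 4) (.sp 2 11969 (.L 2284) (.N 4))) (.N 4)) (.ss 1760 (.sp 2 12271 (.sp 2 11969 (.L 2284) (.N 5)) (.N 5)) (.sp 2 12271 (.L 2365) (.sp 4 3520 (.N 4) (.L 2509))))) (.sp 4 2916 (.ss 1760 (.N 4) (.sp 4 2489 (.sp 2 12271 (.sp 5 1911 (.N 4) (.ss 1911 (.N 4) (.sp 4 2275 (.N 4) (.ss 1986 (.N 4) (.L 2714))))) (.N 4)) (.ss 1911 (.N 4) (.sp 2 12271 (.L 2714) (.N 4))))) (.ss 1760 (.ss 1609 (.N 5) (.sp 2 12271 (.sp 2 11969 (.sp 1 14083 (.sp 1 12875 (.L 2365) (.sp 3 7041 (.L 2509) (.sp 4 3520 (.sp 5 1835 (.N 4) (.L 2714)) (.L 2714)))) (.L 2714)) (.N 5)) (.N 5))) (.sp 4 3520 (.sp 2 12271 (.L 2714) (.N 4)) (.L 2714)))))) (.N 4)) (.N 4)))))) (.sp 2 11667 (.sp 3 4124 (.sp 2 9958 (.L 1792) (.sp 2 10812 (.L 1792) (.ss 1031 (.N 6) (.sp 5 2916 (.sp 1 14083 (.L 1792) (.sp 1 15291 (.sp 4 2916 (.sp 5 2489 (.sp 2 11239 (.L 1792) (.ss 1458 (.N 4) (.sp 4 2489 (.sp 3 2916 (.N 3) (.L 2099)) (.L 2099)))) (.L 2099)) (.L 2099)) (.L 3328))) (.L 2202))))) (.sp 2 9958 (.sp 3 5832 (.L 2099) (.sp 5 2916 (.ss 1031 (.ss 515 (.N 6) (.L 2202)) (.L 2365)) (.L 2365))) (.sp 5 2916 (.ss 1031 (.sp 2 10812 (.ss 515 (.N 6) (.sp 2 10385 (.ss 728 (.N 6) (.L 2365)) (.N 6))) (.N 6)) (.sp 3 5832 (.L 2284) (.sp 1 14083 (.sp 1 12875 (.L 2099) (.sp 2 10812 (.L 2365) (.sp 5 2489 (.sp 4 2916 (.sp 3 7041 (.sp 2 11239 (.L 2202) (.ss 1458 (.N 4) (.L 2365))) (.ss 1458 (.sp 4 2489 (.N 4) (.sp 2 11239 (.L 2509) (.N 4))) (.sp 5 2275 (.sp 4 2489 (.sp 2 11239 (.L 2509) (.ss 1760 (.N 4) (.L 2509))) (.L 2509)) (.L 2509)))) (.sp 3 7041 (.L 2365) (.ss 1458 (.ss 1244 (.N 5) (.L 2509)) (.L 2509)))) (.L 2509)))) (.sp 1 15291 (.sp 1 14687 (.sp 5 2489 (.sp 4 2916 (.sp 2 10812 (.L 2365) (.ss 1458 (.sp 4 2489 (.N 4) (.ss 1244 (.N 5) (.L 2714))) (.sp 5 2275 (.sp 4 2489 (.sp 3 7041 (.L 2365) (.sp 1 14385 (.ss 1760 (.sp 2 11239 (.L 2509) (.N 4)) (.L 2714)) (.L 3328))) (.L 2714)) (.L 2714)))) (.L 2714)) (.L 2714)) (.L 3328)) (.L 1048576))))) (.ss 1031 (.ss 515 (.N 6) (.L 2509)) (.L 2509))))) (.ss 1031 (.N 6) (.sp 2 14083 (.sp 5 2916 (.ss 1458 (.N 5) (.sp 4 2916 (.sp 2 12875 (.sp 2 12271 (.sp 3 4124 (.sp 3 2916 (.N 3) (.sp 1 14083 (.L 1792) (.sp 1 15291 (.sp 5 2489 (.ss 1760 (.N 4) (.sp 2 11969 (.L 2202) (.sp 4 2489 (.N 4) (.L 2202)))) (.L 2202)) (.L 1048576)))) (.sp 3 5832 (.sp 5 2489 (.ss 1760 (.N 4) (.L 2365)) (.L 2365)) (.sp 5 2489 (.ss 1760 (.N 4) (.sp 5 2275 (.sp 2 11969 (.sp 1 14083 (.sp 1 12875 (.L 2202) (.sp 3 7041 (.L 2509) (.sp 4 2489 (.sp 4 2275 (.N 4) (.L 2509)) (.L 2509)))) (.L 2714)) (.sp 4 2489 (.N 4) (.L 2714))) (.L 2714))) (.L 2714)))) (.ss 1760 (.N 4) (.sp 4 2489 (.N 4) (.sp 2 12573 (.ss 1911 (.N 4) (.sp 4 2702 (.N 4) (.sp 5 2489 (.N 4) (.L 2406)))) (.N 4))))) (.N 4)) (.sp 1 14083 (.sp 1 12875 (.sp 3 4904 (.L 1792) (.L 2509)) (.sp 3 4904 (.sp 4 3520 (.sp 2 12875 (.sp 2 12271 (.L 2099) (.ss 1760 (.N 4) (.sp 1 13479 (.L 2099) (.sp 2 12573 (.L 2099) (.sp 3 3781 (.N 3) (.L 2365)))))) (.N 4)) (.sp 2 12875 (.L 2365) (.sp 5 2489 (.N 4) (.sp 4 3822 (.N 4) (.L 2714))))) (.sp 4 3520 (.sp 2 12875 (.sp 3 6360 (.L 2509) (.sp 5 2489 (.ss 1760 (.sp 2 12271 (.L 2714) (.N 4)) (.L 2714)) (.L 2714))) (.N 4)) (.L 2714)))) (.sp 1 15291 (.sp 3 4904 (.sp 1 14687 (.sp 4 3520 (.sp 2 12875 (.sp 2 12271 (.sp 2 11969 (.L 2099) (.sp 3 3781 (.sp 5 2489 (.ss 1760 (.N 4) (.L 2202)) (.L 2202)) (.L 2365))) (.ss 1760 (.N 4) (.sp 1 14385 (.sp 3 3781 (.sp 2 12573 (.sp 3 3348 (.N 3) (.L 2335)) (.N 3)) (.L 2365)) (.sp 3 3781 (.sp 3 3348 (.N 3) (.sp 2 12573 (.L 2406) (.N 3))) (.L 2714))))) (.N 4)) (.sp 3 4212 (.sp 5 2489 (.sp 2 12875 (.L 2365) (.N 4)) (.L 2714)) (.L 2714))) (.sp 2 12875 (.sp 2 12271 (.L 2714) (.L 1048576)) (.L 1048576))) (.L 2714)) (.L 1048576))))) (.sp 1 14083 (.sp 5 3520 (.sp 1 12875 (.L 2406) (.sp 3 4904 (.sp 4 3520 (.sp 5 3218 (.sp 2 12875 (.sp 2 12271 (.L 2099) (.ss 1458 (.N 5) (.L 2365))) (.N 4)) (.sp 2 12875 (.L 2365) (.ss 1458 (.N 5) (.L 2509)))) (.ss 1458 (.sp 2 12875 (.L 2365) (.N 5)) (.L 2509))) (.L 2714))) (.L 2714)) (.sp 1 15291 (.sp 5 3520 (.sp 3 4904 (.sp 1 14687 (.sp 4 3520 (.sp 5 3218 (.sp 2 12875 (.sp 2 12271 (.L 2202) (.ss 1458 (.N 5) (.sp 1 14385 (.sp 3 3781 (.sp 3 3348 (.N 3) (.L 2365)) (.L 2509)) (.L 2714)))) (.N 4)) (.ss 1458 (.ss 1244 (.N 6) (.L 2714)) (.L 2714))) (.L 2714)) (.L 3328)) (.L 2714)) (.L 2714)) (.L 1048576)))) (.N 4))))) (.sp 3 5833 (.sp 1 14083 (.sp 2 10778 (.ss 1031 (.ss 515 (.N 6) (.L 2202)) (.L 2202)) (.ss 1031 (.N 6) (.sp 1 12875 (.L 2284) (.sp 5 2062 (.sp 5 1458 (.N 5) (.sp 2 12430 (.sp 3 4979 (.sp 2 11604 (.L 2099) (.ss 1458 (.N 5) (.L 2365))) (.L 2406)) (.ss 1458 (.N 5) (.ss 1760 (.N 5) (.L 2714))))) (.sp 2 12430 (.L 2365) (.ss 1458 (.N 6) (.L 2714))))))) (.sp 1 15291 (.ss 1031 (.sp 2 11231 (.ss 515 (.N 6) (.sp 4 4979 (.sp 2 9740 (.L 2099) (.sp 5 1457 (.N 5) (.L 2284))) (.sp 2 9740 (.L 2202) (.sp 5 1457 (.N 5) (.L 2365))))) (.N 6)) (.sp 2 11231 (.L 2284) (.sp 2 13261 (.sp 1 14687 (.sp 5 2062 (.ss 1458 (.N 5) (.sp 4 4979 (.ss 1760 (.sp 2 12246 (.L 2365) (.N 5)) (.L 2714)) (.L 2714))) (.L 2714)) (.L 3328)) (.sp 5 2062 (.N 5) (.L 1048576))))) (.L 3328))) (.ss 1031 (.ss 515 (.N 6) (.sp 2 11667 (.sp 4 5833 (.sp 1 14083 (.sp 2 9958 (.sp 4 4979 (.L 2202) (.L 2365)) (.sp 5 1457 (.N 5) (.sp 5 2451 (.N 5) (.L 2714)))) (.sp 1 15291 (.sp 2 9958 (.sp 5 1457 (.ss 728 (.N 5) (.L 2365)) (.L 2365)) (.sp 5 1457 (.N 5) (.sp 5 2451 (.N 5) (.L 2714)))) (.L 3328))) (.sp 5 1457 (.sp 2 9958 (.ss 728 (.N 5) (.L 2714)) (.N 5)) (.sp 5 2451 (.sp 2 9958 (.L 2714) (.N 5)) (.L 2714)))) (.N 6))) (.sp 5 2062 (.ss 1458 (.sp 2 11667 (.sp 4 5833 (.sp 1 14083 (.sp 2 9958 (.L 2284) (.sp 2 10812 (.L 2509) (.ss 1244 (.N 5) (.L 2509)))) (.sp 1 15291 (.sp 2 9958 (.L 2365) (.sp 1 14687 (.ss 1244 (.sp 2 10812 (.L 2509) (.N 5)) (.L 2714)) (.L 3328))) (.L 3328))) (.sp 2 9958 (.L 2714) (.ss 1244 (.sp 2 10812 (.L 2714) (.N 5)) (.L 2714)))) (.N 5)) (.L 2714)) (.L 2714))))))) (.sp 2 5832 (.L 1792) (.sp 1 11667 (.L 2314) (.sp 2 9809 (.L 2314) (.sp 4 4124 (.ss 2916 (.sp 5 2916 (.ss 2489 (.sp 4 2916 (.sp 3 4124 (.sp 2 12721 (.sp 2 11265 (.L 2099) (.sp 5 2489 (.sp 2 11993 (.sp 1 14083 (.L 1792) (.sp 1 15291 (.sp 1 14687 (.sp 2 11629 (.L 1792) (.ss 2275 (.sp 3 2916 (.N 3) (.L 2099)) (.L 2099))) (.ss 2275 (.sp 4 2489 (.sp 3 2916 (.sp 2 11629 (.L 2099) (.N 3)) (.L 2202)) (.L 2202)) (.L 2202))) (.L 1048576))) (.sp 3 2916 (.N 3) (.ss 2275 (.sp 2 12357 (.sp 3 3520 (.N 3) (.L 2365)) (.N 3)) (.sp 2 12357 (.L 2202) (.sp 3 3520 (.N 3) (.L 2365)))))) (.sp 2 11993 (.L 2202) (.sp 3 3203 (.sp 2 12357 (.L 2202) (.N 3)) (.L 2365))))) (.N 3)) (.sp 3 5832 (.sp 1 14083 (.sp 1 12875 (.L 2099) (.sp 2 11946 (.L 2202) (.sp 5 2489 (.sp 2 13014 (.sp 2 12480 (.L 2284) (.ss 2275 (.N 4) (.L 2365))) (.N 4)) (.L 2509)))) (.sp 1 15291 (.sp 1 14687 (.sp 2 12248 (.L 2365) (.sp 2 13467 (.sp 5 2489 (.ss 2275 (.sp 2 12857 (.sp 2 12552 (.L 2365) (.N 4)) (.N 4)) (.L 2714)) (.L 2714)) (.N 4))) (.L 2714)) (.L 3328))) (.sp 5 2489 (.ss 2275 (.sp 2 12721 (.sp 2 11265 (.L 2509) (.sp 5 2275 (.sp 4 2489 (.ss 2168 (.sp 2 11993 (.L 2714) (.N 4)) (.L 2714)) (.L 2714)) (.L 2714))) (.N 4)) (.L 2714)) (.L 2714)))) (.sp 1 14083 (.sp 2 11946 (.L 2406) (.sp 3 4904 (.sp 1 13014 (.L 2099) (.sp 4 3520 (.sp 3 3781 (.sp 2 13014 (.sp 2 12480 (.L 2099) (.sp 3 3348 (.N 3) (.L 2365))) (.N 3)) (.ss 2275 (.sp 2 13014 (.L 2365) (.N 4)) (.L 2509))) (.L 2509))) (.L 2714))) (.sp 1 15291 (.sp 3 4904 (.sp 2 12247 (.L 2202) (.sp 2 13769 (.sp 1 14687 (.sp 4 3520 (.sp 3 3781 (.sp 2 13008 (.sp 1 14385 (.sp 2 12627 (.L 2335) (.sp 3 3348 (.N 3) (.L 2365))) (.sp 4 3218 (.ss 2275 (.sp 3 3348 (.N 3) (.L 2714)) (.L 2714)) (.L 2714))) (.N 3)) (.L 2714)) (.L 2714)) (.L 1048576)) (.N 4))) (.L 2714)) (.L 3328)))) (.sp 1 14083 (.sp 2 11946 (.L 2365) (.sp 3 4531 (.sp 1 13014 (.L 1792) (.sp 4 3203 (.ss 2702 (.sp 3 3358 (.sp 2 13014 (.sp 2 12480 (.L 2099) (.sp 4 2846 (.N 3) (.L 2365))) (.N 3)) (.L 2509)) (.L 2509)) (.L 2509))) (.L 2714))) (.sp 1 15291 (.sp 3 4531 (.sp 4 3203 (.sp 2 12247 (.L 2202) (.sp 2 13769 (.sp 1 14687 (.ss 2702 (.sp 3 3358 (.sp 2 13008 (.sp 1 14385 (.sp 4 2846 (.sp 2 12627 (.L 2335) (.N 3)) (.L 2365)) (.L 2714)) (.N 3)) (.L 2714)) (.L 2714)) (.L 1048576)) (.N 3))) (.L 2714)) (.L 2714)) (.L 3328)))) (.L 2509)) (.L 2714)) (.L 2714)))))) (.sp 2 8250 (.L 2509) (.ss 2062 (.sp 1 11667 (.L 2509) (.ss 1031 (.ss 515 (.N 6) (.L 2714)) (.L 2714))) (.L 2714)))) (.L 2714))) (.ss 8250 (.ss 4125 (.sp 5 8250 (.ss 2062 (.sp 5 4125 (.sp 5 2062 (.ss 1031 (.ss 515 (.N 6) (.sp 2 11667 (.sp 2 9958 (.sp 4 2264 .R (.sp 4 4748 (.sp 1 11667 (.L 1792) (.sp 2 9104 (.sp 2 8677 (.sp 1 14083 (.L 1792) (.sp 1 15291 (.sp 5 1030 (.ss 728 (.N 5) (.L 2099)) (.L 2099)) (.L 1048576))) (.ss 728 (.N 6) (.sp 4 3278 (.sp 5 1225 (.ss 879 (.N 5) (.sp 4 2771 .R (.L 2202))) (.L 2202)) (.L 2365)))) (.sp 5 1030 (.N 5) (.ss 728 (.N 6) (.ss 879 (.sp 2 9531 (.sp 5 1457 (.N 5) (.sp 2 9317 (.sp 5 1759 (.N 5) (.L 2365)) (.N 5))) (.N 5)) (.sp 4 3278 (.sp 3 9104 (.sp 4 2771 (.sp 5 1457 .R (.sp 2 9531 (.L 2365) .R)) (.sp 5 1457 (.sp 2 9531 (.sp 3 8677 (.L 2202) .R) (.N 5)) (.L 2365))) .R) (.sp 1 14083 (.sp 1 12875 (.L 2099) (.sp 2 9531 (.sp 3 8890 (.L 2099) (.sp 1 13479 (.L 2099) (.sp 2 9317 (.L 2202) (.sp 5 1457 (.N 5) (.L 2365))))) (.sp 5 1457 (.N 5) (.sp 5 1759 (.N 5) (.L 2509))))) (.sp 1 15291 (.sp 1 14687 (.sp 2 9531 (.sp 1 14385 (.sp 3 8890 (.L 2202) (.sp 5 1457 (.sp 2 9317 (.L 2335) (.N 5)) (.L 2365))) (.L 2714)) (.sp 5 1457 (.N 5) (.sp 5 1759 (.N 5) (.L 2714)))) (.L 3328)) (.L 1048576))))))))) (.sp 2 9104 (.sp 1 11667 (.L 2202) (.sp 4 6574 (.sp 4 5661 (.L 2365) (.L 2509)) (.sp 5 1030 (.ss 728 (.N 5) (.sp 1 14083 (.sp 2 8677 (.L 2714) (.ss 879 (.N 5) (.L 2714))) (.L 3328))) (.sp 5 1457 (.ss 728 (.N 5) (.L 2714)) (.L 2714))))) (.sp 5 1030 (.N 5) (.ss 728 (.N 6) (.sp 3 9104 (.sp 5 1457 (.ss 879 (.N 5) (.L 2714)) (.L 2714)) (.sp 2 9531 (.sp 4 6727 (.L 2509) (.sp 5 1457 (.sp 2 9317 (.ss 879 (.N 5) (.L 2714)) (.N 5)) (.L 2714))) (.sp 5 1457 (.N 5) (.sp 5 1759 (.N 5) (.sp 2 9744 (.L 2714) (.N 5))))))))))) (.N 5)) (.N 5))) (.sp 3 11667 (.sp 4 3468 (.ss 1458 (.sp 3 9958 (.sp 2 11667 (.sp 1 11667 (.sp 1 9958 (.L 0) (.sp 1 10812 (.L 1280) (.sp 2 9958 (.L 1280) (.sp 4 1890 .R (.sp 1 11239 (.L 1792) (.sp 2 10812 (.L 1792) (.sp 3 9104 (.L 1792) .R))))))) (.sp 2 9958 (.sp 2 9104 (.sp 2 8677 (.L 2099) (.sp 5 1458 (.sp 4 1890 (.ss 1244 .R (.sp 2 8890 (.L 2202) .R)) (.sp 1 14083 (.L 1792) (.sp 1 15291 (.sp 4 2560 (.ss 1244 .R (.L 2202)) (.L 2202)) (.L 1048576)))) (.sp 4 2248 (.sp 5 1760 (.ss 1244 .R (.L 2202)) (.L 2202)) (.L 2202)))) (.sp 4 1890 (.sp 4 1395 .R (.sp 3 9104 (.ss 1244 .R (.sp 3 8677 (.sp 4 1642 .R (.sp 2 9531 (.L 2202) .R)) .R)) .R)) (.sp 2 9531 (.sp 3 8890 (.sp 4 2560 (.ss 1244 (.sp 5 1458 .R (.L 2202)) (.L 2202)) (.L 2365)) (.sp 4 2560 (.ss 1244 .R (.sp 2 9317 (.sp 5 1601 .R (.L 2365)) .R)) (.ss 1244 (.sp 5 1458 (.sp 4 3014 .R (.sp 3 9210 (.L 2365) .R)) (.L 2365)) (.L 2365)))) (.sp 3 9104 (.sp 4 2560 (.ss 1244 .R (.sp 5 1601 (.sp 3 8677 (.sp 4 2225 .R (.L 2365)) .R) (.sp 3 8677 (.L 2365) (.sp 4 2225 .R (.L 2365))))) (.ss 1244 (.sp 5 1458 (.sp 4 3014 .R (.sp 3 8677 (.L 2365) (.sp 4 3241 .R (.L 2365)))) (.L 2365)) (.L 2365))) (.sp 4 2560 .R (.ss 1244 (.sp 5 1458 .R (.sp 4 3014 .R (.sp 3 9531 (.L 2509) .R))) (.sp 1 14083 (.sp 1 12875 (.L 2099) (.sp 5 1601 (.sp 3 9531 (.sp 4 3014 .R (.L 2365)) .R) (.sp 2 9744 (.L 2365) (.sp 4 3014 .R (.L 2509))))) (.sp 1 15291 (.sp 1 14687 (.sp 1 14385 (.sp 5 1601 (.sp 4 3014 .R (.sp 3 9531 (.L 2509) .R)) (.sp 4 3014 (.sp 3 9531 (.L 2509) .R) (.L 2714))) (.L 3328)) (.L 1048576)) (.L 1048576))))))))) (.sp 4 1890 .R (.sp 4 2560 (.sp 2 10812 (.sp 3 9104 (.ss 1244 .R (.sp 5 1601 .R (.sp 2 10385 (.sp 3 8677 (.sp 4 2225 .R (.L 2365)) .R) .R))) .R) (.N 4)) (.sp 1 14083 (.ss 1244 (.sp 5 1458 (.sp 2 10812 (.sp 3 9104 (.sp 2 10385 (.sp 3 8677 (.sp 4 3014 .R (.sp 2 10171 (.L 2202) (.N 5))) .R) (.N 5)) .R) (.N 5)) (.sp 2 10812 (.sp 3 9104 (.sp 2 10385 (.sp 1 12875 (.L 1792) (.sp 1 13479 (.L 2202) (.sp 3 8677 (.L 2365) (.sp 4 3014 .R (.L 2406))))) (.N 5)) .R) (.N 5))) (.sp 2 10812 (.sp 3 9104 (.sp 1 12875 (.L 2099) (.sp 5 1601 (.sp 2 10385 (.sp 1 13479 (.L 2202) (.sp 3 8677 (.L 2365) (.sp 4 3014 .R (.L 2406)))) (.sp 4 3014 (.sp 3 8677 (.ss 1351 .R (.sp 2 10598 (.L 2365) .R)) .R) (.sp 3 8677 (.sp 1 13479 (.L 2202) (.ss 1351 (.sp 2 10598 (.L 2365) (.N 5)) (.L 2509))) (.ss 1351 .R (.sp 4 3241 .R (.L 2509)))))) (.sp 2 10385 (.L 2365) (.sp 4 3014 (.sp 3 8677 (.sp 1 13479 (.L 2202) (.sp 5 1831 (.sp 4 2787 .R (.L 2509)) (.L 2509))) .R) (.L 2509))))) (.sp 5 1601 (.sp 4 3014 .R (.sp 2 10385 (.sp 3 9531 (.ss 1351 .R (.sp 2 10171 (.L 2509) .R)) .R) .R)) (.sp 4 3014 .R (.sp 3 9531 (.sp 1 12875 (.L 2202) (.sp 2 10385 (.L 2509) (.sp 5 1831 .R (.sp 2 10598 (.L 2509) .R)))) .R)))) (.sp 5 1601 (.N 5) (.sp 4 3014 (.N 4) (.sp 3 9104 (.sp 2 11239 (.sp 2 11025 (.ss 1351 (.N 5) (.sp 1 12875 (.L 2202) (.sp 3 8677 (.L 2509) (.sp 4 3241 .R (.L 2509))))) (.N 5)) (.N 5)) .R))))) (.sp 2 10812 (.sp 3 9104 (.sp 1 15291 (.sp 1 14687 (.sp 1 14385 (.ss 1244 (.sp 2 10385 (.ss 1137 (.sp 5 1458 (.N 5) (.sp 4 3014 .R (.sp 5 1760 (.N 5) (.L 2509)))) (.sp 1 14234 (.sp 5 1531 (.sp 3 8677 (.sp 4 3014 .R (.L 2365)) .R) (.sp 4 3014 (.sp 3 8677 (.L 2365) .R) (.L 2509))) (.sp 5 1531 (.sp 4 3014 .R (.sp 3 8677 (.L 2365) .R)) (.sp 4 3014 (.sp 3 8677 (.L 2365) .R) (.L 2714))))) (.N 5)) (.sp 5 1601 (.sp 4 3014 (.sp 3 8677 (.sp 1 14234 (.sp 2 10385 (.ss 1351 (.sp 2 10171 (.L 2365) .R) (.L 2365)) (.ss 1351 .R (.sp 2 10598 (.L 2365) .R))) (.sp 2 10385 (.ss 1351 (.sp 2 10171 (.L 2365) .R) (.L 2365)) (.ss 1351 .R (.sp 4 2787 .R (.L 2714))))) .R) (.sp 2 10385 (.sp 1 14234 (.L 2509) (.L 2714)) (.ss 1351 (.sp 5 1422 (.N 5) (.sp 3 8677 (.L 2509) .R)) (.sp 1 14234 (.sp 4 3241 (.sp 3 8677 (.L 2509) .R) (.L 2714)) (.L 3328))))) (.sp 4 3014 (.sp 2 10385 (.L 2509) (.sp 3 8677 (.sp 1 14234 (.sp 1 14158 (.sp 5 1831 (.sp 4 2787 .R (.L 2509)) (.L 2509)) (.sp 5 1831 (.sp 4 2787 .R (.L 2714)) (.L 2714))) (.L 2714)) .R)) (.L 2714)))) (.sp 2 10385 (.sp 3 8677 (.ss 1244 (.sp 5 1458 (.sp 4 3014 .R (.ss 1137 (.N 5) (.L 2714))) (.L 2714)) (.L 2714)) (.sp 2 10171 (.sp 3 8890 (.sp 1 14536 (.ss 1244 (.sp 5 1458 .R (.L 2714)) (.L 2714)) (.L 1048576)) (.sp 4 3014 (.ss 1244 .R (.L 3328)) (.L 3328))) (.sp 1 14536 (.ss 1244 (.sp 5 1458 .R (.L 3328)) (.L 3328)) (.L 1048576)))) (.ss 1244 (.N 5) (.L 3328)))) (.L 1048576)) (.L 1048576)) (.ss 1244 .R (.sp 4 3014 .R (.sp 1 15291 (.sp 1 14687 (.sp 1 14385 (.sp 3 9531 (.sp 2 10385 (.sp 5 1601 (.ss 1351 .R (.L 2714)) (.L 2714)) (.sp 5 1601 .R (.L 3328))) .R) (.L 1048576)) (.L 1048576)) (.L 1048576))))) (.ss 1244 (.N 5) (.sp 4 3014 (.N 4) (.sp 5 1601 (.N 5) (.L 3328)))))))))) (.N 5)) .R) (.sp 1 11667 (.sp 1 9958 (.L 1280) (.sp 2 9958 (.L 1792) (.sp 1 10812 (.L 1792) (.sp 2 10812 (.sp 3 9531 (.L 1792) (.sp 2 10385 (.L 1792) (.sp 3 10171 (.L 1792) (.ss 1760 .R (.L 2099))))) (.sp 3 9958 (.sp 1 11239 (.L 1792) (.sp 3 9104 (.L 1792) (.sp 1 11453 (.L 1792) (.sp 2 11239 (.L 1792) (.sp 4 2248 .R (.sp 5 1760 .R (.L 2099))))))) (.ss 1760 .R (.sp 3 10812 (.sp 4 2470 .R (.sp 3 10385 (.L 2365) .R)) .R))))))) (.sp 1 14083 (.sp 2 10778 (.sp 2 9514 (.sp 1 12875 (.L 1792) (.sp 2 8882 (.L 1792) (.ss 1760 (.sp 2 9198 (.L 2099) (.sp 1 13479 (.L 1792) (.sp 3 8882 (.L 2099) (.sp 4 2248 (.sp 5 1760 (.sp 5 1609 .R (.L 2202)) (.L 2202)) (.L 2202))))) (.L 2202)))) (.ss 1760 (.sp 2 10146 (.sp 1 12875 (.sp 3 9198 (.L 1792) (.sp 1 12271 (.L 1792) (.sp 2 9830 (.L 1792) (.sp 4 2248 .R (.L 2099))))) (.sp 3 9198 (.sp 4 2248 (.sp 1 13479 (.sp 3 8724 (.L 1792) (.sp 1 13177 (.L 1792) (.sp 2 9830 (.L 1792) (.ss 1609 .R (.L 2099))))) (.sp 5 1760 (.sp 3 8724 (.sp 2 9830 (.L 2099) (.ss 1609 (.sp 4 1810 .R (.L 2202)) (.L 2202))) (.ss 1609 .R (.sp 2 9830 (.L 2202) (.sp 4 1928 .R (.L 2365))))) (.sp 3 8724 (.L 2202) (.sp 2 9830 (.L 2202) (.ss 1609 .R (.L 2365)))))) (.L 2365)) (.sp 4 2248 (.sp 5 1760 .R (.sp 2 9830 (.sp 3 9514 (.sp 4 2004 .R (.L 2365)) .R) .R)) (.sp 2 9830 (.sp 4 2792 (.sp 1 13479 (.L 2202) (.ss 1609 (.sp 5 1760 .R (.L 2509)) (.L 2509))) (.L 2509)) (.sp 4 2792 (.sp 3 9672 (.ss 1609 .R (.sp 1 13479 (.L 2202) (.sp 4 2520 (.sp 3 9435 (.L 2365) .R) (.L 2509)))) .R) (.sp 3 9672 (.L 2509) (.ss 1609 (.sp 4 3130 .R (.L 2509)) (.L 2509)))))))) (.sp 4 2248 (.sp 3 9514 (.sp 3 8882 (.sp 1 12875 (.L 1792) (.sp 5 1760 (.ss 1609 .R (.sp 1 13479 (.sp 2 10462 (.L 2099) (.sp 3 8566 (.L 2099) .R)) (.sp 2 10462 (.sp 4 1928 (.sp 3 8566 (.L 2202) .R) (.L 2365)) (.sp 4 1928 .R (.sp 3 8566 (.ss 1684 .R (.L 2365)) .R))))) (.sp 1 13479 (.sp 2 10462 (.L 2099) (.ss 1609 .R (.L 2202))) (.sp 2 10462 (.sp 5 1911 (.sp 3 8566 (.L 2202) (.ss 1609 .R (.L 2365))) (.L 2365)) (.ss 1609 .R (.sp 5 1911 (.sp 3 8566 (.sp 4 2004 (.sp 3 8408 (.L 2365) .R) (.L 2365)) (.sp 4 2004 .R (.sp 2 10620 (.L 2365) .R))) (.L 2509))))))) (.ss 1609 .R (.sp 4 1928 .R (.sp 3 9198 (.sp 2 10462 (.sp 5 1835 .R (.L 2509)) .R) .R)))) .R) (.sp 3 9514 (.sp 1 12875 (.L 2099) (.sp 4 2792 (.sp 3 8882 (.sp 1 13479 (.L 2202) (.sp 2 10462 (.L 2365) (.ss 1609 (.sp 5 1760 (.sp 3 8566 (.sp 4 2520 .R (.L 2365)) .R) (.L 2509)) (.L 2509)))) (.ss 1609 (.sp 5 1760 .R (.sp 2 10462 (.sp 4 2520 .R (.L 2509)) .R)) (.sp 2 10462 (.sp 4 2520 (.sp 3 9198 (.L 2509) .R) (.L 2509)) (.sp 3 9198 (.sp 4 2520 (.sp 5 1835 .R (.L 2509)) (.L 2509)) .R)))) (.sp 3 8882 (.L 2509) (.ss 1609 (.sp 5 1760 (.sp 2 10462 (.sp 4 3130 (.sp 3 9198 (.L 2509) .R) (.L 2509)) (.sp 4 3130 .R (.sp 3 9198 (.L 2509) (.ss 1533 .R (.L 2509))))) (.L 2509)) (.L 2509))))) (.sp 4 2792 .R (.sp 3 10146 (.sp 1 12875 (.sp 1 12271 (.L 2202) (.sp 2 10462 (.L 2202) (.sp 3 9830 (.L 2365) .R))) (.ss 1609 (.sp 5 1760 .R (.sp 4 3130 .R (.sp 2 10462 (.L 2714) .R))) (.sp 4 3130 (.ss 1684 .R (.sp 2 10462 (.sp 3 9830 (.L 2509) .R) .R)) (.sp 5 1835 (.ss 1684 (.sp 2 10462 (.L 2714) .R) (.L 2714)) (.L 2714))))) .R))))) (.sp 2 10146 (.sp 1 12875 (.L 2099) (.sp 3 9198 (.L 2365) (.sp 4 2470 (.sp 2 9830 (.ss 1911 (.sp 1 13479 (.L 2202) (.sp 4 2115 (.sp 2 9672 (.L 2365) (.sp 3 9514 (.L 2365) (.ss 1835 .R (.L 2509)))) (.L 2509))) (.L 2509)) (.ss 1911 (.sp 3 9672 (.sp 4 2115 (.sp 1 13479 (.L 2202) (.sp 5 1911 (.ss 1835 .R (.L 2509)) (.L 2509))) (.L 2509)) (.sp 4 2115 .R (.sp 3 9909 (.L 2509) .R))) (.sp 3 9672 (.L 2509) (.sp 4 2190 (.sp 2 9988 (.L 2509) (.ss 1986 (.sp 3 9909 (.L 2509) .R) (.L 2509))) (.L 2509))))) (.L 2509)))) (.sp 3 9514 (.sp 1 12875 (.L 2099) (.sp 4 2470 (.ss 1911 (.sp 3 8882 (.sp 1 13479 (.L 2202) (.sp 4 2115 (.sp 2 10462 (.L 2365) (.sp 5 1911 (.sp 3 8566 (.L 2365) (.ss 1835 (.sp 3 8724 (.sp 2 10620 (.L 2365) (.sp 4 1937 .R (.L 2365))) .R) (.L 2509))) (.L 2509))) (.L 2509))) (.sp 4 2115 (.sp 5 1911 (.sp 3 9198 (.sp 2 10462 (.sp 1 13479 (.L 2202) (.ss 1835 (.sp 4 1937 .R (.L 2509)) (.L 2509))) (.ss 1835 .R (.sp 4 1975 .R (.L 2509)))) (.sp 5 1835 .R (.ss 1835 .R (.sp 2 10462 (.sp 4 1975 .R (.L 2509)) .R)))) (.sp 2 10462 (.L 2509) (.sp 3 9198 (.ss 1835 .R (.L 2509)) .R))) (.sp 2 10462 (.L 2509) (.sp 3 9198 (.L 2509) (.sp 4 2292 .R (.ss 1835 .R (.L 2509))))))) (.sp 3 8882 (.L 2509) (.sp 4 2190 (.sp 2 10462 (.L 2509) (.sp 3 9198 (.L 2509) (.ss 1986 (.sp 3 9356 (.L 2509) (.sp 5 1986 .R (.L 2509))) (.L 2509)))) (.L 2509)))) (.L 2509))) (.sp 4 2470 (.sp 5 1911 .R (.sp 3 10146 (.sp 1 12875 (.sp 1 12271 (.L 2099) (.sp 2 10462 (.L 2202) (.sp 3 9830 (.L 2202) .R))) (.sp 4 2190 (.ss 1911 .R (.ss 1986 (.sp 2 10462 (.sp 3 9830 (.sp 4 2050 .R (.L 2509)) .R) .R) (.sp 2 10462 (.sp 3 9830 (.L 2509) (.sp 2 10304 (.L 2509) .R)) (.sp 3 9830 (.sp 2 10620 (.L 2509) .R) .R)))) (.sp 2 10462 (.sp 3 9830 (.L 2509) (.ss 1911 .R (.ss 1986 .R (.L 2509)))) (.sp 3 9830 (.ss 1911 .R (.sp 5 1986 .R (.L 2509))) .R)))) .R)) (.sp 4 2969 (.ss 1911 (.sp 3 10146 (.sp 1 12875 (.L 2365) (.sp 4 2719 (.sp 3 9830 (.sp 2 10462 (.L 2509) (.ss 1835 .R (.L 2714))) .R) (.ss 1835 (.sp 3 9830 (.L 2714) .R) (.L 2714)))) .R) (.sp 2 10462 (.L 2714) (.sp 3 10146 (.L 2714) (.sp 4 2719 .R (.sp 3 10462 (.L 2714) .R))))) (.ss 1911 (.sp 2 10462 (.L 2714) (.sp 3 10146 (.L 2714) (.sp 4 3218 .R (.L 2714)))) (.L 2714)))))))) (.sp 2 12430 (.ss 1760 (.sp 3 9958 (.sp 2 11604 (.sp 4 2248 (.sp 5 1760 (.sp 3 9104 (.sp 5 1609 .R (.sp 2 11191 (.ss 1609 .R (.sp 3 8677 (.sp 2 10984 (.sp 5 1684 .R (.sp 4 1966 .R (.sp 3 8463 (.sp 4 2107 .R (.L 2365)) .R))) (.N 4)) .R)) (.N 4))) .R) (.sp 3 9104 (.sp 2 11191 (.sp 3 8677 (.sp 4 2004 (.N 4) (.sp 2 10984 (.ss 1609 (.N 4) (.sp 3 8463 (.L 2365) .R)) (.N 4))) .R) (.N 4)) .R)) (.sp 4 2792 (.sp 3 9104 (.sp 2 11191 (.sp 1 12875 (.sp 1 12271 (.L 1792) (.sp 3 8677 (.L 2099) (.ss 1609 .R (.L 2202)))) (.ss 1609 (.sp 5 1760 (.sp 3 8677 (.sp 2 10984 (.sp 4 2520 (.N 4) (.ss 1533 (.N 4) (.L 2509))) (.N 4)) .R) (.sp 3 8677 (.sp 4 2520 (.N 4) (.L 2509)) .R)) (.sp 3 8677 (.sp 4 2520 (.sp 5 1835 (.sp 2 10984 (.sp 1 13479 (.L 2202) (.ss 1684 (.sp 3 8463 (.L 2365) .R) (.L 2509))) (.N 4)) (.L 2509)) (.L 2509)) (.sp 4 2520 .R (.sp 5 1835 (.sp 2 10984 (.ss 1684 .R (.L 2509)) .R) (.L 2509)))))) (.ss 1609 (.N 4) (.sp 4 2520 (.N 4) (.sp 5 1835 (.N 4) (.sp 3 8677 (.sp 2 11397 (.L 2509) (.N 4)) .R))))) .R) (.sp 3 9104 (.sp 1 12875 (.sp 1 12271 (.L 2099) (.sp 2 11191 (.L 2202) (.sp 3 8677 (.L 2202) (.sp 1 12573 (.L 2202) (.ss 1609 (.sp 4 3130 .R (.L 2365)) (.L 2365)))))) (.ss 1609 (.sp 5 1760 (.sp 2 11191 (.sp 3 8677 (.sp 4 3130 (.sp 1 13479 (.L 2365) (.sp 2 10984 (.L 2509) (.ss 1533 (.N 4) (.L 2509)))) (.L 2509)) (.sp 4 3130 .R (.sp 2 10984 (.L 2509) (.sp 5 1609 (.ss 1533 .R (.L 2509)) (.L 2509))))) (.sp 4 3130 (.N 4) (.ss 1533 (.N 5) (.sp 4 3299 (.N 4) (.sp 2 11397 (.L 2714) (.N 4)))))) (.sp 4 3130 (.sp 2 11191 (.sp 3 8677 (.L 2509) (.sp 3 8890 (.L 2509) .R)) (.N 4)) (.sp 2 11191 (.L 2509) (.sp 5 1911 (.sp 2 11397 (.L 2714) (.N 4)) (.L 2714))))) (.sp 4 3130 (.sp 2 11191 (.sp 3 8677 (.L 2509) (.sp 5 1835 (.sp 2 10984 (.L 2509) (.ss 1684 (.sp 3 8890 (.L 2509) .R) (.L 2509))) (.L 2509))) (.sp 5 1835 (.ss 1684 (.N 4) (.sp 2 11397 (.sp 3 8677 (.L 2509) (.sp 4 2961 .R (.L 2714))) (.N 4))) (.sp 3 8677 (.L 2509) (.sp 4 2961 (.sp 2 11397 (.L 2714) (.N 4)) (.L 2714))))) (.sp 5 1835 (.sp 2 11191 (.L 2509) (.ss 1684 (.sp 3 8677 (.L 2509) (.sp 4 3299 (.sp 2 11397 (.L 2714) (.N 4)) (.L 2714))) (.L 2714))) (.L 2714))))) (.ss 1609 (.sp 5 1760 .R (.sp 4 3130 .R (.sp 2 11191 (.sp 3 9531 (.L 2714) .R) .R))) (.sp 4 3130 (.sp 5 1835 .R (.sp 2 11191 (.sp 3 9531 (.sp 4 2961 .R (.L 2714)) .R) .R)) (.sp 5 1835 (.sp 3 9531 (.sp 1 12875 (.L 2509) (.sp 2 11191 (.L 2714) (.ss 1684 .R (.sp 4 3299 .R (.L 2714))))) .R) (.sp 2 11191 (.L 2714) (.sp 3 9531 (.L 2714) .R)))))))) (.sp 4 2248 (.N 4) (.sp 4 2792 (.N 4) (.sp 3 9104 (.ss 1609 (.N 4) (.sp 4 3130 (.N 4) (.sp 5 1835 (.N 4) (.sp 2 12017 (.L 2714) (.N 4))))) .R)))) .R) (.sp 3 9958 (.sp 4 2470 (.ss 1911 (.sp 2 11604 (.sp 3 9104 (.sp 1 12875 (.sp 1 12271 (.L 2099) (.sp 2 11191 (.L 2202) (.sp 4 2115 (.N 4) (.sp 2 11397 (.L 2202) (.N 4))))) (.sp 4 2115 (.sp 2 11191 (.sp 5 1911 (.sp 3 8677 (.sp 1 13479 (.sp 1 13177 (.L 2202) (.sp 2 10984 (.L 2202) (.ss 1835 (.N 4) (.L 2365)))) (.ss 1835 (.sp 2 10984 (.sp 4 1937 (.sp 3 8463 (.sp 2 10881 (.L 2365) (.N 4)) .R) (.L 2509)) (.N 4)) (.sp 2 10984 (.L 2509) (.sp 4 1975 (.ss 1873 (.N 4) (.sp 2 11087 (.L 2509) (.N 4))) (.L 2509))))) (.ss 1835 .R (.sp 2 10984 (.sp 3 8890 (.sp 4 1975 .R (.L 2509)) .R) .R))) (.sp 3 8677 (.sp 1 13479 (.L 2365) (.sp 2 10984 (.L 2509) (.sp 5 1986 (.ss 1835 (.N 4) (.L 2509)) (.L 2509)))) (.sp 3 8890 (.ss 1835 .R (.sp 1 13479 (.L 2365) (.sp 2 10984 (.L 2509) (.sp 5 1986 .R (.L 2509))))) .R))) (.N 4)) (.sp 2 11191 (.sp 3 8677 (.sp 1 13479 (.L 2365) (.sp 2 10984 (.L 2509) (.sp 4 2292 (.ss 1835 (.sp 5 1911 (.sp 2 11087 (.L 2509) (.N 4)) (.L 2509)) (.L 2509)) (.L 2509)))) (.sp 2 10984 (.sp 1 13479 (.L 2365) (.sp 4 2292 (.ss 1835 (.sp 5 1911 .R (.L 2509)) (.L 2509)) (.L 2509))) (.sp 4 2292 (.ss 1835 .R (.sp 3 8890 (.L 2509) .R)) (.ss 1835 (.sp 5 1911 .R (.L 2509)) (.L 2509))))) (.ss 1835 (.N 4) (.sp 2 11397 (.sp 3 8677 (.sp 4 2292 (.sp 2 11294 (.L 2509) (.N 4)) (.L 2509)) (.sp 4 2292 (.sp 3 8890 (.sp 5 1948 .R (.sp 2 11294 (.L 2509) .R)) .R) (.sp 3 8890 (.L 2509) .R))) (.N 4)))))) .R) (.N 4)) (.sp 3 9104 (.sp 2 11604 (.sp 1 12875 (.L 2365) (.sp 2 11191 (.sp 3 8677 (.L 2509) (.sp 4 2190 (.ss 1986 (.sp 2 10984 (.L 2509) (.sp 5 1986 (.sp 3 8890 (.sp 1 13479 (.L 2365) (.sp 4 2050 (.ss 1948 (.sp 2 11087 (.L 2509) .R) (.L 2509)) (.L 2509))) (.sp 4 2050 .R (.sp 2 11087 (.L 2509) .R))) (.sp 3 8890 (.L 2509) (.sp 3 8997 (.L 2509) .R)))) (.L 2509)) (.L 2509))) (.sp 4 2190 (.ss 1986 (.sp 2 11397 (.sp 3 8677 (.sp 1 13479 (.L 2365) (.sp 5 1986 (.sp 4 2050 (.sp 2 11294 (.L 2509) (.N 4)) (.L 2509)) (.L 2509))) (.sp 3 8890 (.sp 5 1986 (.ss 1948 (.sp 3 8783 (.sp 4 2050 .R (.sp 2 11294 (.L 2509) .R)) .R) (.sp 1 13479 (.L 2509) (.sp 1 13781 (.sp 4 2069 (.sp 2 11294 (.L 2509) .R) (.L 2509)) (.sp 1 13932 (.sp 4 2069 (.sp 2 11294 (.sp 3 8783 (.L 2509) .R) .R) (.L 2714)) (.L 3328))))) (.sp 1 13479 (.L 2509) (.sp 1 13781 (.sp 4 2088 (.sp 3 8783 (.L 2509) .R) (.L 2509)) (.sp 1 13932 (.sp 4 2088 (.sp 3 8783 (.L 2509) .R) (.L 2714)) (.L 3328))))) .R)) (.N 4)) (.sp 3 8677 (.sp 2 11397 (.L 2509) (.sp 3 8463 (.L 2509) (.sp 1 13479 (.L 2509) (.sp 1 13781 (.L 2509) (.L 2714))))) (.ss 2024 (.sp 2 11397 (.sp 3 8890 (.L 2509) (.sp 2 11294 (.sp 3 8997 (.L 2509) .R) (.sp 4 2088 .R (.sp 3 8997 (.L 2509) .R)))) (.sp 3 8890 (.sp 2 11500 (.sp 1 13479 (.L 2509) (.sp 1 13781 (.sp 4 2088 (.sp 3 8783 (.L 2509) .R) (.L 2509)) (.sp 1 13932 (.sp 4 2088 (.ss 2005 (.N 4) (.L 2714)) (.L 2714)) (.L 1048576)))) (.N 4)) .R)) (.sp 2 11397 (.sp 3 8890 (.L 2509) (.sp 1 13479 (.L 2509) (.sp 1 13781 (.L 2509) (.L 2714)))) (.sp 4 2107 (.sp 3 8890 (.sp 1 13479 (.L 2509) (.sp 1 13781 (.sp 1 13630 (.L 2509) (.L 2714)) (.L 2714))) .R) (.sp 3 8890 (.L 2714) (.sp 2 11500 (.L 2714) .R))))))) (.sp 3 8677 (.L 2509) (.ss 1986 (.sp 4 2330 (.sp 2 11397 (.sp 3 8890 (.L 2509) (.sp 2 11294 (.L 2509) .R)) (.sp 3 8890 (.sp 2 11500 (.ss 1948 (.N 4) (.L 2509)) (.N 4)) .R)) (.sp 2 11397 (.L 2714) (.sp 3 8890 (.L 2714) (.ss 1948 .R (.L 2714))))) (.sp 4 2330 (.sp 2 11397 (.L 2714) (.sp 3 8890 (.L 2714) (.ss 2024 (.sp 4 2260 .R (.L 2714)) (.L 2714)))) (.L 2714))))))) (.sp 4 2190 (.N 4) (.sp 2 12017 (.ss 1986 (.N 4) (.sp 4 2330 (.N 4) (.sp 2 11810 (.L 2714) (.N 4)))) (.N 4)))) (.sp 2 11604 (.sp 3 9531 (.sp 4 2190 (.sp 2 11191 (.sp 5 1986 .R (.sp 1 12875 (.L 2365) (.sp 2 10984 (.sp 3 9317 (.L 2509) (.sp 4 2088 .R (.sp 2 10881 (.L 2509) .R))) (.sp 3 9317 (.ss 1986 .R (.ss 2024 .R (.L 2509))) .R)))) .R) (.sp 1 12875 (.sp 1 12271 (.L 2202) (.sp 2 11191 (.L 2365) (.sp 3 9317 (.L 2365) .R))) (.sp 2 11191 (.ss 1986 (.sp 3 9317 (.sp 2 10984 (.L 2509) (.sp 4 2330 .R (.L 2509))) (.sp 4 2330 .R (.sp 2 10984 (.L 2509) .R))) (.L 2714)) (.ss 1986 .R (.sp 3 9317 (.sp 4 2330 (.sp 2 11397 (.ss 2024 .R (.L 2714)) .R) (.L 2714)) .R))))) (.sp 4 2190 .R (.sp 2 11191 (.ss 1986 .R (.sp 4 2330 .R (.sp 2 10984 (.L 2714) .R))) .R))) .R))) (.sp 4 2969 (.sp 3 9104 (.sp 2 11604 (.sp 1 12875 (.L 2365) (.ss 1911 (.sp 2 11191 (.L 2509) (.sp 4 2719 (.sp 3 8677 (.sp 2 11397 (.L 2509) (.ss 1835 (.N 4) (.L 2509))) (.ss 1835 (.sp 2 11397 (.sp 3 8890 (.L 2509) .R) (.N 4)) (.sp 5 1948 (.sp 4 2594 (.sp 2 11397 (.L 2714) (.N 4)) (.L 2714)) (.L 2714)))) (.sp 3 8677 (.L 2509) (.ss 1835 (.sp 5 1911 (.sp 4 2844 (.sp 2 11397 (.L 2714) (.N 4)) (.L 2714)) (.L 2714)) (.L 2714))))) (.L 2714))) (.sp 2 12017 (.sp 5 1911 (.N 4) (.sp 4 2719 (.ss 1911 (.N 4) (.sp 2 11810 (.sp 5 1986 (.N 4) (.L 2714)) (.N 4))) (.sp 1 12875 (.L 2509) (.ss 1911 (.sp 4 2844 (.N 4) (.L 2714)) (.L 2714))))) (.N 4))) (.sp 2 11604 (.ss 1911 (.sp 3 9531 (.sp 1 12875 (.sp 1 12271 (.L 2202) (.sp 2 11191 (.L 2365) (.sp 4 2719 .R (.L 2509)))) (.sp 4 2719 (.sp 2 11191 (.ss 1835 .R (.sp 3 9317 (.L 2509) .R)) .R) (.sp 2 11191 (.L 2714) (.ss 1835 .R (.sp 2 11397 (.L 2714) .R))))) .R) (.sp 4 2719 (.sp 2 11191 (.sp 1 12875 (.L 2509) (.sp 3 9531 (.L 2714) (.ss 1986 .R (.L 2714)))) (.sp 3 9531 (.sp 1 12875 (.L 2509) (.ss 1986 (.sp 2 11397 (.L 2714) .R) (.L 2714))) .R)) (.sp 2 11191 (.L 2714) (.sp 3 9531 (.L 2714) (.ss 1986 .R (.L 2714)))))) (.ss 1911 .R (.sp 3 9531 (.sp 2 12017 (.sp 4 2719 (.ss 1986 .R (.sp 4 2594 .R (.sp 2 11810 (.L 2714) .R))) (.ss 1986 (.sp 4 2844 .R (.L 2714)) (.L 2714))) (.N 4)) .R)))) (.sp 3 9104 (.sp 2 11604 (.L 2714) (.ss 1911 (.sp 2 12017 (.L 2714) (.N 4)) (.L 2714))) (.sp 2 11604 (.ss 1911 (.sp 2 11191 (.L 2714) (.sp 3 9531 (.L 2714) (.sp 4 3218 .R (.L 2714)))) (.L 2714)) (.ss 1911 (.sp 3 9531 (.sp 2 12017 (.sp 4 3218 (.ss 1835 .R (.sp 4 3093 .R (.L 2714))) (.L 2714)) (.N 4)) .R) (.sp 3 9531 (.sp 4 3218 (.sp 2 12017 (.L 2714) (.ss 1986 (.N 4) (.L 2714))) (.L 2714)) (.sp 4 3218 (.sp 2 12017 (.ss 1986 .R (.L 2714)) .R) (.sp 2 12017 (.L 2714) (.ss 1986 .R (.L 2714)))))))))) (.sp 4 2470 .R (.sp 3 10812 (.sp 4 2969 .R (.sp 2 11604 (.sp 3 10385 (.sp 5 1911 .R (.sp 2 11191 (.sp 4 3218 (.ss 1911 .R (.L 2714)) (.L 2714)) (.sp 4 3218 .R (.ss 1911 .R (.L 2714))))) (.ss 1911 .R (.sp 2 11191 (.sp 4 3218 .R (.L 2714)) .R))) .R)) .R)))) (.N 4))) (.sp 1 15291 (.sp 1 14687 (.ss 1760 (.sp 1 14385 (.sp 2 10893 (.sp 3 9571 (.sp 2 9571 (.sp 2 8910 (.L 2099) (.sp 4 2248 (.sp 2 9240 (.L 2202) (.sp 3 8910 (.L 2202) (.sp 5 1760 (.ss 1609 .R (.sp 3 9240 (.L 2335) (.sp 4 1928 .R (.L 2365)))) (.L 2365)))) (.L 2365))) (.sp 4 2248 (.sp 5 1760 (.ss 1609 (.sp 2 10232 (.sp 3 8910 (.sp 4 1810 (.sp 2 9901 (.sp 3 8580 (.L 2202) .R) .R) (.sp 2 9901 (.L 2335) (.sp 3 8580 (.L 2335) .R))) .R) .R) (.sp 2 10232 (.sp 1 14234 (.sp 1 14158 (.sp 3 8910 (.sp 2 9901 (.L 2202) (.sp 3 8580 (.L 2202) (.sp 5 1684 .R (.L 2365)))) (.sp 4 1928 .R (.sp 2 9901 (.sp 3 9240 (.L 2365) .R) .R))) (.sp 3 8910 (.sp 2 9901 (.L 2202) (.sp 4 1928 (.sp 3 8580 (.L 2202) (.ss 1684 .R (.L 2365))) (.L 2365))) (.sp 4 1928 .R (.sp 2 9901 (.sp 3 9240 (.L 2365) .R) .R)))) (.sp 3 8910 (.sp 2 9901 (.L 2335) (.sp 4 1928 (.sp 3 8580 (.L 2335) (.ss 1684 .R (.L 2365))) (.L 2365))) (.sp 4 1928 .R (.sp 2 9901 (.sp 3 9240 (.L 2365) .R) .R)))) (.sp 3 8910 (.sp 1 14234 (.sp 1 14158 (.sp 1 14120 (.sp 4 1928 (.sp 2 10562 (.sp 3 8580 (.ss 1684 .R (.L 2365)) .R) .R) (.sp 1 14101 (.sp 2 10562 (.sp 3 8580 (.L 2365) (.sp 2 10397 (.L 2365) .R)) (.sp 3 8580 (.ss 1684 .R (.sp 3 8415 (.L 2365) .R)) .R)) (.sp 2 10562 (.sp 3 8580 (.L 2365) (.sp 2 10397 (.L 2365) .R)) (.sp 3 8580 (.ss 1684 .R (.sp 3 8415 (.L 2365) .R)) .R)))) (.sp 4 1928 (.sp 2 10562 (.sp 3 8580 (.ss 1684 .R (.L 2365)) .R) .R) (.sp 2 10562 (.sp 3 8580 (.L 2365) (.sp 2 10397 (.L 2365) .R)) (.sp 3 8580 (.ss 1684 .R (.sp 3 8415 (.L 2365) .R)) .R)))) (.sp 4 1928 (.ss 1684 .R (.sp 2 10562 (.sp 3 8580 (.L 2365) .R) .R)) (.sp 2 10562 (.sp 3 8580 (.L 2365) (.ss 1684 .R (.L 2509))) (.ss 1684 .R (.sp 3 8580 (.sp 3 8415 (.L 2509) .R) .R))))) (.sp 4 1928 (.ss 1684 .R (.sp 2 10562 (.sp 3 8580 (.L 2365) .R) .R)) (.sp 3 8580 (.sp 2 10562 (.L 2365) (.ss 1684 .R (.L 2714))) (.sp 4 2088 .R (.ss 1684 .R (.L 3328)))))) .R))) (.sp 2 10232 (.sp 1 14234 (.sp 1 14158 (.sp 3 8910 (.L 2365) (.ss 1609 .R (.sp 1 14120 (.sp 5 1911 (.sp 3 9240 (.sp 2 9901 (.L 2365) (.sp 4 2004 .R (.L 2365))) (.sp 2 9901 (.sp 4 2004 .R (.L 2365)) .R)) (.sp 1 14101 (.sp 2 9901 (.L 2365) (.sp 3 9240 (.L 2365) .R)) (.L 2714))) (.sp 5 1911 (.sp 3 9240 (.sp 2 9901 (.L 2365) (.sp 4 2004 .R (.L 2365))) (.sp 2 9901 (.sp 4 2004 .R (.L 2365)) .R)) (.L 2714))))) (.sp 3 8910 (.L 2365) (.ss 1609 .R (.sp 5 1911 (.sp 3 9240 (.sp 2 9901 (.L 2365) (.sp 4 2004 .R (.L 2509))) (.sp 4 2004 .R (.sp 2 9901 (.L 2509) .R))) (.L 2714))))) (.sp 3 8910 (.L 2365) (.ss 1609 .R (.sp 5 1911 (.sp 3 9240 (.sp 2 9901 (.L 2365) (.sp 4 2004 .R (.L 2714))) (.sp 4 2004 .R (.L 3328))) (.L 2714))))) (.sp 3 8910 (.sp 1 14234 (.sp 1 14158 (.sp 1 14120 (.sp 1 14101 (.sp 2 10562 (.sp 5 1911 (.ss 1609 .R (.sp 3 8580 (.L 2365) (.sp 4 2004 .R (.L 2365)))) (.L 2365)) (.ss 1609 .R (.sp 5 1911 (.sp 3 8580 (.sp 4 2004 (.sp 2 10727 (.L 2365) .R) (.L 2365)) .R) (.sp 3 8580 (.L 2365) (.sp 4 2079 .R (.L 2714)))))) (.sp 5 1911 (.ss 1609 .R (.sp 2 10562 (.sp 3 8580 (.L 2365) (.sp 4 2004 .R (.L 2365))) (.sp 3 8580 (.sp 4 2004 (.sp 2 10727 (.sp 3 8415 (.L 2365) .R) .R) (.L 2509)) .R))) (.sp 2 10562 (.L 2365) (.ss 1609 .R (.sp 4 2079 (.sp 3 8580 (.L 2509) .R) (.L 2714)))))) (.sp 5 1911 (.ss 1609 .R (.sp 2 10562 (.sp 3 8580 (.L 2365) (.sp 4 2004 .R (.L 2406))) (.sp 3 8580 (.sp 4 2004 (.sp 2 10727 (.sp 3 8415 (.L 2365) .R) .R) (.L 2509)) .R))) (.sp 2 10562 (.L 2365) (.ss 1609 .R (.sp 4 2079 (.sp 3 8580 (.L 2509) .R) (.L 2714)))))) (.sp 5 1911 (.ss 1609 .R (.sp 4 2004 (.sp 3 8580 (.sp 1 14196 (.sp 2 10562 (.L 2365) (.sp 2 10727 (.sp 3 8415 (.L 2365) .R) .R)) (.sp 2 10562 (.L 2365) (.sp 2 10727 (.sp 3 8415 (.L 2365) .R) .R))) .R) (.sp 2 10562 (.L 2509) (.sp 3 8580 (.L 2509) .R)))) (.sp 2 10562 (.L 2509) (.ss 1609 .R (.sp 3 8580 (.L 2714) (.sp 4 2079 .R (.L 3328))))))) (.sp 3 8580 (.sp 5 1911 (.ss 1609 .R (.sp 2 10562 (.L 2365) (.sp 4 2004 (.sp 4 1882 .R (.sp 2 10727 (.L 2365) .R)) (.L 2714)))) (.sp 2 10562 (.L 2365) (.ss 1609 .R (.L 2714)))) (.ss 1609 .R (.sp 2 10562 (.sp 5 1911 (.sp 4 2004 .R (.L 2714)) (.L 2714)) (.sp 5 1911 .R (.L 3328)))))) .R))) (.sp 4 2792 (.sp 2 10232 (.sp 1 14234 (.sp 1 14158 (.sp 1 14120 (.sp 3 8910 (.L 2365) (.ss 1609 (.sp 5 1760 (.sp 2 9901 (.sp 3 9240 (.L 2365) .R) .R) (.L 2714)) (.L 2714))) (.sp 3 8910 (.L 2365) (.ss 1609 (.sp 5 1760 (.sp 2 9901 (.sp 3 9240 (.L 2365) .R) .R) (.L 2714)) (.L 2714)))) (.sp 3 8910 (.L 2365) (.ss 1609 (.sp 5 1760 (.sp 4 2520 .R (.sp 2 9901 (.L 2509) .R)) (.L 2714)) (.L 2714)))) (.sp 3 8910 (.L 2365) (.sp 3 9240 (.ss 1609 (.sp 5 1760 (.sp 2 9901 (.L 2365) .R) (.L 2714)) (.L 2714)) (.sp 2 9901 (.ss 1609 (.sp 5 1760 .R (.L 2714)) (.L 2714)) (.ss 1609 .R (.L 3328)))))) (.sp 3 8910 (.ss 1609 (.sp 5 1760 (.sp 4 2520 (.sp 2 10562 (.sp 3 8580 (.L 2365) .R) .R) (.sp 2 10562 (.L 2509) (.ss 1533 .R (.L 2714)))) (.sp 4 2520 (.sp 2 10562 (.L 2509) (.sp 3 8580 (.L 2509) .R)) (.L 2714))) (.sp 4 2520 (.sp 5 1835 (.sp 2 10562 (.L 2509) (.sp 1 14234 (.ss 1684 (.sp 3 8580 (.L 2509) .R) (.L 2714)) (.L 3328))) (.L 2714)) (.L 2714))) (.ss 1609 .R (.sp 2 10562 (.sp 3 9240 (.sp 1 14234 (.sp 4 2520 (.ss 1684 .R (.L 2714)) (.L 2714)) (.L 3328)) (.sp 4 2520 .R (.L 3328))) (.sp 4 2520 .R (.L 3328)))))) (.sp 3 8910 (.L 2714) (.sp 2 10232 (.L 2714) (.L 3328)))))) (.sp 4 2248 .R (.sp 3 10232 (.sp 4 2792 (.ss 1609 .R (.sp 3 9901 (.sp 2 10232 (.sp 2 9901 (.L 2714) .R) .R) .R)) (.L 3328)) .R))) (.sp 4 2248 (.sp 2 12639 (.sp 3 9958 (.sp 2 11766 (.sp 3 9104 (.sp 2 11329 (.ss 1609 (.N 4) (.sp 5 1835 (.N 4) (.sp 5 1948 (.N 4) (.sp 4 2098 (.N 4) (.L 3328))))) (.N 4)) .R) (.N 4)) .R) (.N 4)) (.sp 2 12639 (.sp 3 9958 (.sp 2 11766 (.sp 3 9104 (.sp 4 2792 (.sp 2 11329 (.sp 3 8677 (.sp 1 14234 (.ss 1609 (.sp 5 1760 (.N 4) (.sp 4 2520 (.N 4) (.L 3328))) (.sp 3 8463 (.sp 4 2520 (.sp 2 11111 (.sp 1 14158 (.sp 1 14120 (.sp 5 1835 (.ss 1684 (.N 4) (.L 2509)) (.L 2509)) (.L 2714)) (.L 2714)) (.N 4)) (.L 2714)) (.sp 2 11111 (.sp 4 2520 (.sp 5 1835 .R (.L 2714)) (.L 3328)) (.sp 4 2520 (.N 4) (.L 3328))))) (.sp 1 14309 (.sp 2 11111 (.ss 1609 (.sp 5 1760 (.N 4) (.L 3328)) (.L 3328)) (.L 1048576)) (.L 1048576))) (.ss 1609 .R (.sp 4 2520 .R (.L 3328)))) (.N 4)) (.L 3328)) (.L 1048576)) (.N 4)) .R) (.N 4)))) (.sp 3 9958 (.sp 2 11007 (.sp 2 9628 (.sp 2 8939 (.L 2099) (.sp 4 2248 (.sp 5 1760 (.sp 2 9283 (.L 2365) (.sp 3 8939 (.L 2365) (.ss 1609 .R (.sp 1 14536 (.sp 4 1928 (.ss 1684 .R (.L 2714)) (.L 2714)) (.L 3328))))) (.L 2714)) (.L 2714))) (.sp 4 2248 (.sp 5 1760 (.sp 3 9104 (.sp 2 10317 (.ss 1609 (.sp 4 1810 .R (.sp 3 8677 (.sp 2 9972 (.L 2365) (.sp 4 2029 .R (.L 2714))) .R)) (.sp 1 14536 (.sp 4 1928 (.ss 1684 (.sp 3 8677 (.L 2406) .R) (.L 2714)) (.L 2714)) (.L 3328))) (.ss 1609 .R (.sp 3 8677 (.sp 1 14536 (.sp 4 1928 (.ss 1684 .R (.L 3328)) (.L 3328)) (.L 1048576)) .R))) .R) (.sp 1 14536 (.sp 5 1911 (.sp 4 2004 (.sp 3 9104 (.sp 2 10317 (.L 2714) (.L 3328)) .R) (.L 3328)) (.L 3328)) (.L 3328))) (.L 3328))) (.L 1048576)) (.L 1048576))) (.sp 1 14385 (.sp 4 2470 (.sp 3 9958 (.sp 2 10893 (.sp 3 9104 (.sp 2 9571 (.L 2335) (.sp 2 10232 (.L 2365) (.ss 1911 (.sp 4 2115 (.sp 5 1911 (.ss 1835 (.sp 2 10562 (.sp 1 14234 (.sp 1 14158 (.sp 3 8677 (.L 2365) (.sp 3 8890 (.L 2365) .R)) (.sp 3 8677 (.L 2365) (.sp 3 8890 (.L 2509) .R))) (.sp 3 8677 (.L 2365) (.sp 3 8890 (.L 2714) .R))) (.sp 3 8677 (.sp 1 14234 (.sp 1 14158 (.sp 4 1937 (.sp 5 1835 (.sp 2 10727 (.L 2365) (.sp 3 8463 (.L 2365) .R)) (.L 2509)) (.L 2509)) (.sp 4 1937 (.sp 5 1835 (.ss 1797 (.sp 2 10727 (.L 2509) .R) (.L 2714)) (.L 2714)) (.L 2714))) (.sp 3 8463 (.L 2714) (.sp 2 10727 (.L 2714) (.L 3328)))) .R)) (.sp 1 14234 (.sp 2 10562 (.L 2509) (.sp 3 8677 (.L 2509) (.sp 3 8890 (.L 2714) (.sp 4 1975 .R (.L 3328))))) (.L 3328))) (.L 2714)) (.L 2714)) (.L 2714)))) (.sp 2 9998 (.sp 2 9551 (.L 2365) (.ss 1911 (.sp 4 2115 (.sp 5 1911 (.sp 3 9531 (.L 2509) (.sp 2 9774 (.L 2509) .R)) (.L 2714)) (.L 2714)) (.L 2714))) (.ss 1911 (.sp 4 2115 (.sp 3 9531 (.sp 2 10445 (.sp 5 1911 (.ss 1835 .R (.sp 1 14234 (.sp 4 1975 (.sp 2 10221 (.L 2509) .R) (.L 2714)) (.L 3328))) (.L 2714)) .R) .R) (.L 3328)) (.L 3328)))) (.sp 2 12639 (.sp 2 11766 (.sp 3 9104 (.ss 1911 (.sp 4 2115 (.sp 2 11329 (.sp 3 8677 (.sp 3 8463 (.sp 5 1911 (.sp 2 11111 (.sp 1 14234 (.sp 1 14158 (.ss 1835 (.sp 4 1937 (.N 4) (.L 2509)) (.L 2509)) (.ss 1835 (.sp 4 1937 (.N 4) (.L 2714)) (.L 2714))) (.L 3328)) (.ss 1835 (.N 4) (.sp 4 1975 (.N 4) (.L 3328)))) (.L 2714)) (.sp 2 11111 (.sp 1 14234 (.sp 5 1911 (.ss 1835 .R (.sp 1 14158 (.sp 4 1975 (.ss 1873 .R (.L 2714)) (.L 2714)) (.L 3328))) (.L 2714)) (.L 1048576)) (.ss 1835 (.N 4) (.sp 4 1975 (.N 4) (.L 3328))))) (.sp 5 1911 .R (.L 3328))) (.N 4)) (.L 3328)) (.L 3328)) (.L 1048576)) (.N 4)) (.N 4))) (.ss 1911 .R (.L 1048576))) (.sp 3 9958 (.sp 2 10893 (.L 2714) (.L 3328)) (.L 1048576))) (.sp 3 9958 (.sp 2 11007 (.sp 2 9628 (.L 2714) (.L 3328)) (.L 1048576)) (.L 1048576)))) (.L 3328)) (.L 1048576))))) (.sp 3 9958 (.sp 1 11667 (.sp 4 5876 (.sp 1 9958 (.L 1280) (.sp 1 10812 (.L 1792) (.sp 2 9958 (.L 2099) (.sp 1 11239 (.L 2202) (.sp 2 10812 (.L 2202) (.sp 5 1458 (.N 5) (.L 2202))))))) (.sp 1 9958 (.L 2365) (.ss 1458 (.sp 1 10812 (.L 2714) (.sp 2 9958 (.L 2714) (.sp 4 7649 (.L 2714) (.sp 3 9104 (.ss 1244 (.sp 2 10812 (.L 2714) (.N 5)) (.L 2714)) (.ss 1244 (.sp 2 10812 (.sp 2 10385 (.sp 5 1458 (.ss 1137 (.N 5) (.L 2714)) (.L 2714)) (.N 5)) (.N 5)) (.sp 4 8803 (.L 2714) (.sp 2 10812 (.L 2714) (.sp 5 1601 (.N 5) (.L 2714))))))))) (.L 2714)))) (.sp 1 14083 (.ss 1458 (.sp 2 10778 (.sp 2 9514 (.sp 4 5744 (.L 2365) (.L 2714)) (.ss 1244 (.sp 5 1458 (.sp 2 10146 (.sp 4 5876 (.sp 1 12875 (.L 2202) (.sp 3 9104 (.L 2365) (.sp 4 4514 (.sp 2 9830 (.sp 3 9467 (.L 2365) (.sp 1 13479 (.L 2202) (.sp 4 3991 (.sp 4 3729 .R (.ss 1137 (.sp 2 9672 (.L 2406) (.N 5)) (.L 2509))) (.ss 1137 (.sp 2 9672 (.L 2509) (.N 5)) (.L 2509))))) (.ss 1137 (.N 5) (.ss 1190 (.N 5) (.sp 3 9531 (.L 2509) (.sp 4 3991 .R (.L 2509)))))) (.sp 2 9830 (.L 2509) (.ss 1137 (.N 5) (.L 2509)))))) (.sp 4 7649 (.L 2714) (.sp 1 12875 (.sp 3 9104 (.L 2714) (.sp 4 8803 (.ss 1137 (.sp 2 9830 (.L 2714) (.N 5)) (.L 2714)) (.sp 3 9531 (.ss 1137 (.sp 2 9830 (.L 2714) (.N 5)) (.L 2714)) (.sp 1 12271 (.sp 2 9838 (.ss 1137 (.sp 5 1244 (.N 5) (.L 2714)) (.L 2714)) (.ss 1137 (.N 5) (.ss 1190 (.N 5) (.L 2714)))) (.sp 4 9380 (.sp 1 12573 (.ss 1137 (.sp 5 1244 (.N 5) (.L 2714)) (.L 2714)) (.sp 2 9838 (.sp 1 12724 (.L 2714) (.L 3328)) (.ss 1137 (.N 5) (.L 3328)))) (.sp 2 9838 (.sp 1 12573 (.ss 1137 (.sp 5 1244 (.N 5) (.L 2714)) (.L 2714)) (.sp 2 9684 (.sp 1 12724 (.L 2714) (.L 3328)) (.L 3328))) (.ss 1137 (.N 5) (.L 3328)))))))) (.sp 4 8803 (.sp 1 13479 (.sp 1 13177 (.sp 3 9104 (.L 2714) (.sp 1 13026 (.ss 1137 (.sp 2 9830 (.L 2714) (.N 5)) (.L 2714)) (.sp 4 8226 (.L 2714) (.L 3328)))) (.sp 3 9104 (.L 2714) (.L 3328))) (.L 3328)) (.L 3328))))) (.N 5)) (.sp 3 9104 (.sp 4 5618 (.sp 1 12875 (.L 2202) (.sp 2 10146 (.L 2365) (.sp 2 10462 (.L 2509) (.N 5)))) (.L 2714)) (.sp 5 1760 (.sp 2 10146 (.sp 4 5876 (.sp 1 12875 (.L 2202) (.sp 4 4514 (.sp 2 9830 (.L 2509) (.ss 1137 (.N 5) (.sp 3 9531 (.L 2509) (.sp 4 3991 (.sp 3 9744 (.L 2509) .R) (.L 2509))))) (.L 2714))) (.sp 4 7649 (.L 2714) (.sp 1 12875 (.L 2714) (.L 3328)))) (.ss 1137 (.N 5) (.sp 5 1609 (.N 5) (.sp 2 10462 (.sp 2 10304 (.sp 5 1684 (.N 5) (.L 2714)) (.N 5)) (.N 5))))) (.sp 2 10146 (.L 2714) (.sp 2 10462 (.ss 1137 (.N 5) (.L 2714)) (.N 5)))))) (.sp 5 1601 (.sp 3 9104 (.sp 4 5618 (.sp 1 12875 (.L 2202) (.sp 2 10146 (.L 2365) (.sp 4 4413 (.sp 3 8677 (.L 2509) (.sp 2 10462 (.L 2509) (.ss 1351 (.N 5) (.L 2509)))) (.L 2509)))) (.L 2714)) (.sp 2 10146 (.sp 4 5876 (.sp 1 12875 (.L 2202) (.sp 4 4514 (.sp 2 9830 (.L 2509) (.sp 3 9531 (.L 2509) (.sp 4 3991 (.ss 1351 (.sp 4 3729 .R (.L 2509)) (.L 2509)) (.L 2509)))) (.L 2714))) (.sp 4 7649 (.L 2714) (.sp 1 12875 (.L 2714) (.L 3328)))) (.ss 1351 (.sp 2 10462 (.sp 4 5876 (.sp 1 12875 (.L 2202) (.sp 4 4514 (.sp 3 9531 (.sp 4 3991 (.sp 5 1422 (.sp 4 3729 .R (.L 2509)) (.L 2509)) (.L 2509)) (.sp 4 3991 (.sp 5 1422 .R (.sp 3 9744 (.sp 4 3729 .R (.L 2509)) .R)) (.sp 5 1422 (.sp 4 4252 (.ss 1297 (.sp 5 1333 (.N 5) (.L 2714)) (.L 2714)) (.L 2714)) (.L 2714)))) (.L 2714))) (.sp 4 7649 (.L 2714) (.sp 1 12875 (.sp 4 8803 (.L 2714) (.sp 1 12271 (.L 2714) (.L 3328))) (.L 3328)))) (.N 5)) (.sp 3 9531 (.sp 4 5749 (.sp 1 12875 (.L 2202) (.sp 4 4465 (.sp 4 3966 (.sp 2 10462 (.L 2509) (.sp 3 9317 (.L 2509) (.sp 4 3717 .R (.L 2509)))) (.L 2714)) (.L 2714))) (.L 2714)) (.sp 4 5876 (.sp 4 4514 (.sp 1 12875 (.L 2365) (.sp 4 3991 (.sp 2 10462 (.sp 4 3729 .R (.L 2714)) .R) (.L 2714))) (.L 2714)) (.sp 1 12875 (.sp 4 7649 (.L 2714) (.sp 1 12271 (.L 2714) (.L 3328))) (.L 3328))))))) (.sp 3 9104 (.L 2714) (.sp 2 10146 (.L 2714) (.sp 5 1831 (.sp 3 9531 (.L 2714) (.sp 4 5876 (.sp 4 4514 (.sp 1 12875 (.L 2365) (.sp 4 3991 (.sp 4 3729 .R (.L 2714)) (.L 2714))) (.L 2714)) (.L 2714))) (.L 2714))))))) (.ss 1244 (.N 5) (.sp 5 1601 (.sp 2 12430 (.sp 2 11604 (.ss 1351 (.N 5) (.sp 2 11191 (.sp 5 1476 (.N 5) (.sp 2 10984 (.sp 5 1538 (.ss 1404 (.N 5) (.sp 2 10881 (.sp 5 1507 (.N 5) (.ss 1431 (.N 5) (.sp 2 10829 (.sp 5 1522 (.N 5) (.ss 1444 (.N 5) (.sp 2 10803 (.ss 1451 (.N 5) (.sp 2 10790 (.ss 1454 (.N 5) (.L 2714)) (.N 5))) (.N 5)))) (.N 5)))) (.N 5))) (.ss 1404 (.N 5) (.sp 2 10881 (.ss 1431 (.N 5) (.sp 2 10829 (.ss 1444 (.N 5) (.sp 3 9104 (.L 2714) (.sp 3 9531 (.L 2714) (.sp 4 5876 (.sp 4 4514 (.sp 4 3991 .R (.L 2714)) (.L 2714)) (.L 2714))))) (.N 5))) (.N 5)))) (.N 5))) (.N 5))) (.N 5)) (.N 5)) (.sp 2 12430 (.sp 2 11604 (.sp 2 11191 (.ss 1351 (.N 5) (.sp 3 9104 (.L 2714) (.sp 5 1831 (.sp 2 10984 (.ss 1404 (.N 5) (.sp 3 9531 (.L 2714) (.sp 4 5876 (.sp 4 4514 (.sp 4 3991 .R (.L 2714)) (.L 2714)) (.L 2714)))) (.N 5)) (.L 2714)))) (.N 5)) (.N 5)) (.N 5))))) (.sp 2 10778 (.sp 2 9514 (.L 2714) (.ss 1760 (.sp 3 9104 (.L 2714) (.ss 1609 (.sp 5 1760 (.sp 2 10146 (.L 2714) (.sp 3 9531 (.L 2714) (.sp 4 5876 (.sp 4 4514 (.sp 1 12875 (.L 2365) (.sp 4 3991 (.sp 4 3729 (.sp 5 1609 (.sp 2 10462 (.L 2509) .R) (.L 2714)) (.L 2714)) (.L 2714))) (.L 2714)) (.L 2714)))) (.L 2714)) (.L 2714))) (.L 2714))) (.ss 1760 (.sp 2 12430 (.sp 3 9104 (.sp 4 5618 (.sp 4 4413 (.sp 2 11604 (.ss 1609 (.sp 5 1760 (.sp 1 12875 (.L 2365) (.sp 4 3940 (.sp 2 11191 (.L 2509) (.ss 1533 (.N 5) (.L 2714))) (.L 2714))) (.L 2714)) (.L 2714)) (.ss 1609 (.N 5) (.sp 2 12017 (.L 2714) (.N 5)))) (.L 2714)) (.L 2714)) (.sp 2 11604 (.ss 1609 (.sp 5 1760 (.sp 2 11191 (.sp 3 9531 (.sp 4 5749 (.sp 4 4465 (.sp 1 12875 (.L 2365) (.sp 4 3966 (.sp 5 1609 (.ss 1533 (.sp 4 3717 .R (.L 2714)) (.L 2714)) (.L 2714)) (.L 2714))) (.L 2714)) (.L 2714)) (.sp 4 5876 (.sp 4 4514 (.sp 4 3991 (.sp 4 3729 .R (.ss 1533 .R (.L 2714))) (.L 2714)) (.L 2714)) (.sp 4 7649 (.L 2714) (.L 3328)))) (.ss 1533 (.N 5) (.sp 2 11397 (.sp 3 9531 (.sp 4 5749 (.sp 4 4465 (.sp 4 3966 (.sp 4 3717 .R (.L 2714)) (.L 2714)) (.L 2714)) (.L 2714)) (.sp 4 5876 (.sp 4 4514 (.sp 4 3991 .R (.L 2714)) (.L 2714)) (.sp 4 7649 (.L 2714) (.L 3328)))) (.N 5)))) (.sp 2 11191 (.L 2714) (.sp 3 9531 (.L 2714) (.sp 4 5876 (.sp 4 4514 (.sp 4 3991 (.sp 4 3729 .R (.L 2714)) (.L 2714)) (.L 2714)) (.L 2714))))) (.sp 5 1835 (.sp 2 11191 (.L 2714) (.sp 3 9531 (.L 2714) (.sp 4 5876 (.sp 4 4514 (.sp 4 3991 (.sp 4 3729 .R (.L 2714)) (.L 2714)) (.L 2714)) (.L 2714)))) (.L 2714))) (.ss 1609 (.N 5) (.sp 2 12017 (.sp 5 1835 (.sp 3 9531 (.sp 4 5749 (.sp 4 4465 (.sp 4 3966 (.ss 1684 (.sp 4 3717 .R (.L 2714)) (.L 2714)) (.L 2714)) (.L 2714)) (.L 2714)) (.sp 4 5876 (.sp 4 4514 (.sp 4 3991 .R (.L 2714)) (.L 2714)) (.sp 4 7649 (.L 2714) (.L 3328)))) (.sp 3 9531 (.L 2714) (.sp 4 5876 (.sp 4 4514 (.sp 4 3991 (.sp 4 3729 .R (.L 2714)) (.L 2714)) (.L 2714)) (.L 3328)))) (.N 5))))) (.N 5)) (.sp 3 9104 (.sp 4 5618 (.sp 4 4413 (.ss 1911 (.sp 2 12430 (.L 2714) (.N 5)) (.L 2714)) (.L 2714)) (.L 2714)) (.sp 4 5876 (.sp 4 4514 (.sp 4 3991 (.ss 1911 (.sp 2 12430 (.sp 2 11604 (.L 2714) (.sp 3 9531 (.L 2714) (.sp 2 12017 (.L 2714) (.sp 4 3729 .R (.L 2714))))) (.N 4)) (.sp 2 12430 (.L 2714) (.sp 4 3729 (.N 4) (.L 2714)))) (.ss 1911 (.sp 2 12430 (.L 2714) (.N 5)) (.L 2714))) (.L 2714)) (.sp 4 7649 (.L 2714) (.L 3328))))))) (.sp 1 15291 (.sp 2 11231 (.sp 3 9104 (.sp 1 14687 (.sp 4 5618 (.ss 1458 (.sp 2 9740 (.L 2365) (.sp 2 10485 (.sp 1 14385 (.sp 4 4413 (.ss 1244 (.sp 5 1458 (.sp 2 10112 (.L 2509) (.N 5)) (.L 2714)) (.L 2714)) (.L 2714)) (.L 3328)) (.ss 1244 (.N 5) (.L 3328)))) (.L 2714)) (.L 3328)) (.L 3328)) (.sp 2 10167 (.sp 3 9531 (.sp 1 14687 (.sp 4 5749 (.ss 1458 (.sp 1 14385 (.sp 4 4465 (.ss 1244 (.sp 5 1458 (.sp 2 9635 (.L 2365) (.ss 1137 (.N 5) (.sp 4 3966 (.sp 1 14234 (.sp 5 1297 (.sp 4 3717 (.sp 2 9901 (.L 2509) .R) (.L 2714)) (.L 2714)) (.L 3328)) (.L 2714)))) (.L 2714)) (.L 2714)) (.L 2714)) (.L 3328)) (.L 2714)) (.L 3328)) (.L 1048576)) (.sp 2 9849 (.sp 1 14687 (.sp 4 5844 (.sp 1 14385 (.ss 1458 (.sp 4 4501 (.ss 1244 (.sp 5 1458 (.sp 4 3984 (.sp 4 3726 .R (.sp 4 3855 .R (.sp 3 9690 (.L 2714) .R))) (.L 3328)) (.L 2714)) (.L 2714)) (.L 3328)) (.L 3328)) (.L 1048576)) (.L 1048576)) (.L 1048576)) (.sp 1 14687 (.sp 4 5876 (.sp 1 14385 (.sp 4 4514 (.ss 1458 (.sp 1 14234 (.ss 1244 (.sp 5 1458 (.sp 4 3991 .R (.L 3328)) (.L 3328)) (.L 3328)) (.L 1048576)) (.L 3328)) (.L 1048576)) (.L 1048576)) (.L 1048576)) (.L 1048576)))) (.sp 1 14687 (.sp 4 5876 (.sp 1 14385 (.sp 4 4514 (.ss 1458 (.sp 2 10699 (.sp 1 14234 (.ss 1244 (.sp 5 1458 (.N 5) (.L 3328)) (.L 3328)) (.L 1048576)) (.L 1048576)) (.L 3328)) (.L 1048576)) (.L 1048576)) (.L 1048576)) (.L 1048576)))) (.ss 1458 (.N 5) (.L 1048576))) (.L 1048576)))) (.sp 4 6360 (.sp 1 12818 (.sp 1 11388 (.sp 1 10673 (.L 2202) (.sp 2 10673 (.L 2253) (.sp 1 11030 (.L 2253) (.ss 1458 (.sp 2 11030 (.ss 1244 (.N 5) (.L 2284)) (.N 5)) (.sp 2 11030 (.L 2284) (.sp 3 10673 (.L 2284) (.ss 1760 (.sp 1 11209 (.L 2365) (.sp 4 4696 (.sp 3 11030 (.L 2365) .R) (.L 2714))) (.L 2509)))))))) (.ss 1458 (.sp 2 11388 (.sp 2 10673 (.sp 2 10315 (.sp 1 12103 (.L 2253) (.sp 4 4696 (.sp 1 12460 (.L 2202) (.ss 1244 (.sp 2 10136 (.L 2202) (.sp 5 1458 (.N 5) (.L 2365))) (.L 2365))) (.sp 4 5528 (.ss 1244 (.sp 5 1458 (.sp 2 10136 (.L 2365) (.N 5)) (.L 2509)) (.L 2509)) (.L 2509)))) (.ss 1244 (.ss 1137 (.N 5) (.sp 5 1531 (.N 5) (.sp 2 10494 (.sp 5 1796 (.N 5) (.L 2406)) (.N 5)))) (.sp 1 12103 (.L 2284) (.sp 4 4696 (.sp 5 1601 (.sp 4 4082 .R (.sp 2 10494 (.sp 1 12460 (.L 2365) (.sp 3 10226 (.L 2365) (.sp 4 4389 .R (.L 2509)))) (.ss 1351 (.N 5) (.sp 3 10315 (.L 2509) (.sp 4 4389 .R (.L 2714)))))) (.sp 4 4082 (.sp 2 10494 (.L 2365) .R) (.L 2509))) (.sp 5 1601 (.sp 4 5528 (.ss 1351 (.sp 2 10494 (.L 2509) (.N 5)) (.L 2714)) (.L 2714)) (.L 2714)))))) (.ss 1244 (.N 5) (.sp 2 11030 (.ss 1351 (.sp 5 1601 (.N 5) (.ss 1297 (.N 5) (.sp 2 10851 (.sp 5 1831 (.N 5) (.sp 5 1946 (.N 5) (.sp 2 10762 (.L 2509) (.N 5)))) (.N 5)))) (.sp 4 4696 (.sp 4 4082 .R (.sp 5 1669 (.sp 3 10494 (.sp 2 10851 (.ss 1404 (.N 5) (.L 2509)) (.N 5)) .R) (.sp 1 12103 (.L 2509) (.sp 3 10494 (.L 2714) (.sp 4 4389 .R (.L 2714)))))) (.sp 5 1669 (.sp 2 10851 (.ss 1404 (.N 5) (.L 2714)) (.N 5)) (.L 2714)))) (.N 5)))) (.N 5)) (.sp 2 11388 (.sp 2 10673 (.sp 2 10315 (.L 2365) (.sp 1 12103 (.L 2365) (.ss 1760 (.sp 4 4696 (.ss 1609 (.sp 5 1760 (.sp 4 4082 (.sp 3 10315 (.L 2365) .R) (.L 2509)) (.L 2509)) (.L 2509)) (.L 2714)) (.L 2509)))) (.sp 4 4696 (.ss 1760 (.sp 4 4082 (.sp 3 10673 (.sp 1 12103 (.sp 2 11030 (.L 2365) (.ss 1609 .R (.L 2509))) (.ss 1609 (.sp 5 1760 .R (.sp 4 3775 .R (.sp 3 10315 (.L 2714) .R))) (.sp 5 1835 (.sp 4 3775 .R (.sp 3 10315 (.L 2714) .R)) (.sp 4 3775 (.sp 3 10315 (.L 2714) .R) (.L 2714))))) .R) (.sp 3 10673 (.ss 1609 (.sp 5 1760 (.sp 1 12103 (.L 2509) (.sp 2 11030 (.sp 3 10315 (.L 2509) (.sp 4 4389 .R (.L 2714))) (.sp 3 10315 (.sp 5 1609 (.ss 1533 (.sp 4 4389 .R (.L 2714)) (.L 2714)) (.L 2714)) (.sp 4 4389 .R (.sp 4 4542 .R (.sp 5 1609 (.ss 1533 .R (.L 2714)) (.L 2714))))))) (.L 2714)) (.L 2714)) (.sp 3 11030 (.ss 1609 (.sp 2 11030 (.sp 4 4389 .R (.sp 3 10851 (.L 2714) .R)) (.sp 5 1760 .R (.sp 4 4389 .R (.L 2714)))) (.sp 1 12103 (.L 2714) (.sp 5 1835 (.sp 4 4389 .R (.L 2714)) (.L 2714)))) .R))) (.sp 4 4082 (.sp 3 10673 (.L 2714) (.sp 3 11030 (.sp 5 1911 .R (.L 2714)) .R)) (.L 2714))) (.ss 1760 (.sp 3 10673 (.L 2714) (.sp 2 11030 (.L 2714) (.ss 1609 (.sp 5 1760 (.sp 4 5528 (.sp 1 12103 (.sp 2 11209 (.L 2714) (.ss 1533 (.N 5) (.L 2714))) (.sp 2 11209 (.sp 5 1609 (.sp 5 1533 (.sp 2 11119 (.ss 1495 (.N 5) (.L 2714)) (.N 5)) (.sp 4 5112 (.sp 3 10941 (.L 2714) (.sp 4 4904 .R (.L 2714))) (.L 2714))) (.L 2714)) (.ss 1533 (.N 5) (.sp 3 11030 (.L 2714) (.sp 4 5112 .R (.L 2714)))))) (.sp 1 12103 (.L 2714) (.sp 1 12460 (.L 2714) (.L 3328)))) (.L 2714)) (.L 2714)))) (.L 2714)))) (.sp 4 4696 (.ss 1760 (.sp 3 10812 (.sp 4 4082 .R (.sp 2 12103 (.ss 1609 (.sp 5 1760 (.N 5) (.sp 2 11745 (.sp 2 11566 (.ss 1533 (.N 5) (.L 2714)) (.N 5)) (.N 5))) (.sp 1 12103 (.sp 1 11745 (.L 2714) (.sp 5 1835 (.sp 3 10385 (.L 2714) (.sp 4 4389 .R (.L 2714))) (.L 2714))) (.sp 5 1835 (.sp 3 10385 (.ss 1684 (.sp 2 11745 (.L 2714) (.N 5)) (.L 2714)) (.sp 4 4389 .R (.sp 2 11745 (.L 2714) .R))) (.sp 3 10385 (.L 2714) (.sp 4 4389 .R (.L 2714)))))) (.N 5))) .R) (.sp 2 12103 (.sp 3 10812 (.sp 4 4082 (.ss 1911 (.sp 3 10385 (.sp 4 3775 .R (.L 2714)) .R) (.sp 1 12103 (.L 2714) (.sp 3 10385 (.L 2714) (.sp 4 3775 .R (.L 2714))))) (.L 2714)) (.sp 4 4082 .R (.ss 1911 (.sp 3 11239 (.sp 4 4389 .R (.sp 2 11745 (.L 2714) .R)) .R) (.sp 1 12103 (.L 2714) (.sp 1 12460 (.L 2714) (.L 3328)))))) (.sp 3 10812 (.sp 2 12460 (.sp 4 4082 (.ss 1911 .R (.sp 3 10385 (.L 2714) .R)) (.sp 1 12460 (.ss 1911 (.sp 3 10385 (.L 2714) (.sp 4 4389 .R (.L 2714))) (.L 2714)) (.sp 3 10385 (.L 2714) (.L 3328)))) (.sp 4 4082 .R (.L 3328))) .R))) (.sp 2 12103 (.ss 1760 (.sp 3 10812 (.ss 1609 (.sp 5 1760 (.N 5) (.sp 2 11745 (.L 2714) (.N 5))) (.sp 4 5528 (.sp 1 12103 (.L 2714) (.sp 5 1835 (.sp 3 10385 (.L 2714) (.ss 1684 (.sp 2 11745 (.L 2714) (.N 5)) (.L 2714))) (.L 2714))) (.L 2714))) (.sp 1 12103 (.ss 1609 (.sp 5 1760 (.N 5) (.sp 2 11745 (.sp 2 11566 (.L 2714) (.N 5)) (.N 5))) (.sp 1 11745 (.L 2714) (.sp 4 5528 (.sp 5 1835 (.sp 3 11239 (.L 2714) (.sp 4 5112 .R (.sp 1 11924 (.L 2714) (.sp 2 11745 (.L 2714) (.L 3328))))) (.L 2714)) (.L 2714)))) (.sp 2 11745 (.sp 1 12460 (.sp 4 5528 (.ss 1609 (.sp 5 1760 (.N 5) (.sp 2 11566 (.ss 1533 (.N 5) (.L 2714)) (.N 5))) (.sp 5 1835 (.sp 3 11239 (.L 2714) (.sp 4 5112 .R (.L 3328))) (.L 2714))) (.sp 3 11239 (.sp 1 12281 (.L 2714) (.L 3328)) (.ss 1609 (.sp 5 1760 (.N 5) (.L 3328)) (.L 3328)))) (.sp 3 11239 (.sp 1 12639 (.sp 1 12549 (.sp 4 5528 (.ss 1609 (.sp 5 1760 (.N 5) (.L 2714)) (.L 2714)) (.L 3328)) (.sp 2 11566 (.sp 1 12594 (.sp 4 5528 (.ss 1609 (.sp 5 1760 (.N 5) (.L 2714)) (.L 2714)) (.L 3328)) (.sp 3 11025 (.sp 4 5528 (.ss 1609 (.sp 5 1760 (.N 5) (.L 2714)) (.L 2714)) (.L 3328)) (.sp 3 11132 (.sp 2 11477 (.sp 4 5528 (.ss 1609 (.sp 5 1760 (.N 5) (.L 3328)) (.L 3328)) (.L 3328)) (.sp 4 5528 (.ss 1609 (.sp 5 1760 (.N 5) (.L 3328)) (.L 3328)) (.L 1048576))) (.sp 4 5528 (.ss 1609 (.sp 5 1760 (.N 5) (.L 3328)) (.L 3328)) (.L 1048576))))) (.ss 1609 (.N 5) (.L 3328)))) (.sp 4 5528 (.ss 1609 (.sp 5 1760 (.N 5) (.L 3328)) (.L 3328)) (.L 3328))) (.sp 4 5528 (.ss 1609 (.sp 5 1760 (.N 5) (.L 3328)) (.L 3328)) (.L 3328)))) (.ss 1609 (.N 5) (.ss 1684 (.N 5) (.sp 4 5528 (.sp 1 12460 (.sp 3 11239 (.L 2714) (.L 3328)) (.L 3328)) (.L 3328))))))) (.sp 3 10812 (.L 2714) (.sp 1 12103 (.L 2714) (.L 3328)))) (.ss 1760 (.N 5) (.L 3328))))))) (.sp 3 10812 (.sp 2 12818 (.sp 1 14659 (.sp 1 13738 (.sp 1 13278 (.ss 1458 (.sp 2 11388 (.sp 4 4696 (.ss 1244 (.sp 2 10673 (.sp 2 10315 (.ss 1137 (.sp 5 1458 (.N 5) (.sp 2 10136 (.L 2365) (.N 5))) (.sp 5 1531 (.sp 2 10136 (.sp 4 4082 .R (.L 2365)) (.N 5)) (.sp 2 10136 (.L 2365) (.sp 4 4082 .R (.L 2509))))) (.ss 1137 (.N 5) (.sp 5 1531 (.N 5) (.sp 4 4082 .R (.sp 5 1796 (.N 5) (.L 2714)))))) (.N 5)) (.sp 2 10673 (.sp 2 10315 (.sp 5 1601 (.sp 2 10136 (.L 2365) (.sp 4 4082 .R (.ss 1351 (.sp 5 1422 (.sp 2 10225 (.L 2509) (.ss 1297 (.N 5) (.L 2509))) (.L 2509)) (.L 2509)))) (.L 2509)) (.sp 5 1601 (.sp 4 4082 .R (.ss 1351 (.sp 2 10494 (.ss 1297 (.N 5) (.sp 3 10226 (.L 2509) (.sp 4 4389 .R (.L 2714)))) (.N 5)) (.sp 2 10494 (.sp 3 10226 (.L 2509) (.sp 4 4389 .R (.L 2714))) (.sp 3 10315 (.sp 4 4389 (.sp 3 10136 (.L 2509) .R) (.L 2714)) (.sp 4 4389 .R (.sp 5 1476 (.sp 4 4542 .R (.L 2714)) (.L 2714))))))) (.sp 4 4082 (.sp 5 1831 .R (.sp 4 3775 .R (.L 2714))) (.sp 5 1831 (.sp 2 10494 (.L 2714) (.sp 3 10315 (.L 2714) (.sp 4 4389 .R (.L 2714)))) (.L 2714))))) (.sp 4 4082 .R (.ss 1351 (.sp 2 11030 (.sp 5 1601 (.N 5) (.sp 5 1831 (.N 5) (.sp 5 1946 (.N 5) (.L 2714)))) (.N 5)) (.sp 2 11030 (.sp 5 1669 (.ss 1404 (.N 5) (.sp 2 10851 (.sp 3 10385 (.sp 4 4389 (.sp 5 1536 .R (.L 2714)) (.L 2714)) (.sp 4 4389 .R (.sp 3 10598 (.L 2714) .R))) (.N 5))) (.sp 3 10385 (.L 2714) (.sp 4 4389 .R (.L 2714)))) (.N 5)))))) (.ss 1244 (.sp 2 10673 (.sp 2 10315 (.sp 5 1458 (.sp 2 10136 (.ss 1137 (.N 5) (.L 2509)) (.N 5)) (.L 2714)) (.sp 5 1458 (.N 5) (.sp 5 1760 (.N 5) (.L 2714)))) (.N 5)) (.sp 2 10673 (.sp 5 1601 (.sp 2 10315 (.L 2714) (.sp 4 5528 (.ss 1351 (.sp 2 10494 (.L 2714) (.N 5)) (.L 2714)) (.L 2714))) (.L 2714)) (.ss 1351 (.sp 2 11030 (.sp 5 1601 (.N 5) (.sp 5 1831 (.N 5) (.L 2714))) (.N 5)) (.sp 2 11030 (.sp 5 1669 (.ss 1404 (.N 5) (.sp 2 10851 (.L 2714) (.N 5))) (.L 2714)) (.N 5)))))) (.N 5)) (.sp 2 11388 (.sp 4 4696 (.ss 1760 (.sp 2 10673 (.sp 2 10315 (.L 2509) (.sp 4 4082 (.ss 1609 (.sp 4 3775 .R (.sp 5 1760 (.sp 3 10315 (.L 2714) .R) (.L 2714))) (.L 2714)) (.L 2714))) (.sp 4 4082 (.sp 3 10385 (.ss 1609 (.sp 5 1760 .R (.sp 4 3775 .R (.sp 2 11030 (.L 2714) .R))) (.sp 5 1835 (.sp 4 3775 .R (.sp 2 11030 (.L 2714) (.ss 1684 .R (.L 2714)))) (.L 2714))) (.sp 4 3775 .R (.ss 1609 .R (.sp 5 1835 .R (.L 2714))))) (.ss 1609 (.sp 5 1760 (.sp 3 10385 (.sp 2 11030 (.sp 5 1609 (.ss 1533 (.sp 4 4389 (.sp 3 10171 (.L 2714) .R) (.L 2714)) (.L 2714)) (.L 2714)) (.sp 5 1609 (.sp 5 1533 (.sp 4 4389 .R (.sp 2 11209 (.L 2714) (.N 5))) (.sp 4 4389 (.sp 3 10171 (.L 2714) .R) (.L 2714))) (.sp 4 4389 (.sp 3 10171 (.L 2714) .R) (.L 2714)))) (.sp 4 4389 .R (.sp 1 13048 (.sp 2 11030 (.sp 5 1609 (.ss 1533 (.sp 3 10598 (.L 2714) .R) (.L 2714)) (.L 2714)) (.ss 1533 .R (.sp 3 10598 (.L 2714) .R))) (.sp 2 11030 (.sp 1 13163 (.sp 5 1609 (.ss 1533 (.sp 3 10598 (.L 2714) .R) (.L 2714)) (.L 2714)) (.sp 3 10598 (.L 2714) (.L 3328))) (.ss 1533 .R (.L 3328)))))) (.sp 3 10385 (.L 2714) (.sp 2 11030 (.L 2714) (.sp 4 4389 .R (.L 2714))))) (.sp 5 1835 (.sp 3 10385 (.L 2714) (.sp 2 11030 (.L 2714) (.sp 1 13048 (.ss 1684 (.sp 4 4389 .R (.L 2714)) (.L 2714)) (.L 3328)))) (.L 2714))))) (.sp 2 10673 (.L 2714) (.sp 4 4082 (.ss 1911 (.sp 3 10385 (.L 2714) (.sp 4 3775 (.sp 2 11030 (.L 2714) .R) (.L 2714))) (.L 2714)) (.L 2714)))) (.ss 1760 (.sp 2 10673 (.L 2714) (.sp 1 13048 (.ss 1609 (.sp 5 1760 (.sp 4 5528 (.sp 3 10385 (.L 2714) (.sp 2 11030 (.L 2714) (.sp 1 12933 (.sp 5 1609 (.ss 1533 (.sp 2 11209 (.L 2714) (.N 5)) (.L 2714)) (.L 2714)) (.sp 3 10598 (.L 2714) (.L 3328))))) (.L 3328)) (.L 2714)) (.L 2714)) (.sp 3 10385 (.L 2714) (.L 3328)))) (.L 2714))) (.sp 2 12103 (.sp 1 13048 (.sp 4 4696 (.ss 1760 (.sp 4 4082 .R (.sp 2 11745 (.sp 1 12933 (.ss 1609 (.sp 5 1760 (.N 5) (.sp 2 11566 (.ss 1533 (.N 5) (.L 2714)) (.N 5))) (.sp 5 1835 (.sp 3 10385 (.L 2714) (.sp 4 4389 .R (.L 3328))) (.L 2714))) (.sp 3 10385 (.ss 1609 (.sp 5 1760 (.N 5) (.L 2714)) (.L 2714)) (.sp 4 4389 .R (.ss 1609 (.sp 5 1760 .R (.L 3328)) (.L 3328))))) (.ss 1609 (.N 5) (.ss 1684 (.N 5) (.sp 3 10385 (.L 2714) (.L 3328)))))) (.sp 2 11745 (.sp 4 4082 (.ss 1911 (.sp 3 10385 (.sp 4 3775 .R (.L 2714)) .R) (.L 2714)) (.L 2714)) (.sp 3 10385 (.sp 4 4082 (.sp 5 1911 .R (.sp 1 12933 (.sp 4 3775 (.ss 1911 .R (.L 2714)) (.L 2714)) (.sp 2 11924 (.L 2714) (.L 3328)))) (.L 2714)) (.sp 4 4082 .R (.L 3328))))) (.sp 3 10385 (.sp 2 11745 (.sp 1 12933 (.ss 1760 (.sp 4 5528 (.ss 1609 (.sp 5 1760 (.N 5) (.L 2714)) (.L 2714)) (.L 3328)) (.L 2714)) (.sp 2 11566 (.L 2714) (.L 3328))) (.sp 3 10171 (.sp 2 11924 (.L 2714) (.sp 5 1760 (.N 5) (.L 3328))) (.sp 4 5528 (.ss 1760 (.ss 1609 (.N 5) (.L 3328)) (.L 3328)) (.L 1048576)))) (.ss 1760 (.sp 4 5528 (.ss 1609 (.sp 5 1760 (.N 5) (.L 3328)) (.L 3328)) (.L 3328)) (.L 3328)))) (.sp 3 10385 (.sp 2 11745 (.sp 4 4696 (.ss 1760 (.sp 4 4082 .R (.sp 2 11566 (.sp 1 13163 (.ss 1609 (.sp 5 1760 (.N 5) (.L 2714)) (.L 2714)) (.sp 3 10171 (.sp 1 13220 (.ss 1609 (.sp 5 1760 (.N 5) (.L 2714)) (.L 2714)) (.sp 3 10064 (.sp 2 11477 (.sp 1 13249 (.ss 1609 (.sp 5 1760 (.N 5) (.L 3328)) (.L 3328)) (.sp 2 11432 (.sp 1 13263 (.ss 1609 (.sp 5 1760 (.N 5) (.L 3328)) (.L 3328)) (.sp 3 10011 (.ss 1609 (.sp 5 1760 (.N 5) (.L 3328)) (.L 3328)) (.sp 4 4389 (.ss 1609 .R (.L 1048576)) (.L 1048576)))) (.sp 3 10011 (.sp 2 11454 (.sp 1 13263 (.sp 4 4389 (.ss 1609 (.sp 5 1760 .R (.L 3328)) (.L 3328)) (.L 1048576)) (.sp 3 9984 (.sp 2 11443 (.sp 4 4389 (.sp 5 1760 (.ss 1609 .R (.L 1048576)) (.L 1048576)) (.L 1048576)) (.sp 3 9971 (.sp 4 4389 (.sp 5 1760 (.ss 1609 .R (.L 1048576)) (.L 1048576)) (.L 1048576)) (.sp 4 4389 (.ss 1609 .R (.L 1048576)) (.L 1048576)))) (.sp 4 4389 (.ss 1609 .R (.L 1048576)) (.L 1048576)))) (.sp 3 9984 (.sp 1 13263 (.sp 4 4389 (.ss 1609 .R (.L 3328)) (.L 1048576)) (.sp 4 4389 (.ss 1609 .R (.L 1048576)) (.L 1048576))) (.sp 4 4389 (.ss 1609 .R (.L 1048576)) (.L 1048576)))) (.sp 4 4389 (.ss 1609 .R (.L 1048576)) (.L 1048576))))) (.ss 1609 (.sp 5 1760 (.N 5) (.L 3328)) (.L 3328))) (.ss 1609 (.sp 5 1760 (.N 5) (.L 3328)) (.L 3328)))) (.ss 1609 (.sp 5 1760 (.N 5) (.L 3328)) (.L 3328)))) (.ss 1609 (.N 5) (.L 3328)))) (.sp 1 13163 (.sp 4 4082 (.ss 1911 (.sp 4 3775 .R (.L 2714)) (.L 2714)) (.L 3328)) (.sp 3 10171 (.L 2714) (.L 3328)))) (.L 3328)) (.sp 3 10171 (.sp 2 11924 (.sp 1 13163 (.sp 4 4696 (.ss 1760 (.sp 4 4082 .R (.ss 1609 (.N 5) (.L 3328))) (.sp 2 11834 (.L 2714) (.sp 3 10064 (.L 2714) (.L 3328)))) (.L 1048576)) (.sp 3 10064 (.sp 2 11834 (.sp 4 4696 (.sp 1 13220 (.ss 1760 (.sp 4 4082 .R (.ss 1609 (.N 5) (.L 1048576))) (.L 3328)) (.sp 4 4082 (.ss 1760 .R (.L 1048576)) (.L 1048576))) (.L 1048576)) (.sp 5 1760 (.ss 1609 (.N 5) (.ss 1684 (.N 5) (.ss 1722 (.N 5) (.L 3328)))) (.sp 4 4696 (.sp 4 4082 (.ss 1760 .R (.L 1048576)) (.L 1048576)) (.L 1048576)))) (.sp 4 4696 (.sp 4 4082 (.ss 1760 .R (.L 1048576)) (.L 1048576)) (.L 1048576)))) (.sp 5 1760 (.N 5) (.sp 4 4696 (.sp 4 4082 (.ss 1760 .R (.L 3328)) (.L 1048576)) (.L 1048576)))) (.sp 4 4696 (.ss 1760 (.sp 4 4082 .R (.sp 4 4389 .R (.L 1048576))) (.sp 4 4082 (.ss 1911 .R (.L 3328)) (.L 1048576))) (.L 1048576)))) (.sp 4 4696 (.ss 1760 (.sp 4 4082 .R (.sp 4 4389 .R (.sp 2 11745 (.sp 1 13163 (.sp 3 10598 (.sp 2 11566 (.ss 1609 (.sp 5 1760 .R (.L 3328)) (.L 3328)) (.L 1048576)) (.L 1048576)) (.L 1048576)) (.L 1048576)))) (.sp 4 4082 (.ss 1911 .R (.L 3328)) (.L 3328))) (.L 1048576)))) (.ss 1760 (.N 5) (.sp 4 4696 (.sp 4 4082 (.ss 1911 .R (.L 3328)) (.L 3328)) (.L 3328)))))) (.sp 2 11388 (.ss 1458 (.sp 4 4696 (.ss 1244 (.sp 2 10673 (.sp 2 10315 (.ss 1137 (.sp 5 1458 (.N 5) (.sp 4 4082 (.sp 4 3775 .R (.sp 5 1760 (.N 5) (.L 2714))) (.sp 5 1760 (.N 5) (.L 2714)))) (.sp 5 1531 (.sp 4 4082 .R (.sp 2 10136 (.sp 5 1334 (.N 5) (.L 2509)) (.N 5))) (.sp 4 4082 (.sp 5 1796 .R (.sp 2 10136 (.L 2509) .R)) (.L 2714)))) (.ss 1137 (.N 5) (.sp 5 1531 (.N 5) (.sp 4 4082 .R (.sp 5 1796 (.N 5) (.L 2714)))))) (.N 5)) (.sp 2 10673 (.sp 5 1601 (.sp 4 4082 (.sp 2 10315 (.sp 2 10136 (.ss 1351 .R (.L 2509)) .R) .R) (.sp 2 10315 (.ss 1351 (.sp 2 10136 (.L 2509) (.sp 5 1422 (.sp 4 4389 (.sp 3 10136 (.sp 4 4235 .R (.L 2714)) .R) (.L 2714)) (.L 2714))) (.L 2714)) (.ss 1351 (.sp 2 10494 (.ss 1297 (.N 5) (.sp 5 1449 (.sp 2 10404 (.ss 1324 (.N 5) (.sp 4 4389 (.sp 3 10181 (.L 2714) .R) (.L 2714))) (.N 5)) (.L 2714))) (.N 5)) (.sp 2 10494 (.sp 4 4389 (.sp 3 10226 (.L 2714) .R) (.L 2714)) (.sp 3 10315 (.sp 4 4389 (.sp 3 10136 (.L 2714) .R) (.L 2714)) (.sp 4 4389 .R (.sp 1 13508 (.sp 1 13393 (.sp 5 1476 (.sp 4 4542 .R (.L 2714)) (.L 2714)) (.L 3328)) (.L 1048576)))))))) (.sp 4 4082 (.sp 4 3775 .R (.sp 3 10315 (.sp 5 1831 (.sp 2 10315 (.L 2714) .R) (.L 2714)) .R)) (.sp 2 10315 (.L 2714) (.sp 5 1831 (.sp 2 10494 (.L 2714) (.sp 3 10315 (.L 2714) (.sp 4 4389 .R (.L 2714)))) (.L 2714))))) (.sp 4 4082 .R (.ss 1351 (.sp 2 11030 (.sp 5 1601 (.N 5) (.sp 5 1831 (.N 5) (.L 3328))) (.N 5)) (.sp 3 10385 (.sp 2 11030 (.sp 5 1669 (.ss 1404 (.N 5) (.sp 2 10851 (.sp 4 4389 (.sp 5 1536 .R (.L 2714)) (.L 2714)) (.N 5))) (.L 2714)) (.N 5)) (.sp 4 4389 .R (.sp 1 13508 (.sp 5 1669 (.ss 1404 (.N 5) (.L 3328)) (.L 3328)) (.L 1048576)))))))) (.sp 2 10673 (.ss 1244 (.sp 2 10315 (.sp 5 1458 (.ss 1137 (.N 5) (.sp 5 1297 (.N 5) (.L 2714))) (.L 2714)) (.sp 5 1458 (.N 5) (.sp 5 1760 (.N 5) (.L 2714)))) (.sp 5 1601 (.sp 4 5528 (.sp 2 10315 (.L 2714) (.sp 1 13508 (.sp 1 13393 (.ss 1351 (.sp 2 10494 (.L 2714) (.N 5)) (.L 2714)) (.sp 3 10315 (.ss 1351 (.ss 1297 (.N 5) (.L 2714)) (.L 2714)) (.sp 2 10494 (.sp 1 13450 (.L 2714) (.L 3328)) (.ss 1351 (.N 5) (.L 3328))))) (.L 3328))) (.L 3328)) (.L 2714))) (.ss 1244 (.N 5) (.ss 1351 (.sp 5 1601 (.N 5) (.L 3328)) (.L 3328))))) (.sp 3 10385 (.sp 4 4696 (.ss 1760 (.sp 4 4082 (.sp 2 10673 (.ss 1609 (.sp 5 1760 (.sp 2 10315 (.sp 1 13508 (.L 2509) (.L 2714)) (.sp 4 3775 .R (.sp 3 10171 (.L 2714) .R))) (.L 2714)) (.L 2714)) (.ss 1609 (.sp 5 1760 .R (.sp 4 3775 .R (.sp 2 11030 (.L 2714) .R))) (.sp 1 13508 (.sp 1 13393 (.sp 5 1835 (.sp 4 3775 .R (.sp 2 11030 (.L 2714) (.L 3328))) (.L 2714)) (.sp 2 11030 (.sp 1 13450 (.sp 5 1835 (.sp 4 3775 .R (.L 2714)) (.L 2714)) (.sp 3 10171 (.L 2714) (.sp 4 3775 .R (.L 3328)))) (.sp 4 3775 .R (.L 3328)))) (.L 3328)))) (.sp 2 10673 (.L 2714) (.sp 2 11030 (.ss 1609 (.sp 5 1760 (.sp 1 13508 (.sp 1 13393 (.sp 5 1609 (.ss 1533 (.sp 4 4389 (.sp 3 10171 (.L 2714) .R) (.L 2714)) (.L 2714)) (.L 2714)) (.L 3328)) (.L 3328)) (.L 2714)) (.L 2714)) (.sp 3 10171 (.sp 2 11209 (.L 2714) (.sp 2 11298 (.sp 3 10064 (.L 2714) (.sp 3 10117 (.sp 2 11253 (.L 2714) (.sp 3 10090 (.sp 1 13508 (.sp 1 13393 (.L 2714) (.L 1048576)) (.L 1048576)) (.sp 1 13508 (.sp 1 13393 (.sp 1 13335 (.sp 1 13306 (.L 2714) (.L 3328)) (.L 1048576)) (.L 1048576)) (.L 1048576)))) (.sp 1 13508 (.sp 1 13393 (.sp 2 11253 (.sp 1 13335 (.sp 1 13306 (.sp 1 13292 (.L 2714) (.L 3328)) (.L 3328)) (.L 1048576)) (.sp 4 4389 (.ss 1609 .R (.L 1048576)) (.L 1048576))) (.L 1048576)) (.L 1048576)))) (.sp 1 13508 (.sp 1 13393 (.ss 1609 (.ss 1533 (.N 5) (.L 3328)) (.L 3328)) (.L 1048576)) (.L 1048576)))) (.sp 1 13508 (.sp 1 13393 (.ss 1609 (.sp 5 1760 (.sp 4 4389 .R (.L 3328)) (.L 3328)) (.L 3328)) (.L 1048576)) (.L 1048576)))))) (.L 2714)) (.L 3328)) (.sp 2 10886 (.sp 4 4696 (.ss 1760 (.sp 4 4082 (.ss 1609 .R (.sp 4 3775 .R (.L 2714))) (.sp 3 10598 (.ss 1609 (.sp 5 1760 (.sp 1 13508 (.sp 1 13393 (.sp 5 1609 (.ss 1533 (.sp 4 4389 .R (.L 2714)) (.L 2714)) (.L 2714)) (.L 3328)) (.L 3328)) (.L 2714)) (.L 2714)) (.sp 2 10742 (.sp 3 10670 (.sp 1 13508 (.sp 1 13393 (.sp 1 13335 (.L 2714) (.L 3328)) (.L 1048576)) (.L 1048576)) (.sp 2 10706 (.sp 1 13508 (.sp 1 13393 (.sp 1 13335 (.L 2714) (.L 1048576)) (.L 1048576)) (.L 1048576)) (.sp 1 13508 (.sp 1 13393 (.sp 3 10706 (.sp 1 13335 (.sp 1 13306 (.sp 1 13292 (.sp 4 4389 (.ss 1609 .R (.L 3328)) (.L 1048576)) (.L 3328)) (.L 3328)) (.L 1048576)) (.sp 4 4389 (.sp 5 1760 .R (.L 1048576)) (.L 1048576))) (.L 1048576)) (.L 1048576)))) (.sp 1 13508 (.sp 1 13393 (.ss 1609 (.sp 4 4389 .R (.L 1048576)) (.L 3328)) (.L 1048576)) (.L 1048576))))) (.L 2714)) (.L 3328)) (.sp 4 4696 (.sp 1 13508 (.ss 1760 (.sp 4 4082 .R (.sp 1 13393 (.ss 1609 (.sp 4 4389 .R (.L 3328)) (.L 3328)) (.L 1048576))) (.L 3328)) (.L 1048576)) (.L 1048576))))) (.ss 1458 (.N 5) (.sp 2 12103 (.sp 4 4696 (.sp 1 13508 (.ss 1760 (.sp 4 4082 .R (.sp 3 10385 (.sp 2 11745 (.sp 1 13393 (.sp 3 10171 (.sp 2 11566 (.sp 4 4389 (.sp 1 13335 (.ss 1609 (.sp 5 1760 .R (.L 3328)) (.L 3328)) (.L 1048576)) (.L 1048576)) (.L 1048576)) (.L 1048576)) (.L 1048576)) (.L 1048576)) (.L 1048576))) (.L 3328)) (.L 1048576)) (.L 1048576)) (.L 1048576))))) (.sp 1 14198 (.sp 2 11388 (.ss 1458 (.sp 4 4696 (.ss 1244 (.ss 1137 (.sp 5 1458 (.N 5) (.sp 4 4082 (.sp 2 10673 (.sp 3 10315 (.sp 4 3775 .R (.sp 5 1760 (.N 5) (.L 3328))) .R) (.N 5)) (.L 3328))) (.sp 2 10673 (.sp 2 10315 (.sp 5 1531 (.sp 4 4082 .R (.sp 5 1334 (.N 5) (.sp 2 10136 (.L 2714) (.N 5)))) (.sp 1 13968 (.sp 4 4082 (.sp 5 1796 .R (.L 2714)) (.L 3328)) (.L 1048576))) (.sp 4 4082 .R (.sp 5 1531 (.N 5) (.L 3328)))) (.N 5))) (.sp 3 10385 (.sp 1 13968 (.sp 4 4082 (.sp 4 3775 .R (.sp 2 10673 (.sp 2 10315 (.sp 3 10136 (.sp 5 1601 (.ss 1351 .R (.L 2714)) (.L 2714)) (.sp 5 1601 .R (.L 3328))) (.sp 5 1601 .R (.L 3328))) .R)) (.L 3328)) (.L 3328)) (.L 1048576))) (.sp 3 10385 (.sp 1 13968 (.sp 2 10673 (.sp 4 5528 (.sp 3 10171 (.sp 1 13853 (.sp 2 10315 (.ss 1244 (.sp 5 1458 (.ss 1137 (.N 5) (.L 3328)) (.L 3328)) (.L 3328)) (.L 1048576)) (.L 1048576)) (.L 1048576)) (.L 1048576)) (.L 1048576)) (.L 1048576)) (.L 1048576))) (.L 3328)) (.L 1048576)) (.L 1048576))) (.L 1048576)) (.ss 1458 (.N 5) (.L 1048576))) (.sp 5 1458 (.N 5) (.sp 1 14659 (.sp 1 13738 (.sp 2 12275 (.sp 2 11543 (.sp 3 11177 (.sp 1 13278 (.sp 1 13048 (.sp 4 4696 (.ss 1458 .R (.ss 1760 (.sp 4 4082 .R (.sp 4 4389 .R (.sp 2 11177 (.sp 3 10994 (.ss 1609 (.sp 5 1760 .R (.L 2714)) (.L 2714)) .R) (.ss 1609 .R (.L 3328))))) (.sp 1 12933 (.sp 4 4082 (.ss 1911 .R (.L 2714)) (.L 3328)) (.sp 2 11177 (.sp 4 4082 (.ss 1911 .R (.L 2714)) (.L 3328)) (.sp 4 4082 .R (.L 3328)))))) (.sp 2 11177 (.sp 1 12933 (.ss 1458 (.ss 1244 (.N 5) (.ss 1351 (.N 5) (.sp 3 10994 (.sp 4 5528 (.sp 5 1760 (.sp 5 1609 (.ss 1404 (.N 5) (.sp 2 10994 (.L 2714) (.N 5))) (.L 2714)) (.L 2714)) (.L 3328)) (.sp 5 1760 (.N 5) (.L 3328))))) (.sp 3 10994 (.ss 1760 (.sp 4 5528 (.ss 1609 (.sp 5 1760 (.sp 4 5112 (.sp 5 1609 (.ss 1533 (.sp 4 4904 .R (.L 2714)) (.L 2714)) (.L 2714)) (.L 3328)) (.L 2714)) (.L 2714)) (.L 3328)) (.L 2714)) (.sp 2 11085 (.sp 1 12875 (.sp 4 5528 (.ss 1760 (.ss 1609 (.sp 5 1760 (.sp 4 5112 (.sp 4 4904 .R (.L 3328)) (.L 3328)) (.L 3328)) (.L 3328)) (.L 3328)) (.L 1048576)) (.L 3328)) (.sp 4 5528 (.ss 1760 (.ss 1609 (.sp 5 1760 (.sp 4 5112 (.sp 4 4904 .R (.L 3328)) (.L 3328)) (.L 3328)) (.L 3328)) (.L 3328)) (.L 1048576))))) (.sp 2 10994 (.ss 1458 (.ss 1244 (.N 5) (.ss 1351 (.N 5) (.sp 1 12990 (.sp 4 5528 (.sp 5 1760 (.sp 2 10903 (.L 2714) (.N 5)) (.L 2714)) (.L 3328)) (.sp 2 10903 (.L 2714) (.sp 5 1760 (.N 5) (.L 3328)))))) (.L 2714)) (.sp 4 5528 (.ss 1458 (.sp 5 1760 (.N 5) (.ss 1244 (.N 5) (.L 3328))) (.L 3328)) (.L 1048576)))) (.ss 1458 (.N 5) (.sp 4 5528 (.ss 1760 (.ss 1609 (.sp 5 1760 (.ss 1533 (.N 5) (.L 3328)) (.L 3328)) (.L 3328)) (.L 3328)) (.L 1048576))))) (.sp 2 11177 (.sp 1 13163 (.sp 4 4696 (.ss 1458 .R (.sp 3 10994 (.ss 1760 (.sp 4 4082 .R (.sp 4 4389 .R (.ss 1609 (.sp 5 1760 .R (.L 3328)) (.L 3328)))) (.sp 1 13105 (.sp 4 4082 (.ss 1911 .R (.L 3328)) (.L 3328)) (.sp 2 10994 (.L 2714) (.L 3328)))) (.ss 1760 .R (.sp 4 4082 .R (.L 1048576))))) (.sp 4 5528 (.sp 3 10994 (.ss 1458 (.ss 1244 (.N 5) (.ss 1351 (.N 5) (.L 3328))) (.L 3328)) (.L 1048576)) (.L 1048576))) (.sp 3 10994 (.sp 1 13220 (.sp 4 4696 (.ss 1458 .R (.sp 2 10994 (.ss 1760 (.sp 4 4082 .R (.sp 4 4389 .R (.L 3328))) (.L 3328)) (.sp 5 1760 .R (.sp 4 4082 (.ss 1760 .R (.L 3328)) (.L 1048576))))) (.L 1048576)) (.sp 2 10994 (.sp 3 10903 (.sp 4 4696 (.ss 1458 .R (.sp 3 10857 (.sp 1 13249 (.ss 1760 (.sp 4 4082 .R (.sp 4 4389 .R (.L 1048576))) (.L 3328)) (.sp 2 10903 (.sp 4 4082 (.ss 1760 .R (.L 3328)) (.L 1048576)) (.sp 4 4082 (.ss 1760 .R (.L 1048576)) (.L 1048576)))) (.sp 2 10925 (.sp 1 13249 (.sp 4 4082 (.ss 1760 .R (.L 3328)) (.L 1048576)) (.sp 4 4082 (.ss 1760 .R (.L 1048576)) (.L 1048576))) (.sp 5 1760 .R (.sp 4 4082 (.sp 4 3775 .R (.L 1048576)) (.L 1048576)))))) (.L 1048576)) (.sp 2 10948 (.sp 4 4696 (.ss 1458 .R (.sp 5 1760 .R (.sp 4 4082 (.sp 4 3775 .R (.L 1048576)) (.L 1048576)))) (.L 1048576)) (.sp 4 4696 (.sp 4 4082 (.ss 1458 .R (.ss 1760 .R (.L 1048576))) (.L 1048576)) (.L 1048576)))) (.ss 1458 (.sp 4 4696 .R (.L 1048576)) (.sp 4 4696 (.sp 5 1760 .R (.sp 4 4082 (.sp 4 3775 .R (.L 1048576)) (.L 1048576))) (.L 1048576))))) (.ss 1458 (.sp 4 4696 .R (.L 1048576)) (.sp 4 4696 (.sp 4 4082 .R (.L 1048576)) (.L 1048576))))) (.ss 1458 (.N 5) (.sp 4 4696 (.sp 4 4082 .R (.sp 5 1760 .R (.L 1048576))) (.L 1048576))))) (.sp 4 4696 (.ss 1458 .R (.sp 1 13508 (.sp 2 11177 (.sp 3 10994 (.sp 4 4082 (.ss 1760 .R (.L 1048576)) (.L 1048576)) (.L 1048576)) (.L 1048576)) (.L 1048576))) (.L 1048576))) (.ss 1458 (.N 5) (.sp 1 13278 (.sp 2 11360 (.sp 3 11268 (.sp 1 13048 (.sp 1 12933 (.sp 4 4696 (.ss 1760 .R (.sp 4 4082 .R (.L 3328))) (.L 1048576)) (.sp 4 4696 (.ss 1760 .R (.sp 4 4082 .R (.L 1048576))) (.L 1048576))) (.sp 4 4696 (.sp 4 4082 .R (.L 1048576)) (.L 1048576))) (.sp 2 11314 (.sp 1 13048 (.sp 1 12933 (.sp 1 12875 (.sp 4 4696 (.ss 1760 .R (.sp 4 4082 .R (.L 1048576))) (.L 1048576)) (.sp 4 4696 (.sp 4 4082 .R (.L 1048576)) (.L 1048576))) (.sp 4 4696 (.sp 4 4082 .R (.L 1048576)) (.L 1048576))) (.L 1048576)) (.sp 4 4696 (.ss 1760 .R (.sp 4 4082 .R (.L 1048576))) (.L 1048576)))) (.sp 4 4696 (.ss 1760 .R (.sp 4 4082 .R (.L 1048576))) (.L 1048576))) (.L 1048576)))) (.ss 1458 (.N 5) (.sp 1 13278 (.sp 4 4696 (.ss 1760 .R (.sp 4 4082 .R (.L 3328))) (.L 1048576)) (.L 1048576)))) (.sp 4 4696 .R (.L 1048576))) (.L 1048576)) (.L 1048576))))) (.sp 4 8614 (.sp 3 10812 (.sp 1 12818 (.sp 2 11388 (.ss 1458 (.sp 1 11388 (.sp 1 10673 (.L 2714) (.ss 1244 (.sp 2 10673 (.L 2714) (.N 5)) (.L 2714))) (.ss 1244 (.sp 2 10673 (.sp 2 10315 (.sp 5 1458 (.ss 1137 (.N 5) (.L 2714)) (.L 2714)) (.sp 5 1458 (.N 5) (.sp 5 1760 (.N 5) (.L 2714)))) (.N 5)) (.sp 2 10673 (.sp 5 1601 (.sp 2 10315 (.L 2714) (.sp 4 7487 (.L 2714) (.sp 1 12103 (.L 2714) (.sp 1 12460 (.L 2714) (.L 3328))))) (.L 2714)) (.ss 1351 (.sp 5 1601 (.N 5) (.sp 5 1831 (.N 5) (.L 2714))) (.sp 2 11030 (.sp 5 1669 (.ss 1404 (.N 5) (.L 2714)) (.L 2714)) (.N 5)))))) (.L 2714)) (.ss 1458 (.N 5) (.sp 1 12103 (.sp 4 7487 (.L 2714) (.L 3328)) (.L 3328)))) (.sp 1 14659 (.sp 1 13738 (.sp 2 11848 (.ss 1458 (.sp 1 13278 (.ss 1244 (.sp 2 10903 (.sp 2 10430 (.sp 4 7487 (.sp 5 1458 (.ss 1137 (.N 5) (.L 2714)) (.L 2714)) (.sp 5 1458 (.ss 1137 (.N 5) (.L 3328)) (.L 3328))) (.N 5)) (.N 5)) (.sp 4 7487 (.sp 2 10903 (.sp 3 10385 (.L 2714) (.L 3328)) (.L 3328)) (.L 3328))) (.L 3328)) (.L 3328)) (.L 1048576)) (.L 1048576)) (.L 1048576))) (.sp 5 1458 (.N 5) (.sp 2 13356 (.sp 1 13356 (.sp 1 12084 (.sp 2 11448 (.ss 1458 (.sp 2 11130 (.ss 1244 (.N 5) (.L 2714)) (.N 5)) (.ss 1760 (.ss 1609 (.sp 5 1760 (.sp 2 11130 (.L 2714) (.ss 1533 (.N 5) (.L 2714))) (.L 2714)) (.L 2714)) (.L 2714))) (.ss 1458 (.N 5) (.ss 1760 (.sp 4 7487 (.sp 1 11766 (.L 2714) (.L 3328)) (.L 3328)) (.L 3328)))) (.sp 1 12720 (.ss 1458 (.ss 1244 (.N 5) (.ss 1351 (.N 5) (.L 3328))) (.L 3328)) (.L 3328))) (.L 1048576)) (.L 1048576)))) (.sp 2 12818 (.sp 1 12818 (.ss 1458 (.sp 2 11388 (.sp 2 10673 (.sp 1 11388 (.sp 2 10315 (.ss 1244 (.sp 5 1458 (.ss 1137 (.N 5) (.sp 2 10136 (.L 2714) (.N 5))) (.L 2714)) (.L 2714)) (.ss 1244 (.sp 5 1458 (.N 5) (.sp 5 1760 (.N 5) (.sp 2 10494 (.L 2714) (.N 5)))) (.sp 4 9643 (.L 2714) (.sp 5 1601 (.sp 3 10315 (.L 2714) (.sp 1 10851 (.sp 1 10583 (.L 2714) (.sp 2 10494 (.L 2714) (.ss 1351 (.N 5) (.L 2714)))) (.sp 4 10158 (.ss 1351 (.sp 2 10494 (.L 2714) (.N 5)) (.L 2714)) (.sp 2 10494 (.sp 1 11119 (.L 2714) (.sp 1 11253 (.L 2714) (.L 3328))) (.ss 1351 (.N 5) (.L 3328)))))) (.L 2714))))) (.sp 2 10315 (.sp 1 12103 (.ss 1244 (.sp 5 1458 (.ss 1137 (.N 5) (.sp 2 10136 (.sp 5 1297 (.N 5) (.L 2714)) (.N 5))) (.sp 4 9464 (.L 2714) (.sp 1 11745 (.L 2714) (.L 3328)))) (.sp 5 1601 (.sp 4 9464 (.L 2714) (.sp 1 11745 (.L 2714) (.L 3328))) (.L 2714))) (.ss 1244 (.sp 5 1458 (.ss 1137 (.N 5) (.sp 5 1297 (.N 5) (.L 3328))) (.L 3328)) (.L 3328))) (.ss 1244 (.sp 5 1458 (.N 5) (.sp 5 1760 (.N 5) (.L 3328))) (.sp 1 12103 (.sp 4 9643 (.sp 1 11745 (.sp 5 1601 (.ss 1351 (.sp 2 10494 (.L 2714) (.N 5)) (.L 2714)) (.L 2714)) (.sp 4 9128 (.L 2714) (.L 3328))) (.sp 5 1601 (.ss 1351 (.ss 1297 (.N 5) (.L 3328)) (.L 3328)) (.L 3328))) (.L 3328))))) (.ss 1244 (.N 5) (.ss 1351 (.sp 5 1601 (.N 5) (.sp 5 1831 (.N 5) (.L 3328))) (.sp 2 11030 (.sp 1 11745 (.sp 4 9822 (.sp 1 11209 (.L 2714) (.sp 3 10494 (.L 2714) (.L 3328))) (.sp 5 1669 (.ss 1404 (.N 5) (.L 3328)) (.L 3328))) (.L 3328)) (.N 5))))) (.N 5)) (.sp 2 11388 (.sp 2 10673 (.sp 1 11388 (.L 2714) (.L 3328)) (.ss 1760 (.sp 1 11745 (.ss 1609 (.sp 5 1760 (.sp 4 10001 (.sp 1 11209 (.L 2714) (.L 3328)) (.L 3328)) (.L 3328)) (.L 3328)) (.L 3328)) (.L 3328))) (.L 3328))) (.L 3328)) (.L 1048576)))))) (.sp 4 4124 .R (.ss 1458 (.N 5) (.sp 3 14083 (.sp 2 14083 (.sp 1 14083 (.sp 3 12875 (.sp 2 12875 (.sp 1 12875 (.sp 3 12271 (.sp 4 7113 (.sp 1 12271 (.sp 2 11969 (.sp 4 5416 (.ss 1760 .R (.sp 4 4770 .R (.L 3328))) (.ss 1760 (.ss 1609 (.N 5) (.L 3328)) (.L 3328))) (.ss 1760 (.N 5) (.sp 4 5416 (.sp 4 4770 .R (.L 3328)) (.L 3328)))) (.sp 4 5416 (.ss 1760 .R (.L 3328)) (.L 1048576))) (.L 3328)) (.L 1048576)) (.L 1048576)) (.L 1048576)) (.L 1048576)) (.L 1048576)) (.L 1048576)) (.L 1048576)))))) (.sp 3 11667 (.ss 1031 (.ss 515 (.N 6) (.sp 2 11667 (.sp 2 9958 (.sp 4 4531 (.sp 1 11667 (.L 1792) (.sp 2 9104 (.L 2202) (.ss 728 (.N 6) (.sp 1 14083 (.sp 5 2916 (.sp 1 12875 (.L 2099) (.sp 2 9531 (.L 2202) (.ss 879 (.N 6) (.sp 4 3056 (.sp 3 9104 (.L 2202) (.sp 5 2489 .R (.L 2509))) (.L 2509))))) (.L 2509)) (.sp 1 15291 (.sp 1 14687 (.sp 5 2916 (.sp 4 3056 (.sp 5 2489 (.sp 2 9531 (.sp 3 8890 (.L 2365) (.sp 4 2559 .R (.L 2365))) (.sp 3 9104 (.sp 4 2559 .R (.L 2365)) .R)) (.L 2714)) (.L 2714)) (.L 2714)) (.L 3328)) (.L 1048576)))))) (.L 2714)) (.sp 2 10812 (.sp 2 10385 (.ss 728 (.N 6) (.sp 2 10171 (.ss 879 (.N 6) (.sp 4 4579 (.ss 955 (.N 6) (.ss 993 (.N 6) (.sp 5 2916 (.sp 1 12818 (.L 2099) (.sp 1 14659 (.sp 4 3072 (.sp 3 9210 (.sp 4 2567 .R (.L 2509)) (.sp 5 2489 .R (.sp 3 9690 (.L 2509) .R))) (.sp 1 13738 (.L 2509) (.L 2714))) (.L 1048576))) (.L 2714)))) (.L 2714))) (.N 6))) (.N 6)) (.N 6))) (.N 6))) (.sp 5 2916 (.sp 1 11667 (.sp 1 9958 (.L 2509) (.sp 2 9958 (.L 2509) (.sp 1 10812 (.sp 4 4721 (.L 1792) (.L 2714)) (.sp 3 9958 (.sp 4 4531 (.sp 1 11239 (.L 1792) (.sp 2 10812 (.L 1792) (.sp 3 9104 (.L 1792) (.sp 1 11453 (.L 1792) (.sp 2 11239 (.L 1792) (.sp 4 3056 (.ss 1458 .R (.L 2202)) (.L 2202))))))) (.L 2714)) (.sp 2 10812 (.sp 4 4721 (.sp 2 10385 (.L 1792) (.sp 1 11239 (.L 1792) (.sp 2 10598 (.L 1792) (.sp 3 10385 (.L 1792) (.sp 4 3120 (.ss 1458 .R (.L 2099)) (.L 2202)))))) (.sp 4 7144 (.L 2509) (.sp 4 8788 (.L 2714) (.L 3328)))) (.sp 5 2489 (.sp 1 11239 (.sp 4 4814 (.sp 1 11025 (.L 2099) (.sp 3 10598 (.L 2099) (.sp 4 3150 .R (.L 2365)))) (.sp 4 7355 (.L 2714) (.sp 4 9091 (.L 2714) (.L 3328)))) (.sp 4 4904 (.sp 4 3179 (.sp 3 10812 (.ss 1458 .R (.sp 3 10385 (.sp 4 2560 .R (.L 2365)) .R)) .R) (.sp 2 11239 (.sp 3 10598 (.L 2365) (.ss 1458 (.sp 4 3948 .R (.L 2509)) (.L 2509))) (.ss 1458 (.sp 4 3948 .R (.ss 1244 (.N 5) (.sp 5 2275 (.N 5) (.L 2714)))) (.sp 3 10812 (.L 2509) (.sp 4 3948 .R (.L 2714)))))) (.sp 4 7564 (.L 2714) (.L 3328)))) (.sp 1 11239 (.sp 4 5289 (.L 2365) (.sp 4 7709 (.L 2714) (.L 3328))) (.sp 4 5388 (.sp 4 3662 (.ss 1458 .R (.sp 2 11239 (.L 2509) (.sp 3 10812 (.L 2509) (.sp 4 3075 .R (.ss 1760 .R (.L 2714)))))) (.ss 1458 (.sp 2 11239 (.L 2509) (.ss 1244 (.N 5) (.L 2714))) (.L 2714))) (.sp 4 7928 (.L 2714) (.L 3328)))))))))) (.sp 1 14083 (.sp 2 10778 (.sp 2 9514 (.L 2509) (.sp 4 4714 (.sp 4 3117 (.sp 5 2489 (.sp 2 10146 (.sp 1 12875 (.L 2099) (.sp 3 9198 (.L 2365) (.sp 2 9830 (.ss 1458 (.sp 4 2535 .R (.L 2509)) (.L 2509)) (.ss 1458 (.sp 4 2535 .R (.sp 3 9672 (.L 2509) .R)) (.sp 4 2535 (.sp 5 2275 (.sp 3 9672 (.L 2509) (.ss 1760 .R (.L 2509))) (.L 2509)) (.L 2509)))))) (.sp 3 9514 (.sp 1 12875 (.L 2099) (.ss 1458 (.sp 3 8882 (.sp 4 2535 (.ss 1244 .R (.sp 4 2298 .R (.L 2509))) (.L 2509)) (.sp 4 2535 .R (.ss 1244 .R (.sp 2 10462 (.L 2509) (.sp 4 2826 .R (.L 2509)))))) (.sp 3 8882 (.L 2509) (.sp 4 2535 (.sp 5 2275 (.ss 1760 (.ss 1609 .R (.sp 2 10462 (.L 2509) (.sp 3 9198 (.L 2509) .R))) (.L 2509)) (.L 2509)) (.L 2509))))) (.ss 1458 .R (.sp 4 2535 (.ss 1760 .R (.sp 5 2275 (.sp 2 10462 (.sp 1 12875 (.L 2365) (.sp 3 9988 (.sp 4 2298 (.sp 5 2168 (.ss 1911 .R (.L 2509)) (.L 2509)) (.L 2509)) (.ss 1911 .R (.sp 3 10225 (.sp 4 2298 (.sp 4 2180 .R (.L 2714)) (.L 2714)) .R)))) (.sp 3 10146 (.ss 1911 .R (.sp 1 12875 (.L 2365) (.sp 4 2298 (.sp 3 9830 (.sp 5 2168 (.ss 1986 .R (.L 2714)) (.L 2714)) .R) (.L 2714)))) .R)) (.sp 2 10462 (.L 2714) (.sp 3 10146 (.L 2714) .R)))) (.ss 1760 (.sp 3 10146 (.sp 1 12875 (.L 2365) (.sp 4 2826 (.ss 1609 .R (.sp 2 10462 (.L 2714) .R)) (.L 2714))) .R) (.sp 2 10462 (.L 2714) (.sp 3 10146 (.L 2714) (.sp 4 2826 (.ss 1911 .R (.sp 3 10462 (.L 2714) .R)) (.L 2714))))))))) (.sp 2 10146 (.L 2509) (.sp 3 9514 (.sp 1 12875 (.L 2202) (.ss 1458 (.sp 3 8882 (.L 2509) (.sp 5 2702 (.sp 2 10462 (.L 2509) (.ss 1244 .R (.L 2509))) (.L 2509))) (.L 2509))) (.ss 1458 (.sp 5 2702 .R (.sp 3 10146 (.ss 1244 .R (.L 2714)) .R)) (.sp 5 2702 (.ss 1760 (.sp 2 10462 (.L 2714) (.sp 3 10146 (.L 2714) .R)) (.L 2714)) (.L 2714)))))) (.sp 2 10146 (.L 2509) (.sp 3 9514 (.L 2509) (.ss 1458 (.sp 4 3833 (.sp 5 2489 (.sp 2 10462 (.sp 1 12875 (.L 2365) (.sp 4 3475 (.ss 1244 .R (.sp 3 9988 (.L 2509) .R)) (.L 2714))) (.sp 3 10146 (.sp 4 3475 .R (.sp 1 12875 (.L 2509) (.ss 1244 (.sp 5 2275 .R (.L 2714)) (.L 2714)))) .R)) (.sp 2 10462 (.L 2714) (.sp 3 10146 (.L 2714) (.sp 4 3475 .R (.L 2714))))) (.sp 5 2489 (.sp 2 10462 (.L 2714) (.sp 3 10146 (.L 2714) (.ss 1244 (.sp 2 10620 (.L 2714) (.N 5)) (.L 2714)))) (.L 2714))) (.sp 4 3833 (.sp 5 2489 (.ss 1760 (.sp 2 10462 (.L 2714) (.sp 3 10146 (.L 2714) (.sp 4 3475 .R (.L 2714)))) (.L 2714)) (.L 2714)) (.L 2714)))))) (.sp 4 7127 (.L 2714) (.sp 4 8764 (.L 2714) (.L 3328))))) (.sp 4 4904 (.sp 4 3179 (.sp 2 12430 (.sp 3 9958 (.sp 5 2489 (.ss 1458 (.sp 4 2560 (.N 4) (.sp 2 11604 (.sp 3 9104 (.sp 2 11191 (.ss 1244 (.N 5) (.sp 1 12875 (.L 2202) (.sp 3 8677 (.L 2509) (.sp 4 2869 .R (.L 2509))))) (.N 4)) .R) (.N 4))) (.sp 4 2560 (.sp 5 2275 (.sp 3 9104 (.sp 2 11604 (.sp 1 12875 (.sp 1 12271 (.L 2099) (.sp 2 11191 (.L 2202) (.ss 1760 (.N 4) (.L 2365)))) (.ss 1760 (.sp 2 11191 (.sp 3 8677 (.sp 4 2311 (.ss 1609 (.N 4) (.L 2509)) (.L 2509)) (.sp 4 2311 .R (.ss 1609 .R (.L 2509)))) (.N 4)) (.sp 2 11191 (.sp 3 8677 (.L 2509) (.sp 4 2311 (.sp 5 2168 (.sp 2 10984 (.L 2509) (.ss 1911 (.ss 1835 .R (.L 2509)) (.L 2509))) (.L 2509)) (.L 2509))) (.sp 4 2311 (.sp 3 8677 (.sp 5 2168 (.sp 2 11397 (.L 2509) (.ss 1911 (.N 4) (.L 2509))) (.L 2509)) (.sp 5 2168 (.ss 1911 (.sp 4 2186 (.ss 1835 .R (.sp 3 8890 (.sp 2 11397 (.L 2509) (.N 4)) .R)) (.sp 2 11397 (.sp 3 8890 (.L 2509) .R) (.N 4))) (.sp 4 2186 (.sp 5 2115 (.sp 2 11397 (.sp 3 8890 (.L 2509) (.ss 1986 .R (.L 2509))) (.ss 1986 (.sp 3 8890 (.sp 2 11500 (.L 2509) (.N 4)) .R) (.sp 3 8890 (.L 2714) (.sp 3 8997 (.ss 2024 .R (.L 2714)) .R)))) (.sp 2 11397 (.L 2714) (.sp 3 8890 (.L 2714) (.ss 1986 .R (.L 2714))))) (.sp 2 11397 (.L 2714) (.sp 3 8890 (.L 2714) (.ss 1986 .R (.L 2714)))))) (.ss 1911 (.sp 2 11397 (.sp 3 8890 (.L 2509) .R) (.N 4)) (.L 2714)))) (.sp 3 8677 (.L 2509) (.ss 1911 (.sp 4 2435 (.sp 5 2168 (.sp 2 11397 (.L 2714) (.N 4)) (.L 2714)) (.L 2714)) (.L 2714))))))) (.ss 1760 (.N 4) (.sp 2 12017 (.ss 1911 (.N 4) (.sp 2 11810 (.sp 1 12875 (.L 2365) (.sp 4 2311 (.sp 4 2186 (.N 4) (.ss 1986 (.N 4) (.sp 2 11707 (.ss 2024 (.N 4) (.L 2714)) (.N 4)))) (.sp 3 8677 (.L 2714) (.sp 4 2435 (.ss 1986 (.N 4) (.L 2714)) (.L 2714))))) (.N 4))) (.N 4)))) (.ss 1760 .R (.sp 2 11604 (.sp 4 2311 (.ss 1911 (.sp 3 9531 (.sp 2 11191 (.sp 5 2168 .R (.sp 2 10984 (.L 2509) .R)) .R) .R) (.sp 5 2168 (.sp 3 9531 (.sp 1 12875 (.sp 1 12271 (.L 2202) (.sp 2 11191 (.L 2365) (.sp 2 11397 (.L 2365) .R))) (.sp 2 11191 (.sp 2 10984 (.L 2509) (.sp 4 2186 (.sp 3 9317 (.ss 1986 .R (.L 2509)) .R) (.L 2714))) (.sp 2 11397 (.sp 3 9317 (.ss 1986 .R (.ss 2024 (.sp 4 2186 .R (.L 2714)) (.sp 4 2186 (.sp 4 2124 .R (.L 2714)) (.L 2714)))) .R) .R))) .R) (.sp 2 11191 (.sp 1 12875 (.L 2509) (.sp 3 9531 (.L 2714) (.sp 2 10984 (.sp 3 9744 (.L 2714) .R) .R))) (.sp 3 9531 (.sp 3 9317 (.ss 1986 .R (.L 2714)) .R) .R)))) (.sp 2 11191 (.sp 1 12875 (.L 2509) (.sp 3 9531 (.ss 1911 (.sp 3 9317 (.L 2509) .R) (.L 2714)) (.ss 1911 .R (.ss 1986 .R (.L 2714))))) (.sp 3 9531 (.ss 1911 .R (.sp 1 12875 (.L 2509) (.sp 4 2435 (.sp 5 2168 (.sp 3 9317 (.L 2714) .R) (.L 2714)) (.L 2714)))) .R))) (.sp 4 2311 .R (.sp 3 9531 (.sp 2 12017 (.ss 1911 .R (.sp 4 2435 .R (.sp 2 11810 (.sp 3 9317 (.L 2714) .R) .R))) (.N 4)) .R))))) (.sp 3 9104 (.sp 2 11604 (.sp 1 12875 (.L 2365) (.ss 1760 (.sp 2 11191 (.L 2509) (.ss 1609 (.N 4) (.sp 4 2417 (.N 4) (.L 2714)))) (.L 2714))) (.ss 1760 (.N 4) (.sp 2 12017 (.ss 1911 (.N 4) (.L 2714)) (.N 4)))) (.ss 1760 .R (.sp 2 11604 (.sp 2 11191 (.sp 1 12875 (.L 2509) (.sp 5 2382 (.sp 3 9531 (.L 2714) (.ss 1911 .R (.L 2714))) (.L 2714))) (.sp 5 2382 (.sp 3 9531 (.ss 1911 .R (.L 2714)) (.ss 1911 .R (.sp 4 2417 .R (.L 2714)))) (.sp 3 9531 (.L 2714) (.ss 1911 .R (.L 2714))))) (.sp 3 9531 (.sp 2 12017 (.ss 1911 .R (.sp 5 2382 (.sp 3 9317 (.ss 1986 .R (.L 2714)) .R) (.L 2714))) (.N 4)) .R))))) (.sp 3 9104 (.sp 2 11604 (.sp 1 12875 (.L 2365) (.ss 1760 (.sp 2 11191 (.L 2509) (.sp 4 2869 (.sp 5 2275 (.ss 1609 (.N 4) (.sp 2 11397 (.L 2714) (.N 4))) (.L 2714)) (.L 2714))) (.L 2714))) (.ss 1760 (.sp 4 2869 (.N 4) (.sp 5 2275 (.N 4) (.sp 2 12017 (.L 2714) (.N 4)))) (.sp 4 2869 (.sp 5 2275 (.sp 2 12017 (.sp 1 12875 (.L 2509) (.ss 1911 (.sp 4 2714 (.N 4) (.L 2714)) (.L 2714))) (.N 4)) (.L 2714)) (.L 2714)))) (.sp 2 11604 (.ss 1760 (.sp 4 2869 (.sp 2 11191 (.sp 3 9531 (.ss 1609 .R (.L 2714)) .R) .R) (.sp 5 2275 (.sp 3 9531 (.ss 1609 .R (.L 2714)) .R) (.sp 2 11191 (.L 2714) (.sp 3 9531 (.L 2714) .R)))) (.sp 4 2869 (.sp 5 2275 (.sp 2 11191 (.sp 1 12875 (.L 2509) (.sp 3 9531 (.L 2714) (.ss 1911 (.sp 4 2714 .R (.L 2714)) (.L 2714)))) (.sp 3 9531 (.sp 1 12875 (.L 2509) (.ss 1911 (.sp 3 9317 (.L 2714) .R) (.L 2714))) (.ss 1911 .R (.sp 3 9744 (.L 2714) .R)))) (.L 2714)) (.L 2714))) (.ss 1760 .R (.sp 4 2869 (.sp 5 2275 (.sp 3 9531 (.sp 2 12017 (.ss 1911 .R (.sp 4 2714 (.sp 3 9317 (.L 2714) .R) (.L 2714))) (.N 4)) .R) (.sp 3 9531 (.sp 2 12017 (.L 2714) (.ss 1911 (.N 4) (.sp 4 2714 (.N 4) (.L 2714)))) (.sp 2 12017 (.ss 1911 .R (.sp 4 2714 .R (.L 2714))) .R))) (.sp 5 2275 (.sp 3 9531 (.sp 2 12017 (.L 2714) (.ss 1911 (.N 4) (.L 2714))) (.sp 2 12017 (.ss 1911 .R (.L 2714)) .R)) (.sp 3 9531 (.L 2714) (.ss 1911 .R (.L 2714)))))))))) (.ss 1458 (.sp 2 11604 (.sp 5 2702 (.sp 3 9104 (.ss 1244 (.sp 2 11191 (.sp 4 2834 (.N 4) (.L 2509)) (.N 5)) (.sp 1 12875 (.L 2365) (.sp 4 2834 (.sp 2 11191 (.L 2509) (.N 4)) (.L 2714)))) .R) (.sp 3 9104 (.L 2714) (.ss 1244 .R (.sp 2 11191 (.L 2714) .R)))) (.N 4)) (.sp 5 2702 (.sp 3 9104 (.sp 2 11604 (.L 2714) (.ss 1760 (.sp 4 2834 (.N 4) (.L 2714)) (.L 2714))) (.sp 2 11604 (.ss 1760 (.sp 4 2834 (.sp 3 9531 (.ss 1609 .R (.L 2714)) .R) (.L 2714)) (.L 2714)) (.ss 1760 (.sp 4 2834 .R (.sp 3 9531 (.sp 2 12017 (.L 2714) (.N 4)) .R)) (.sp 4 2834 (.sp 3 9531 (.sp 5 2595 (.sp 2 12017 (.L 2714) (.ss 1911 (.N 4) (.L 2714))) (.L 2714)) (.sp 2 12017 (.ss 1911 .R (.L 2714)) .R)) (.L 2714))))) (.sp 3 9104 (.L 2714) (.sp 2 11604 (.L 2714) (.ss 1760 (.sp 3 9531 (.L 2714) .R) (.L 2714))))))) (.ss 1458 .R (.sp 4 2560 (.ss 1760 .R (.sp 3 10812 (.sp 2 11604 (.ss 1911 .R (.sp 3 10385 (.sp 4 2311 .R (.sp 2 11191 (.ss 1986 .R (.sp 5 2311 .R (.L 2714))) .R)) .R)) .R) .R)) (.sp 3 10812 (.ss 1760 .R (.sp 5 2489 (.sp 2 11604 (.sp 3 10385 (.sp 4 2869 (.sp 2 11191 (.ss 1911 .R (.sp 3 10171 (.L 2714) .R)) .R) (.sp 5 2275 (.ss 1911 .R (.L 2714)) (.L 2714))) (.sp 4 2869 .R (.sp 5 2275 .R (.sp 2 11191 (.L 2714) .R)))) .R) (.sp 2 11604 (.sp 5 2702 (.sp 4 2869 (.sp 3 10385 (.ss 1911 .R (.L 2714)) .R) (.L 2714)) (.L 2714)) (.sp 5 2702 (.sp 3 10385 (.ss 1911 .R (.sp 4 2869 .R (.L 2714))) .R) (.sp 3 10385 (.sp 4 2940 .R (.L 2714)) .R))))) .R)))) (.N 4)) (.sp 2 12430 (.sp 3 9958 (.sp 4 3948 (.ss 1458 (.sp 2 11604 (.sp 5 2489 (.ss 1244 (.N 5) (.sp 3 9104 (.L 2714) (.sp 4 3563 (.sp 2 11191 (.sp 3 9531 (.L 2714) .R) (.sp 3 9531 (.sp 5 2275 .R (.L 2714)) .R)) (.sp 5 2275 (.sp 2 11191 (.L 2714) (.N 5)) (.L 2714))))) (.sp 3 9104 (.L 2714) (.sp 4 3563 (.ss 1244 (.sp 2 11191 (.L 2714) (.N 5)) (.L 2714)) (.L 2714)))) (.N 5)) (.sp 5 2489 (.sp 3 9104 (.sp 2 11604 (.L 2714) (.ss 1760 (.sp 4 3563 (.sp 2 12017 (.L 2714) (.N 4)) (.L 2714)) (.L 2714))) (.sp 2 11604 (.ss 1760 (.sp 4 3563 (.sp 5 2275 (.sp 2 11191 (.L 2714) (.sp 3 9531 (.L 2714) (.ss 1609 .R (.L 2714)))) (.L 2714)) (.L 2714)) (.L 2714)) (.ss 1760 (.sp 4 3563 (.sp 3 9531 (.sp 2 12017 (.sp 5 2275 (.ss 1609 .R (.L 2714)) (.L 2714)) (.N 4)) .R) (.sp 5 2275 (.ss 1609 (.N 5) (.L 2714)) (.L 2714))) (.sp 4 3563 (.sp 5 2275 (.sp 3 9531 (.L 2714) (.sp 2 12017 (.L 2714) (.ss 1911 .R (.L 2714)))) (.L 2714)) (.L 2714))))) (.L 2714))) (.ss 1458 (.sp 2 11604 (.sp 5 2489 (.ss 1244 (.N 5) (.L 2714)) (.L 2714)) (.N 5)) (.L 2714))) (.sp 1 12875 (.sp 4 3948 (.ss 1458 (.sp 3 10812 (.sp 5 2489 .R (.sp 2 11604 (.sp 4 3563 .R (.sp 3 10385 (.L 2714) .R)) .R)) .R) (.sp 3 10812 (.sp 5 2489 (.sp 2 11604 (.ss 1760 (.sp 4 3563 (.sp 3 10385 (.sp 5 2275 .R (.L 2714)) .R) (.sp 3 10385 (.L 2714) (.sp 5 2275 .R (.L 2714)))) (.sp 4 3563 (.sp 3 10385 (.L 2714) (.ss 1911 .R (.L 2714))) (.L 2714))) (.ss 1760 .R (.sp 4 3563 (.sp 3 10385 (.sp 2 12017 (.ss 1911 .R (.L 2714)) .R) .R) (.sp 1 12271 (.L 2714) (.sp 3 10385 (.L 2714) (.sp 2 12017 (.L 2714) .R)))))) (.sp 2 11604 (.L 2714) (.ss 1760 (.sp 4 3563 .R (.sp 3 10385 (.L 2714) .R)) (.L 2714)))) (.sp 2 11621 (.ss 1760 .R (.sp 3 11216 (.sp 5 2489 (.sp 4 3563 .R (.L 2714)) (.L 2714)) .R)) (.ss 1760 .R (.sp 3 11239 (.sp 5 2489 .R (.sp 4 3563 .R (.L 2714))) .R))))) (.ss 1458 (.sp 2 11604 (.sp 3 10781 (.sp 5 2489 (.ss 1244 (.N 5) (.sp 4 4426 (.sp 5 2275 (.sp 2 11191 (.L 2714) (.N 5)) (.L 2714)) (.L 2714))) (.L 2714)) (.sp 5 2489 (.ss 1244 (.N 5) (.sp 4 4426 .R (.sp 3 11192 (.sp 5 2275 (.sp 2 11192 (.L 2714) (.N 5)) (.L 2714)) .R))) (.sp 2 11192 (.L 2714) (.ss 1244 (.N 5) (.sp 4 4426 .R (.L 2714)))))) (.N 5)) (.sp 3 10812 (.sp 5 2489 (.sp 2 11604 (.L 2714) (.ss 1760 (.sp 1 12271 (.L 2714) (.sp 4 4426 (.sp 3 10385 (.sp 5 2275 (.ss 1609 (.N 5) (.L 2714)) (.L 2714)) (.sp 5 2275 .R (.sp 2 12017 (.L 2714) .R))) (.L 2714))) (.L 2714))) (.L 2714)) (.sp 1 12271 (.sp 5 2489 (.sp 2 11541 (.L 2714) (.ss 1760 (.sp 4 4426 .R (.sp 3 11239 (.L 2714) .R)) (.sp 1 11969 (.L 2714) (.sp 4 4426 (.sp 3 11239 (.L 2714) .R) (.L 2714))))) (.L 2714)) (.sp 2 11621 (.sp 5 2489 (.sp 2 11216 (.L 2714) (.sp 1 12573 (.ss 1760 (.sp 4 4426 .R (.L 2714)) (.L 2714)) (.sp 3 11216 (.sp 1 12724 (.ss 1760 (.sp 4 4426 .R (.L 2714)) (.L 2714)) (.sp 2 11418 (.L 2714) (.L 3328))) (.sp 2 11418 (.sp 3 11317 (.sp 1 12724 (.L 2714) (.L 3328)) (.sp 4 4426 .R (.L 3328))) (.sp 4 4426 .R (.L 3328)))))) (.L 2714)) (.sp 5 2489 (.sp 4 4426 (.ss 1760 .R (.L 3328)) (.L 3328)) (.L 3328))))))) (.sp 3 10812 (.sp 2 11604 (.sp 1 13479 (.sp 4 3948 (.ss 1458 (.sp 5 2489 .R (.sp 4 3563 .R (.sp 3 10385 (.ss 1244 (.sp 2 11191 (.L 2714) (.N 5)) (.L 2714)) .R))) (.sp 1 13177 (.sp 5 2489 (.ss 1760 (.sp 4 3563 (.sp 3 10385 (.sp 5 2275 .R (.sp 2 11191 (.L 2714) .R)) .R) (.sp 3 10385 (.L 2714) (.sp 5 2275 .R (.L 2714)))) (.sp 4 3563 (.sp 3 10385 (.L 2714) (.ss 1911 .R (.L 2714))) (.L 2714))) (.ss 1760 (.sp 4 3563 (.sp 3 10385 (.L 2714) .R) (.L 2714)) (.L 2714))) (.sp 2 11191 (.sp 1 13328 (.sp 5 2489 (.ss 1760 (.sp 4 3563 (.sp 3 10385 (.sp 5 2275 .R (.L 2714)) .R) (.L 2714)) (.L 2714)) (.L 2714)) (.sp 3 10385 (.sp 1 13403 (.sp 5 2489 (.ss 1760 (.sp 4 3563 (.sp 5 2275 .R (.L 2714)) (.L 2714)) (.L 2714)) (.L 2714)) (.sp 2 10984 (.L 2714) (.L 3328))) (.sp 5 2489 (.ss 1760 (.sp 4 3563 .R (.L 3328)) (.L 3328)) (.L 3328)))) (.sp 3 10385 (.sp 1 13328 (.sp 1 13252 (.sp 5 2489 (.ss 1760 (.sp 4 3563 .R (.L 2714)) (.L 2714)) (.L 2714)) (.sp 2 11397 (.sp 1 13290 (.sp 5 2489 (.ss 1760 (.sp 4 3563 .R (.L 3328)) (.L 2714)) (.L 3328)) (.sp 3 10171 (.sp 5 2489 (.ss 1760 (.sp 4 3563 .R (.L 3328)) (.L 2714)) (.L 2714)) (.sp 3 10278 (.sp 2 11294 (.sp 5 2489 (.ss 1760 .R (.L 2714)) (.L 3328)) (.sp 2 11345 (.sp 3 10224 (.sp 5 2489 (.ss 1760 .R (.L 3328)) (.L 3328)) (.sp 2 11319 (.sp 1 13309 (.sp 5 2489 (.ss 1760 .R (.L 3328)) (.L 1048576)) (.sp 5 2489 (.ss 1760 .R (.L 1048576)) (.L 1048576))) (.sp 3 10251 (.sp 1 13309 (.sp 5 2489 (.ss 1760 .R (.L 3328)) (.L 1048576)) (.L 3328)) (.sp 5 2489 (.ss 1760 .R (.L 1048576)) (.L 1048576))))) (.sp 5 2489 (.ss 1760 .R (.L 3328)) (.L 1048576)))) (.sp 5 2489 (.ss 1760 .R (.L 3328)) (.L 3328))))) (.sp 3 10171 (.sp 2 11500 (.sp 5 2489 (.ss 1760 (.sp 4 3563 .R (.L 3328)) (.L 2714)) (.L 3328)) (.sp 3 10064 (.sp 1 13290 (.sp 5 2489 (.ss 1760 .R (.L 3328)) (.L 3328)) (.sp 5 2489 (.ss 1760 .R (.L 3328)) (.L 3328))) (.sp 5 2489 (.ss 1760 .R (.L 3328)) (.L 3328)))) (.sp 5 2489 (.ss 1760 .R (.L 3328)) (.L 3328))))) (.sp 5 2489 (.ss 1760 (.sp 4 3563 .R (.L 3328)) (.L 3328)) (.L 3328))) (.sp 5 2489 (.ss 1760 .R (.L 3328)) (.L 3328)))))) (.sp 1 13177 (.ss 1458 (.sp 5 2489 (.ss 1244 (.N 5) (.sp 4 4426 (.sp 3 10385 (.L 2714) (.sp 2 11191 (.L 2714) .R)) (.L 2714))) (.sp 1 13026 (.L 2714) (.L 3328))) (.L 2714)) (.sp 3 10385 (.sp 2 11191 (.sp 1 13328 (.ss 1458 (.sp 5 2489 (.ss 1244 (.N 5) (.L 2714)) (.L 2714)) (.L 2714)) (.L 3328)) (.sp 3 10171 (.sp 1 13328 (.sp 1 13252 (.sp 1 13214 (.ss 1458 (.ss 1244 (.N 5) (.L 2714)) (.L 3328)) (.sp 2 11397 (.ss 1458 (.ss 1244 (.N 5) (.L 2714)) (.L 2714)) (.ss 1458 (.sp 5 2489 (.N 5) (.L 3328)) (.L 3328)))) (.sp 2 11397 (.sp 2 11294 (.L 2714) (.sp 3 10064 (.L 2714) (.L 3328))) (.L 3328))) (.L 3328)) (.ss 1458 (.ss 1244 (.N 5) (.L 3328)) (.L 3328)))) (.ss 1458 (.sp 5 2489 (.ss 1244 (.N 5) (.L 3328)) (.L 3328)) (.L 3328))))) (.sp 1 13781 (.sp 4 3948 (.ss 1458 (.sp 5 2489 .R (.L 3328)) (.L 3328)) (.L 3328)) (.L 1048576))) (.ss 1458 (.N 5) (.sp 3 10385 (.sp 2 12017 (.sp 1 13479 (.sp 1 13177 (.sp 4 3948 (.sp 5 2489 (.ss 1760 .R (.sp 1 13026 (.sp 4 3563 (.ss 1911 .R (.L 2714)) (.L 2714)) (.sp 2 11810 (.L 2714) (.L 3328)))) (.sp 1 13026 (.L 2714) (.L 3328))) (.L 2714)) (.sp 4 3948 (.sp 1 13328 (.sp 5 2489 (.ss 1760 .R (.L 3328)) (.L 3328)) (.L 1048576)) (.L 3328))) (.L 1048576)) (.sp 1 13479 (.sp 1 13177 (.sp 3 10171 (.sp 2 12223 (.sp 1 13026 (.sp 4 3948 (.ss 1760 .R (.sp 1 12950 (.sp 5 2489 (.sp 4 3563 .R (.L 3328)) (.L 2714)) (.L 3328))) (.L 3328)) (.sp 4 3948 (.ss 1760 .R (.L 3328)) (.L 1048576))) (.sp 4 3948 (.ss 1760 .R (.sp 1 13026 (.sp 5 2489 (.sp 4 3563 .R (.L 3328)) (.L 3328)) (.L 1048576))) (.L 3328))) (.sp 4 3948 (.ss 1760 .R (.sp 5 2489 (.sp 4 3563 .R (.L 3328)) (.L 3328))) (.L 3328))) (.L 1048576)) (.L 1048576))) (.sp 1 13479 (.sp 1 13177 (.sp 4 3948 (.ss 1760 .R (.sp 5 2489 (.sp 4 3563 .R (.L 3328)) (.L 3328))) (.L 3328)) (.L 1048576)) (.L 1048576))))) (.sp 1 13479 (.sp 4 3948 (.ss 1458 .R (.ss 1760 .R (.sp 3 11239 (.sp 5 2489 (.sp 4 3563 .R (.L 3328)) (.L 3328)) .R))) (.ss 1458 (.sp 2 11621 (.sp 2 11216 (.sp 3 11014 (.sp 1 13177 (.sp 1 13026 (.sp 5 2489 (.ss 1244 (.N 5) (.sp 4 4426 .R (.L 2714))) (.L 2714)) (.sp 2 11014 (.sp 1 13101 (.sp 5 2489 (.sp 4 4426 .R (.L 3328)) (.L 3328)) (.sp 2 10913 (.sp 5 2489 (.sp 4 4426 .R (.L 3328)) (.L 3328)) (.sp 4 4426 (.sp 5 2489 .R (.L 3328)) (.L 1048576)))) (.ss 1244 (.N 5) (.L 3328)))) (.sp 1 13328 (.sp 4 4426 (.sp 5 2489 .R (.L 1048576)) (.L 1048576)) (.L 1048576))) (.sp 4 4426 .R (.ss 1244 (.N 5) (.L 3328)))) (.sp 4 4426 .R (.L 3328))) (.N 5)) (.L 3328))) (.L 1048576))))) (.ss 1458 (.N 5) (.sp 3 9958 (.ss 1760 (.N 5) (.sp 1 13256 (.sp 2 12843 (.sp 4 3948 (.sp 5 2489 (.sp 3 9104 (.L 2714) (.sp 4 3563 (.sp 5 2275 (.N 4) (.L 2714)) (.L 2714))) (.L 2714)) (.L 2714)) (.sp 3 9104 (.L 2714) (.L 3328))) (.L 3328))) (.ss 1760 (.N 5) (.sp 2 13256 (.sp 1 13256 (.sp 2 12843 (.sp 4 3948 (.sp 4 3563 .R (.sp 3 10812 (.sp 3 10385 (.sp 3 10171 (.L 2714) (.sp 5 2489 .R (.L 3328))) .R) .R)) (.L 3328)) (.L 1048576)) (.L 1048576)) (.L 1048576))))))) (.sp 4 7564 (.sp 2 12430 (.sp 1 12875 (.sp 3 9958 (.L 2714) (.sp 1 12271 (.ss 1458 (.sp 3 10812 (.sp 5 2489 (.sp 2 11524 (.L 2714) (.N 5)) (.L 2714)) (.sp 2 11541 (.sp 5 2489 (.ss 1244 (.N 5) (.L 2714)) (.L 2714)) (.ss 1244 (.N 5) (.sp 5 2489 (.N 5) (.L 2714))))) (.L 2714)) (.sp 2 11604 (.sp 1 12573 (.ss 1458 (.sp 3 10781 (.L 2714) (.sp 3 11192 (.sp 5 2489 (.ss 1244 (.N 5) (.L 2714)) (.L 2714)) (.ss 1244 (.N 5) (.L 3328)))) (.L 2714)) (.sp 3 10781 (.L 2714) (.sp 2 11192 (.L 2714) (.L 3328)))) (.ss 1458 (.N 5) (.L 3328))))) (.sp 3 9958 (.L 2714) (.L 3328))) (.ss 1458 (.N 5) (.L 3328))) (.sp 2 12430 (.sp 1 12875 (.sp 4 9394 (.ss 1458 (.sp 2 11604 (.sp 3 9927 (.L 2714) (.L 3328)) (.N 5)) (.L 3328)) (.L 3328)) (.L 3328)) (.L 3328))))) (.sp 1 15291 (.sp 4 4904 (.sp 1 14687 (.sp 4 3179 (.sp 5 2489 (.sp 1 14385 (.sp 3 9958 (.sp 2 10893 (.sp 3 9104 (.sp 2 9571 (.L 2335) (.ss 1458 (.sp 2 10232 (.sp 4 2560 (.sp 5 2275 (.sp 3 8677 (.L 2365) (.sp 2 9901 (.L 2365) .R)) (.L 2509)) (.L 2509)) (.sp 4 2560 (.ss 1244 .R (.sp 4 2311 .R (.sp 3 8677 (.L 2509) .R))) (.sp 4 2869 (.sp 1 14234 (.ss 1244 (.sp 5 2275 .R (.L 2714)) (.L 2714)) (.L 3328)) (.L 2714)))) (.sp 4 2560 (.sp 2 10232 (.L 2509) (.sp 5 2275 (.ss 1760 (.sp 4 2311 (.sp 1 14234 (.sp 5 2168 (.sp 2 10562 (.L 2509) (.sp 3 8677 (.L 2509) (.ss 1609 .R (.L 3328)))) (.L 2714)) (.L 3328)) (.L 2714)) (.L 2714)) (.L 2714))) (.L 2714)))) (.sp 2 9998 (.sp 2 9551 (.L 2365) (.ss 1458 (.sp 4 2560 .R (.L 2714)) (.L 2714))) (.sp 4 2560 (.ss 1458 .R (.sp 5 2275 (.sp 1 14234 (.ss 1760 (.ss 1609 .R (.L 3328)) (.L 3328)) (.L 3328)) (.L 3328))) (.ss 1458 (.sp 4 2869 .R (.L 3328)) (.L 3328))))) (.sp 2 12639 (.sp 2 11766 (.sp 3 9104 (.sp 4 2560 (.ss 1458 (.N 4) (.sp 5 2275 (.sp 1 14234 (.ss 1760 (.ss 1609 (.N 4) (.L 3328)) (.L 3328)) (.L 3328)) (.L 3328))) (.ss 1458 (.ss 1244 (.N 5) (.L 3328)) (.L 3328))) (.L 1048576)) (.L 1048576)) (.N 4))) (.ss 1458 .R (.L 1048576))) (.sp 3 9958 (.sp 2 11007 (.sp 2 9628 (.L 2714) (.L 3328)) (.L 1048576)) (.L 1048576))) (.sp 3 9958 (.sp 2 11007 (.sp 3 9104 (.L 2714) (.L 3328)) (.L 3328)) (.L 1048576))) (.sp 3 9958 (.sp 2 11007 (.L 2714) (.L 3328)) (.L 1048576))) (.L 3328)) (.L 3328)) (.L 1048576)))) (.sp 1 11667 (.sp 1 9958 (.L 2509) (.sp 2 9958 (.L 2509) (.sp 1 10812 (.L 2714) (.sp 2 10812 (.L 2714) (.sp 4 5832 (.sp 3 9958 (.L 2365) (.sp 1 11239 (.L 2365) (.sp 5 3520 (.sp 4 4123 (.sp 2 11239 (.L 2509) (.sp 3 10812 (.L 2509) (.ss 1458 (.sp 5 3218 .R (.L 2714)) (.L 2714)))) (.L 2714)) (.L 2714)))) (.sp 4 8248 (.L 2714) (.L 3328))))))) (.sp 4 5832 (.sp 1 14083 (.sp 2 10778 (.L 2714) (.sp 2 12430 (.sp 1 12875 (.sp 5 3520 (.sp 3 9958 (.sp 4 4123 (.ss 1458 (.sp 5 3218 (.sp 4 3519 (.sp 3 9104 (.L 2714) (.sp 2 11604 (.L 2714) (.ss 1244 (.N 6) (.L 2714)))) (.L 2714)) (.L 2714)) (.L 2714)) (.L 2714)) (.sp 4 4123 (.ss 1458 (.sp 5 3218 (.sp 3 10812 (.sp 4 3519 (.sp 2 11604 (.ss 1244 .R (.sp 5 3067 .R (.L 2714))) .R) (.sp 2 11604 (.L 2714) (.ss 1244 (.N 6) (.L 2714)))) (.ss 1244 (.ss 1137 (.N 6) .R) (.sp 4 3519 .R (.sp 2 11621 (.sp 2 11216 (.L 2714) .R) .R)))) (.sp 3 10812 (.sp 2 11604 (.L 2714) (.ss 1244 (.N 6) (.L 2714))) (.sp 2 11621 (.sp 4 3670 .R (.L 2714)) .R))) (.sp 5 3218 (.sp 4 3519 (.sp 3 10812 (.sp 2 11604 (.L 2714) (.ss 1760 (.sp 5 3067 .R (.L 2714)) (.L 2714))) (.sp 2 11621 (.ss 1760 .R (.L 2714)) .R)) (.sp 3 10812 (.L 2714) (.sp 1 12271 (.L 2714) (.sp 2 11621 (.L 2714) (.L 3328))))) (.sp 3 10812 (.L 2714) (.sp 1 12271 (.L 2714) (.sp 2 11621 (.L 2714) (.L 3328)))))) (.sp 1 12271 (.ss 1458 (.sp 3 10812 (.L 2714) (.sp 2 11541 (.L 2714) (.ss 1244 (.N 6) (.L 2714)))) (.L 2714)) (.sp 2 11604 (.L 2714) (.sp 3 10812 (.L 2714) (.L 3328)))))) (.sp 3 9958 (.L 2714) (.sp 1 12271 (.L 2714) (.sp 2 11604 (.L 2714) (.L 3328))))) (.sp 3 9958 (.sp 1 13479 (.sp 5 3520 (.sp 4 4123 (.ss 1458 (.sp 5 3218 (.sp 4 3519 (.sp 3 9104 (.L 2714) (.sp 2 11604 (.L 2714) (.ss 1244 (.N 6) (.sp 3 9531 (.L 2714) .R)))) (.L 2714)) (.L 2714)) (.L 2714)) (.L 2714)) (.L 2714)) (.sp 3 9104 (.L 2714) (.L 3328))) (.sp 5 3520 (.sp 4 4123 (.sp 1 13479 (.sp 5 3218 (.sp 4 3519 (.ss 1458 (.sp 4 3217 .R (.ss 1244 .R (.sp 5 3067 .R (.L 3328)))) (.sp 1 13177 (.ss 1760 (.sp 3 10812 (.sp 2 11604 (.L 2714) (.L 3328)) .R) (.L 3328)) (.L 3328))) (.ss 1458 (.sp 1 13177 (.ss 1244 (.ss 1137 (.N 6) (.L 3328)) (.L 3328)) (.L 3328)) (.L 3328))) (.ss 1458 (.sp 4 3670 (.sp 3 10812 (.sp 2 11604 (.L 2714) (.L 3328)) .R) (.L 3328)) (.L 3328))) (.L 3328)) (.L 3328)) (.L 3328)))) (.ss 1458 (.N 6) (.sp 3 9958 (.sp 1 13256 (.L 2714) (.L 3328)) (.sp 2 13256 (.sp 1 13256 (.sp 2 12843 (.sp 5 3520 (.sp 4 4123 (.sp 5 3218 (.sp 3 10812 (.sp 3 10385 (.sp 1 12843 (.sp 1 12636 (.L 2714) (.L 3328)) (.L 3328)) (.sp 4 3519 .R (.L 3328))) .R) (.L 3328)) (.L 3328)) (.L 3328)) (.L 1048576)) (.L 1048576)) (.L 1048576)))))) (.L 3328)) (.sp 3 9958 (.L 2714) (.L 3328)))))) (.ss 1031 (.N 6) (.sp 3 14083 (.sp 2 14083 (.sp 1 14083 (.sp 3 12875 (.sp 2 12875 (.sp 2 12271 (.sp 3 11969 (.sp 1 12875 (.sp 1 12271 (.sp 4 4967 (.sp 4 3200 .R (.sp 5 2916 (.sp 4 3986 .R (.ss 1458 (.N 5) (.sp 5 2489 .R (.sp 4 4476 .R (.L 3328))))) (.sp 2 11969 (.sp 5 3520 (.sp 4 3986 .R (.sp 1 11969 (.L 2714) (.L 3328))) (.L 2714)) (.sp 4 3986 .R (.L 3328))))) (.sp 4 7710 (.sp 1 11969 (.sp 2 11818 (.sp 5 2916 (.ss 1458 (.N 5) (.L 2714)) (.L 3328)) (.sp 5 2916 (.ss 1458 (.N 5) (.L 3328)) (.L 3328))) (.sp 5 2916 (.ss 1458 (.N 5) (.L 3328)) (.L 3328))) (.L 1048576))) (.sp 2 11969 (.sp 1 12573 (.sp 4 4967 (.sp 4 3200 .R (.sp 2 11818 (.sp 1 12422 (.sp 5 2916 (.sp 4 3986 .R (.ss 1458 (.N 5) (.sp 5 2489 .R (.L 3328)))) (.sp 5 3520 (.sp 4 3986 .R (.L 3328)) (.L 3328))) (.sp 5 2916 (.sp 4 3986 .R (.sp 4 4476 .R (.L 1048576))) (.sp 5 3520 (.sp 4 3986 .R (.L 1048576)) (.L 1048576)))) (.sp 4 3986 .R (.sp 5 2916 (.ss 1458 (.N 5) (.sp 5 2489 .R (.L 3328))) (.L 3328))))) (.L 3328)) (.sp 4 4967 (.sp 4 3200 .R (.sp 5 2916 (.sp 4 3986 .R (.L 1048576)) (.L 1048576))) (.L 1048576))) (.ss 1458 (.sp 5 2916 (.N 5) (.ss 1244 (.N 6) (.ss 1351 (.N 6) (.ss 1404 (.N 6) (.ss 1431 (.N 6) (.sp 4 5907 (.sp 4 4150 .R (.L 1048576)) (.L 1048576))))))) (.sp 4 4967 (.sp 4 3200 .R (.sp 4 3986 .R (.L 3328))) (.L 1048576))))) (.sp 4 4967 (.sp 4 3200 .R (.L 1048576)) (.L 1048576))) (.ss 1458 (.sp 5 2916 (.N 5) (.ss 1244 (.N 6) (.ss 1351 (.N 6) (.ss 1404 (.N 6) (.ss 1431 (.N 6) (.ss 1444 (.sp 5 3520 (.N 5) (.L 3328)) (.sp 1 13026 (.sp 4 5981 (.sp 4 4176 .R (.L 3328)) (.L 1048576)) (.L 1048576)))))))) (.sp 1 13026 (.sp 4 5030 (.sp 5 2916 .R (.sp 4 3829 .R (.L 3328))) (.L 1048576)) (.L 1048576)))) (.ss 1458 (.N 6) (.sp 1 13177 (.sp 4 5152 (.sp 4 3259 .R (.sp 4 4097 .R (.L 1048576))) (.L 1048576)) (.L 1048576)))) (.L 1048576)) (.L 1048576)) (.L 1048576)) (.L 1048576)) (.L 1048576))))) (.sp 2 11667 (.sp 2 9958 (.L 2714) (.sp 4 6937 (.sp 1 12818 (.ss 1031 (.sp 2 10812 (.L 2714) (.N 6)) (.L 2714)) (.sp 3 9958 (.L 2714) (.sp 2 10812 (.L 2714) (.L 3328)))) (.sp 3 9958 (.L 2714) (.sp 1 12818 (.ss 1031 (.ss 515 (.N 6) (.L 3328)) (.L 3328)) (.L 3328))))) (.ss 1031 (.N 6) (.L 3328)))) (.sp 3 11667 (.sp 5 4124 (.ss 2916 (.sp 5 2916 (.ss 2489 (.sp 1 11667 (.sp 1 9958 (.L 2509) (.sp 2 9958 (.L 2509) (.sp 1 10812 (.L 2509) (.sp 3 9958 (.L 2509) (.sp 2 10812 (.L 2714) (.sp 5 2489 (.sp 1 11239 (.sp 4 4814 (.L 2365) (.L 2714)) (.sp 4 4904 (.sp 4 3179 (.ss 2275 (.sp 2 11239 (.sp 3 10598 (.L 2202) (.sp 4 2560 .R (.L 2509))) (.sp 3 10812 (.sp 1 11453 (.L 2365) (.sp 3 10385 (.L 2365) (.sp 4 2560 .R (.L 2509)))) .R)) (.sp 2 11239 (.L 2509) (.sp 3 10812 (.L 2509) (.sp 4 2727 (.ss 2382 .R (.L 2714)) (.L 2714))))) (.L 2714)) (.L 3328))) (.L 2714))))))) (.sp 1 14083 (.sp 2 10778 (.sp 2 9514 (.L 2509) (.sp 4 4714 (.sp 4 3117 (.sp 5 2489 (.sp 2 10146 (.L 2509) (.sp 3 9514 (.L 2509) (.ss 2275 (.sp 4 2535 (.sp 5 2275 (.sp 2 10462 (.sp 1 12875 (.L 2365) (.ss 2168 (.sp 3 9988 (.L 2509) (.sp 4 2298 (.sp 5 2168 (.ss 2115 (.sp 3 10225 (.L 2714) .R) (.L 2714)) (.L 2714)) (.L 2714))) (.L 2714))) (.ss 2168 (.sp 3 10146 (.sp 1 12875 (.L 2365) (.sp 4 2298 (.sp 5 2168 (.ss 2115 (.sp 3 9830 (.L 2714) (.sp 2 10620 (.L 2714) .R)) (.L 2714)) (.L 2714)) (.L 2714))) (.sp 3 10462 (.sp 1 12875 (.L 2509) (.sp 4 2298 (.sp 5 2168 .R (.L 2714)) (.L 2714))) .R)) (.sp 3 10146 (.L 2714) (.sp 4 2351 (.sp 2 10620 (.L 2714) (.sp 3 10462 (.L 2714) .R)) (.L 2714))))) (.L 2714)) (.L 2714)) (.L 2714)))) (.L 2714)) (.L 2714)) (.L 2714))) (.sp 2 12430 (.sp 4 4904 (.sp 4 3179 (.sp 3 9958 (.sp 5 2489 (.ss 2275 (.sp 4 2560 (.sp 5 2275 (.sp 3 9104 (.sp 2 11604 (.L 2714) (.ss 2168 (.sp 2 12017 (.sp 4 2311 (.sp 1 12875 (.L 2509) (.sp 5 2168 (.ss 2115 (.sp 2 11810 (.sp 3 8677 (.L 2714) (.sp 4 2186 (.sp 2 11707 (.sp 5 2115 (.sp 3 8890 (.L 2714) (.sp 3 8997 (.ss 2088 (.sp 4 2124 (.N 4) (.L 2714)) (.L 2714)) (.ss 2088 .R (.L 2714)))) (.L 2714)) (.N 4)) (.L 2714))) (.N 4)) (.sp 3 8677 (.L 2714) (.sp 4 2213 (.sp 2 11810 (.L 2714) (.ss 2141 (.N 4) (.L 2714))) (.L 2714)))) (.L 2714))) (.L 2714)) (.N 4)) (.sp 4 2364 (.sp 2 12017 (.L 2714) (.sp 5 2221 (.N 4) (.L 2714))) (.L 2714)))) (.sp 2 11604 (.ss 2168 (.sp 4 2311 (.sp 5 2168 (.sp 2 11191 (.sp 1 12875 (.L 2509) (.sp 3 9531 (.L 2714) (.ss 2115 (.sp 2 10984 (.sp 3 9744 (.L 2714) .R) (.sp 4 2186 .R (.sp 3 9744 (.L 2714) .R))) (.sp 2 10984 (.L 2714) (.sp 3 9744 (.L 2714) .R))))) (.sp 3 9531 (.sp 1 12875 (.L 2509) (.ss 2115 (.sp 4 2186 (.sp 3 9317 (.sp 5 2115 (.sp 2 11397 (.L 2714) (.ss 2088 .R (.sp 2 11500 (.L 2714) .R))) (.L 2714)) .R) (.sp 2 11397 (.L 2714) (.sp 3 9317 (.L 2714) .R))) (.sp 4 2213 (.sp 2 11397 (.L 2714) (.sp 3 9317 (.L 2714) (.ss 2141 .R (.L 2714)))) (.L 2714)))) (.ss 2115 .R (.sp 3 9744 (.sp 2 11397 (.sp 4 2213 .R (.L 2714)) .R) .R)))) (.sp 2 11191 (.L 2714) (.sp 3 9531 (.L 2714) (.sp 3 9744 (.sp 2 11397 (.L 2714) .R) .R)))) (.sp 2 11191 (.L 2714) (.sp 3 9531 (.L 2714) (.sp 4 2435 (.sp 3 9744 (.sp 1 12875 (.L 2509) (.ss 2115 (.sp 5 2168 .R (.L 2714)) (.L 2714))) .R) (.ss 2115 (.sp 3 9744 (.L 2714) .R) (.L 2714)))))) (.sp 2 11191 (.L 2714) (.sp 3 9531 (.L 2714) (.sp 4 2364 (.ss 2221 (.sp 5 2221 (.sp 1 12875 (.L 2509) (.sp 1 13479 (.sp 3 9744 (.L 2714) (.sp 2 11397 (.L 2714) .R)) (.L 3328))) (.L 2714)) (.L 2714)) (.L 2714))))) (.ss 2168 (.sp 3 9531 (.sp 2 12017 (.sp 4 2311 (.sp 3 9317 (.sp 5 2168 (.ss 2115 (.sp 2 11810 (.sp 4 2186 .R (.sp 4 2248 .R (.L 2714))) .R) (.sp 1 12875 (.L 2509) (.sp 4 2213 (.sp 2 11810 (.sp 3 9210 (.L 2714) .R) .R) (.sp 2 11810 (.L 2714) (.ss 2141 .R (.L 2714)))))) (.sp 1 12875 (.L 2509) (.sp 5 2221 (.sp 2 11810 (.L 2714) (.ss 2115 .R (.sp 2 11913 (.L 2714) (.N 4)))) (.L 2714)))) (.sp 5 2168 .R (.sp 5 2221 .R (.sp 2 11810 (.L 2714) .R)))) (.sp 4 2435 (.ss 2115 (.sp 3 9317 (.sp 1 12875 (.L 2509) (.sp 5 2168 (.sp 2 11810 (.L 2714) .R) (.L 2714))) .R) (.sp 2 11810 (.L 2714) (.sp 3 9317 (.L 2714) .R))) (.ss 2115 (.sp 5 2168 (.sp 3 9317 (.L 2714) .R) (.L 2714)) (.L 2714)))) (.N 4)) .R) (.sp 3 9531 (.sp 4 2364 (.sp 2 12017 (.ss 2221 (.sp 5 2221 (.sp 4 2266 (.sp 2 11810 (.L 2714) (.sp 3 9317 (.L 2714) .R)) (.L 2714)) (.L 2714)) (.L 2714)) (.sp 5 2221 (.N 4) (.sp 2 12223 (.sp 3 9317 (.L 2714) (.ss 2221 .R (.L 2714))) (.N 4)))) (.sp 2 12017 (.L 2714) (.ss 2221 (.sp 2 12223 (.L 2714) (.N 4)) (.L 2714)))) (.sp 2 12017 (.sp 4 2364 (.ss 2221 .R (.sp 3 9744 (.L 2714) .R)) (.ss 2221 (.sp 3 9744 (.L 2714) .R) (.L 2714))) (.sp 3 9744 (.sp 5 2221 .R (.ss 2221 .R (.sp 4 2390 .R (.sp 2 12223 (.L 2714) .R)))) .R)))))) (.sp 3 9104 (.L 2714) (.sp 2 11604 (.L 2714) (.sp 5 2382 (.sp 3 9531 (.sp 2 12017 (.L 2714) (.sp 4 2417 (.ss 2168 (.N 4) (.sp 2 12223 (.L 2714) (.N 4))) (.L 2714))) (.sp 2 12017 (.sp 4 2417 (.ss 2168 .R (.sp 5 2328 (.sp 3 9744 (.L 2714) (.sp 2 11810 (.L 2714) .R)) (.L 2714))) (.ss 2168 (.sp 3 9744 (.L 2714) .R) (.L 2714))) (.sp 4 2417 .R (.ss 2168 .R (.sp 3 9744 (.L 2714) .R))))) (.sp 3 9531 (.L 2714) (.sp 2 12017 (.L 2714) (.ss 2168 .R (.sp 3 9744 (.L 2714) .R)))))))) (.sp 3 9104 (.L 2714) (.sp 2 11604 (.L 2714) (.sp 4 2869 (.ss 2168 (.sp 5 2275 (.sp 3 9531 (.sp 2 12017 (.L 2714) (.sp 2 12223 (.L 2714) (.N 4))) (.sp 2 12017 (.sp 3 9744 (.L 2714) .R) .R)) (.sp 3 9531 (.L 2714) (.sp 2 12017 (.L 2714) (.sp 4 2714 .R (.L 2714))))) (.sp 3 9531 (.L 2714) (.sp 2 12017 (.L 2714) (.sp 1 13050 (.L 2714) (.L 3328))))) (.L 2714))))) (.sp 4 2727 (.sp 3 9104 (.L 2714) (.sp 2 11604 (.L 2714) (.ss 2382 (.sp 4 2501 (.sp 5 2382 (.sp 3 9531 (.L 2714) (.sp 2 12017 (.L 2714) (.sp 1 13050 (.ss 2328 (.sp 3 9744 (.L 2714) .R) (.L 2714)) (.sp 2 12223 (.sp 1 13566 (.sp 1 13308 (.L 2714) (.L 1048576)) (.L 1048576)) (.L 3328))))) (.L 2714)) (.L 2714)) (.L 2714)))) (.L 2714))) (.L 2714)) (.sp 1 12875 (.sp 5 2489 (.ss 2275 (.sp 4 2560 (.sp 3 10812 (.sp 2 11604 (.sp 5 2275 (.ss 2168 (.sp 4 2311 .R (.sp 3 10385 (.sp 2 11191 (.sp 3 10171 (.L 2509) .R) .R) .R)) (.sp 3 10385 (.sp 1 12271 (.L 2509) (.sp 2 11191 (.L 2509) (.ss 2221 .R (.sp 3 10171 (.L 2714) .R)))) (.sp 2 11191 (.sp 4 2364 .R (.L 2714)) .R))) (.sp 3 10385 (.sp 1 12271 (.L 2509) (.sp 2 11191 (.L 2509) (.ss 2168 .R (.L 2714)))) (.sp 2 11191 (.ss 2168 .R (.L 2714)) .R))) .R) .R) (.sp 3 10812 (.sp 2 11604 (.sp 4 2869 (.ss 2168 (.sp 3 10385 (.sp 1 12271 (.L 2509) (.sp 5 2275 (.sp 2 11191 (.L 2509) (.sp 4 2714 .R (.L 2714))) (.L 2714))) (.sp 5 2275 .R (.sp 2 11191 (.L 2714) .R))) (.sp 3 10385 (.L 2714) (.sp 2 11191 (.L 2714) (.sp 5 2328 .R (.L 2714))))) (.L 2714)) (.sp 3 10385 (.sp 1 12271 (.sp 1 11969 (.L 2509) (.sp 4 2869 (.ss 2168 .R (.L 2714)) (.L 2714))) (.sp 4 2869 (.ss 2168 .R (.sp 2 12017 (.L 2714) .R)) (.ss 2168 (.sp 2 12017 (.L 2714) .R) (.L 2714)))) (.ss 2168 .R (.sp 2 12017 (.sp 4 2869 .R (.L 2714)) .R)))) (.sp 2 11621 (.sp 2 11216 (.sp 4 2869 .R (.L 2714)) .R) .R))) (.sp 3 10812 (.sp 4 2727 (.sp 2 11604 (.ss 2382 (.sp 4 2501 (.sp 3 10385 (.L 2714) (.sp 2 11191 (.L 2714) (.ss 2328 .R (.L 2714)))) (.L 2714)) (.L 2714)) (.ss 2382 (.sp 3 10385 (.sp 1 12271 (.L 2714) (.sp 4 2501 (.sp 2 12017 (.sp 5 2382 (.sp 3 10171 (.L 2714) .R) (.L 2714)) .R) (.sp 2 12017 (.L 2714) (.sp 3 10171 (.L 2714) .R)))) .R) (.sp 1 12271 (.L 2714) (.sp 3 10385 (.L 2714) (.sp 2 12017 (.L 2714) .R))))) (.sp 2 11604 (.L 2714) (.sp 1 12271 (.L 2714) (.sp 3 10385 (.L 2714) (.ss 2382 (.sp 4 2953 (.sp 2 12017 (.L 2714) .R) (.L 2714)) (.L 2714)))))) (.sp 4 2727 (.sp 2 11621 (.sp 3 11216 (.ss 2382 (.sp 2 11216 (.sp 3 11014 (.L 2714) .R) .R) (.L 2714)) .R) .R) (.sp 2 11621 (.sp 2 11216 (.L 2714) (.ss 2382 (.sp 3 11216 (.L 2714) .R) (.L 2714))) (.sp 3 11239 (.ss 2382 .R (.sp 2 12025 (.L 2714) .R)) .R))))) (.sp 3 10812 (.sp 5 2702 (.sp 2 11604 (.L 2714) (.sp 4 2834 (.sp 1 12271 (.L 2714) (.sp 3 10385 (.ss 2275 (.sp 5 2595 (.sp 2 12017 (.L 2714) .R) (.L 2714)) (.L 2714)) (.ss 2275 .R (.sp 5 2595 (.sp 2 12017 (.L 2714) (.sp 3 10598 (.L 2714) .R)) (.L 2714))))) (.L 2714))) (.L 2714)) (.sp 2 11621 (.sp 2 11216 (.L 2714) (.sp 5 2702 (.ss 2275 (.sp 4 2834 .R (.L 2714)) (.sp 4 2834 (.sp 3 11216 (.L 2714) .R) (.L 2714))) (.L 2714))) (.ss 2275 .R (.sp 3 11239 (.sp 5 2702 (.sp 2 12025 (.ss 2382 .R (.L 2714)) .R) (.L 2714)) (.sp 5 2702 .R (.sp 1 12271 (.L 2714) (.L 3328)))))))) (.sp 3 10812 (.sp 2 11604 (.sp 1 13479 (.sp 5 2489 (.ss 2275 (.sp 4 2560 (.sp 5 2275 (.ss 2168 (.sp 4 2311 .R (.sp 3 10385 (.sp 2 11191 (.sp 3 10171 (.ss 2115 .R (.L 2714)) .R) .R) .R)) (.sp 3 10385 (.sp 2 11191 (.sp 4 2364 (.ss 2221 (.sp 3 10171 (.L 2714) .R) (.L 2714)) (.L 2714)) (.ss 2221 .R (.sp 3 10171 (.L 2714) .R))) (.sp 2 11191 (.sp 4 2364 .R (.sp 3 10598 (.L 2714) .R)) .R))) (.sp 3 10385 (.sp 2 11191 (.L 2714) (.ss 2168 .R (.sp 5 2382 (.sp 4 2417 (.sp 3 10171 (.L 2714) .R) (.L 2714)) (.L 2714)))) (.sp 2 11191 (.ss 2168 .R (.sp 3 10598 (.L 2714) .R)) .R))) (.sp 4 2869 (.ss 2168 (.sp 3 10385 (.sp 5 2275 (.sp 2 11191 (.L 2714) (.sp 4 2714 .R (.L 2714))) (.L 2714)) (.sp 5 2275 .R (.sp 2 11191 (.L 2714) .R))) (.sp 1 13177 (.sp 3 10385 (.L 2714) (.sp 2 11191 (.L 2714) (.sp 5 2328 .R (.L 2714)))) (.sp 2 11191 (.L 2714) (.L 3328)))) (.sp 1 13177 (.ss 2168 (.sp 3 10385 (.L 2714) (.sp 5 2275 (.sp 2 11191 (.L 2714) .R) (.L 2714))) (.L 2714)) (.sp 2 11191 (.L 2714) (.L 3328))))) (.sp 4 2727 (.ss 2382 (.sp 4 2501 (.sp 3 10385 (.L 2714) (.sp 1 13177 (.sp 2 11191 (.L 2714) (.ss 2328 .R (.L 2714))) (.sp 2 11191 (.L 2714) (.L 3328)))) (.L 2714)) (.L 2714)) (.L 2714))) (.L 2714)) (.sp 1 13781 (.sp 5 2489 (.ss 2275 (.sp 4 2560 (.sp 5 2275 (.ss 2168 (.sp 4 2311 .R (.ss 2115 .R (.L 3328))) (.sp 1 13630 (.sp 4 2364 (.sp 3 10385 (.ss 2221 (.sp 2 11191 (.sp 3 10171 (.L 2714) .R) .R) (.L 3328)) .R) (.L 3328)) (.L 3328))) (.L 3328)) (.L 3328)) (.L 3328)) (.L 3328)) (.L 1048576))) (.sp 2 12017 (.sp 1 13479 (.sp 1 13177 (.sp 1 13026 (.sp 5 2489 (.ss 2275 (.sp 4 2560 .R (.sp 3 10385 (.sp 4 2869 (.ss 2168 .R (.sp 3 10171 (.L 2714) .R)) (.L 2714)) (.ss 2168 .R (.sp 4 2869 .R (.L 3328))))) (.sp 3 10385 (.sp 4 2727 (.ss 2382 (.sp 4 2501 (.sp 5 2382 (.sp 3 10171 (.L 2714) .R) (.L 2714)) (.L 2714)) (.L 2714)) (.L 2714)) (.sp 2 11810 (.sp 1 12950 (.sp 4 2727 (.ss 2382 .R (.L 2714)) (.L 3328)) (.sp 3 10598 (.sp 4 2727 (.ss 2382 .R (.L 2714)) (.L 3328)) (.sp 4 2727 (.ss 2382 .R (.L 3328)) (.L 3328)))) (.sp 3 10598 (.sp 2 11913 (.sp 1 12950 (.sp 4 2727 (.ss 2382 .R (.L 2714)) (.L 3328)) (.sp 3 10491 (.sp 1 12988 (.sp 1 12969 (.sp 4 2727 (.ss 2382 .R (.L 3328)) (.L 3328)) (.sp 2 11861 (.sp 4 2727 (.ss 2382 .R (.L 3328)) (.L 3328)) (.sp 3 10438 (.sp 2 11887 (.sp 4 2727 (.ss 2382 .R (.L 3328)) (.L 3328)) (.sp 3 10411 (.sp 1 12978 (.sp 4 2727 (.ss 2382 .R (.L 3328)) (.L 1048576)) (.sp 4 2727 (.ss 2382 .R (.L 3328)) (.L 1048576))) (.sp 4 2727 (.ss 2382 .R (.L 3328)) (.L 1048576)))) (.sp 4 2727 (.ss 2382 .R (.L 3328)) (.L 1048576))))) (.sp 4 2727 (.ss 2382 .R (.L 3328)) (.L 3328))) (.sp 5 2382 .R (.L 3328)))) (.sp 3 10491 (.sp 1 12950 (.sp 1 12912 (.sp 4 2727 (.ss 2382 .R (.L 3328)) (.L 3328)) (.sp 2 11965 (.sp 1 12931 (.sp 4 2727 (.ss 2382 .R (.L 3328)) (.L 3328)) (.sp 3 10438 (.sp 4 2727 (.ss 2382 .R (.L 3328)) (.L 3328)) (.sp 5 2382 .R (.L 3328)))) (.sp 5 2382 .R (.L 3328)))) (.sp 4 2727 (.ss 2382 .R (.L 3328)) (.L 3328))) (.sp 4 2727 .R (.L 3328)))) (.sp 4 2727 .R (.L 3328)))))) (.sp 3 10385 (.L 2714) (.sp 3 10598 (.L 2714) (.L 3328)))) (.sp 3 10385 (.sp 5 2489 (.ss 2275 (.sp 4 2560 .R (.sp 1 13101 (.sp 4 2869 (.ss 2168 .R (.sp 3 10171 (.L 2714) .R)) (.L 3328)) (.sp 2 11810 (.sp 1 13139 (.sp 4 2869 (.ss 2168 .R (.L 2714)) (.L 3328)) (.sp 3 10171 (.sp 4 2869 (.ss 2168 .R (.L 2714)) (.L 2714)) (.sp 4 2869 .R (.L 3328)))) (.ss 2168 .R (.L 3328))))) (.sp 2 11810 (.sp 4 2727 (.ss 2382 (.sp 4 2501 (.sp 5 2382 (.sp 3 10171 (.L 2714) .R) (.L 2714)) (.L 2714)) (.L 2714)) (.L 2714)) (.sp 3 10171 (.sp 1 13101 (.L 2714) (.L 3328)) (.sp 4 2727 (.sp 5 2382 .R (.L 3328)) (.L 3328))))) (.L 3328)) (.sp 5 2489 (.ss 2275 (.sp 4 2560 .R (.sp 4 2869 .R (.L 3328))) (.sp 4 2727 (.ss 2382 .R (.L 3328)) (.L 3328))) (.L 3328)))) (.sp 5 2489 (.ss 2275 (.sp 4 2560 .R (.sp 1 13328 (.sp 4 2869 (.ss 2168 .R (.L 3328)) (.L 3328)) (.L 1048576))) (.L 3328)) (.L 3328))) (.L 1048576)) (.sp 3 10385 (.sp 2 12223 (.sp 1 13479 (.sp 1 13177 (.sp 1 13026 (.sp 5 2489 (.sp 5 2275 (.sp 4 2560 .R (.sp 4 2869 .R (.ss 2168 .R (.L 3328)))) (.sp 1 12950 (.sp 4 2727 (.ss 2275 .R (.ss 2382 (.sp 4 2501 .R (.L 2714)) (.L 3328))) (.L 2714)) (.sp 3 10171 (.sp 4 2727 (.ss 2275 .R (.sp 1 12988 (.ss 2382 (.sp 4 2501 .R (.L 2714)) (.L 3328)) (.sp 2 12120 (.ss 2382 (.sp 4 2501 .R (.L 3328)) (.L 3328)) (.sp 5 2382 .R (.L 3328))))) (.L 3328)) (.ss 2275 .R (.sp 4 2727 (.ss 2382 .R (.L 3328)) (.L 3328)))))) (.L 3328)) (.sp 3 10171 (.sp 1 13101 (.sp 5 2489 (.sp 5 2275 (.sp 4 2560 .R (.sp 4 2869 .R (.L 3328))) (.sp 3 10064 (.sp 2 12120 (.sp 4 2727 (.ss 2275 .R (.L 2714)) (.L 3328)) (.sp 3 10011 (.sp 2 12171 (.sp 1 13063 (.sp 4 2727 (.ss 2275 .R (.L 3328)) (.L 3328)) (.sp 4 2727 (.ss 2275 .R (.L 3328)) (.L 1048576))) (.sp 4 2727 (.ss 2275 .R (.L 3328)) (.L 1048576))) (.sp 4 2727 (.ss 2275 .R (.L 3328)) (.L 3328)))) (.sp 4 2727 (.ss 2275 .R (.L 3328)) (.L 3328)))) (.L 3328)) (.sp 5 2489 (.sp 5 2275 (.sp 4 2560 .R (.sp 4 2869 .R (.L 3328))) (.sp 4 2727 (.ss 2275 .R (.L 3328)) (.L 1048576))) (.L 1048576))) (.sp 5 2489 (.ss 2275 .R (.L 3328)) (.L 1048576)))) (.sp 5 2489 (.sp 5 2275 (.sp 4 2560 .R (.L 1048576)) (.L 1048576)) (.L 1048576))) (.L 1048576)) (.sp 3 10171 (.sp 1 13479 (.sp 1 13177 (.sp 1 13026 (.sp 5 2489 (.ss 2275 (.sp 4 2560 .R (.sp 4 2869 .R (.L 3328))) (.sp 2 12326 (.sp 1 12950 (.sp 1 12912 (.sp 4 2727 (.ss 2382 .R (.L 3328)) (.L 3328)) (.sp 3 10064 (.sp 4 2727 (.ss 2382 .R (.L 3328)) (.L 3328)) (.sp 4 2727 (.ss 2382 .R (.L 3328)) (.L 3328)))) (.sp 4 2727 (.ss 2382 .R (.L 3328)) (.L 3328))) (.sp 4 2727 (.ss 2382 .R (.L 3328)) (.L 3328)))) (.L 3328)) (.sp 5 2489 (.sp 5 2275 .R (.sp 4 2727 (.ss 2275 .R (.L 3328)) (.L 1048576))) (.L 1048576))) (.L 1048576)) (.L 1048576)) (.sp 4 2560 (.ss 2275 .R (.ss 2382 .R (.L 3328))) (.sp 1 13479 (.sp 1 13177 (.sp 1 13026 (.ss 2275 (.sp 5 2489 .R (.L 3328)) (.L 3328)) (.L 1048576)) (.L 1048576)) (.L 1048576))))) (.ss 2275 (.sp 5 2489 .R (.L 3328)) (.sp 1 13479 (.sp 1 13177 (.sp 1 13026 (.sp 5 2595 (.sp 4 2727 (.ss 2382 .R (.L 3328)) (.L 3328)) (.L 3328)) (.L 1048576)) (.L 1048576)) (.L 1048576)))))) (.sp 1 13479 (.sp 5 2489 (.ss 2275 (.sp 4 2560 .R (.sp 4 2869 .R (.ss 2168 .R (.L 3328)))) (.sp 4 2727 (.sp 3 11239 (.sp 2 11621 (.sp 2 11216 (.sp 1 13177 (.ss 2382 (.sp 3 11014 (.sp 3 10913 (.L 2714) .R) .R) (.L 2714)) (.L 3328)) (.ss 2382 .R (.L 3328))) .R) .R) (.L 3328))) (.sp 5 2702 (.sp 1 13177 (.sp 4 2834 (.sp 3 11239 (.ss 2275 (.sp 5 2595 .R (.L 3328)) (.L 3328)) .R) (.L 3328)) (.L 3328)) (.L 3328))) (.L 1048576))))) (.sp 1 12875 (.sp 3 9958 (.L 2714) (.sp 4 3948 (.sp 3 10812 (.ss 2275 (.sp 5 2489 (.sp 2 11604 (.L 2714) (.sp 4 3563 (.sp 1 12271 (.L 2714) (.ss 2168 (.sp 3 10385 (.L 2714) (.sp 5 2275 .R (.L 2714))) (.L 2714))) (.L 2714))) (.L 2714)) (.L 2714)) (.ss 2275 (.sp 5 2489 (.sp 2 11621 (.sp 2 11216 (.L 2714) (.sp 4 3563 (.ss 2168 .R (.L 2714)) (.L 2714))) (.sp 4 3563 .R (.sp 1 12271 (.L 2714) (.L 3328)))) (.sp 1 12271 (.L 2714) (.sp 2 11621 (.L 2714) (.L 3328)))) (.sp 1 12271 (.L 2714) (.sp 2 11621 (.L 2714) (.L 3328))))) (.L 2714))) (.sp 3 9958 (.L 2714) (.sp 1 13479 (.sp 4 3948 (.ss 2275 (.sp 5 2489 (.sp 1 13177 (.sp 4 3563 (.ss 2168 (.sp 5 2275 (.sp 2 11604 (.sp 3 10781 (.L 2714) (.L 3328)) (.L 3328)) (.L 3328)) (.L 3328)) (.L 3328)) (.L 3328)) (.L 3328)) (.L 3328)) (.L 3328)) (.L 3328))))) (.sp 4 7564 (.L 2714) (.L 3328))) (.sp 3 9958 (.sp 1 13256 (.sp 4 4531 (.sp 4 3056 (.sp 5 2489 (.ss 2275 (.sp 4 2559 (.N 4) (.sp 4 2807 (.N 4) (.ss 2168 (.N 4) (.sp 2 12843 (.L 2714) (.N 4))))) (.sp 2 12843 (.sp 3 9104 (.L 2714) (.sp 4 2665 (.ss 2382 (.sp 2 12636 (.sp 5 2382 (.ss 2328 (.N 4) (.L 2714)) (.L 2714)) (.N 4)) (.L 2714)) (.L 2714))) (.sp 4 2665 (.N 4) (.L 3328)))) (.sp 2 12843 (.sp 5 2702 (.sp 3 9104 (.L 2714) (.sp 4 2772 (.ss 2275 (.sp 4 2630 (.N 4) (.L 2714)) (.L 2714)) (.L 2714))) (.L 2714)) (.ss 2275 (.N 4) (.L 3328)))) (.sp 2 12843 (.L 2714) (.L 3328))) (.L 3328)) (.sp 3 9104 (.sp 3 8677 (.sp 2 13256 (.sp 4 4229 (.sp 1 13669 (.sp 1 13462 (.sp 5 2489 (.sp 4 2952 (.sp 5 2275 (.N 4) (.L 2714)) (.L 2714)) (.L 2714)) (.sp 2 12843 (.sp 3 8463 (.sp 2 12636 (.sp 4 2952 (.sp 5 2489 (.sp 5 2275 (.N 4) (.L 3328)) (.L 3328)) (.L 3328)) (.sp 4 2952 (.sp 5 2489 (.ss 2275 (.N 4) (.L 1048576)) (.L 1048576)) (.L 1048576))) (.sp 4 2952 (.sp 5 2489 (.sp 5 2275 (.N 4) (.L 3328)) (.L 1048576)) (.L 1048576))) (.L 1048576))) (.L 1048576)) (.L 3328)) (.L 1048576)) (.sp 3 8890 (.sp 2 13256 (.sp 2 12843 (.sp 4 4281 (.sp 1 13669 (.sp 1 13462 (.sp 1 13359 (.sp 4 2971 (.sp 5 2489 (.sp 5 2275 (.N 4) (.L 2714)) (.L 3328)) (.L 3328)) (.sp 2 12636 (.sp 2 12533 (.sp 1 13410 (.sp 4 2971 (.sp 5 2489 (.sp 5 2275 (.N 4) (.L 3328)) (.L 1048576)) (.L 1048576)) (.sp 4 2971 (.sp 5 2489 (.sp 5 2275 (.N 4) (.L 1048576)) (.L 1048576)) (.L 1048576))) (.sp 4 2971 (.sp 5 2489 (.ss 2275 (.N 4) (.L 1048576)) (.L 1048576)) (.L 1048576))) (.sp 4 2971 (.sp 5 2489 (.ss 2275 (.N 4) (.L 1048576)) (.L 1048576)) (.L 1048576)))) (.sp 4 2971 (.sp 5 2489 (.sp 5 2275 (.N 4) (.L 1048576)) (.L 1048576)) (.L 1048576))) (.L 1048576)) (.L 1048576)) (.sp 4 4281 (.sp 1 13669 (.sp 1 13462 (.sp 4 2971 (.ss 2275 (.N 4) (.L 1048576)) (.L 1048576)) (.L 1048576)) (.L 1048576)) (.L 1048576))) (.L 1048576)) (.sp 4 4332 (.sp 1 13669 (.sp 2 13049 (.sp 2 12739 (.sp 2 12584 (.sp 1 13462 (.sp 1 13359 (.sp 1 13307 (.sp 4 2988 (.sp 5 2489 (.sp 5 2275 (.N 4) (.L 3328)) (.L 3328)) (.L 3328)) (.sp 3 8997 (.sp 2 12507 (.sp 4 2988 (.sp 5 2489 (.sp 5 2275 (.N 4) (.L 3328)) (.L 1048576)) (.L 1048576)) (.sp 3 8943 (.sp 2 12545 (.sp 4 2988 (.sp 1 13333 (.sp 5 2489 (.sp 5 2275 (.N 4) (.L 1048576)) (.L 1048576)) (.sp 5 2489 (.sp 5 2275 (.N 4) (.L 1048576)) (.L 1048576))) (.L 1048576)) (.sp 4 2988 (.sp 5 2489 (.ss 2275 (.N 4) (.L 1048576)) (.L 1048576)) (.L 1048576))) (.sp 4 2988 (.sp 5 2489 (.sp 5 2275 (.N 4) (.L 1048576)) (.L 1048576)) (.L 1048576)))) (.sp 4 2988 (.sp 5 2489 (.sp 5 2275 (.N 4) (.L 1048576)) (.L 1048576)) (.L 1048576)))) (.sp 4 2988 (.sp 5 2489 (.sp 5 2275 (.N 4) (.L 1048576)) (.L 1048576)) (.L 1048576))) (.L 1048576)) (.sp 1 13462 (.sp 4 2988 (.sp 5 2489 (.ss 2275 (.N 4) (.L 1048576)) (.L 1048576)) (.L 1048576)) (.L 1048576))) (.sp 1 13462 (.sp 4 2988 (.ss 2275 (.N 4) (.L 1048576)) (.L 1048576)) (.L 1048576))) (.L 1048576)) (.L 1048576)) (.L 1048576)))) (.sp 4 4531 (.sp 1 13669 (.sp 2 13049 (.sp 1 13462 (.sp 4 3056 (.sp 5 2489 (.sp 2 12739 (.sp 3 9531 (.ss 2275 (.sp 4 2559 (.N 4) (.L 1048576)) (.L 1048576)) (.L 1048576)) (.L 1048576)) (.L 1048576)) (.L 1048576)) (.L 1048576)) (.L 1048576)) (.L 1048576)) (.L 1048576)))) (.sp 2 13256 (.sp 1 13256 (.sp 4 4904 (.sp 4 3179 (.sp 3 10812 (.sp 1 12843 (.sp 1 12636 (.sp 5 2489 (.ss 2275 .R (.sp 2 12533 (.sp 4 2727 (.ss 2382 .R (.sp 3 10385 (.L 2714) .R)) (.L 2714)) (.sp 3 10385 (.sp 4 2727 (.ss 2382 .R (.L 2714)) (.L 2714)) .R))) (.sp 1 12533 (.sp 5 2702 (.sp 4 2834 (.ss 2275 .R (.L 2714)) (.L 2714)) (.L 2714)) (.sp 3 10385 (.sp 5 2702 (.sp 4 2834 (.ss 2275 .R (.L 2714)) (.L 2714)) (.L 2714)) (.ss 2275 .R (.L 3328))))) (.sp 3 10385 (.sp 2 12636 (.sp 5 2489 (.ss 2275 .R (.sp 1 12739 (.sp 4 2727 (.ss 2382 .R (.L 2714)) (.L 3328)) (.sp 3 10171 (.sp 2 12533 (.sp 4 2727 (.ss 2382 .R (.L 2714)) (.L 3328)) (.sp 3 10064 (.sp 1 12791 (.sp 4 2727 (.ss 2382 .R (.L 3328)) (.L 3328)) (.sp 3 10011 (.sp 2 12584 (.sp 1 12817 (.sp 4 2727 (.ss 2382 .R (.L 3328)) (.L 3328)) (.sp 4 2727 (.ss 2382 .R (.L 3328)) (.L 3328))) (.sp 4 2727 (.ss 2382 .R (.L 3328)) (.L 3328))) (.sp 5 2382 .R (.L 3328)))) (.sp 4 2727 .R (.L 3328)))) (.sp 4 2727 .R (.L 3328))))) (.sp 3 10171 (.L 2714) (.ss 2275 .R (.L 3328)))) (.sp 4 2560 .R (.ss 2275 (.sp 5 2489 .R (.L 3328)) (.L 3328)))) (.ss 2275 .R (.sp 4 2727 .R (.L 3328))))) (.sp 5 2489 (.ss 2275 .R (.sp 1 13049 (.sp 3 10385 (.sp 2 12739 (.sp 4 2727 (.ss 2382 .R (.L 3328)) (.L 3328)) (.L 1048576)) (.L 1048576)) (.L 1048576))) (.L 3328))) .R) (.sp 2 12843 (.sp 4 3948 (.ss 2275 (.sp 3 10812 (.sp 3 10385 (.sp 1 12843 (.L 2714) (.L 3328)) (.L 3328)) .R) (.L 3328)) (.L 3328)) (.L 1048576))) (.L 3328)) (.L 1048576)) (.L 1048576))))) (.L 3328))) (.sp 1 11667 (.L 2714) (.sp 1 14083 (.sp 2 10778 (.L 2714) (.sp 2 12430 (.sp 1 12875 (.sp 4 5388 (.sp 4 3662 (.sp 3 9958 (.L 2714) (.ss 2702 (.sp 4 3075 (.sp 3 10812 (.L 2714) (.sp 2 11621 (.L 2714) (.sp 1 12271 (.L 2714) (.sp 3 11239 (.sp 2 12025 (.L 2714) (.L 3328)) (.L 3328))))) (.L 2714)) (.L 2714))) (.L 2714)) (.L 3328)) (.sp 3 9958 (.L 2714) (.L 3328))) (.sp 3 9958 (.L 2714) (.L 3328)))) (.L 3328)))) (.sp 1 11667 (.L 2714) (.sp 4 5832 (.sp 1 14083 (.sp 2 10778 (.L 2714) (.sp 2 12430 (.sp 1 12875 (.L 2714) (.L 3328)) (.L 3328))) (.L 3328)) (.L 3328)))) (.L 2714)) (.L 2714)) (.sp 3 14083 (.sp 2 14083 (.sp 1 14083 (.sp 3 12875 (.sp 2 12875 (.sp 2 12271 (.sp 2 11969 (.sp 1 12875 (.sp 1 12271 (.sp 5 4124 (.ss 2916 (.sp 4 4967 (.sp 5 2916 (.ss 2489 (.sp 4 3200 .R (.sp 4 3986 (.ss 2275 .R (.L 2714)) (.L 2714))) (.sp 4 3516 (.ss 2702 (.sp 4 3002 (.sp 5 2702 .R (.L 2714)) (.L 2714)) (.L 2714)) (.L 2714))) (.L 2714)) (.L 3328)) (.L 3328)) (.L 3328)) (.sp 2 11818 (.sp 1 12573 (.sp 5 4124 (.sp 4 4936 (.ss 2916 (.sp 5 2916 (.ss 2489 (.sp 4 3190 .R (.sp 4 3968 (.ss 2275 .R (.L 3328)) (.L 3328))) (.L 3328)) (.L 3328)) (.L 3328)) (.L 1048576)) (.L 1048576)) (.sp 5 4124 (.sp 4 4936 (.ss 2916 (.sp 5 2916 (.ss 2489 (.sp 4 3190 .R (.L 1048576)) (.L 1048576)) (.L 1048576)) (.L 1048576)) (.L 1048576)) (.L 1048576))) (.sp 5 4124 (.sp 4 4967 (.ss 2916 (.sp 5 2916 (.ss 2489 (.sp 4 3200 .R (.sp 1 12573 (.sp 4 3986 (.ss 2275 .R (.L 3328)) (.L 3328)) (.L 1048576))) (.L 3328)) (.L 3328)) (.L 1048576)) (.L 1048576)) (.L 1048576)))) (.L 1048576)) (.sp 1 13026 (.sp 5 4124 (.ss 2916 (.sp 4 5030 (.sp 5 2916 (.ss 2489 (.sp 4 3220 .R (.sp 4 4024 .R (.L 3328))) (.L 3328)) (.L 3328)) (.L 3328)) (.L 3328)) (.L 1048576)) (.L 1048576))) (.sp 1 13177 (.sp 5 4124 (.sp 4 5152 (.ss 2916 (.sp 1 12724 (.sp 5 2916 (.sp 2 12497 (.ss 2489 (.sp 4 3259 .R (.L 1048576)) (.L 1048576)) (.L 1048576)) (.L 1048576)) (.L 1048576)) (.L 1048576)) (.L 1048576)) (.L 1048576)) (.L 1048576))) (.L 1048576)) (.L 1048576)) (.L 1048576)) (.L 1048576)) (.L 1048576)))) (.L 3328)) (.L 3328)) (.L 3328)))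

/-- The check of the tree. -/
theorem tree_ok : chk 7 K8.tab true tree (0, 16500) (List.replicate 6 (0, 16500)) = true := by decide +kernel

end Crest.Agent.Propeller.Gen.K7
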