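import Crest.Agent.Lib.Propeller.PairSet

/-!
# Kron reduction of an obtuse zero-sum family

`z : ι → E`, `∑ z = 0`, pairwise `⟪z i, z j⟫ ≤ 0`; `X` a finset, `V = span (z '' X)`,
`ζ a = Vᗮ.starProjection (z a)`.

* `energy`: `‖∑ d i • z i‖² = -(1/2) ∑∑ ⟪z i, z j⟫ (d i - d j)²`;
* `energy_clamp`: clamping the coefficients to `[0,1]` does not increase the norm;
* `proj_repr`: `ζ a = z a + ∑_{l ∈ X} e l • z l` with `0 ≤ e l ≤ 1`, for `a ∉ X`;
* `norm_proj_sq_ge`: `‖ζ a‖² ≥ ‖z a‖² - ∑_{l∈X} (-⟪z a, z l⟫)`;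
* `inner_proj_le`: `⟪ζ a, ζ b⟫ ≤ ⟪z a, z b⟫`, `a ≠ b`, `a, b ∉ X`;
* `sum_proj_eq_zero`, `sum_flow_eq`;
* `det_triple`.
-/

set_option autoImplicit false
set_option linter.unusedSectionVars false
open MeasureTheory ProbabilityTheory
open scoped RealInnerProductSpace

namespace Crest.Agent.Propeller

universe u v

variable {E : Type u} [NormedAddCommGroup E] [InnerProductSpace ℝ E]
variable {ι : Type v} [Fintype ι] [DecidableEq ι]

/-- The Laplacian (Dirichlet energy) identity. -/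
theorem energy (z : ι → E) (hsum : ∑ i, z i = 0) (d : ι → ℝ) :
    ‖∑ i, d i • z i‖ ^ 2 = -(1 / 2) * ∑ i, ∑ j, ⟪z i, z j⟫ * (d i - d j) ^ 2 := by
  have h0 : ∀ i, ∑ j, ⟪z i, z j⟫ = 0 := by
    intro i
    rw [← inner_sum, hsum, inner_zero_right]
  have h0' : ∀ j, ∑ i, ⟪z i, z j⟫ = 0 := by
    intro j
    rw [← sum_inner, hsum, inner_zero_left]
  have h1 : ‖∑ i, d i • z i‖ ^ 2 = ∑ i, ∑ j, d i * d j * ⟪z i, z j⟫ := by
    rw [← real_inner_self_eq_norm_sq, sum_inner]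
    refine Finset.sum_congr rfl fun i _ => ?_
    rw [inner_smul_left, inner_sum, Finset.mul_sum]
    refine Finset.sum_congr rfl fun j _ => ?_
    rw [inner_smul_right]
    simp
    ring
  have h2 : ∑ i, ∑ j, ⟪z i, z j⟫ * (d i - d j) ^ 2
      = ∑ i, d i ^ 2 * ∑ j, ⟪z i, z j⟫ + ∑ j, d j ^ 2 * ∑ i, ⟪z i, z j⟫
        - 2 * ∑ i, ∑ j, d i * d j * ⟪z i, z j⟫ := by
    have h3 : ∑ j, d j ^ 2 * ∑ i, ⟪z i, z j⟫ = ∑ i, ∑ j, d j ^ 2 * ⟪z i, z j⟫ := by
      simp_rw [Finset.mul_sum]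
      exact Finset.sum_comm
    rw [h3]
    simp_rw [Finset.mul_sum]
    rw [← Finset.sum_add_distrib, ← Finset.sum_sub_distrib]
    refine Finset.sum_congr rfl fun i _ => ?_
    rw [← Finset.sum_add_distrib, ← Finset.sum_sub_distrib]
    refine Finset.sum_congr rfl fun j _ => ?_
    ring
  rw [h1, h2]
  simp_rw [h0, h0', mul_zero, Finset.sum_const_zero]
  ring

/-- Clamp to `[0,1]`. -/
noncomputable def clamp01 (x : ℝ) : ℝ := max 0 (min 1 x)

lemma clamp01_nonneg (x : ℝ) : 0 ≤ clamp01 x := le_max_left _ _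

lemma clamp01_le_one (x : ℝ) : clamp01 x ≤ 1 := max_le zero_le_one (min_le_left _ _)

lemma clamp01_of_mem {x : ℝ} (h0 : 0 ≤ x) (h1 : x ≤ 1) : clamp01 x = x := by
  unfold clamp01
  rw [min_eq_right h1, max_eq_right h0]

lemma clamp01_sq_le (x y : ℝ) : (clamp01 x - clamp01 y) ^ 2 ≤ (x - y) ^ 2 := by
  rw [sq_le_sq]
  unfold clamp01
  rw [max_comm 0, max_comm 0]
  refine (abs_max_sub_max_le_abs _ _ _).trans ?_
  have := abs_min_sub_min_le_max (1 : ℝ) x 1 y
  simpa using this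

/-- Clamping the coefficients does not increase the norm. -/
theorem energy_clamp (z : ι → E) (hsum : ∑ i, z i = 0)
    (hobt : ∀ i j, i ≠ j → ⟪z i, z j⟫ ≤ 0) (d : ι → ℝ) :
    ‖∑ i, clamp01 (d i) • z i‖ ^ 2 ≤ ‖∑ i, d i • z i‖ ^ 2 := by
  rw [energy z hsum, energy z hsum]
  have : ∑ i, ∑ j, ⟪z i, z j⟫ * (d i - d j) ^ 2
      ≤ ∑ i, ∑ j, ⟪z i, z j⟫ * (clamp01 (d i) - clamp01 (d j)) ^ 2 := by
    refine Finset.sum_le_sum fun i _ => Finset.sum_le_sum fun j _ => ?_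
    by_cases hij : i = j
    · subst hij
      simp
    · exact mul_le_mul_of_nonpos_left (clamp01_sq_le _ _) (hobt i j hij)
  linarith

/-- Representation of the projection on `Vᗮ` with coefficients in `[0,1]`. -/
theorem proj_repr (z : ι → E) (hsum : ∑ i, z i = 0) (hobt : ∀ i j, i ≠ j → ⟪z i, z j⟫ ≤ 0)
    (X : Finset ι) {V : Submodule ℝ E} [V.HasOrthogonalProjection]
    (hV : V = Submodule.span ℝ (z '' (X : Set ι))) {a : ι} (ha : a ∉ X) :
    ∃ e : ι → ℝ, (∀ l, 0 ≤ e l ∧ e l ≤ 1) ∧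
      Vᗮ.starProjection (z a) = z a + ∑ l ∈ X, e l • z l := by
  classical
  have hmem : V.starProjection (z a) ∈ V := Submodule.starProjection_apply_mem _ _
  have hmem' := hV.le hmem
  rw [Submodule.mem_span_image_finset_iff_exists_fun'] at hmem'
  obtain ⟨c, hc⟩ := hmem'
  -- coefficients
  set d : ι → ℝ := fun i => (if i = a then 1 else 0) - (if i ∈ X then c i else 0) with hd
  have hsplit : z a = V.starProjection (z a) + Vᗮ.starProjection (z a) :=
    (Submodule.starProjection_add_starProjection_orthogonal (K := V) (z a)).symm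
  have hζ : Vᗮ.starProjection (z a) = ∑ i, d i • z i := by
    have h1 : ∑ i, d i • z i = z a - ∑ i ∈ X, c i • z i := by
      simp only [hd, sub_smul, Finset.sum_sub_distrib, ite_smul, one_smul, zero_smul]
      rw [Finset.sum_ite_eq' Finset.univ a, if_pos (Finset.mem_univ a), Finset.sum_ite_mem]
      simp
    rw [h1, hc]
    nth_rewrite 2 [hsplit]
    abel
  set e : ι → ℝ := fun i => clamp01 (d i) with he
  have hda : d a = 1 := by simp [hd, ha]
  have hea : e a = 1 := by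
    simp only [he, hda]
    exact clamp01_of_mem zero_le_one le_rfl
  have hdo : ∀ i, i ≠ a → i ∉ X → e i = 0 := by
    intro i h1 h2
    have : d i = 0 := by simp [hd, h1, h2]
    simp only [he, this]
    exact clamp01_of_mem le_rfl zero_le_one
  have hv' : ∑ i, clamp01 (d i) • z i = z a + ∑ l ∈ X, e l • z l := by
    have h1 : ∀ i, clamp01 (d i) • z i
        = (if i = a then z a else 0) + (if i ∈ X then e i • z i else 0) := by
      intro i
      by_cases h1 : i = a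
      · subst h1
        simp only [if_true, if_neg ha, add_zero]
        rw [show clamp01 (d i) = 1 from hea, one_smul]
      · by_cases h2 : i ∈ X
        · simp [h1, h2, he]
        · simp only [if_neg h1, if_neg h2, add_zero]
          rw [show clamp01 (d i) = 0 from hdo i h1 h2, zero_smul]
    simp_rw [h1]
    rw [Finset.sum_add_distrib, Finset.sum_ite_eq' Finset.univ a, if_pos (Finset.mem_univ a),
      Finset.sum_ite_mem]
    simp
  refine ⟨e, fun l => ⟨clamp01_nonneg _, clamp01_le_one _⟩, ?_⟩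
  set ζ := Vᗮ.starProjection (z a) with hζdef
  set v' := z a + ∑ l ∈ X, e l • z l with hv'def
  have hw : v' - ζ ∈ V := by
    have : v' - ζ = V.starProjection (z a) + ∑ l ∈ X, e l • z l := by
      rw [hv'def]
      nth_rewrite 1 [hsplit]
      abel
    rw [this]
    refine V.add_mem hmem (V.sum_mem fun l hl => V.smul_mem _ ?_)
    rw [hV]
    exact Submodule.subset_span ⟨l, hl, rfl⟩
  have hζperp : ζ ∈ Vᗮ := Submodule.starProjection_apply_mem _ _
  have horth : ⟪ζ, v' - ζ⟫ = 0 := (Submodule.mem_orthogonal' V ζ).1 hζperp _ hw |> fun h => by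
    rw [real_inner_comm] at h
    rw [real_inner_comm]
    exact (Submodule.mem_orthogonal V ζ).1 hζperp _ hw
  have hpyth : ‖v'‖ ^ 2 = ‖ζ‖ ^ 2 + ‖v' - ζ‖ ^ 2 := by
    have : v' = ζ + (v' - ζ) := by abel
    nth_rewrite 1 [this]
    rw [norm_add_sq_real, horth]
    ring
  have hle : ‖v'‖ ^ 2 ≤ ‖ζ‖ ^ 2 := by
    have := energy_clamp z hsum hobt d
    rw [hv', ← hζ] at this
    exact this
  have h0 : ‖v' - ζ‖ ^ 2 ≤ 0 := by linarith
  have h1 : ‖v' - ζ‖ = 0 := by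
    have := sq_nonneg ‖v' - ζ‖
    exact pow_eq_zero_iff (two_ne_zero) |>.1 (le_antisymm h0 this)
  exact (sub_eq_zero.1 (norm_eq_zero.1 h1)).symm

section corollaries

variable (z : ι → E) (X : Finset ι) {V : Submodule ℝ E} [V.HasOrthogonalProjection]

lemma mem_V_of_mem (hV : V = Submodule.span ℝ (z '' (X : Set ι))) {l : ι} (hl : l ∈ X) : z l ∈ V := by
  rw [hV]
  exact Submodule.subset_span ⟨l, hl, rfl⟩

/-- `⟪ζ, v⟫ = ⟪ζ, w⟫` whenever `ζ ∈ Vᗮ` and `v - w ∈ V`. -/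
lemma inner_proj_right (u w : E) : ⟪Vᗮ.starProjection u, Vᗮ.starProjection w⟫
    = ⟪Vᗮ.starProjection u, w⟫ := by
  have hsplit : w = V.starProjection w + Vᗮ.starProjection w :=
    (Submodule.starProjection_add_starProjection_orthogonal (K := V) w).symm
  have h0 : ⟪Vᗮ.starProjection u, V.starProjection w⟫ = 0 := by
    rw [real_inner_comm]
    exact (Submodule.mem_orthogonal V _).1 (Submodule.starProjection_apply_mem _ _) _
      (Submodule.starProjection_apply_mem _ _)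
  conv_rhs => rw [hsplit, inner_add_right, h0, zero_add]

variable (hsum : ∑ i, z i = 0) (hobt : ∀ i j, i ≠ j → ⟪z i, z j⟫ ≤ 0)
  (hV : V = Submodule.span ℝ (z '' (X : Set ι)))

include hsum hobt hV

/-- `‖ζ a‖² ≥ ‖z a‖² - ∑_{l∈X} w_al`. -/
theorem norm_proj_sq_ge {a : ι} (ha : a ∉ X) :
    ‖z a‖ ^ 2 + ∑ l ∈ X, ⟪z l, z a⟫ ≤ ‖Vᗮ.starProjection (z a)‖ ^ 2 := by
  obtain ⟨e, he, hrep⟩ := proj_repr z hsum hobt X hV ha
  have h1 : ‖Vᗮ.starProjection (z a)‖ ^ 2 = ⟪Vᗮ.starProjection (z a), z a⟫ := by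
    rw [← inner_proj_right, real_inner_self_eq_norm_sq]
  rw [h1, hrep, inner_add_left, sum_inner, real_inner_self_eq_norm_sq]
  have h2 : ∑ l ∈ X, ⟪z l, z a⟫ ≤ ∑ l ∈ X, ⟪e l • z l, z a⟫ := by
    refine Finset.sum_le_sum fun l hl => ?_
    rw [inner_smul_left]
    have hla : l ≠ a := fun h => ha (h ▸ hl)
    have h3 := hobt l a hla
    have h4 := (he l).2
    simp only [conj_trivial]
    nlinarith
  linarith

/-- `⟪ζ a, ζ b⟫ ≤ ⟪z a, z b⟫`: Kron reduction increases the conductances. -/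
theorem inner_proj_le {a b : ι} (ha : a ∉ X) (hb : b ∉ X) :
    ⟪Vᗮ.starProjection (z a), Vᗮ.starProjection (z b)⟫ ≤ ⟪z a, z b⟫ := by
  obtain ⟨e, he, hrep⟩ := proj_repr z hsum hobt X hV ha
  rw [inner_proj_right, hrep, inner_add_left, sum_inner]
  have h2 : ∑ l ∈ X, ⟪e l • z l, z b⟫ ≤ 0 := by
    refine Finset.sum_nonpos fun l hl => ?_
    rw [inner_smul_left]
    have hlb : l ≠ b := fun h => hb (h ▸ hl)
    have h3 := hobt l b hlb
    have h4 := (he l).1
    simp only [conj_trivial]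
    exact mul_nonpos_of_nonneg_of_nonpos h4 h3
  linarith

omit hobt in
/-- The projected family on the complement of `X` is zero-sum. -/
theorem sum_proj_eq_zero :
    ∑ a ∈ Xᶜ, Vᗮ.starProjection (z a) = 0 := by
  rw [← map_sum]
  have h1 : ∑ a ∈ Xᶜ, z a = - ∑ l ∈ X, z l := by
    have := Finset.sum_add_sum_compl X z
    rw [hsum] at this
    exact eq_neg_of_add_eq_zero_right this
  have h2 : ∑ l ∈ X, z l ∈ V := V.sum_mem fun l hl => mem_V_of_mem z X hV hl
  rw [h1, map_neg, neg_eq_zero]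
  rw [Submodule.starProjection_apply_eq_zero_iff]
  exact Submodule.le_orthogonal_orthogonal V h2

end corollaries

omit [DecidableEq ι] in
/-- The total flow out of `X`. -/
theorem sum_flow_eq [DecidableEq ι] (z : ι → E) (hsum : ∑ i, z i = 0) (X : Finset ι) :
    ∑ a ∈ Xᶜ, ∑ l ∈ X, ⟪z l, z a⟫ = - ‖∑ l ∈ X, z l‖ ^ 2 := by
  have h1 : ∑ a ∈ Xᶜ, z a = - ∑ l ∈ X, z l := by
    have := Finset.sum_add_sum_compl X z
    rw [hsum] at this
    exact eq_neg_of_add_eq_zero_right this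
  rw [← real_inner_self_eq_norm_sq]
  have h2 : ∀ a, ∑ l ∈ X, ⟪z l, z a⟫ = ⟪∑ l ∈ X, z l, z a⟫ := fun a => (sum_inner _ _ _).symm
  simp_rw [h2]
  rw [← inner_sum, h1, inner_neg_right]

/-- The determinant for a zero-sum triple. -/
theorem det_triple (u v w : E) (h : u + v + w = 0) :
    ‖u‖ ^ 2 * ‖v‖ ^ 2 - ⟪u, v⟫ ^ 2
      = (‖u‖ ^ 2 * ‖v‖ ^ 2 + ‖u‖ ^ 2 * ‖w‖ ^ 2 + ‖v‖ ^ 2 * ‖w‖ ^ 2)
        - (‖u‖ ^ 2 + ‖v‖ ^ 2 + ‖w‖ ^ 2) ^ 2 / 4 := by
  have hw : w = -(u + v) := eq_neg_of_add_eq_zero_right h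
  have h1 : ‖w‖ ^ 2 = ‖u‖ ^ 2 + 2 * ⟪u, v⟫ + ‖v‖ ^ 2 := by
    rw [hw, norm_neg, norm_add_sq_real]
  rw [h1]
  ring

end Crest.Agent.Propeller
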