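import Crest.Agent.Lib.Propeller.Harris

/-!
# Propeller: pair small ball

The law of `(⟪a, g⟫, ⟪b, g⟫)` has density at most `1 / (2 π Δ)`, `Δ² = |a|²|b|² - ⟪a,b⟫²`, hence
a triangle with legs `α + β + c` has measure at most `(α + β + c)₊² / (4 π Δ)`.
-/

set_option autoImplicit false
set_option linter.unusedSectionVars false
open MeasureTheory ProbabilityTheory
open scoped RealInnerProductSpace ENNReal

namespace Crest.Agent.Propeller

universe u v

variable {E : Type u} [NormedAddCommGroup E] [InnerProductSpace ℝ E] [FiniteDimensional ℝ E]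
  [MeasurableSpace E] [BorelSpace E]
variable {ι : Type v}

lemma gaussianPDF_le (τ : ℝ) (hτ : 0 < τ) (x : ℝ) :
    gaussianPDF 0 (Real.toNNReal (τ ^ 2)) x ≤ ENNReal.ofReal (1 / (Real.sqrt (2 * Real.pi) * τ)) := by
  unfold gaussianPDF
  apply ENNReal.ofReal_le_ofReal
  unfold gaussianPDFReal
  rw [Real.coe_toNNReal _ (by positivity)]
  have h1 : Real.sqrt (2 * Real.pi * τ ^ 2) = Real.sqrt (2 * Real.pi) * τ := by
    rw [Real.sqrt_mul (by positivity), Real.sqrt_sq hτ.le]
  rw [h1]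
  have h2 : Real.exp (-(x - 0) ^ 2 / (2 * τ ^ 2)) ≤ 1 := by
    apply Real.exp_le_one_iff.2
    have : 0 ≤ (x - 0) ^ 2 / (2 * τ ^ 2) := by positivity
    have h3 : -(x - 0) ^ 2 / (2 * τ ^ 2) = -((x - 0) ^ 2 / (2 * τ ^ 2)) := by ring
    linarith
  have h4 : (0 : ℝ) < Real.sqrt (2 * Real.pi) * τ := by positivity
  calc (Real.sqrt (2 * Real.pi) * τ)⁻¹ * Real.exp (-(x - 0) ^ 2 / (2 * τ ^ 2))
      ≤ (Real.sqrt (2 * Real.pi) * τ)⁻¹ * 1 := by gcongr
    _ = 1 / (Real.sqrt (2 * Real.pi) * τ) := by rw [mul_one, one_div]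

/-- Integrals against `N(0,τ²)` are bounded by the peak density times the Lebesgue integral. -/
lemma lintegral_gaussian_le (τ : ℝ) (hτ : 0 < τ) {f : ℝ → ℝ≥0∞} (hf : Measurable f) :
    ∫⁻ x, f x ∂(gaussianReal 0 (Real.toNNReal (τ ^ 2)))
      ≤ ENNReal.ofReal (1 / (Real.sqrt (2 * Real.pi) * τ)) * ∫⁻ x, f x := by
  have hv : Real.toNNReal (τ ^ 2) ≠ 0 := by
    simp only [ne_eq, Real.toNNReal_eq_zero, not_le]
    positivity
  rw [gaussianReal_of_var_ne_zero _ hv,
    lintegral_withDensity_eq_lintegral_mul _ (measurable_gaussianPDF _ _) hf,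
    ← lintegral_const_mul' _ _ ENNReal.ofReal_ne_top]
  refine lintegral_mono fun x => ?_
  simp only [Pi.mul_apply]
  gcongr
  exact gaussianPDF_le τ hτ x

lemma gaussian_one_eq : gaussianReal 0 1 = gaussianReal 0 (Real.toNNReal ((1 : ℝ) ^ 2)) := by
  simp

/-- Interval measure under `N(0,τ²)`. -/
lemma gaussian_Ico_le (τ : ℝ) (hτ : 0 < τ) (l u : ℝ) :
    gaussianReal 0 (Real.toNNReal (τ ^ 2)) (Set.Ico l u)
      ≤ ENNReal.ofReal (max 0 (u - l) / (Real.sqrt (2 * Real.pi) * τ)) := by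
  have h := lintegral_gaussian_le τ hτ (f := (Set.Ico l u).indicator 1)
    (measurable_one.indicator measurableSet_Ico)
  rw [lintegral_indicator_one measurableSet_Ico, lintegral_indicator_one measurableSet_Ico,
    Real.volume_Ico] at h
  refine h.trans ?_
  rw [← ENNReal.ofReal_mul (by positivity)]
  apply ENNReal.ofReal_le_ofReal
  rw [one_div, div_eq_inv_mul]
  gcongr
  exact le_max_right _ _

/-- The law of `⟪w, g⟫`: intervals. -/
lemma std_Ico_le (w : E) (hw : w ≠ 0) (l u : ℝ) :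
    stdGaussian E {g | l ≤ ⟪w, g⟫ ∧ ⟪w, g⟫ < u}
      ≤ ENNReal.ofReal (max 0 (u - l) / (Real.sqrt (2 * Real.pi) * ‖w‖)) := by
  have hm : Measurable (fun g : E => ⟪w, g⟫) := (continuous_const.inner continuous_id).measurable
  have h1 : stdGaussian E {g | l ≤ ⟪w, g⟫ ∧ ⟪w, g⟫ < u}
      = ((stdGaussian E).map (fun g => ⟪w, g⟫)) (Set.Ico l u) := by
    rw [Measure.map_apply hm measurableSet_Ico]
    rfl
  rw [h1, map_inner_std]
  exact gaussian_Ico_le ‖w‖ (norm_pos_iff.2 hw) l u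

/-- The integral of a ramp over a half-line. -/
lemma lintegral_ramp_le (C σ t : ℝ) (hσ : 0 < σ) :
    ∫⁻ n in Set.Iio t, ENNReal.ofReal (max 0 (C + σ * n))
      ≤ ENNReal.ofReal ((max 0 (C + σ * t)) ^ 2 / (2 * σ)) := by
  set a := -C / σ with ha
  have hzero : ∀ n, n ≤ a → C + σ * n ≤ 0 := by
    intro n hn
    have : σ * n ≤ σ * a := by gcongr
    have h2 : σ * a = -C := by rw [ha]; field_simp
    linarith
  by_cases hta : t ≤ a
  · have : ∫⁻ n in Set.Iio t, ENNReal.ofReal (max 0 (C + σ * n)) = 0 := by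
      refine setLIntegral_eq_zero measurableSet_Iio fun n hn => ?_
      have := hzero n ((le_of_lt hn).trans hta)
      simp [max_eq_left this]
    rw [this]
    exact bot_le
  · push Not at hta
    have h1 : Set.Iio t ⊆ Set.Iic a ∪ Set.Ioc a t := by
      intro n hn
      by_cases hna : n ≤ a
      · exact Or.inl hna
      · exact Or.inr ⟨not_le.1 hna, le_of_lt hn⟩
    have h2 : ∫⁻ n in Set.Iic a, ENNReal.ofReal (max 0 (C + σ * n)) = 0 := by
      refine setLIntegral_eq_zero measurableSet_Iic fun n hn => ?_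
      have := hzero n hn
      simp [max_eq_left this]
    have h3 : ∫⁻ n in Set.Ioc a t, ENNReal.ofReal (max 0 (C + σ * n))
        = ENNReal.ofReal ((C + σ * t) ^ 2 / (2 * σ)) := by
      have hpos : ∀ n ∈ Set.Ioc a t, max 0 (C + σ * n) = C + σ * n := by
        intro n hn
        apply max_eq_right
        have : σ * a ≤ σ * n := by gcongr; exact le_of_lt hn.1
        have h2 : σ * a = -C := by rw [ha]; field_simp
        linarith
      rw [setLIntegral_congr_fun measurableSet_Ioc (fun n hn => by rw [hpos n hn])]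
      rw [← ofReal_integral_eq_lintegral_ofReal]
      · congr 1
        rw [← intervalIntegral.integral_of_le (le_of_lt hta)]
        have : ∫ n in a..t, (C + σ * n) = (C + σ * t) ^ 2 / (2 * σ) := by
          rw [intervalIntegral.integral_add (by simp) (by apply Continuous.intervalIntegrable; fun_prop),
            intervalIntegral.integral_const_mul, integral_id, intervalIntegral.integral_const,
            smul_eq_mul, ha]
          field_simp
          ring
        exact this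
      · apply Continuous.integrableOn_Ioc
        fun_prop
      · rw [Filter.EventuallyLE, ae_restrict_iff' measurableSet_Ioc]
        refine Filter.Eventually.of_forall fun n hn => ?_
        have := hpos n hn
        have h5 := le_max_left 0 (C + σ * n)
        rw [this] at h5
        exact h5
    have h4 : 0 ≤ C + σ * t := by
      have : σ * a ≤ σ * t := by gcongr
      have h2 : σ * a = -C := by rw [ha]; field_simp
      linarith
    calc ∫⁻ n in Set.Iio t, ENNReal.ofReal (max 0 (C + σ * n))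
        ≤ ∫⁻ n in Set.Iic a ∪ Set.Ioc a t, ENNReal.ofReal (max 0 (C + σ * n)) :=
          lintegral_mono_set h1
      _ ≤ (∫⁻ n in Set.Iic a, ENNReal.ofReal (max 0 (C + σ * n)))
          + ∫⁻ n in Set.Ioc a t, ENNReal.ofReal (max 0 (C + σ * n)) := lintegral_union_le _ _ _
      _ = ENNReal.ofReal ((max 0 (C + σ * t)) ^ 2 / (2 * σ)) := by
          rw [h2, h3, zero_add, max_eq_right h4]

/-- **Pair small ball.** -/
theorem pair_ball (a b : E) (Δ : ℝ) (hΔ : 0 < Δ) (hΔ2 : Δ ^ 2 ≤ ‖a‖ ^ 2 * ‖b‖ ^ 2 - ⟪a, b⟫ ^ 2)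
    (α β c : ℝ) :
    stdGaussian E {g | ⟪a, g⟫ < α ∧ ⟪b, g⟫ < β ∧ -c ≤ ⟪a, g⟫ + ⟪b, g⟫}
      ≤ ENNReal.ofReal ((max 0 (α + β + c)) ^ 2 / (4 * Real.pi * Δ)) := by
  have hpi := Real.pi_pos
  have ha : a ≠ 0 := by
    rintro rfl
    simp only [norm_zero, inner_zero_left] at hΔ2
    nlinarith
  have hσ : 0 < ‖a‖ := norm_pos_iff.2 ha
  set σ := ‖a‖ with hσdef
  set e : E := σ⁻¹ • a with he_def
  have he : ‖e‖ = 1 := by
    rw [he_def, norm_smul, norm_inv, Real.norm_eq_abs, abs_of_pos hσ, ← hσdef]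
    exact inv_mul_cancel₀ hσ.ne'
  have hae : a = σ • e := by
    rw [he_def, smul_smul, mul_inv_cancel₀ hσ.ne', one_smul]
  have hprp : prp e a = 0 := by
    rw [hae, prp, inner_smul_right, real_inner_self_eq_norm_sq, he]
    simp
  have hinner : ∀ (n : ℝ) (g' : E), ⟪a, n • e + prp e g'⟫ = σ * n := by
    intro n g'
    rw [inner_split, hprp, inner_zero_left, add_zero, hae, inner_smul_left,
      real_inner_self_eq_norm_sq, he]
    simp [mul_comm]
  set w := prp e b with hw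
  have hw2 : (σ * ‖w‖) ^ 2 = ‖a‖ ^ 2 * ‖b‖ ^ 2 - ⟪a, b⟫ ^ 2 := by
    rw [mul_pow, hw, norm_prp_sq e b he, he_def, real_inner_smul_left, ← hσdef]
    field_simp
  have hτpos : 0 < σ * ‖w‖ := by
    have h1 : 0 < (σ * ‖w‖) ^ 2 := by rw [hw2]; nlinarith
    have h2 : 0 ≤ σ * ‖w‖ := by positivity
    rcases h2.lt_or_eq with h3 | h3
    · exact h3
    · rw [← h3] at h1; norm_num at h1
  have hwne : w ≠ 0 := by
    rintro h
    rw [h] at hτpos
    simp at hτpos
  have hτΔ : Δ ≤ σ * ‖w‖ := by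
    have h1 : Δ ^ 2 ≤ (σ * ‖w‖) ^ 2 := by rw [hw2]; exact hΔ2
    exact abs_le_of_sq_le_sq' h1 hτpos.le |>.2
  have hA : MeasurableSet {g : E | ⟪a, g⟫ < α ∧ ⟪b, g⟫ < β ∧ -c ≤ ⟪a, g⟫ + ⟪b, g⟫} := by
    have hca : Continuous fun g : E => ⟪a, g⟫ := continuous_const.inner continuous_id
    have hcb : Continuous fun g : E => ⟪b, g⟫ := continuous_const.inner continuous_id
    exact (measurableSet_lt hca.measurable measurable_const).inter
      ((measurableSet_lt hcb.measurable measurable_const).inter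
        (measurableSet_le measurable_const (hca.add hcb).measurable))
  rw [measure_split e he hA]
  set t := α / σ with ht
  set C := β + c with hC
  set τ := ‖w‖ with hτ
  have hτ0 : 0 < τ := norm_pos_iff.2 hwne
  have hslice : ∀ n : ℝ, stdGaussian E {g' | n • e + prp e g' ∈
        {g : E | ⟪a, g⟫ < α ∧ ⟪b, g⟫ < β ∧ -c ≤ ⟪a, g⟫ + ⟪b, g⟫}}
      ≤ (Set.Iio t).indicator
        (fun n => ENNReal.ofReal (1 / (Real.sqrt (2 * Real.pi) * τ))
          * ENNReal.ofReal (max 0 (C + σ * n))) n := by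
    intro n
    by_cases hn : n ∈ Set.Iio t
    · rw [Set.indicator_of_mem hn, ← ENNReal.ofReal_mul (by positivity)]
      have hsub : {g' | n • e + prp e g' ∈
          {g : E | ⟪a, g⟫ < α ∧ ⟪b, g⟫ < β ∧ -c ≤ ⟪a, g⟫ + ⟪b, g⟫}}
          ⊆ {g' | (-c - σ * n - n * ⟪b, e⟫) ≤ ⟪w, g'⟫ ∧ ⟪w, g'⟫ < β - n * ⟪b, e⟫} := by
        intro g' hg'
        obtain ⟨_, h2, h3⟩ := hg'
        rw [inner_split] at h2
        rw [hinner, inner_split] at h3
        refine ⟨by linarith, by linarith⟩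
      refine (measure_mono hsub).trans ((std_Ico_le w hwne _ _).trans (le_of_eq ?_))
      congr 1
      have : β - n * ⟪b, e⟫ - (-c - σ * n - n * ⟪b, e⟫) = C + σ * n := by rw [hC]; ring
      rw [this]
      ring
    · rw [Set.indicator_of_notMem hn]
      have hsub : {g' | n • e + prp e g' ∈
          {g : E | ⟪a, g⟫ < α ∧ ⟪b, g⟫ < β ∧ -c ≤ ⟪a, g⟫ + ⟪b, g⟫}} ⊆ ∅ := by
        intro g' hg'
        obtain ⟨h1, _, _⟩ := hg'
        rw [hinner] at h1
        apply hn
        rw [Set.mem_Iio, ht, lt_div_iff₀ hσ]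
        linarith
      exact (measure_mono hsub).trans (by simp)
  have hmeas : Measurable (fun n : ℝ => ENNReal.ofReal (1 / (Real.sqrt (2 * Real.pi) * τ))
          * ENNReal.ofReal (max 0 (C + σ * n))) := by
    apply Measurable.const_mul
    apply ENNReal.measurable_ofReal.comp
    fun_prop
  have hN := lintegral_gaussian_le 1 one_pos (f := (Set.Iio t).indicator
        (fun n => ENNReal.ofReal (1 / (Real.sqrt (2 * Real.pi) * τ))
          * ENNReal.ofReal (max 0 (C + σ * n)))) (hmeas.indicator measurableSet_Iio)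
  rw [← gaussian_one_eq] at hN
  have hLeb : ∫⁻ x, (Set.Iio t).indicator
        (fun n => ENNReal.ofReal (1 / (Real.sqrt (2 * Real.pi) * τ))
          * ENNReal.ofReal (max 0 (C + σ * n))) x
      = ENNReal.ofReal (1 / (Real.sqrt (2 * Real.pi) * τ))
        * ∫⁻ n in Set.Iio t, ENNReal.ofReal (max 0 (C + σ * n)) := by
    rw [lintegral_indicator measurableSet_Iio, lintegral_const_mul' _ _ ENNReal.ofReal_ne_top]
  rw [hLeb] at hN
  have hσt : σ * t = α := by rw [ht]; field_simp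
  have hramp := lintegral_ramp_le C σ t hσ
  rw [hσt] at hramp
  have hX : C + α = α + β + c := by rw [hC]; ring
  rw [hX] at hramp
  calc ∫⁻ n, stdGaussian E {g' | n • e + prp e g' ∈
        {g : E | ⟪a, g⟫ < α ∧ ⟪b, g⟫ < β ∧ -c ≤ ⟪a, g⟫ + ⟪b, g⟫}} ∂(gaussianReal 0 1)
      ≤ ∫⁻ n, (Set.Iio t).indicator
        (fun n => ENNReal.ofReal (1 / (Real.sqrt (2 * Real.pi) * τ))
          * ENNReal.ofReal (max 0 (C + σ * n))) n ∂(gaussianReal 0 1) := lintegral_mono hslice
    _ ≤ _ := hN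
    _ ≤ ENNReal.ofReal (1 / (Real.sqrt (2 * Real.pi) * 1))
        * (ENNReal.ofReal (1 / (Real.sqrt (2 * Real.pi) * τ))
          * ENNReal.ofReal ((max 0 (α + β + c)) ^ 2 / (2 * σ))) := by gcongr
    _ ≤ _ := by
      rw [← ENNReal.ofReal_mul (by positivity), ← ENNReal.ofReal_mul (by positivity)]
      apply ENNReal.ofReal_le_ofReal
      have h2pi : Real.sqrt (2 * Real.pi) * Real.sqrt (2 * Real.pi) = 2 * Real.pi :=
        Real.mul_self_sqrt (by positivity)
      have hsq : 0 < Real.sqrt (2 * Real.pi) := by positivity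
      have hX2 : 0 ≤ (max 0 (α + β + c)) ^ 2 := by positivity
      have heq : 1 / (Real.sqrt (2 * Real.pi) * 1) * (1 / (Real.sqrt (2 * Real.pi) * τ)
            * ((max 0 (α + β + c)) ^ 2 / (2 * σ)))
          = (max 0 (α + β + c)) ^ 2 / (4 * Real.pi * (σ * τ)) := by
        have : 4 * Real.pi * (σ * τ)
            = (Real.sqrt (2 * Real.pi) * Real.sqrt (2 * Real.pi)) * (2 * σ * τ) := by
          rw [h2pi]; ring
        rw [this]
        field_simp
      rw [heq]
      gcongr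

/-- **Zero-sum family**: the whole event is inside a triangle. -/
theorem below_zero_sum [DecidableEq ι] (T : Finset ι) (v : ι → E) (y : ι → ℝ)
    (hsum : ∑ i ∈ T, v i = 0) {a b : ι} (ha : a ∈ T) (hb : b ∈ T) (hab : a ≠ b)
    (Δ : ℝ) (hΔ : 0 < Δ) (hΔ2 : Δ ^ 2 ≤ ‖v a‖ ^ 2 * ‖v b‖ ^ 2 - ⟪v a, v b⟫ ^ 2) :
    stdGaussian E (below T v y)
      ≤ ENNReal.ofReal ((max 0 (∑ i ∈ T, y i)) ^ 2 / (4 * Real.pi * Δ)) := by
  have hb' : b ∈ T.erase a := Finset.mem_erase.2 ⟨hab.symm, hb⟩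
  set O := (T.erase a).erase b with hO
  have hY : ∑ i ∈ T, y i = y a + y b + ∑ i ∈ O, y i := by
    rw [← Finset.add_sum_erase _ _ ha, ← Finset.add_sum_erase _ _ hb', hO]
    ring
  have hV : ∀ g : E, ⟪v a, g⟫ + ⟪v b, g⟫ + ∑ i ∈ O, ⟪v i, g⟫ = 0 := by
    intro g
    have h1 : ⟪∑ i ∈ T, v i, g⟫ = 0 := by rw [hsum]; simp
    rw [sum_inner, ← Finset.add_sum_erase _ _ ha, ← Finset.add_sum_erase _ _ hb'] at h1
    rw [hO]
    linarith
  have hsub : below T v y ⊆ {g | ⟪v a, g⟫ < y a ∧ ⟪v b, g⟫ < y b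
      ∧ -(∑ i ∈ O, y i) ≤ ⟪v a, g⟫ + ⟪v b, g⟫} := by
    intro g hg
    refine ⟨hg a ha, hg b hb, ?_⟩
    have h2 : ∑ i ∈ O, ⟪v i, g⟫ ≤ ∑ i ∈ O, y i := by
      refine Finset.sum_le_sum fun i hi => ?_
      have hiT : i ∈ T := Finset.mem_of_mem_erase (Finset.mem_of_mem_erase hi)
      exact le_of_lt (hg i hiT)
    have := hV g
    linarith
  refine (measure_mono hsub).trans ?_
  have := pair_ball (v a) (v b) Δ hΔ hΔ2 (y a) (y b) (∑ i ∈ O, y i)
  rw [← hY] at this
  exact this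

end Crest.Agent.Propeller
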