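import Crest.Agent.Lib.Propeller.GaussTools

/-!
# The pair small-ball bound, set deletion version

* `gaussian_interval_le`: density bound on an interval;
* `triangle_bound`: `P(⟪u,g⟫<A, ⟪v,g⟫<B, ⟪u,g⟫+⟪v,g⟫>-C) ≤ (A+B+C)₊²/(4πΔ)`.
-/

set_option autoImplicit false
set_option linter.unusedSectionVars false
open MeasureTheory ProbabilityTheory
open scoped RealInnerProductSpace NNReal

namespace Crest.Agent.Propeller

universe u v

variable {E : Type u} [NormedAddCommGroup E] [InnerProductSpace ℝ E] [FiniteDimensional ℝ E]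
  [MeasurableSpace E] [BorelSpace E]

/-- The density of `N(0, σ²)` is at most `1/(σ√(2π))`. -/
lemma gaussianPDFReal_le (σ : ℝ) (hσ : 0 < σ) (x : ℝ) :
    gaussianPDFReal 0 (Real.toNNReal (σ ^ 2)) x ≤ (σ * Real.sqrt (2 * Real.pi))⁻¹ := by
  have hv : ((Real.toNNReal (σ ^ 2) : ℝ≥0) : ℝ) = σ ^ 2 := Real.coe_toNNReal _ (by positivity)
  rw [gaussianPDFReal_def, hv]
  have hexp : Real.exp (-(x - 0) ^ 2 / (2 * σ ^ 2)) ≤ 1 := by
    rw [Real.exp_le_one_iff]
    have : 0 ≤ (x - 0) ^ 2 / (2 * σ ^ 2) := by positivity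
    rw [neg_div]
    linarith
  have hs : Real.sqrt (2 * Real.pi * σ ^ 2) = σ * Real.sqrt (2 * Real.pi) := by
    rw [mul_comm, Real.sqrt_mul (by positivity), Real.sqrt_sq hσ.le]
  rw [hs]
  have hpos : 0 < (σ * Real.sqrt (2 * Real.pi))⁻¹ := by positivity
  calc (σ * Real.sqrt (2 * Real.pi))⁻¹ * Real.exp (-(x - 0) ^ 2 / (2 * σ ^ 2))
      ≤ (σ * Real.sqrt (2 * Real.pi))⁻¹ * 1 := mul_le_mul_of_nonneg_left hexp hpos.le
    _ = _ := mul_one _

/-- Probability of an interval for a nondegenerate Gaussian. -/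
lemma gaussian_interval_le (σ : ℝ) (hσ : 0 < σ) (a b : ℝ) :
    (gaussianReal 0 (Real.toNNReal (σ ^ 2))).real (Set.Ioo a b)
      ≤ max 0 (b - a) * (σ * Real.sqrt (2 * Real.pi))⁻¹ := by
  have hv : Real.toNNReal (σ ^ 2) ≠ 0 := by
    simp only [ne_eq, Real.toNNReal_eq_zero, not_le]
    positivity
  have hle : (gaussianReal 0 (Real.toNNReal (σ ^ 2))) (Set.Ioo a b)
      ≤ ENNReal.ofReal (max 0 (b - a) * (σ * Real.sqrt (2 * Real.pi))⁻¹) := by
    rw [gaussianReal_apply _ hv]
    calc ∫⁻ x in Set.Ioo a b, gaussianPDF 0 (Real.toNNReal (σ ^ 2)) x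
        ≤ ∫⁻ _ in Set.Ioo a b, ENNReal.ofReal ((σ * Real.sqrt (2 * Real.pi))⁻¹) := by
          apply lintegral_mono
          intro x
          exact ENNReal.ofReal_le_ofReal (gaussianPDFReal_le σ hσ x)
      _ = ENNReal.ofReal ((σ * Real.sqrt (2 * Real.pi))⁻¹) * volume (Set.Ioo a b) := by
          rw [setLIntegral_const]
      _ = ENNReal.ofReal (max 0 (b - a) * (σ * Real.sqrt (2 * Real.pi))⁻¹) := by
          have h1 : ENNReal.ofReal (b - a) = ENNReal.ofReal (max 0 (b - a)) := by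
            by_cases h : 0 ≤ b - a
            · rw [max_eq_right h]
            · rw [max_eq_left (le_of_lt (not_le.1 h)), ENNReal.ofReal_of_nonpos (le_of_lt (not_le.1 h))]
              simp
          rw [Real.volume_Ioo, h1, mul_comm, ENNReal.ofReal_mul (le_max_left _ _)]
  have := ENNReal.toReal_mono (ENNReal.ofReal_ne_top) hle
  rw [ENNReal.toReal_ofReal (by positivity)] at this
  exact this

lemma tri_eq (p q c : ℝ) (hq : 0 < q) :
    (Set.Iio c).indicator (fun ξ => max 0 (p + q * ξ))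
      = (Set.Ioo (-p / q) c).indicator (fun ξ => p + q * ξ) := by
  set s : ℝ := -p / q with hs
  have hps : p + q * s = 0 := by rw [hs]; field_simp; ring
  ext ξ
  by_cases h1 : ξ < c
  · by_cases h2 : s < ξ
    · have : 0 ≤ p + q * ξ := by nlinarith
      simp [h1, h2, Set.indicator, max_eq_right this]
    · have : p + q * ξ ≤ 0 := by
        have : ξ ≤ s := not_lt.1 h2
        nlinarith
      simp [h1, h2, Set.indicator, max_eq_left this]
  · simp [h1, Set.indicator]

lemma integrable_tri (p q c : ℝ) (hq : 0 < q) :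
    Integrable ((Set.Iio c).indicator (fun ξ => max 0 (p + q * ξ))) := by
  rw [tri_eq p q c hq, integrable_indicator_iff measurableSet_Ioo]
  have h1 : Continuous (fun ξ : ℝ => p + q * ξ) := by fun_prop
  exact (h1.integrableOn_Icc (a := -p / q) (b := c)).mono_set Set.Ioo_subset_Icc_self

/-- `∫_{ξ<c} (p+qξ)₊ dξ = (p+qc)₊²/(2q)`. -/
lemma integral_tri (p q c : ℝ) (hq : 0 < q) :
    ∫ ξ : ℝ, (Set.Iio c).indicator (fun ξ => max 0 (p + q * ξ)) ξ
      = (max 0 (p + q * c)) ^ 2 / (2 * q) := by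
  rw [tri_eq p q c hq]
  set s : ℝ := -p / q with hs
  have hps : p + q * s = 0 := by rw [hs]; field_simp; ring
  by_cases hc : s < c
  · have hval : 0 ≤ p + q * c := by nlinarith
    rw [max_eq_right hval, integral_indicator measurableSet_Ioo]
    rw [← MeasureTheory.integral_Ioc_eq_integral_Ioo, ← intervalIntegral.integral_of_le hc.le]
    have hderiv : ∀ x ∈ Set.uIcc s c, HasDerivAt (fun x => (p + q * x) ^ 2 / (2 * q)) (p + q * x) x := by
      intro x _
      have h2 : HasDerivAt (fun x => p + q * x) q x := by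
        simpa using ((hasDerivAt_id x).const_mul q).const_add p
      refine HasDerivAt.congr_deriv (f' := ((2 : ℕ) * (p + q * x) ^ (2 - 1) * q) / (2 * q))
        ((h2.pow 2).div_const (2 * q)) ?_
      norm_num
      field_simp
    rw [intervalIntegral.integral_eq_sub_of_hasDerivAt hderiv]
    · rw [hps]
      ring
    · apply Continuous.intervalIntegrable
      fun_prop
  · have hval : p + q * c ≤ 0 := by
      have : c ≤ s := not_lt.1 hc
      nlinarith
    rw [max_eq_left hval, Set.Ioo_eq_empty hc]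
    simp

lemma gaussianPDFReal_one_le (x : ℝ) :
    gaussianPDFReal 0 1 x ≤ (Real.sqrt (2 * Real.pi))⁻¹ := by
  have := gaussianPDFReal_le 1 one_pos x
  simpa using this

/-- **Triangle small ball.** -/
theorem triangle_bound (u v : E) (Δ : ℝ) (hΔ : 0 < Δ)
    (hΔ2 : Δ ^ 2 = ‖u‖ ^ 2 * ‖v‖ ^ 2 - ⟪u, v⟫ ^ 2) (A B C : ℝ) :
    (stdGaussian E).real {g : E | ⟪u, g⟫ < A ∧ ⟪v, g⟫ < B ∧ -C < ⟪u, g⟫ + ⟪v, g⟫}
      ≤ (max 0 (A + B + C)) ^ 2 / (4 * Real.pi * Δ) := by
  have hu0 : u ≠ 0 := by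
    rintro rfl
    simp at hΔ2
    exact hΔ.ne' hΔ2
  have hn : 0 < ‖u‖ := norm_pos_iff.2 hu0
  obtain ⟨e, he, hue⟩ : ∃ e : E, ‖e‖ = 1 ∧ u = ‖u‖ • e := by
    refine ⟨(‖u‖)⁻¹ • u, ?_, ?_⟩
    · rw [norm_smul, norm_inv, norm_norm]
      field_simp
    · rw [smul_smul]
      field_simp
      simp
  obtain ⟨α, hα⟩ : ∃ α : ℝ, α = ⟪v, e⟫ := ⟨_, rfl⟩
  obtain ⟨w, hw_def⟩ : ∃ w : E, w = v - α • e := ⟨_, rfl⟩
  have hww : ‖w‖ ^ 2 = ‖v‖ ^ 2 - α ^ 2 := by
    rw [hw_def, norm_sub_sq_real, norm_smul, inner_smul_right, mul_pow, he, ← hα]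
    simp
    ring
  have hΔw : Δ = ‖u‖ * ‖w‖ := by
    have h1 : ⟪u, v⟫ = ‖u‖ * α := by
      conv_lhs => rw [hue, inner_smul_left]
      simp [hα, real_inner_comm]
    have h2 : Δ ^ 2 = (‖u‖ * ‖w‖) ^ 2 := by
      rw [hΔ2, h1, mul_pow, mul_pow, hww]
      ring
    have h3 : 0 ≤ ‖u‖ * ‖w‖ := by positivity
    exact (pow_left_inj₀ hΔ.le h3 (by norm_num)).1 h2
  have hρ : 0 < ‖w‖ := by
    have : 0 < ‖u‖ * ‖w‖ := hΔw ▸ hΔ
    exact (pos_iff_pos_of_mul_pos this).1 hn
  have hwe : ⟪w, e⟫ = 0 := by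
    rw [hw_def, inner_sub_left, inner_smul_left, real_inner_self_eq_norm_sq, he, ← hα]
    simp
  have hEv : MeasurableSet {g : E | ⟪u, g⟫ < A ∧ ⟪v, g⟫ < B ∧ -C < ⟪u, g⟫ + ⟪v, g⟫} := by
    have h1 : Continuous fun g : E => ⟪u, g⟫ := continuous_const.inner continuous_id
    have h2 : Continuous fun g : E => ⟪v, g⟫ := continuous_const.inner continuous_id
    exact (measurableSet_lt h1.measurable measurable_const).inter
      ((measurableSet_lt h2.measurable measurable_const).inter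
        (measurableSet_lt measurable_const (h1.add h2).measurable))
  rw [real_line_split e he hEv]
  set K : ℝ := (‖w‖ * Real.sqrt (2 * Real.pi))⁻¹ with hK
  have hKpos : 0 < K := by positivity
  set G : ℝ → ℝ := (Set.Iio (A / ‖u‖)).indicator (fun ξ => max 0 ((B + C) + ‖u‖ * ξ)) with hG
  have hGnn : ∀ ξ, 0 ≤ G ξ := by
    intro ξ
    rw [hG]
    exact Set.indicator_nonneg (fun _ _ => le_max_left _ _) _
  have hGint : Integrable G := integrable_tri _ _ _ hn
  -- pointwise bound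
  have hpt : ∀ ξ : ℝ, (stdGaussian E).real
      {g' : E | ξ • e + (g' - ⟪e, g'⟫ • e) ∈ {g : E | ⟪u, g⟫ < A ∧ ⟪v, g⟫ < B ∧ -C < ⟪u, g⟫ + ⟪v, g⟫}}
      ≤ K * G ξ := by
    intro ξ
    have hform : ∀ g' : E, ⟪u, ξ • e + (g' - ⟪e, g'⟫ • e)⟫ = ‖u‖ * ξ
        ∧ ⟪v, ξ • e + (g' - ⟪e, g'⟫ • e)⟫ = ⟪w, g'⟫ + α * ξ := by
      intro g'
      have h0 := inner_line_split e he ξ g'
      constructor
      · conv_lhs => rw [hue, inner_smul_left]
        simp [h0]
      · have hv : v = w + α • e := by rw [hw_def]; abel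
        have h1 : ⟪w, ξ • e + (g' - ⟪e, g'⟫ • e)⟫ = ⟪w, g'⟫ := by
          rw [inner_add_right, inner_sub_right, inner_smul_right, inner_smul_right, hwe]
          simp
        conv_lhs => rw [hv, inner_add_left, inner_smul_left]
        rw [h1, h0]
        simp
    by_cases hξ : ξ < A / ‖u‖
    · have hGξ : G ξ = max 0 ((B + C) + ‖u‖ * ξ) := by
        rw [hG]
        simp [hξ]
      rw [hGξ]
      have hsub : {g' : E | ξ • e + (g' - ⟪e, g'⟫ • e) ∈
          {g : E | ⟪u, g⟫ < A ∧ ⟪v, g⟫ < B ∧ -C < ⟪u, g⟫ + ⟪v, g⟫}}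
          ⊆ (fun g' : E => ⟪w, g'⟫) ⁻¹' Set.Ioo (-C - ‖u‖ * ξ - α * ξ) (B - α * ξ) := by
        intro g' hg'
        obtain ⟨_, h2, h3⟩ := hg'
        obtain ⟨hf1, hf2⟩ := hform g'
        rw [hf2] at h2 h3
        rw [hf1] at h3
        constructor <;> linarith
      calc _ ≤ (stdGaussian E).real
            ((fun g' : E => ⟪w, g'⟫) ⁻¹' Set.Ioo (-C - ‖u‖ * ξ - α * ξ) (B - α * ξ)) :=
            measureReal_mono hsub (by simp)
        _ = (gaussianReal 0 (Real.toNNReal (‖w‖ ^ 2))).real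
            (Set.Ioo (-C - ‖u‖ * ξ - α * ξ) (B - α * ξ)) := by
            have hm : Measurable (fun g : E => ⟪w, g⟫) :=
              (continuous_const.inner continuous_id).measurable
            rw [← map_inner_std w, map_measureReal_apply hm measurableSet_Ioo]
        _ ≤ max 0 ((B - α * ξ) - (-C - ‖u‖ * ξ - α * ξ)) * K :=
            gaussian_interval_le ‖w‖ hρ _ _
        _ = K * max 0 ((B + C) + ‖u‖ * ξ) := by
            rw [mul_comm]
            congr 2
            ring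
    · have hGξ : G ξ = 0 := by
        rw [hG]
        simp [hξ]
      have hem : {g' : E | ξ • e + (g' - ⟪e, g'⟫ • e) ∈
          {g : E | ⟪u, g⟫ < A ∧ ⟪v, g⟫ < B ∧ -C < ⟪u, g⟫ + ⟪v, g⟫}} = ∅ := by
        ext g'
        simp only [Set.mem_ofPred_eq, Set.mem_empty_iff_false, iff_false, not_and]
        intro h1
        rw [(hform g').1] at h1
        exfalso
        apply hξ
        rw [lt_div_iff₀ hn, mul_comm]
        exact h1
      rw [hem, hGξ]
      simp
  have hGN : ∫ ξ, G ξ ∂(gaussianReal 0 1) ≤ (Real.sqrt (2 * Real.pi))⁻¹ * ∫ ξ, G ξ := by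
    rw [integral_gaussianReal_eq_integral_smul one_ne_zero, ← integral_const_mul]
    apply integral_mono_of_nonneg
    · exact Filter.Eventually.of_forall fun ξ => by
        simpa using mul_nonneg (gaussianPDFReal_nonneg 0 1 ξ) (hGnn ξ)
    · exact hGint.const_mul _
    · exact Filter.Eventually.of_forall fun ξ => by
        simpa using mul_le_mul_of_nonneg_right (gaussianPDFReal_one_le ξ) (hGnn ξ)
  have hGintN : Integrable G (gaussianReal 0 1) := by
    have hmeas : Measurable G :=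
      Measurable.indicator (by fun_prop) measurableSet_Iio
    rw [gaussianReal_of_var_ne_zero _ one_ne_zero]
    rw [integrable_withDensity_iff_integrable_smul₀' (measurable_gaussianPDF 0 1).aemeasurable
      (Filter.Eventually.of_forall fun ξ => gaussianPDF_lt_top)]
    refine Integrable.mono' (hGint.const_mul (Real.sqrt (2 * Real.pi))⁻¹)
      (by
        apply Measurable.aestronglyMeasurable
        exact ((measurable_gaussianPDF 0 1).ennreal_toReal.smul hmeas)) ?_
    refine Filter.Eventually.of_forall fun ξ => ?_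
    rw [smul_eq_mul, toReal_gaussianPDF, norm_mul,
      Real.norm_of_nonneg (gaussianPDFReal_nonneg 0 1 ξ), Real.norm_of_nonneg (hGnn ξ)]
    exact mul_le_mul_of_nonneg_right (gaussianPDFReal_one_le ξ) (hGnn ξ)
  have hfint : Integrable (fun ξ : ℝ => (stdGaussian E).real
      {g' : E | ξ • e + (g' - ⟪e, g'⟫ • e) ∈ {g : E | ⟪u, g⟫ < A ∧ ⟪v, g⟫ < B ∧ -C < ⟪u, g⟫ + ⟪v, g⟫}})
      (gaussianReal 0 1) := by
    have hs : MeasurableSet {p : ℝ × E | p.1 • e + (p.2 - ⟪e, p.2⟫ • e) ∈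
        {g : E | ⟪u, g⟫ < A ∧ ⟪v, g⟫ < B ∧ -C < ⟪u, g⟫ + ⟪v, g⟫}} := by
      have h1 : Continuous (fun p : ℝ × E => p.1 • e + (p.2 - ⟪e, p.2⟫ • e)) := by fun_prop
      exact h1.measurable hEv
    have hm := (measurable_measure_prodMk_left (ν := stdGaussian E) hs).ennreal_toReal
    refine Integrable.mono' (integrable_const (1 : ℝ)) hm.aestronglyMeasurable
      (Filter.Eventually.of_forall fun ξ => ?_)
    rw [Real.norm_of_nonneg measureReal_nonneg]
    exact measureReal_le_one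
  calc _ ≤ ∫ ξ, K * G ξ ∂(gaussianReal 0 1) :=
        integral_mono hfint (hGintN.const_mul K) hpt
    _ = K * ∫ ξ, G ξ ∂(gaussianReal 0 1) := integral_const_mul _ _
    _ ≤ K * ((Real.sqrt (2 * Real.pi))⁻¹ * ∫ ξ, G ξ) := mul_le_mul_of_nonneg_left hGN hKpos.le
    _ = (max 0 (A + B + C)) ^ 2 / (4 * Real.pi * Δ) := by
        rw [hG, integral_tri _ _ _ hn, hK, hΔw]
        have h1 : B + C + ‖u‖ * (A / ‖u‖) = A + B + C := by
          field_simp
          ring
        rw [h1]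
        have h2 : Real.sqrt (2 * Real.pi) * Real.sqrt (2 * Real.pi) = 2 * Real.pi :=
          Real.mul_self_sqrt (by positivity)
        have h3 : 0 < Real.sqrt (2 * Real.pi) := by positivity
        have h4 : (‖w‖ * Real.sqrt (2 * Real.pi))⁻¹ * ((Real.sqrt (2 * Real.pi))⁻¹
            * ((max 0 (A + B + C)) ^ 2 / (2 * ‖u‖)))
            = (max 0 (A + B + C)) ^ 2 / (2 * ‖u‖ * ‖w‖ * (Real.sqrt (2 * Real.pi) * Real.sqrt (2 * Real.pi))) := by
          field_simp
        rw [h4, h2]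
        have hpi := Real.pi_pos
        field_simp
        ring

section simplex

variable {ι : Type v} [DecidableEq ι]

omit [NormedAddCommGroup E] [InnerProductSpace ℝ E] [FiniteDimensional ℝ E] [MeasurableSpace E] [BorelSpace E] in
lemma sum_split_two {M : Type*} [AddCommMonoid M] (T : Finset ι) {a b : ι} (ha : a ∈ T) (hb : b ∈ T.erase a)
    (f : ι → M) : ∑ i ∈ T, f i = f a + (f b + ∑ i ∈ (T.erase a).erase b, f i) := by
  rw [← Finset.add_sum_erase T f ha, ← Finset.add_sum_erase (T.erase a) f hb]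

/-- The simplex event forces the pair into a triangle. -/
theorem simplex_bound (T : Finset ι) (h : ι → E) (hsum : ∑ i ∈ T, h i = 0) {a b : ι}
    (ha : a ∈ T) (hb : b ∈ T) (hab : a ≠ b) (Δ : ℝ) (hΔ : 0 < Δ)
    (hΔ2 : Δ ^ 2 = ‖h a‖ ^ 2 * ‖h b‖ ^ 2 - ⟪h a, h b⟫ ^ 2) (c : ι → ℝ) :
    (stdGaussian E).real {y : E | ∀ i ∈ T, ⟪h i, y⟫ < c i}
      ≤ (max 0 (∑ i ∈ T, c i)) ^ 2 / (4 * Real.pi * Δ) := by
  have hbe : b ∈ T.erase a := Finset.mem_erase.2 ⟨hab.symm, hb⟩
  set R := (T.erase a).erase b with hR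
  have hne : R.Nonempty := by
    by_contra hemp
    rw [Finset.not_nonempty_iff_eq_empty] at hemp
    have h1 : ∑ i ∈ T, h i = h a + (h b + ∑ i ∈ R, h i) := sum_split_two T ha hbe h
    rw [hsum, hemp, Finset.sum_empty, add_zero] at h1
    have h2 : h b = - h a := by
      have := h1.symm
      rw [add_comm] at this
      exact eq_neg_of_add_eq_zero_left this
    rw [h2, norm_neg, inner_neg_right, real_inner_self_eq_norm_sq] at hΔ2
    have : Δ ^ 2 = 0 := by rw [hΔ2]; ring
    exact (pow_pos hΔ 2).ne' this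
  have hsub : {y : E | ∀ i ∈ T, ⟪h i, y⟫ < c i}
      ⊆ {y : E | ⟪h a, y⟫ < c a ∧ ⟪h b, y⟫ < c b
          ∧ -(∑ i ∈ R, c i) < ⟪h a, y⟫ + ⟪h b, y⟫} := by
    intro y hy
    refine ⟨hy a ha, hy b hb, ?_⟩
    have h1 : ∑ i ∈ R, ⟪h i, y⟫ < ∑ i ∈ R, c i :=
      Finset.sum_lt_sum_of_nonempty hne fun i hi =>
        hy i (Finset.mem_of_mem_erase (Finset.mem_of_mem_erase hi))
    have h2 : ∑ i ∈ T, ⟪h i, y⟫ = 0 := by
      rw [← sum_inner, hsum, inner_zero_left]
    have h3 : ∑ i ∈ T, ⟪h i, y⟫ = ⟪h a, y⟫ + (⟪h b, y⟫ + ∑ i ∈ R, ⟪h i, y⟫) :=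
      sum_split_two T ha hbe (fun i => ⟪h i, y⟫)
    rw [h3] at h2
    linarith
  calc _ ≤ _ := measureReal_mono hsub (by simp)
    _ ≤ (max 0 (c a + c b + ∑ i ∈ R, c i)) ^ 2 / (4 * Real.pi * Δ) :=
        triangle_bound _ _ Δ hΔ hΔ2 _ _ _
    _ = _ := by
        have h3 : ∑ i ∈ T, c i = c a + (c b + ∑ i ∈ R, c i) := sum_split_two T ha hbe c
        rw [h3, add_assoc]

/-- `∫₀^∞ (L - τ t)₊² dt = L₊³ / (3τ)`. -/
lemma ramp_eq (L τ : ℝ) (hτ : 0 < τ) :
    (Set.Ioi (0 : ℝ)).indicator (fun t => (max 0 (L - τ * t)) ^ 2)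
      = (Set.Ioo 0 (L / τ)).indicator (fun t => (L - τ * t) ^ 2) := by
  ext t
  by_cases h0 : 0 < t
  · by_cases h1 : t < L / τ
    · have : 0 ≤ L - τ * t := by
        rw [lt_div_iff₀ hτ] at h1
        nlinarith
      simp [h0, h1, Set.indicator, max_eq_right this]
    · have : L - τ * t ≤ 0 := by
        rw [not_lt, div_le_iff₀ hτ] at h1
        nlinarith
      simp [h0, h1, Set.indicator, max_eq_left this]
  · simp [h0, Set.indicator]

lemma integrable_ramp (L τ : ℝ) (hτ : 0 < τ) :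
    IntegrableOn (fun t => (max 0 (L - τ * t)) ^ 2) (Set.Ioi 0) := by
  rw [← integrable_indicator_iff measurableSet_Ioi, ramp_eq L τ hτ,
    integrable_indicator_iff measurableSet_Ioo]
  have h1 : Continuous (fun t : ℝ => (L - τ * t) ^ 2) := by fun_prop
  exact (h1.integrableOn_Icc (a := 0) (b := L / τ)).mono_set Set.Ioo_subset_Icc_self

lemma integral_ramp (L τ : ℝ) (hτ : 0 < τ) :
    ∫ t in Set.Ioi (0 : ℝ), (max 0 (L - τ * t)) ^ 2 = (max 0 L) ^ 3 / (3 * τ) := by
  rw [← integral_indicator measurableSet_Ioi, ramp_eq L τ hτ]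
  by_cases hL : 0 < L
  · have hc : 0 < L / τ := by positivity
    rw [max_eq_right hL.le, integral_indicator measurableSet_Ioo,
      ← MeasureTheory.integral_Ioc_eq_integral_Ioo, ← intervalIntegral.integral_of_le hc.le]
    have hderiv : ∀ x ∈ Set.uIcc 0 (L / τ),
        HasDerivAt (fun x => -(L - τ * x) ^ 3 / (3 * τ)) ((L - τ * x) ^ 2) x := by
      intro x _
      have h2 : HasDerivAt (fun x => L - τ * x) (-τ) x := by
        simpa using ((hasDerivAt_id x).const_mul τ).const_sub L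
      refine HasDerivAt.congr_deriv (f' := -((3 : ℕ) * (L - τ * x) ^ (3 - 1) * (-τ)) / (3 * τ))
        (((h2.pow 3).neg).div_const (3 * τ)) ?_
      norm_num
      field_simp
    rw [intervalIntegral.integral_eq_sub_of_hasDerivAt hderiv]
    · have : L - τ * (L / τ) = 0 := by field_simp; ring
      rw [this]
      simp
      ring
    · apply Continuous.intervalIntegrable
      fun_prop
  · have hc : L / τ ≤ 0 := div_nonpos_of_nonpos_of_nonneg (not_lt.1 hL) hτ.le
    rw [Set.Ioo_eq_empty (not_lt.2 hc), max_eq_left (not_lt.1 hL)]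
    simp
    
/-- Integrated simplex bound. -/
theorem posPart_bound (T : Finset ι) (h : ι → E) (hsum : ∑ i ∈ T, h i = 0) {a b : ι}
    (ha : a ∈ T) (hb : b ∈ T) (hab : a ≠ b) (Δ : ℝ) (hΔ : 0 < Δ)
    (hΔ2 : Δ ^ 2 = ‖h a‖ ^ 2 * ‖h b‖ ^ 2 - ⟪h a, h b⟫ ^ 2) (A : ℝ) (μ : ι → ℝ) (Y : E → ℝ)
    (hY : ∀ y t, Y y < t → ∀ i ∈ T, ⟪h i, y⟫ + μ i < t)
    (hint : Integrable (fun y => max 0 (A - Y y)) (stdGaussian E)) :
    ∫ y, max 0 (A - Y y) ∂(stdGaussian E)
      ≤ (max 0 ((T.card : ℝ) * A - ∑ i ∈ T, μ i)) ^ 3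
        / (12 * Real.pi * (T.card : ℝ) * Δ) := by
  have hcard : 0 < (T.card : ℝ) := by
    have : 0 < T.card := Finset.card_pos.2 ⟨a, ha⟩
    exact_mod_cast this
  rw [Integrable.integral_eq_integral_meas_lt hint
    (Filter.Eventually.of_forall fun y => le_max_left _ _)]
  set L : ℝ := (T.card : ℝ) * A - ∑ i ∈ T, μ i with hL
  have hpt : ∀ t ∈ Set.Ioi (0 : ℝ), (stdGaussian E).real {y : E | t < max 0 (A - Y y)}
      ≤ (max 0 (L - (T.card : ℝ) * t)) ^ 2 / (4 * Real.pi * Δ) := by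
    intro t ht
    have hsub : {y : E | t < max 0 (A - Y y)} ⊆ {y : E | ∀ i ∈ T, ⟪h i, y⟫ < (A - t) - μ i} := by
      intro y hy i hi
      have h1 : t < A - Y y := by
        have hy' : t < max 0 (A - Y y) := hy
        rcases lt_max_iff.1 hy' with h2 | h2
        · exact absurd h2 (not_lt.2 (le_of_lt ht))
        · exact h2
      have := hY y (A - t) (by linarith) i hi
      linarith
    have hsum2 : ∑ i ∈ T, ((A - t) - μ i) = L - (T.card : ℝ) * t := by
      rw [Finset.sum_sub_distrib, Finset.sum_const, nsmul_eq_mul, hL]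
      ring
    calc _ ≤ _ := measureReal_mono hsub (by simp)
      _ ≤ _ := simplex_bound T h hsum ha hb hab Δ hΔ hΔ2 (fun i => (A - t) - μ i)
      _ = _ := by rw [hsum2]
  have hRamp := integrable_ramp L _ hcard
  have hRHSint : IntegrableOn (fun t => (max 0 (L - (T.card : ℝ) * t)) ^ 2 / (4 * Real.pi * Δ))
      (Set.Ioi 0) := hRamp.div_const _
  calc ∫ t in Set.Ioi (0 : ℝ), (stdGaussian E).real {y : E | t < max 0 (A - Y y)}
      ≤ ∫ t in Set.Ioi (0 : ℝ), (max 0 (L - (T.card : ℝ) * t)) ^ 2 / (4 * Real.pi * Δ) := by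
        have hnn : ∀ t ∈ Set.Ioi (0 : ℝ), 0 ≤ (stdGaussian E).real {y : E | t < max 0 (A - Y y)} :=
          fun _ _ => measureReal_nonneg
        refine integral_mono_of_nonneg ?_ hRHSint ?_
        · exact (ae_restrict_iff' measurableSet_Ioi).2 (Filter.Eventually.of_forall hnn)
        · exact (ae_restrict_iff' measurableSet_Ioi).2 (Filter.Eventually.of_forall hpt)
    _ = _ := by
        rw [integral_div, integral_ramp L _ hcard]
        have hpi := Real.pi_pos
        field_simp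
        ring

end simplex

section moments

lemma integrable_pos_cube_gaussian (v : ℝ≥0) :
    Integrable (fun ξ : ℝ => (max 0 ξ) ^ 3) (gaussianReal 0 v) := by
  have h1 : MemLp (id : ℝ → ℝ) ((3 : ℕ) : ENNReal) (gaussianReal 0 v) := by
    have := memLp_id_gaussianReal (μ := 0) (v := v) (3 : ℝ≥0)
    simpa using this
  have h2 := h1.integrable_norm_pow (by norm_num)
  refine Integrable.mono' h2 (by
    apply Measurable.aestronglyMeasurable
    fun_prop) (Filter.Eventually.of_forall fun ξ => ?_)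
  have h3 : 0 ≤ max 0 ξ := le_max_left _ _
  rw [Real.norm_of_nonneg (pow_nonneg h3 3)]
  simp only [id, Real.norm_eq_abs]
  apply pow_le_pow_left₀ h3
  exact max_le (abs_nonneg _) (le_abs_self _)

/-- `E ξ₊³ = √(2/π)`. -/
lemma integral_pos_cube_gaussian :
    ∫ ξ : ℝ, (max 0 ξ) ^ 3 ∂(gaussianReal 0 1) = Real.sqrt (2 / Real.pi) := by
  rw [integral_gaussianReal_eq_integral_smul one_ne_zero]
  have h0 : (fun x : ℝ => gaussianPDFReal 0 1 x • (max 0 x) ^ 3)
      = (Set.Ioi (0 : ℝ)).indicator (fun x : ℝ =>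
          (Real.sqrt (2 * Real.pi))⁻¹ * (x ^ (3 : ℝ) * Real.exp (-(1 / 2) * x ^ (2 : ℝ)))) := by
    ext x
    by_cases hx : 0 < x
    · simp only [Set.indicator, Set.mem_Ioi, hx, if_true, smul_eq_mul, gaussianPDFReal,
        NNReal.coe_one, mul_one, sub_zero, max_eq_right hx.le]
      rw [Real.rpow_two, show (3 : ℝ) = ((3 : ℕ) : ℝ) by norm_num, Real.rpow_natCast]
      have : -x ^ 2 / 2 = -(1 / 2) * x ^ 2 := by ring
      rw [this]
      ring
    · have hx' : x ≤ 0 := not_lt.1 hx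
      simp [Set.indicator, hx, max_eq_left hx']
  rw [h0, integral_indicator measurableSet_Ioi, integral_const_mul]
  have h1 : ∫ x in Set.Ioi (0 : ℝ), x ^ (3 : ℝ) * Real.exp (-(1 / 2) * x ^ (2 : ℝ)) = 2 := by
    have := integral_rpow_mul_exp_neg_mul_rpow (p := 2) (q := 3) (b := 1 / 2)
      (by norm_num) (by norm_num) (by norm_num)
    rw [this]
    have h2 : (-(3 + 1) / 2 : ℝ) = -2 := by norm_num
    have h3 : ((3 + 1) / 2 : ℝ) = 2 := by norm_num
    rw [h2, h3, Real.Gamma_two]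
    norm_num
  rw [h1]
  have hpi : 0 < Real.pi := Real.pi_pos
  rw [Real.sqrt_div (by norm_num), Real.sqrt_mul (by norm_num)]
  have h2 : 0 < Real.sqrt 2 := by positivity
  have h3 : 0 < Real.sqrt Real.pi := by positivity
  field_simp
  rw [Real.sq_sqrt (by norm_num)]

lemma integrable_pos_cube_inner (v : E) :
    Integrable (fun g : E => (max 0 ⟪v, g⟫) ^ 3) (stdGaussian E) := by
  have hm : Measurable (fun g : E => ⟪v, g⟫) := (continuous_const.inner continuous_id).measurable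
  have h := integrable_pos_cube_gaussian (Real.toNNReal (‖v‖ ^ 2))
  rw [← map_inner_std v] at h
  exact (integrable_map_measure (by
    apply Measurable.aestronglyMeasurable
    fun_prop) hm.aemeasurable).1 h

/-- `E ⟪v,g⟫₊³ = ‖v‖³ √(2/π)`. -/
lemma integral_pos_cube_inner (v : E) :
    ∫ g : E, (max 0 ⟪v, g⟫) ^ 3 ∂(stdGaussian E) = ‖v‖ ^ 3 * Real.sqrt (2 / Real.pi) := by
  have hm : Measurable (fun g : E => ⟪v, g⟫) := (continuous_const.inner continuous_id).measurable
  have hc : Measurable (fun ξ : ℝ => (max 0 ξ) ^ 3) := by fun_prop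
  have h1 : ∫ g : E, (max 0 ⟪v, g⟫) ^ 3 ∂(stdGaussian E)
      = ∫ ξ : ℝ, (max 0 ξ) ^ 3 ∂((stdGaussian E).map (fun g => ⟪v, g⟫)) :=
    (integral_map hm.aemeasurable hc.aestronglyMeasurable).symm
  rw [h1, map_inner_std]
  have h2 : gaussianReal 0 (Real.toNNReal (‖v‖ ^ 2))
      = (gaussianReal 0 1).map (fun x => ‖v‖ * x) := by
    rw [gaussianReal_map_const_mul]
    congr 1
    · simp
    · ext
      simp
  rw [h2, integral_map (measurable_const_mul _).aemeasurable hc.aestronglyMeasurable]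
  have h3 : ∀ x : ℝ, (max 0 (‖v‖ * x)) ^ 3 = ‖v‖ ^ 3 * (max 0 x) ^ 3 := by
    intro x
    have h4 : max 0 (‖v‖ * x) = ‖v‖ * max 0 x := by
      rw [mul_max_of_nonneg _ _ (norm_nonneg v), mul_zero]
    rw [h4, mul_pow]
  simp_rw [h3]
  rw [integral_const_mul, integral_pos_cube_gaussian]

end moments

section top

variable {ι : Type v} [Fintype ι] [DecidableEq ι]

/-- `mx` is the maximum of the two restrictions. -/
lemma mx_eq_max_compl (z : ι → E) (T : Finset ι) (hT : T.Nonempty) (hX : Tᶜ.Nonempty) (g : E) :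
    mx z g = max (mx (restr z Tᶜ) g) (mx (restr z T) g) := by
  have : Nonempty {i // i ∈ T} := hT.to_subtype
  have : Nonempty {i // i ∈ Tᶜ} := hX.to_subtype
  have : Nonempty ι := by
    obtain ⟨i, _⟩ := hT
    exact ⟨i⟩
  apply le_antisymm
  · refine mx_le fun i => ?_
    by_cases hi : i ∈ T
    · exact le_max_of_le_right (le_mx (restr z T) ⟨i, hi⟩ g)
    · exact le_max_of_le_left (le_mx (restr z Tᶜ) ⟨i, Finset.mem_compl.2 hi⟩ g)
  · exact max_le (mx_le fun i => le_mx z i.1 g) (mx_le fun i => le_mx z i.1 g)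

lemma integrable_mx_add {κ : Type*} [Fintype κ] (u : κ → E) (x : E) (W : Submodule ℝ E) :
    Integrable (fun y : W => mx u (x + (y : E))) (stdGaussian W) := by
  have hm : Measurable (fun y : W => mx u (x + (y : E))) := by
    have h1 : Measurable (fun y : W => x + (y : E)) := by
      have : Continuous (fun y : W => x + (y : E)) := by fun_prop
      exact this.measurable
    exact (measurable_mx u).comp h1
  refine Integrable.mono' (g := fun y : W => ∑ i, ‖u i‖ * (‖x‖ + ‖y‖)) ?_ hm.aestronglyMeasurable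
    (Filter.Eventually.of_forall fun y => ?_)
  · refine integrable_finsetSum _ fun i _ => Integrable.const_mul ?_ _
    exact (integrable_const _).add integrable_norm_std
  · rw [Real.norm_eq_abs]
    refine (abs_mx_le u _).trans (Finset.sum_le_sum fun i _ => ?_)
    refine mul_le_mul_of_nonneg_left ?_ (norm_nonneg _)
    exact (norm_add_le _ _).trans (by simp)

/-- **Pair small ball for set deletion.** `W` is any subspace containing `z l` for `l ∉ T`;
`P = Wᗮ.starProjection`, `Δ² = det Gram(P z a, P z b)`. -/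
theorem F_sub_F_restr_le (z : ι → E) (hsum : ∑ i, z i = 0) (T : Finset ι) {a b : ι} (ha : a ∈ T)
    (hb : b ∈ T) (hab : a ≠ b) (hX : Tᶜ.Nonempty) (W : Submodule ℝ E) (hW : ∀ l ∈ Tᶜ, z l ∈ W)
    (Δ : ℝ) (hΔ : 0 < Δ)
    (hΔ2 : Δ ^ 2 = ‖Wᗮ.starProjection (z a)‖ ^ 2 * ‖Wᗮ.starProjection (z b)‖ ^ 2
      - ⟪Wᗮ.starProjection (z a), Wᗮ.starProjection (z b)⟫ ^ 2) :
    F z - F (restr z T)
      ≤ (∑ l ∈ Tᶜ, ‖(T.card : ℝ) • z l + ∑ m ∈ Tᶜ, z m‖ ^ 3) * Real.sqrt (2 / Real.pi)
        / (12 * Real.pi * (T.card : ℝ) * Δ) := by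
  have hT : T.Nonempty := ⟨a, ha⟩
  have : Nonempty {i // i ∈ T} := hT.to_subtype
  have : Nonempty {i // i ∈ Tᶜ} := hX.to_subtype
  have hcard : 0 < (T.card : ℝ) := by exact_mod_cast hT.card_pos
  set τ : ℝ := (T.card : ℝ) with hτ
  set ν : E := ∑ m ∈ Tᶜ, z m with hν
  have hνW : ν ∈ W := Submodule.sum_mem _ hW
  have hsumT : ∑ i ∈ T, z i = -ν := by
    have := Finset.sum_add_sum_compl T z
    rw [hsum] at this
    exact eq_neg_of_add_eq_zero_left this
  set K : ℝ := (12 * Real.pi * τ * Δ)⁻¹ with hK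
  have hKpos : 0 < K := by
    have := Real.pi_pos
    positivity
  -- the function
  set f : E → ℝ := fun g => max 0 (mx (restr z Tᶜ) g - mx (restr z T) g) with hf
  have hfeq : ∀ g, f g = mx z g - mx (restr z T) g := by
    intro g
    show max 0 (mx (restr z Tᶜ) g - mx (restr z T) g) = mx z g - mx (restr z T) g
    rw [mx_eq_max_compl z T hT hX g]
    by_cases h : mx (restr z Tᶜ) g ≤ mx (restr z T) g
    · rw [max_eq_right h, max_eq_left (by linarith)]
      ring
    · have h' := (not_le.1 h).le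
      rw [max_eq_left h', max_eq_right (by linarith)]
  have hfint : Integrable f (stdGaussian E) := by
    have : f = fun g => mx z g - mx (restr z T) g := funext hfeq
    rw [this]
    exact (integrable_mx z).sub (integrable_mx _)
  have hF : F z - F (restr z T) = ∫ g, f g ∂(stdGaussian E) := by
    unfold F
    rw [← integral_sub (integrable_mx z) (integrable_mx _)]
    exact integral_congr_ae (Filter.Eventually.of_forall fun g => (hfeq g).symm)
  rw [hF, integral_split W hfint]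
  -- pointwise bound in the `W` variable
  have hperp : ∀ (l : ι), l ∈ Tᶜ → ∀ (y : Wᗮ), ⟪z l, (y : E)⟫ = 0 := by
    intro l hl y
    exact Submodule.inner_right_of_mem_orthogonal (hW l hl) y.2
  set h : ι → Wᗮ := fun i => Wᗮ.orthogonalProjectionOnto (z i) with hh
  have hhinner : ∀ i (y : Wᗮ), ⟪h i, y⟫ = ⟪z i, (y : E)⟫ := fun i y =>
    Submodule.inner_orthogonalProjectionOnto_eq_of_mem_right y (z i)
  have hhsum : ∑ i ∈ T, h i = 0 := by
    have h1 : ⟪∑ i ∈ T, h i, ∑ i ∈ T, h i⟫ = 0 := by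
      rw [sum_inner]
      simp_rw [hhinner]
      rw [← sum_inner, hsumT, inner_neg_left, neg_eq_zero]
      exact Submodule.inner_right_of_mem_orthogonal hνW (Submodule.coe_mem _)
    exact inner_self_eq_zero.1 h1
  have hΔ3 : Δ ^ 2 = ‖h a‖ ^ 2 * ‖h b‖ ^ 2 - ⟪h a, h b⟫ ^ 2 := by
    rw [hΔ2, Submodule.coe_inner, Submodule.coe_norm, Submodule.coe_norm]
    simp only [hh, Submodule.coe_orthogonalProjectionOnto_apply]
  have hpt : ∀ x : W, ∫ y : Wᗮ, f ((x : E) + (y : E)) ∂(stdGaussian Wᗮ)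
      ≤ K * ∑ l ∈ Tᶜ, (max 0 ⟪τ • z l + ν, (x : E)⟫) ^ 3 := by
    intro x
    set A := mx (restr z Tᶜ) (x : E) with hA
    have hAeq : ∀ y : Wᗮ, mx (restr z Tᶜ) ((x : E) + (y : E)) = A := by
      intro y
      rw [hA]
      unfold mx
      congr 1
      ext l
      simp only [restr]
      rw [inner_add_right, hperp l.1 l.2 y, add_zero]
    set Y : Wᗮ → ℝ := fun y => mx (restr z T) ((x : E) + (y : E)) with hY
    have hfY : ∀ y : Wᗮ, f ((x : E) + (y : E)) = max 0 (A - Y y) := by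
      intro y
      show max 0 (mx (restr z Tᶜ) ((x : E) + (y : E)) - mx (restr z T) ((x : E) + (y : E))) = _
      rw [hAeq]
    simp_rw [hfY]
    set μ : ι → ℝ := fun i => ⟪z i, (x : E)⟫ with hμ
    have hYle : ∀ y t, Y y < t → ∀ i ∈ T, ⟪h i, y⟫ + μ i < t := by
      intro y t hlt i hi
      rw [hhinner]
      have h1 := le_mx (restr z T) ⟨i, hi⟩ ((x : E) + (y : E))
      simp only [restr] at h1
      rw [inner_add_right] at h1
      simp only [hμ]
      have h2 : Y y = mx (restr z T) ((x : E) + (y : E)) := rfl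
      linarith
    have hYint : Integrable Y (stdGaussian Wᗮ) := integrable_mx_add _ _ _
    have hint : Integrable (fun y => max 0 (A - Y y)) (stdGaussian Wᗮ) := by
      have h0 : Integrable (fun y => A - Y y) (stdGaussian Wᗮ) := (integrable_const A).sub hYint
      refine Integrable.mono h0 ?_ (Filter.Eventually.of_forall fun y => ?_)
      · have h1 : Measurable Y := by
          have h2 : Measurable (fun y : Wᗮ => (x : E) + (y : E)) := by
            have : Continuous (fun y : Wᗮ => (x : E) + (y : E)) := by fun_prop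
            exact this.measurable
          exact (measurable_mx _).comp h2
        apply Measurable.aestronglyMeasurable
        exact measurable_const.max (measurable_const.sub h1)
      · rw [Real.norm_eq_abs, Real.norm_eq_abs]
        rcases le_total 0 (A - Y y) with h1 | h1
        · rw [max_eq_right h1]
        · rw [max_eq_left h1]
          simp
    have hmain := posPart_bound T h hhsum ha hb hab Δ hΔ hΔ3 A μ Y hYle hint
    refine hmain.trans ?_
    have hsumμ : ∑ i ∈ T, μ i = -⟪ν, (x : E)⟫ := by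
      simp only [hμ]
      rw [← sum_inner, hsumT, inner_neg_left]
    obtain ⟨l, hl⟩ := exists_mx_eq (restr z Tᶜ) (x : E)
    have hval : (T.card : ℝ) * A - ∑ i ∈ T, μ i = ⟪τ • z l.1 + ν, (x : E)⟫ := by
      rw [hsumμ, hA, hl, inner_add_left, inner_smul_left]
      simp [restr, hτ]
    rw [hval, div_eq_mul_inv, mul_comm]
    refine mul_le_mul_of_nonneg_left ?_ hKpos.le
    exact Finset.single_le_sum (f := fun l => (max 0 ⟪τ • z l + ν, (x : E)⟫) ^ 3)
      (fun _ _ => pow_nonneg (le_max_left _ _) 3) l.2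
  have hvW : ∀ l ∈ Tᶜ, τ • z l + ν ∈ W := fun l hl =>
    W.add_mem (W.smul_mem _ (hW l hl)) hνW
  have hcube : ∀ l ∈ Tᶜ, Integrable (fun x : W => (max 0 ⟪τ • z l + ν, (x : E)⟫) ^ 3) (stdGaussian W)
      ∧ ∫ x : W, (max 0 ⟪τ • z l + ν, (x : E)⟫) ^ 3 ∂(stdGaussian W)
        = ‖τ • z l + ν‖ ^ 3 * Real.sqrt (2 / Real.pi) := by
    intro l hl
    set v' : W := ⟨τ • z l + ν, hvW l hl⟩ with hv'
    have h1 : ∀ x : W, ⟪τ • z l + ν, (x : E)⟫ = ⟪v', x⟫ := fun x => rfl
    simp_rw [h1]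
    refine ⟨integrable_pos_cube_inner v', ?_⟩
    rw [integral_pos_cube_inner v']
    rfl
  have hRHS : Integrable (fun x : W => K * ∑ l ∈ Tᶜ, (max 0 ⟪τ • z l + ν, (x : E)⟫) ^ 3)
      (stdGaussian W) :=
    (integrable_finsetSum _ fun l hl => (hcube l hl).1).const_mul _
  calc ∫ x : W, ∫ y : Wᗮ, f ((x : E) + (y : E)) ∂(stdGaussian Wᗮ) ∂(stdGaussian W)
      ≤ ∫ x : W, K * ∑ l ∈ Tᶜ, (max 0 ⟪τ • z l + ν, (x : E)⟫) ^ 3 ∂(stdGaussian W) := by
        refine integral_mono_of_nonneg ?_ hRHS (Filter.Eventually.of_forall hpt)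
        exact Filter.Eventually.of_forall fun x => integral_nonneg fun y => le_max_left _ _
    _ = K * ∑ l ∈ Tᶜ, (‖τ • z l + ν‖ ^ 3 * Real.sqrt (2 / Real.pi)) := by
        rw [integral_const_mul, integral_finsetSum _ fun l hl => (hcube l hl).1]
        congr 1
        exact Finset.sum_congr rfl fun l hl => (hcube l hl).2
    _ = _ := by
        rw [← Finset.sum_mul, hK]
        field_simp

end top

end Crest.Agent.Propeller
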