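import Crest.Agent.Lib.Propeller.K4
import Crest.Agent.Lib.Propeller.TailGain

/-!
# Propeller: the rectangle small ball

`rect_prob`: the law of `(⟪a, g⟫, ⟪b, g⟫)` has density at most `1 / (2 π Δ)`, so a rectangle with sides
`p, q` has measure at most `p₊ q₊ / (2 π Δ)`.

`rect_tail`, `rect_tail_pos`: for a block `B` with four distinct nodes `a, b, c, d`; `W` contains
`z l` (`l ∈ B`, `l ∉ {a,b,c,d}`), `z a + z c` and `∑_B z`, `P` the projection on `Wᗮ`: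
`γ{∀ i ∈ B, ⟪z i, g⟫ < y i} ≤ ((∑_B y)₊² + ‖∑_B z‖²) / (8 π Δ)`, `Δ² ≤ det Gram(P z a, P z b)`:
a factor two better than a triangle, as on `Wᗮ` the event is a rectangle with half perimeter at most
`∑_B y - ⟪∑_B z, g⟫`.
-/

set_option autoImplicit false
set_option linter.unusedSectionVars false
open MeasureTheory ProbabilityTheory
open scoped RealInnerProductSpace ENNReal

namespace Crest.Agent.Propeller

universe u v

variable {E : Type u} [NormedAddCommGroup E] [InnerProductSpace ℝ E] [FiniteDimensional ℝ E]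
  [MeasurableSpace E] [BorelSpace E]

/-- **The rectangle bound.** -/
theorem rect_prob (a b : E) (Δ : ℝ) (hΔ : 0 < Δ) (hΔ2 : Δ ^ 2 ≤ ‖a‖ ^ 2 * ‖b‖ ^ 2 - ⟪a, b⟫ ^ 2)
    (l1 r1 l2 r2 : ℝ) :
    stdGaussian E {g | l1 ≤ ⟪a, g⟫ ∧ ⟪a, g⟫ < r1 ∧ l2 ≤ ⟪b, g⟫ ∧ ⟪b, g⟫ < r2}
      ≤ ENNReal.ofReal (max 0 (r1 - l1) * max 0 (r2 - l2) / (2 * Real.pi * Δ)) := by
  have hpi := Real.pi_pos
  have ha : a ≠ 0 := by
    rintro rfl
    simp only [norm_zero, inner_zero_left] at hΔ2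
    nlinarith
  have hσ : 0 < ‖a‖ := norm_pos_iff.2 ha
  set σ := ‖a‖ with hσdef
  set e : E := σ⁻¹ • a with he_def
  have he : ‖e‖ = 1 := by
    rw [he_def, norm_smul, norm_inv, Real.norm_eq_abs, abs_of_pos hσ, ← hσdef]
    exact inv_mul_cancel₀ hσ.ne'
  have hae : a = σ • e := by
    rw [he_def, smul_smul, mul_inv_cancel₀ hσ.ne', one_smul]
  have hprp : prp e a = 0 := by
    rw [hae, prp, inner_smul_right, real_inner_self_eq_norm_sq, he]
    simp
  have hinner : ∀ (n : ℝ) (g' : E), ⟪a, n • e + prp e g'⟫ = σ * n := by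
    intro n g'
    rw [inner_split, hprp, inner_zero_left, add_zero, hae, inner_smul_left,
      real_inner_self_eq_norm_sq, he]
    simp [mul_comm]
  set w := prp e b with hw
  have hw2 : (σ * ‖w‖) ^ 2 = ‖a‖ ^ 2 * ‖b‖ ^ 2 - ⟪a, b⟫ ^ 2 := by
    rw [mul_pow, hw, norm_prp_sq e b he, he_def, real_inner_smul_left, ← hσdef]
    field_simp
  have hτpos : 0 < σ * ‖w‖ := by
    have h1 : 0 < (σ * ‖w‖) ^ 2 := by rw [hw2]; nlinarith
    have h2 : 0 ≤ σ * ‖w‖ := by positivity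
    rcases h2.lt_or_eq with h3 | h3
    · exact h3
    · rw [← h3] at h1; norm_num at h1
  have hwne : w ≠ 0 := by
    rintro h
    rw [h] at hτpos
    simp at hτpos
  have hτΔ : Δ ≤ σ * ‖w‖ := by
    have h1 : Δ ^ 2 ≤ (σ * ‖w‖) ^ 2 := by rw [hw2]; exact hΔ2
    exact abs_le_of_sq_le_sq' h1 hτpos.le |>.2
  have hA : MeasurableSet {g : E | l1 ≤ ⟪a, g⟫ ∧ ⟪a, g⟫ < r1 ∧ l2 ≤ ⟪b, g⟫ ∧ ⟪b, g⟫ < r2} := by
    have hca : Continuous fun g : E => ⟪a, g⟫ := continuous_const.inner continuous_id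
    have hcb : Continuous fun g : E => ⟪b, g⟫ := continuous_const.inner continuous_id
    exact (measurableSet_le measurable_const hca.measurable).inter
      ((measurableSet_lt hca.measurable measurable_const).inter
        ((measurableSet_le measurable_const hcb.measurable).inter
          (measurableSet_lt hcb.measurable measurable_const)))
  rw [measure_split e he hA]
  set τ := ‖w‖ with hτ
  have hτ0 : 0 < τ := norm_pos_iff.2 hwne
  set K : ℝ≥0∞ := ENNReal.ofReal (max 0 (r2 - l2) / (Real.sqrt (2 * Real.pi) * τ)) with hK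
  have hslice : ∀ n : ℝ, stdGaussian E {g' | n • e + prp e g' ∈
        {g : E | l1 ≤ ⟪a, g⟫ ∧ ⟪a, g⟫ < r1 ∧ l2 ≤ ⟪b, g⟫ ∧ ⟪b, g⟫ < r2}}
      ≤ (Set.Ico (l1 / σ) (r1 / σ)).indicator (fun _ => K) n := by
    intro n
    by_cases hn : n ∈ Set.Ico (l1 / σ) (r1 / σ)
    · rw [Set.indicator_of_mem hn]
      have hsub : {g' | n • e + prp e g' ∈
          {g : E | l1 ≤ ⟪a, g⟫ ∧ ⟪a, g⟫ < r1 ∧ l2 ≤ ⟪b, g⟫ ∧ ⟪b, g⟫ < r2}}
          ⊆ {g' | l2 - n * ⟪b, e⟫ ≤ ⟪w, g'⟫ ∧ ⟪w, g'⟫ < r2 - n * ⟪b, e⟫} := by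
        intro g' hg'
        obtain ⟨_, _, h3, h4⟩ := hg'
        rw [inner_split] at h3 h4
        exact ⟨by linarith, by linarith⟩
      refine (measure_mono hsub).trans ((std_Ico_le w hwne _ _).trans (le_of_eq ?_))
      rw [hK]
      congr 2
      ring_nf
    · rw [Set.indicator_of_notMem hn]
      have hsub : {g' | n • e + prp e g' ∈
          {g : E | l1 ≤ ⟪a, g⟫ ∧ ⟪a, g⟫ < r1 ∧ l2 ≤ ⟪b, g⟫ ∧ ⟪b, g⟫ < r2}} ⊆ ∅ := by
        intro g' hg'
        obtain ⟨h1, h2, _, _⟩ := hg'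
        rw [hinner] at h1 h2
        apply hn
        refine ⟨?_, ?_⟩
        · rw [div_le_iff₀ hσ]; linarith
        · rw [lt_div_iff₀ hσ]; linarith
      exact (measure_mono hsub).trans (by simp)
  have hN : gaussianReal 0 1 (Set.Ico (l1 / σ) (r1 / σ))
      ≤ ENNReal.ofReal (max 0 (r1 / σ - l1 / σ) / (Real.sqrt (2 * Real.pi) * 1)) := by
    have := gaussian_Ico_le 1 one_pos (l1 / σ) (r1 / σ)
    rwa [← gaussian_one_eq] at this
  calc ∫⁻ n, stdGaussian E {g' | n • e + prp e g' ∈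
        {g : E | l1 ≤ ⟪a, g⟫ ∧ ⟪a, g⟫ < r1 ∧ l2 ≤ ⟪b, g⟫ ∧ ⟪b, g⟫ < r2}} ∂(gaussianReal 0 1)
      ≤ ∫⁻ n, (Set.Ico (l1 / σ) (r1 / σ)).indicator (fun _ => K) n ∂(gaussianReal 0 1) :=
        lintegral_mono hslice
    _ = K * gaussianReal 0 1 (Set.Ico (l1 / σ) (r1 / σ)) := by
        rw [lintegral_indicator measurableSet_Ico, setLIntegral_const]
    _ ≤ K * ENNReal.ofReal (max 0 (r1 / σ - l1 / σ) / (Real.sqrt (2 * Real.pi) * 1)) := by gcongr
    _ ≤ _ := by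
      rw [hK, ← ENNReal.ofReal_mul (by positivity)]
      apply ENNReal.ofReal_le_ofReal
      have h2pi : Real.sqrt (2 * Real.pi) * Real.sqrt (2 * Real.pi) = 2 * Real.pi :=
        Real.mul_self_sqrt (by positivity)
      have hsq : 0 < Real.sqrt (2 * Real.pi) := by positivity
      have e1 : r1 / σ - l1 / σ = (r1 - l1) / σ := by ring
      have e2 : max 0 ((r1 - l1) / σ) = max 0 (r1 - l1) / σ := by
        rcases le_total 0 (r1 - l1) with h | h
        · rw [max_eq_right h, max_eq_right (div_nonneg h hσ.le)]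
        · rw [max_eq_left h, max_eq_left (div_nonpos_of_nonpos_of_nonneg h hσ.le)]
          simp
      rw [e1, e2]
      have heq : max 0 (r2 - l2) / (Real.sqrt (2 * Real.pi) * τ)
            * (max 0 (r1 - l1) / σ / (Real.sqrt (2 * Real.pi) * 1))
          = max 0 (r1 - l1) * max 0 (r2 - l2) / (2 * Real.pi * (σ * τ)) := by
        have : 2 * Real.pi * (σ * τ)
            = (Real.sqrt (2 * Real.pi) * Real.sqrt (2 * Real.pi)) * (σ * τ) := by
          rw [h2pi]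
        rw [this]
        field_simp
      rw [heq]
      have hn1 : 0 ≤ max 0 (r1 - l1) * max 0 (r2 - l2) := by positivity
      gcongr

variable {ι : Type v} [DecidableEq ι]

/-- The inequality of the sides of a rectangle. -/
lemma side_mul_le {p q S : ℝ} (hS : p + q ≤ S) : max 0 p * max 0 q ≤ S ^ 2 / 4 := by
  rcases le_total 0 p with hp | hp <;> rcases le_total 0 q with hq | hq
  · rw [max_eq_right hp, max_eq_right hq]
    nlinarith [sq_nonneg (p - q)]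
  · rw [max_eq_left hq, mul_zero]; positivity
  · rw [max_eq_left hp, zero_mul]; positivity
  · rw [max_eq_left hp, zero_mul]; positivity

/-- **Rectangle with a tail.** -/
theorem rect_tail (z : ι → E) (B : Finset ι) {a b c d : ι} (ha : a ∈ B) (hb : b ∈ B) (hc : c ∈ B)
    (hd : d ∈ B) (hab : a ≠ b) (hac : a ≠ c) (had : a ≠ d) (hbc : b ≠ c) (hbd : b ≠ d) (hcd : c ≠ d)
    (W : Submodule ℝ E) (hW1 : ∀ l ∈ B, l ≠ a → l ≠ b → l ≠ c → l ≠ d → z l ∈ W)
    (hW2 : z a + z c ∈ W) (hW3 : ∑ i ∈ B, z i ∈ W) (Δ : ℝ) (hΔ : 0 < Δ)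
    (hΔ2 : Δ ^ 2 ≤ ‖Wᗮ.starProjection (z a)‖ ^ 2 * ‖Wᗮ.starProjection (z b)‖ ^ 2
      - ⟪Wᗮ.starProjection (z a), Wᗮ.starProjection (z b)⟫ ^ 2) (y : ι → ℝ) :
    (stdGaussian E).real {g : E | ∀ i ∈ B, ⟪z i, g⟫ < y i}
      ≤ ((∑ i ∈ B, y i) ^ 2 + ‖∑ i ∈ B, z i‖ ^ 2) / (8 * Real.pi * Δ) := by
  have hmeas : MeasurableSet {g : E | ∀ i ∈ B, ⟪z i, g⟫ < y i} := by
    have : {g : E | ∀ i ∈ B, ⟪z i, g⟫ < y i} = ⋂ i ∈ B, {g : E | ⟪z i, g⟫ < y i} := by
      ext g; simp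
    rw [this]
    refine Finset.measurableSet_biInter _ fun i _ => ?_
    exact measurableSet_lt (continuous_const.inner continuous_id).measurable measurable_const
  set u : E := ∑ i ∈ B, z i with hu
  set L : ℝ := ∑ i ∈ B, y i with hL
  set h : ι → Wᗮ := fun i => Wᗮ.orthogonalProjectionOnto (z i) with hh
  have hhinner : ∀ i (y' : Wᗮ), ⟪h i, y'⟫ = ⟪z i, (y' : E)⟫ := fun i y' =>
    Submodule.inner_orthogonalProjectionOnto_eq_of_mem_right y' (z i)
  -- the rest of the block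
  set O : Finset ι := ((((B.erase a).erase b).erase c).erase d) with hO
  have hmemO : ∀ l ∈ O, l ∈ B ∧ l ≠ a ∧ l ≠ b ∧ l ≠ c ∧ l ≠ d := by
    intro l hl
    simp only [hO, Finset.mem_erase] at hl
    tauto
  have hsplit : ∀ f : ι → ℝ, ∑ i ∈ B, f i = f a + f b + f c + f d + ∑ i ∈ O, f i := by
    intro f
    have hb' : b ∈ B.erase a := Finset.mem_erase.2 ⟨hab.symm, hb⟩
    have hc' : c ∈ (B.erase a).erase b := Finset.mem_erase.2 ⟨hbc.symm,
      Finset.mem_erase.2 ⟨hac.symm, hc⟩⟩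
    have hd' : d ∈ ((B.erase a).erase b).erase c := Finset.mem_erase.2 ⟨hcd.symm,
      Finset.mem_erase.2 ⟨hbd.symm, Finset.mem_erase.2 ⟨had.symm, hd⟩⟩⟩
    rw [← Finset.add_sum_erase _ _ ha, ← Finset.add_sum_erase _ _ hb', ← Finset.add_sum_erase _ _ hc',
      ← Finset.add_sum_erase _ _ hd']
    ring
  have hsplitV : ∑ i ∈ B, z i = z a + z b + z c + z d + ∑ i ∈ O, z i := by
    have hb' : b ∈ B.erase a := Finset.mem_erase.2 ⟨hab.symm, hb⟩
    have hc' : c ∈ (B.erase a).erase b := Finset.mem_erase.2 ⟨hbc.symm,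
      Finset.mem_erase.2 ⟨hac.symm, hc⟩⟩
    have hd' : d ∈ ((B.erase a).erase b).erase c := Finset.mem_erase.2 ⟨hcd.symm,
      Finset.mem_erase.2 ⟨hbd.symm, Finset.mem_erase.2 ⟨had.symm, hd⟩⟩⟩
    rw [← Finset.add_sum_erase _ _ ha, ← Finset.add_sum_erase _ _ hb', ← Finset.add_sum_erase _ _ hc',
      ← Finset.add_sum_erase _ _ hd']
    abel
  have hOW : ∑ i ∈ O, z i ∈ W := W.sum_mem fun l hl => by
    obtain ⟨h1, h2, h3, h4, h5⟩ := hmemO l hl
    exact hW1 l h1 h2 h3 h4 h5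
  have hbdW : z b + z d ∈ W := by
    have e1 : z b + z d = u - (z a + z c) - ∑ i ∈ O, z i := by
      rw [hu, hsplitV]; abel
    rw [e1]
    exact W.sub_mem (W.sub_mem hW3 hW2) hOW
  have hperp : ∀ v ∈ W, ∀ y' : Wᗮ, ⟪v, (y' : E)⟫ = 0 := fun v hv y' =>
    Submodule.inner_right_of_mem_orthogonal hv y'.2
  have hca : ∀ y' : Wᗮ, ⟪z c, (y' : E)⟫ = -⟪z a, (y' : E)⟫ := by
    intro y'
    have := hperp _ hW2 y'
    rw [inner_add_left] at this
    linarith
  have hdb : ∀ y' : Wᗮ, ⟪z d, (y' : E)⟫ = -⟪z b, (y' : E)⟫ := by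
    intro y'
    have := hperp _ hbdW y'
    rw [inner_add_left] at this
    linarith
  have hΔ3 : Δ ^ 2 ≤ ‖h a‖ ^ 2 * ‖h b‖ ^ 2 - ⟪h a, h b⟫ ^ 2 := by
    refine hΔ2.trans (le_of_eq ?_)
    rw [Submodule.coe_inner, Submodule.coe_norm, Submodule.coe_norm]
    simp only [hh, Submodule.coe_orthogonalProjectionOnto_apply]
  have hpi := Real.pi_pos
  have hden : 0 < 8 * Real.pi * Δ := by positivity
  have hpt : ∀ x : W, (stdGaussian Wᗮ).real
      {y' : Wᗮ | (x : E) + (y' : E) ∈ {g : E | ∀ i ∈ B, ⟪z i, g⟫ < y i}}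
      ≤ (L - ⟪u, (x : E)⟫) ^ 2 / (8 * Real.pi * Δ) := by
    intro x
    by_cases hx : ∀ l ∈ O, ⟪z l, (x : E)⟫ < y l
    · set A1 := y a - ⟪z a, (x : E)⟫ with hA1
      set B1 := y b - ⟪z b, (x : E)⟫ with hB1
      set C1 := y c - ⟪z c, (x : E)⟫ with hC1
      set D1 := y d - ⟪z d, (x : E)⟫ with hD1
      have hsub : {y' : Wᗮ | (x : E) + (y' : E) ∈ {g : E | ∀ i ∈ B, ⟪z i, g⟫ < y i}}
          ⊆ {y' : Wᗮ | -C1 ≤ ⟪h a, y'⟫ ∧ ⟪h a, y'⟫ < A1 ∧ -D1 ≤ ⟪h b, y'⟫ ∧ ⟪h b, y'⟫ < B1} := by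
        intro y' hy'
        have h1 := hy' a ha
        have h2 := hy' b hb
        have h3 := hy' c hc
        have h4 := hy' d hd
        rw [inner_add_right] at h1 h2 h3 h4
        rw [hca y'] at h3
        rw [hdb y'] at h4
        show -C1 ≤ ⟪h a, y'⟫ ∧ ⟪h a, y'⟫ < A1 ∧ -D1 ≤ ⟪h b, y'⟫ ∧ ⟪h b, y'⟫ < B1
        rw [hhinner, hhinner]
        refine ⟨by rw [hC1]; linarith, by rw [hA1]; linarith, by rw [hD1]; linarith,
          by rw [hB1]; linarith⟩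
      refine (measureReal_mono hsub (by simp)).trans ?_
      have hrect := rect_prob (h a) (h b) Δ hΔ hΔ3 (-C1) A1 (-D1) B1
      have hfin : (stdGaussian Wᗮ) {y' : Wᗮ | -C1 ≤ ⟪h a, y'⟫ ∧ ⟪h a, y'⟫ < A1 ∧ -D1 ≤ ⟪h b, y'⟫
          ∧ ⟪h b, y'⟫ < B1} ≠ ∞ := measure_ne_top _ _
      have hle : (stdGaussian Wᗮ).real {y' : Wᗮ | -C1 ≤ ⟪h a, y'⟫ ∧ ⟪h a, y'⟫ < A1 ∧ -D1 ≤ ⟪h b, y'⟫
          ∧ ⟪h b, y'⟫ < B1} ≤ max 0 (A1 - -C1) * max 0 (B1 - -D1) / (2 * Real.pi * Δ) := by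
        refine ENNReal.toReal_le_of_le_ofReal (by positivity) hrect
      refine hle.trans ?_
      have hS : (A1 - -C1) + (B1 - -D1) ≤ L - ⟪u, (x : E)⟫ := by
        have e1 := hsplit y
        have e2 : ⟪u, (x : E)⟫ = ⟪z a, (x : E)⟫ + ⟪z b, (x : E)⟫ + ⟪z c, (x : E)⟫ + ⟪z d, (x : E)⟫
            + ∑ i ∈ O, ⟪z i, (x : E)⟫ := by
          rw [hu, sum_inner]
          exact hsplit fun i => ⟪z i, (x : E)⟫
        have e3 : ∑ i ∈ O, ⟪z i, (x : E)⟫ ≤ ∑ i ∈ O, y i :=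
          Finset.sum_le_sum fun l hl => (hx l hl).le
        rw [e2, hL, e1, hA1, hB1, hC1, hD1]
        linarith
      have hside := side_mul_le hS
      have e4 : (L - ⟪u, (x : E)⟫) ^ 2 / (8 * Real.pi * Δ)
          = (L - ⟪u, (x : E)⟫) ^ 2 / 4 / (2 * Real.pi * Δ) := by
        field_simp
        ring
      rw [e4]
      exact div_le_div_of_nonneg_right hside (by positivity)
    · push Not at hx
      obtain ⟨l, hl, hl2⟩ := hx
      have hsub : {y' : Wᗮ | (x : E) + (y' : E) ∈ {g : E | ∀ i ∈ B, ⟪z i, g⟫ < y i}} = ∅ := by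
        ext y'
        simp only [Set.mem_ofPred_eq, Set.mem_empty_iff_false, iff_false, not_forall]
        obtain ⟨h1, h2, h3, h4, h5⟩ := hmemO l hl
        refine ⟨l, h1, ?_⟩
        rw [inner_add_right, hperp _ (hW1 l h1 h2 h3 h4 h5) y', add_zero]
        linarith
      rw [hsub]
      simp only [measureReal_empty]
      positivity
  -- the second moment on `W`
  set u' : W := ⟨u, hW3⟩ with hu'
  have hinner' : ∀ x : W, ⟪u, (x : E)⟫ = ⟪u', x⟫ := fun x => rfl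
  have hsq : Integrable (fun x : W => ⟪u', x⟫ ^ 2) (stdGaussian W) := by
    have h1 := (IsGaussian.memLp_dual (stdGaussian W) (innerSL ℝ u') 2 (by simp)).integrable_sq
    simpa using h1
  have hlin : Integrable (fun x : W => ⟪u', x⟫) (stdGaussian W) := integrable_inner_std u'
  have hsecond : ∫ x : W, ⟪u', x⟫ ^ 2 ∂(stdGaussian W) = ‖u‖ ^ 2 := by
    have hv := variance_dual_stdGaussian (E := W) (innerSL ℝ u')
    rw [variance_eq_sub (IsGaussian.memLp_dual (stdGaussian W) (innerSL ℝ u') 2 (by simp))] at hv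
    have hm : ∫ x : W, (innerSL ℝ u') x ∂(stdGaussian W) = 0 := integral_strongDual_stdGaussian _
    simp only [Pi.pow_apply] at hv
    rw [hm] at hv
    simp only [ne_eq, OfNat.ofNat_ne_zero, not_false_eq_true, zero_pow, sub_zero, innerSL_apply_norm] at hv
    simpa [hu', innerSL_apply_apply] using hv
  have hfirst : ∫ x : W, ⟪u', x⟫ ∂(stdGaussian W) = 0 := integral_inner_std u'
  have hRint : Integrable (fun x : W => (L - ⟪u', x⟫) ^ 2 / (8 * Real.pi * Δ)) (stdGaussian W) := by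
    have h1 : (fun x : W => (L - ⟪u', x⟫) ^ 2 / (8 * Real.pi * Δ))
        = fun x : W => (L ^ 2 - 2 * L * ⟪u', x⟫ + ⟪u', x⟫ ^ 2) / (8 * Real.pi * Δ) := by
      ext x
      ring
    rw [h1]
    exact (((integrable_const _).sub (hlin.const_mul _)).add hsq).div_const _
  rw [real_split W hmeas]
  calc _ ≤ ∫ x : W, (L - ⟪u', x⟫) ^ 2 / (8 * Real.pi * Δ) ∂(stdGaussian W) :=
        integral_mono_of_nonneg (Filter.Eventually.of_forall fun _ => measureReal_nonneg) hRint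
          (Filter.Eventually.of_forall hpt)
    _ = _ := by
        have h1 : (fun x : W => (L - ⟪u', x⟫) ^ 2 / (8 * Real.pi * Δ))
            = fun x : W => (L ^ 2 - 2 * L * ⟪u', x⟫ + ⟪u', x⟫ ^ 2) / (8 * Real.pi * Δ) := by
          ext x
          ring
        have hi1 : Integrable (fun a : W => L ^ 2 - 2 * L * ⟪u', a⟫) (stdGaussian W) :=
          (integrable_const _).sub (hlin.const_mul _)
        have hi2 : Integrable (fun a : W => 2 * L * ⟪u', a⟫) (stdGaussian W) := hlin.const_mul _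
        rw [h1, integral_div, integral_add hi1 hsq,
          integral_sub (integrable_const _) hi2, integral_const_mul, hfirst, hsecond]
        simp

/-- `rect_tail` with the positive part of the sum of the thresholds. -/
theorem rect_tail_pos (z : ι → E) (B : Finset ι) {a b c d : ι} (ha : a ∈ B) (hb : b ∈ B) (hc : c ∈ B)
    (hd : d ∈ B) (hab : a ≠ b) (hac : a ≠ c) (had : a ≠ d) (hbc : b ≠ c) (hbd : b ≠ d) (hcd : c ≠ d)
    (W : Submodule ℝ E) (hW1 : ∀ l ∈ B, l ≠ a → l ≠ b → l ≠ c → l ≠ d → z l ∈ W)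
    (hW2 : z a + z c ∈ W) (hW3 : ∑ i ∈ B, z i ∈ W) (Δ : ℝ) (hΔ : 0 < Δ)
    (hΔ2 : Δ ^ 2 ≤ ‖Wᗮ.starProjection (z a)‖ ^ 2 * ‖Wᗮ.starProjection (z b)‖ ^ 2
      - ⟪Wᗮ.starProjection (z a), Wᗮ.starProjection (z b)⟫ ^ 2) (y : ι → ℝ) :
    (stdGaussian E).real {g : E | ∀ i ∈ B, ⟪z i, g⟫ < y i}
      ≤ ((max 0 (∑ i ∈ B, y i)) ^ 2 + ‖∑ i ∈ B, z i‖ ^ 2) / (8 * Real.pi * Δ) := by
  rcases le_total 0 (∑ i ∈ B, y i) with h | h
  · rw [max_eq_right h]
    exact rect_tail z B ha hb hc hd hab hac had hbc hbd hcd W hW1 hW2 hW3 Δ hΔ hΔ2 y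
  · rw [max_eq_left h]
    set L := ∑ i ∈ B, y i with hL
    set y' : ι → ℝ := Function.update y a (y a - L) with hy'
    have hsum : ∑ i ∈ B, y' i = 0 := by
      have h1 := Finset.add_sum_erase B y ha
      have h2 := Finset.add_sum_erase B y' ha
      have h3 : ∑ i ∈ B.erase a, y' i = ∑ i ∈ B.erase a, y i := by
        refine Finset.sum_congr rfl fun i hi => ?_
        simp only [hy']
        rw [Function.update_of_ne (Finset.ne_of_mem_erase hi)]
      have h4 : y' a = y a - L := by simp [hy']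
      rw [← h2, h3, h4]
      linarith
    have hsub : {g : E | ∀ i ∈ B, ⟪z i, g⟫ < y i} ⊆ {g : E | ∀ i ∈ B, ⟪z i, g⟫ < y' i} := by
      intro g hg i hi
      by_cases hia : i = a
      · subst hia
        have h4 : y' i = y i - L := by simp [hy']
        rw [h4]
        have := hg i hi
        linarith
      · have h4 : y' i = y i := by
          simp only [hy']
          rw [Function.update_of_ne hia]
        rw [h4]
        exact hg i hi
    refine (measureReal_mono hsub (by simp)).trans ?_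
    have := rect_tail z B ha hb hc hd hab hac had hbc hbd hcd W hW1 hW2 hW3 Δ hΔ hΔ2 y'
    rw [hsum] at this
    simpa using this

/-- The projection off `V ⊔ ℝ p`, `p ∈ Vᗮ`, is the projection off `p` of the projection off `V`. -/
lemma proj_sup_singleton (V : Submodule ℝ E) {p : E} (hp : p ∈ Vᗮ) (x : E) :
    (V ⊔ (ℝ ∙ p))ᗮ.starProjection x = (ℝ ∙ p)ᗮ.starProjection (Vᗮ.starProjection x) := by
  set ζ := Vᗮ.starProjection x with hζ
  set w := (ℝ ∙ p)ᗮ.starProjection ζ with hw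
  have hζV : ζ ∈ Vᗮ := Submodule.starProjection_apply_mem _ _
  have h1 : ζ - w = (ℝ ∙ p).starProjection ζ := by
    have := Submodule.starProjection_add_starProjection_orthogonal (K := ℝ ∙ p) ζ
    rw [hw]
    exact sub_eq_of_eq_add this.symm
  have h2 : x - ζ = V.starProjection x := by
    have := Submodule.starProjection_add_starProjection_orthogonal (K := V) x
    rw [hζ]
    exact sub_eq_of_eq_add this.symm
  have hwV : w ∈ Vᗮ := by
    have hm : (ℝ ∙ p).starProjection ζ ∈ ℝ ∙ p := Submodule.starProjection_apply_mem _ _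
    obtain ⟨r, hr⟩ := Submodule.mem_span_singleton.1 hm
    have e : w = ζ - r • p := by
      rw [hr, ← h1]; abel
    rw [e]
    exact Vᗮ.sub_mem hζV (Vᗮ.smul_mem _ hp)
  have hwp : w ∈ (ℝ ∙ p)ᗮ := Submodule.starProjection_apply_mem _ _
  refine Submodule.eq_starProjection_of_mem_of_inner_eq_zero ?_ ?_
  · rw [Submodule.mem_orthogonal]
    intro u hu
    obtain ⟨v', hv', q, hq, rfl⟩ := Submodule.mem_sup.1 hu
    rw [inner_add_left, (Submodule.mem_orthogonal _ _).1 hwV v' hv',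
      (Submodule.mem_orthogonal _ _).1 hwp q hq, add_zero]
  · intro t ht
    have e : x - w = V.starProjection x + (ℝ ∙ p).starProjection ζ := by
      rw [← h1, ← h2]; abel
    rw [e]
    have hmem : V.starProjection x + (ℝ ∙ p).starProjection ζ ∈ V ⊔ (ℝ ∙ p) :=
      Submodule.add_mem_sup (Submodule.starProjection_apply_mem _ _)
        (Submodule.starProjection_apply_mem _ _)
    exact (Submodule.mem_orthogonal _ _).1 ht _ hmem

/-- The inequality behind `d_i d_j ≥ e₃ (e₄ - XX)`. -/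
lemma prod_ge {E3 E4 XX eh el g g' dh dl : ℝ} (h3 : E3 ≤ eh) (h4 : E4 ≤ el) (hhl : el ≤ eh)
    (hE3 : 0 ≤ E3) (hg : 0 ≤ g) (hg' : 0 ≤ g') (hgg : g + g' ≤ XX) (hdh : eh - g ≤ dh)
    (hdl : el - g' ≤ dl) (hdh0 : 0 ≤ dh) (hdl0 : 0 ≤ dl) : E3 * (E4 - XX) ≤ dh * dl := by
  rcases le_or_gt E4 XX with h | h
  · have h1 : E3 * (E4 - XX) ≤ 0 := mul_nonpos_of_nonneg_of_nonpos hE3 (by linarith)
    have h2 : 0 ≤ dh * dl := mul_nonneg hdh0 hdl0
    linarith
  · have hel : 0 < el - g' := by linarith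
    have heh : 0 < eh - g := by linarith
    have h1 : (eh - g) * (el - g') ≤ dh * dl := mul_le_mul hdh hdl hel.le hdh0
    have h2 : E3 * (E4 - XX) ≤ eh * (el - XX) :=
      mul_le_mul h3 (by linarith) (by linarith) (by linarith)
    have h3' : 0 ≤ g * g' := mul_nonneg hg hg'
    have h4' : 0 ≤ (eh - el) * g := mul_nonneg (by linarith) hg
    have h5 : 0 ≤ eh * (XX - (g + g')) := mul_nonneg (by linarith) (by linarith)
    nlinarith

section critical

variable {k : ℕ} {z : Fin k → E} {A : Fin k → Set E}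

/-- **The closure with the rectangle, for a fixed pairing.** `Qᶜ = X`, `V = span (z '' X)`,
`ζ = Vᗮ.starProjection z`, `p = ζ a + ζ c`, `Δ² ≤ det Gram (π ζ a, π ζ b)`, `π` the projection off `p`. -/
theorem critical_nt_rect_core (hc : Critical z A) (hR : R < S z) (hP : PF E (k - 1)) (hk : 3 ≤ k)
    (j a b c d : Fin k) (B X : Finset (Fin k)) (hjB : j ∉ B) (ha : a ∈ B) (hb : b ∈ B) (hc' : c ∈ B)
    (hd : d ∈ B) (hab : a ≠ b) (hac : a ≠ c) (had : a ≠ d) (hbc : b ≠ c) (hbd : b ≠ d) (hcd : c ≠ d)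
    (hX : ∀ l, l ∈ X ↔ l ≠ a ∧ l ≠ b ∧ l ≠ c ∧ l ≠ d)
    (V : Submodule ℝ E) (hV : V = Submodule.span ℝ (z '' (X : Set (Fin k)))) (Δ : ℝ) (hΔ : 0 < Δ)
    (hΔ2 : Δ ^ 2 ≤ gram2 ((ℝ ∙ (Vᗮ.starProjection (z a) + Vᗮ.starProjection (z c)))ᗮ.starProjection
        (Vᗮ.starProjection (z a)))
      ((ℝ ∙ (Vᗮ.starProjection (z a) + Vᗮ.starProjection (z c)))ᗮ.starProjection
        (Vᗮ.starProjection (z b)))) :
    8 * Real.pi * Δ * (Real.sqrt (2 * Real.pi) * ‖z j‖)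
      ≤ 4 * cT k (B.card : ℝ) * (((k : ℝ) - 1) / (k : ℝ)) * ‖z j‖ ^ 2
        + 2 * ∑ l ∈ Bᶜ.erase j, ‖z l‖ ^ 2 := by
  classical
  have hk2 : 2 ≤ k := by omega
  have hsum := hc.sum_zero
  have hs := hc.norm_pos hR hP hk2 j
  set p := Vᗮ.starProjection (z a) + Vᗮ.starProjection (z c) with hp
  have hpV : p ∈ Vᗮ := Vᗮ.add_mem (Submodule.starProjection_apply_mem _ _)
    (Submodule.starProjection_apply_mem _ _)
  set W : Submodule ℝ E := V ⊔ (ℝ ∙ p) with hW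
  have hVW : V ≤ W := le_sup_left
  set e : E := ‖z j‖⁻¹ • z j with he
  have hjX : j ∈ X := by
    rw [hX]
    refine ⟨?_, ?_, ?_, ?_⟩ <;> (rintro rfl; exact hjB ‹_›)
  have hzV : ∀ l ∈ X, z l ∈ V := fun l hl => mem_V_of_mem z X hV hl
  have heV : e ∈ V := V.smul_mem _ (hzV j hjX)
  have hPe : Wᗮ.starProjection e = 0 := by
    have h1 := Submodule.starProjection_add_starProjection_orthogonal (K := W) e
    rw [Submodule.starProjection_eq_self_iff.2 (hVW heV)] at h1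
    simpa using h1
  have hPv : ∀ i, Wᗮ.starProjection (prp e (z i)) = Wᗮ.starProjection (z i) := by
    intro i
    unfold prp
    rw [map_sub, map_smul, hPe, smul_zero, sub_zero]
  have hprpV : ∀ l ∈ X, prp e (z l) ∈ V := by
    intro l hl
    unfold prp
    exact V.sub_mem (hzV l hl) (V.smul_mem _ heV)
  have hdet : Δ ^ 2 ≤ ‖Wᗮ.starProjection (prp e (z a))‖ ^ 2 * ‖Wᗮ.starProjection (prp e (z b))‖ ^ 2
      - ⟪Wᗮ.starProjection (prp e (z a)), Wᗮ.starProjection (prp e (z b))⟫ ^ 2 := by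
    have e1 : ∀ x, Wᗮ.starProjection x = (ℝ ∙ p)ᗮ.starProjection (Vᗮ.starProjection x) :=
      fun x => proj_sup_singleton V hpV x
    rw [hPv, hPv, e1, e1]
    exact hΔ2
  have hW1 : ∀ l ∈ B, l ≠ a → l ≠ b → l ≠ c → l ≠ d → prp e (z l) ∈ W := by
    intro l _ h1 h2 h3 h4
    exact hVW (hprpV l ((hX l).2 ⟨h1, h2, h3, h4⟩))
  have hW2 : prp e (z a) + prp e (z c) ∈ W := by
    have e1 : prp e (z a) + prp e (z c) = p + (V.starProjection (z a) + V.starProjection (z c))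
        - (⟪e, z a⟫ + ⟪e, z c⟫) • e := by
      have h1 := Submodule.starProjection_add_starProjection_orthogonal (K := V) (z a)
      have h2 := Submodule.starProjection_add_starProjection_orthogonal (K := V) (z c)
      unfold prp
      rw [hp, add_smul]
      nth_rewrite 1 [← h1]
      nth_rewrite 1 [← h2]
      abel
    rw [e1]
    refine W.sub_mem (W.add_mem ?_ (hVW (V.add_mem (Submodule.starProjection_apply_mem _ _)
      (Submodule.starProjection_apply_mem _ _)))) (W.smul_mem _ (hVW heV))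
    exact (le_sup_right : (ℝ ∙ p) ≤ W) (Submodule.mem_span_singleton_self p)
  have hBcX : ∀ l, l ∉ B → l ∈ X := by
    intro l hl
    rw [hX]
    refine ⟨?_, ?_, ?_, ?_⟩ <;> (rintro rfl; exact hl ‹_›)
  have hW3 : ∑ i ∈ B, prp e (z i) ∈ W := by
    refine hVW ?_
    rw [sum_prp]
    unfold prp
    refine V.sub_mem ?_ (V.smul_mem _ heV)
    have h1 : ∑ i ∈ B, z i = - ∑ i ∈ Bᶜ, z i := by
      have := Finset.sum_add_sum_compl B z
      rw [hsum] at this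
      exact eq_neg_of_add_eq_zero_left this
    rw [h1]
    refine V.neg_mem (V.sum_mem fun i hi => ?_)
    exact hzV i (hBcX i (by simpa using hi))
  have hjBc : j ∈ Bᶜ := by simpa using hjB
  have hT : ‖∑ i ∈ B, prp e (z i)‖ ^ 2 ≤ ∑ l ∈ Bᶜ.erase j, ‖z l‖ ^ 2 := by
    have hvj : prp e (z j) = 0 := by
      have hu := norm_uvec (z := z) hs
      have hze : z j = ‖z j‖ • uvec z j := by
        unfold uvec
        rw [smul_smul, mul_inv_cancel₀ hs.ne', one_smul]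
      change prp (uvec z j) (z j) = 0
      unfold prp
      conv_lhs => rw [hze]
      rw [inner_smul_right, real_inner_self_eq_norm_sq, hu]
      simp
    have h1 : ∑ i ∈ B, prp e (z i) = - ∑ i ∈ Bᶜ.erase j, prp e (z i) := by
      have h2 := Finset.sum_add_sum_compl B (fun i => prp e (z i))
      rw [sum_prp (Finset.univ) e z, hsum] at h2
      have h3 : prp e (0 : E) = 0 := by simp [prp]
      rw [h3] at h2
      rw [← Finset.add_sum_erase Bᶜ _ hjBc, hvj, zero_add] at h2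
      exact eq_neg_of_add_eq_zero_left h2
    rw [h1, norm_neg]
    refine (norm_sum_sq_le_of_obtuse _ _ ?_).trans ?_
    · intro i hi l hl hil
      exact hc.inner_prp_nonpos hR hP j hs (Finset.ne_of_mem_erase hi) (Finset.ne_of_mem_erase hl) hil
    · refine Finset.sum_le_sum fun i _ => ?_
      exact Kp_le (z := z) j i hs
  have hpi := Real.pi_pos
  have hD : 0 < 8 * Real.pi * Δ := by positivity
  have hT0 : 0 ≤ ∑ l ∈ Bᶜ.erase j, ‖z l‖ ^ 2 := Finset.sum_nonneg fun _ _ => by positivity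
  have hB : B ⊆ Finset.univ.erase j := by
    intro i hi
    refine Finset.mem_erase.2 ⟨?_, Finset.mem_univ _⟩
    rintro rfl
    exact hjB hi
  exact critical_nt_ball hc hR hP hk j B hB ⟨a, ha⟩ (∑ l ∈ Bᶜ.erase j, ‖z l‖ ^ 2) (8 * Real.pi * Δ)
    hT0 hD (by
      intro y
      refine (rect_tail_pos (fun i => prp e (z i)) B ha hb hc' hd hab hac had hbc hbd hcd W hW1 hW2
        hW3 Δ hΔ hdet y).trans ?_
      refine div_le_div_of_nonneg_right ?_ hD.le
      linarith)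

/-- The closure with the rectangle, for the pairing of minimal cut. -/
theorem critical_nt_rect_min_cut (hc : Critical z A) (hR : R < S z) (hP : PF E (k - 1)) (hk : 3 ≤ k)
    (j a b c d : Fin k) (B X : Finset (Fin k)) (hjB : j ∉ B) (ha : a ∈ B) (hb : b ∈ B) (hc' : c ∈ B)
    (hd : d ∈ B) (hab : a ≠ b) (hac : a ≠ c) (had : a ≠ d) (hbc : b ≠ c) (hbd : b ≠ d) (hcd : c ≠ d)
    (hX : ∀ l, l ∈ X ↔ l ≠ a ∧ l ≠ b ∧ l ≠ c ∧ l ≠ d)
    (V : Submodule ℝ E) (hV : V = Submodule.span ℝ (z '' (X : Set (Fin k))))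
    (hcut1 : ‖Vᗮ.starProjection (z a) + Vᗮ.starProjection (z c)‖ ^ 2
      ≤ ‖Vᗮ.starProjection (z a) + Vᗮ.starProjection (z b)‖ ^ 2)
    (hcut2 : ‖Vᗮ.starProjection (z a) + Vᗮ.starProjection (z c)‖ ^ 2
      ≤ ‖Vᗮ.starProjection (z a) + Vᗮ.starProjection (z d)‖ ^ 2)
    (M : ℝ)
    (hM : ∀ i i' : Fin k, i ∉ X → i' ∉ X → i ≠ i' →
      M ≤ ‖Vᗮ.starProjection (z i)‖ ^ 2 * ‖Vᗮ.starProjection (z i')‖ ^ 2)
    (Δ : ℝ) (hΔ : 0 < Δ) (hΔ2 : Δ ^ 2 ≤ M / 3) :
    8 * Real.pi * Δ * (Real.sqrt (2 * Real.pi) * ‖z j‖)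
      ≤ 4 * cT k (B.card : ℝ) * (((k : ℝ) - 1) / (k : ℝ)) * ‖z j‖ ^ 2
        + 2 * ∑ l ∈ Bᶜ.erase j, ‖z l‖ ^ 2 := by
  classical
  have hsum := hc.sum_zero
  have hobt : ∀ i l : Fin k, i ≠ l → ⟪z i, z l⟫ ≤ 0 := fun i l h => (hc.inner_neg hR hP h).le
  have hXa : a ∉ X := fun h => ((hX a).1 h).1 rfl
  have hXb : b ∉ X := fun h => ((hX b).1 h).2.1 rfl
  have hXc : c ∉ X := fun h => ((hX c).1 h).2.2.1 rfl
  have hXd : d ∉ X := fun h => ((hX d).1 h).2.2.2 rfl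
  have hobtζ : ∀ i i' : Fin k, i ∉ X → i' ∉ X → i ≠ i' →
      ⟪Vᗮ.starProjection (z i), Vᗮ.starProjection (z i')⟫ ≤ 0 := fun i i' h1 h2 h3 =>
    (inner_proj_le z X hsum hobt hV h1 h2).trans (hobt i i' h3)
  have hXcompl : Xᶜ = {a, b, c, d} := by
    ext l
    simp only [Finset.mem_compl, hX, Finset.mem_insert, Finset.mem_singleton]
    tauto
  have hsumζ : Vᗮ.starProjection (z a) + Vᗮ.starProjection (z b) + Vᗮ.starProjection (z c)
      + Vᗮ.starProjection (z d) = 0 := by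
    have h1 := sum_proj_eq_zero z X hsum hV
    rw [hXcompl, Finset.sum_insert (by simp [hab, hac, had]),
      Finset.sum_insert (by simp [hbc, hbd]), Finset.sum_insert (by simp [hcd]),
      Finset.sum_singleton] at h1
    rw [← h1]
    abel
  have key := rect_det_ge_of_min_cut hsumζ (hobtζ a b hXa hXb hab) (hobtζ a c hXa hXc hac)
    (hobtζ a d hXa hXd had) (hobtζ c b hXc hXb hbc.symm) (hobtζ b d hXb hXd hbd)
    (hobtζ c d hXc hXd hcd) hcut1 hcut2 M (hM a b hXa hXb hab) (hM a d hXa hXd had)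
    (hM c b hXc hXb hbc.symm) (hM c d hXc hXd hcd) (hM a c hXa hXc hac) (hM b d hXb hXd hbd)
  exact critical_nt_rect_core hc hR hP hk j a b c d B X hjB ha hb hc' hd hab hac had hbc hbd hcd hX V
    hV Δ hΔ (hΔ2.trans key)

/-- **The closure `NT_τ` with the rectangle**, `a, b, c, d` the top four of the block in this order of
norms, `XX ≥ ∑ ‖z l‖²` outside `{a,b,c,d}`: `Δ² ≤ ‖z c‖² (‖z d‖² - XX) / 3` is enough, and the constant
of the small ball is `8π` instead of `4π`. -/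
theorem critical_nt_rect (hc : Critical z A) (hR : R < S z) (hP : PF E (k - 1)) (hk : 3 ≤ k)
    (j a b c d : Fin k) (B : Finset (Fin k)) (hjB : j ∉ B) (ha : a ∈ B) (hb : b ∈ B) (hc' : c ∈ B)
    (hd : d ∈ B) (hab : a ≠ b) (hac : a ≠ c) (had : a ≠ d) (hbc : b ≠ c) (hbd : b ≠ d) (hcd : c ≠ d)
    (h12 : ‖z b‖ ≤ ‖z a‖) (h23 : ‖z c‖ ≤ ‖z b‖) (h34 : ‖z d‖ ≤ ‖z c‖) (XX : ℝ)
    (hXX : ∑ l ∈ ({a, b, c, d} : Finset (Fin k))ᶜ, ‖z l‖ ^ 2 ≤ XX)
    (Δ : ℝ) (hΔ : 0 < Δ) (hΔ2 : Δ ^ 2 ≤ ‖z c‖ ^ 2 * (‖z d‖ ^ 2 - XX) / 3) :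
    8 * Real.pi * Δ * (Real.sqrt (2 * Real.pi) * ‖z j‖)
      ≤ 4 * cT k (B.card : ℝ) * (((k : ℝ) - 1) / (k : ℝ)) * ‖z j‖ ^ 2
        + 2 * ∑ l ∈ Bᶜ.erase j, ‖z l‖ ^ 2 := by
  classical
  have hsum := hc.sum_zero
  have hobt : ∀ i l : Fin k, i ≠ l → ⟪z i, z l⟫ ≤ 0 := fun i l h => (hc.inner_neg hR hP h).le
  set X : Finset (Fin k) := ({a, b, c, d} : Finset (Fin k))ᶜ with hXdef
  have hX : ∀ l, l ∈ X ↔ l ≠ a ∧ l ≠ b ∧ l ≠ c ∧ l ≠ d := by
    intro l
    simp only [hXdef, Finset.mem_compl, Finset.mem_insert, Finset.mem_singleton]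
    tauto
  set V : Submodule ℝ E := Submodule.span ℝ (z '' (X : Set (Fin k))) with hV
  have hXa : a ∉ X := fun h => ((hX a).1 h).1 rfl
  have hXb : b ∉ X := fun h => ((hX b).1 h).2.1 rfl
  have hXc : c ∉ X := fun h => ((hX c).1 h).2.2.1 rfl
  have hXd : d ∉ X := fun h => ((hX d).1 h).2.2.2 rfl
  set M : ℝ := ‖z c‖ ^ 2 * (‖z d‖ ^ 2 - XX) with hM
  -- the flows
  set g : Fin k → ℝ := fun i => - ∑ l ∈ X, ⟪z l, z i⟫ with hg
  have hg0 : ∀ i, i ∉ X → 0 ≤ g i := by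
    intro i hi
    have : ∑ l ∈ X, ⟪z l, z i⟫ ≤ 0 := Finset.sum_nonpos fun l hl => hobt l i (by
      rintro rfl
      exact hi hl)
    simp only [hg]
    linarith
  have hXcompl : Xᶜ = {a, b, c, d} := by
    rw [hXdef, compl_compl]
  have hflow : g a + g b + g c + g d ≤ XX := by
    have h1 := sum_flow_eq z hsum X
    rw [hXcompl, Finset.sum_insert (by simp [hab, hac, had]),
      Finset.sum_insert (by simp [hbc, hbd]), Finset.sum_insert (by simp [hcd]),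
      Finset.sum_singleton] at h1
    have h2 := norm_sum_sq_le_of_obtuse X z (fun i _ l _ h => hobt i l h)
    simp only [hg]
    linarith
  have hd0 : ∀ i, i ∉ X → ‖z i‖ ^ 2 - g i ≤ ‖Vᗮ.starProjection (z i)‖ ^ 2 := by
    intro i hi
    have := norm_proj_sq_ge z X hsum hobt hV hi
    simp only [hg]
    linarith
  have hga := hg0 a hXa
  have hgb := hg0 b hXb
  have hgc := hg0 c hXc
  have hgd := hg0 d hXd
  have hsq12 : ‖z b‖ ^ 2 ≤ ‖z a‖ ^ 2 := pow_le_pow_left₀ (norm_nonneg _) h12 2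
  have hsq23 : ‖z c‖ ^ 2 ≤ ‖z b‖ ^ 2 := pow_le_pow_left₀ (norm_nonneg _) h23 2
  have hsq34 : ‖z d‖ ^ 2 ≤ ‖z c‖ ^ 2 := pow_le_pow_left₀ (norm_nonneg _) h34 2
  have hE : 0 ≤ ‖z c‖ ^ 2 := by positivity
  have hP2 : ∀ i i' : Fin k, i ∉ X → i' ∉ X → ‖z c‖ ^ 2 ≤ ‖z i‖ ^ 2 → ‖z d‖ ^ 2 ≤ ‖z i'‖ ^ 2 →
      ‖z i'‖ ^ 2 ≤ ‖z i‖ ^ 2 → g i + g i' ≤ XX →
      M ≤ ‖Vᗮ.starProjection (z i)‖ ^ 2 * ‖Vᗮ.starProjection (z i')‖ ^ 2 := by
    intro i i' hi hi' h1 h2 h3 h4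
    exact prod_ge h1 h2 h3 hE (hg0 i hi) (hg0 i' hi') h4 (hd0 i hi) (hd0 i' hi') (by positivity)
      (by positivity)
  have hMab := hP2 a b hXa hXb (hsq23.trans hsq12) (hsq34.trans hsq23) hsq12 (by linarith)
  have hMac := hP2 a c hXa hXc (hsq23.trans hsq12) hsq34 (hsq23.trans hsq12) (by linarith)
  have hMad := hP2 a d hXa hXd (hsq23.trans hsq12) le_rfl ((hsq34.trans hsq23).trans hsq12)
    (by linarith)
  have hMbc := hP2 b c hXb hXc hsq23 hsq34 hsq23 (by linarith)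
  have hMbd := hP2 b d hXb hXd hsq23 le_rfl (hsq34.trans hsq23) (by linarith)
  have hMcd := hP2 c d hXc hXd le_rfl le_rfl hsq34 (by linarith)
  have hcases : ∀ i, i ∉ X → i = a ∨ i = b ∨ i = c ∨ i = d := by
    intro i hi
    by_contra h
    push Not at h
    exact hi ((hX i).2 h)
  have hMall : ∀ i i' : Fin k, i ∉ X → i' ∉ X → i ≠ i' →
      M ≤ ‖Vᗮ.starProjection (z i)‖ ^ 2 * ‖Vᗮ.starProjection (z i')‖ ^ 2 := by
    intro i i' hi hi' hne
    rcases hcases i hi with rfl | rfl | rfl | rfl <;> rcases hcases i' hi' with rfl | rfl | rfl | rfl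
    all_goals first
      | exact absurd rfl hne
      | assumption
      | (rw [mul_comm]; assumption)
  have hΔ' : Δ ^ 2 ≤ M / 3 := hΔ2
  -- the three pairings
  have hXac : ∀ l, l ∈ X ↔ l ≠ a ∧ l ≠ c ∧ l ≠ b ∧ l ≠ d := by
    intro l; rw [hX]; tauto
  have hXad : ∀ l, l ∈ X ↔ l ≠ a ∧ l ≠ b ∧ l ≠ d ∧ l ≠ c := by
    intro l; rw [hX]; tauto
  rcases exists_min_cut (Vᗮ.starProjection (z a)) (Vᗮ.starProjection (z b))
    (Vᗮ.starProjection (z c)) (Vᗮ.starProjection (z d)) with ⟨h1, h2⟩ | ⟨h1, h2⟩ | ⟨h1, h2⟩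
  · exact critical_nt_rect_min_cut hc hR hP hk j a b c d B X hjB ha hb hc' hd hab hac had hbc hbd hcd
      hX V hV h1 h2 M hMall Δ hΔ hΔ'
  · exact critical_nt_rect_min_cut hc hR hP hk j a c b d B X hjB ha hc' hb hd hac hab had hbc.symm hcd
      hbd hXac V hV h1 h2 M hMall Δ hΔ hΔ'
  · exact critical_nt_rect_min_cut hc hR hP hk j a b d c B X hjB ha hb hd hc' hab had hac hbd hbc
      hcd.symm hXad V hV h1 h2 M hMall Δ hΔ hΔ'

end critical

end Crest.Agent.Propeller
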