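import Crest.Agent.Lib.Propeller.Crit

/-!
# Propeller: splitting the standard Gaussian along a unit vector

`g = n • e + prp e g'`, `n ~ N(0,1)`, `g' ~ stdGaussian E` independent.  No subspace is needed.
-/

set_option autoImplicit false
set_option linter.unusedSectionVars false
open MeasureTheory ProbabilityTheory
open scoped RealInnerProductSpace ENNReal

namespace Crest.Agent.Propeller

universe u

variable {E : Type u} [NormedAddCommGroup E] [InnerProductSpace ℝ E] [FiniteDimensional ℝ E]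
  [MeasurableSpace E] [BorelSpace E]

/-- The projection `g ↦ g - ⟪e, g⟫ e`. -/
noncomputable def prp (e g : E) : E := g - ⟪e, g⟫ • e

lemma continuous_prp (e : E) : Continuous (prp e) := by
  unfold prp
  fun_prop

lemma measurable_prp (e : E) : Measurable (prp e) := (continuous_prp e).measurable

lemma inner_prp_right (e v g : E) :
    ⟪v, prp e g⟫ = ⟪prp e v, g⟫ := by
  unfold prp
  rw [inner_sub_right, inner_sub_left, real_inner_smul_right, real_inner_smul_left]
  rw [real_inner_comm g e, real_inner_comm v e]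
  ring

lemma inner_self_prp (e g : E) (he : ‖e‖ = 1) : ⟪e, prp e g⟫ = 0 := by
  unfold prp
  rw [inner_sub_right, real_inner_smul_right, real_inner_self_eq_norm_sq, he]
  ring

lemma inner_split (e v g : E) (n : ℝ) :
    ⟪v, n • e + prp e g⟫ = n * ⟪v, e⟫ + ⟪prp e v, g⟫ := by
  rw [inner_add_right, real_inner_smul_right, inner_prp_right e v g]

lemma norm_prp_sq (e v : E) (he : ‖e‖ = 1) : ‖prp e v‖ ^ 2 = ‖v‖ ^ 2 - ⟪e, v⟫ ^ 2 := by
  unfold prp
  rw [norm_sub_sq_real, real_inner_smul_right, norm_smul, mul_pow, Real.norm_eq_abs, sq_abs, he,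
    real_inner_comm]
  ring

lemma inner_prp_prp (e v w : E) (he : ‖e‖ = 1) :
    ⟪prp e v, prp e w⟫ = ⟪v, w⟫ - ⟪e, v⟫ * ⟪e, w⟫ := by
  unfold prp
  rw [inner_sub_left, inner_sub_right, inner_sub_right, real_inner_smul_left, real_inner_smul_left,
    real_inner_smul_right, real_inner_smul_right, real_inner_self_eq_norm_sq, he, real_inner_comm e v]
  ring

lemma sum_prp {ι : Type*} (s : Finset ι) (e : E) (v : ι → E) :
    ∑ i ∈ s, prp e (v i) = prp e (∑ i ∈ s, v i) := by
  unfold prp
  rw [Finset.sum_sub_distrib, inner_sum, Finset.sum_smul]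

lemma prp_self (e : E) (he : ‖e‖ = 1) : prp e e = 0 := by
  unfold prp
  rw [real_inner_self_eq_norm_sq, he]
  simp

/-- The splitting. -/
theorem map_split (e : E) (he : ‖e‖ = 1) :
    ((gaussianReal 0 1).prod (stdGaussian E)).map (fun p : ℝ × E => p.1 • e + prp e p.2)
      = stdGaussian E := by
  have hc : Continuous (fun p : ℝ × E => p.1 • e + prp e p.2) := by
    have := continuous_prp e
    fun_prop
  have hm : Measurable (fun p : ℝ × E => p.1 • e + prp e p.2) := hc.measurable
  apply Measure.ext_of_charFun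
  funext t
  rw [charFun_apply, integral_map hm.aemeasurable
    (by
      apply Continuous.aestronglyMeasurable
      fun_prop)]
  have h1 : ∀ p : ℝ × E, Complex.exp (((⟪p.1 • e + prp e p.2, t⟫ : ℝ) : ℂ) * Complex.I)
      = Complex.exp ((⟪e, t⟫ : ℝ) * (p.1 : ℂ) * Complex.I)
        * Complex.exp (((⟪p.2, prp e t⟫ : ℝ) : ℂ) * Complex.I) := by
    intro p
    rw [← Complex.exp_add]
    congr 1
    rw [real_inner_comm, inner_split e t p.2 p.1, real_inner_comm p.2, real_inner_comm t e]
    push_cast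
    ring
  have h2 : ∫ p : ℝ × E, Complex.exp (((⟪p.1 • e + prp e p.2, t⟫ : ℝ) : ℂ) * Complex.I)
        ∂((gaussianReal 0 1).prod (stdGaussian E))
      = (∫ n : ℝ, Complex.exp ((⟪e, t⟫ : ℝ) * (n : ℂ) * Complex.I) ∂(gaussianReal 0 1))
        * ∫ g : E, Complex.exp (((⟪g, prp e t⟫ : ℝ) : ℂ) * Complex.I) ∂(stdGaussian E) := by
    simp_rw [h1]
    exact integral_prod_mul (μ := gaussianReal 0 1) (ν := stdGaussian E)
      (fun n : ℝ => Complex.exp ((⟪e, t⟫ : ℝ) * (n : ℂ) * Complex.I))
      (fun g : E => Complex.exp (((⟪g, prp e t⟫ : ℝ) : ℂ) * Complex.I))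
  refine h2.trans ?_
  rw [← charFun_apply_real, ← charFun_apply, charFun_gaussianReal, charFun_stdGaussian,
    charFun_stdGaussian, ← Complex.exp_add]
  congr 1
  have h3 : ‖prp e t‖ ^ 2 = ‖t‖ ^ 2 - ⟪e, t⟫ ^ 2 := norm_prp_sq e t he
  have h4 : ((‖prp e t‖ : ℂ)) ^ 2 = (‖t‖ : ℂ) ^ 2 - (⟪e, t⟫ : ℝ) ^ 2 := by
    exact_mod_cast h3
  rw [h4]
  push_cast
  ring

/-- Splitting for non-negative functions. -/
theorem lintegral_split (e : E) (he : ‖e‖ = 1) {f : E → ℝ≥0∞} (hf : Measurable f) :
    ∫⁻ g, f g ∂(stdGaussian E)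
      = ∫⁻ n, ∫⁻ g', f (n • e + prp e g') ∂(stdGaussian E) ∂(gaussianReal 0 1) := by
  have hc : Continuous (fun p : ℝ × E => p.1 • e + prp e p.2) := by
    have := continuous_prp e
    fun_prop
  conv_lhs => rw [← map_split e he]
  rw [lintegral_map hf hc.measurable]
  exact lintegral_prod _ (hf.comp hc.measurable).aemeasurable

/-- Splitting for measures of sets. -/
theorem measure_split (e : E) (he : ‖e‖ = 1) {A : Set E} (hA : MeasurableSet A) :
    stdGaussian E A
      = ∫⁻ n, stdGaussian E {g' | n • e + prp e g' ∈ A} ∂(gaussianReal 0 1) := by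
  have hc : Continuous (fun p : ℝ × E => p.1 • e + prp e p.2) := by
    have := continuous_prp e
    fun_prop
  conv_lhs => rw [← map_split e he]
  rw [Measure.map_apply hc.measurable hA, Measure.prod_apply (hc.measurable hA)]
  rfl

end Crest.Agent.Propeller
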