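/-
Arithmetic core of the step `k = 4` of the Propeller induction.

Variables: `x` is the smallest mass, `a b c` the others, `x + a + b + c = 1`; the normalised squared
norms `P Q T X` are bounded by `8 y(·)²`, `y t = t (1 - t)` (the three-dimensional cone cap); the sum
exceeds `9/8`.  `α β γ ≥ 0` with `α + β + γ ≤ 1` are the squares of the coefficients of the deleted
vector.  The conclusion is a lower bound of the squared area determinant
`g(A, B, C) = AB + BC + CA - (A + B + C)²/4` of the projected triangle in terms of `X`.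
-/
import Mathlib

namespace Crest.Agent.Propeller

namespace Step4Arith

/-- Tangent line bound for `y²`, `y t = t (1 - t)`. -/
lemma y_sq_le_tangent (p s : ℝ) (h : 0 ≤ (1 - p) * (2 * s - 1 + 3 * p) - s ^ 2) :
    (s * (1 - s)) ^ 2 ≤ (p * (1 - p)) ^ 2 + 2 * p * (1 - p) * (1 - 2 * p) * (s - p) := by
  have e : (p * (1 - p)) ^ 2 + 2 * p * (1 - p) * (1 - 2 * p) * (s - p) - (s * (1 - s)) ^ 2
      = (s - p) ^ 2 * ((1 - p) * (2 * s - 1 + 3 * p) - s ^ 2) := by ring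
  have := mul_nonneg (sq_nonneg (s - p)) h
  linarith

/-- The bracket is concave in `s`: nonnegativity at the end points suffices. -/
lemma bracket_nonneg {p s s0 s1 : ℝ} (h0 : s0 ≤ s) (h1 : s ≤ s1)
    (hb0 : 0 ≤ (1 - p) * (2 * s0 - 1 + 3 * p) - s0 ^ 2)
    (hb1 : 0 ≤ (1 - p) * (2 * s1 - 1 + 3 * p) - s1 ^ 2) :
    0 ≤ (1 - p) * (2 * s - 1 + 3 * p) - s ^ 2 := by
  rcases eq_or_lt_of_le (h0.trans h1) with h01 | h01
  · have : s = s0 := le_antisymm (h01 ▸ h1) h0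
    rw [this]; exact hb0
  have hpos : 0 < s1 - s0 := by linarith
  have e : ((1 - p) * (2 * s - 1 + 3 * p) - s ^ 2) * (s1 - s0)
      = (s1 - s) * ((1 - p) * (2 * s0 - 1 + 3 * p) - s0 ^ 2)
        + (s - s0) * ((1 - p) * (2 * s1 - 1 + 3 * p) - s1 ^ 2)
        + (s1 - s0) * ((s - s0) * (s1 - s)) := by ring
  have h2 : 0 ≤ ((1 - p) * (2 * s - 1 + 3 * p) - s ^ 2) * (s1 - s0) := by
    rw [e]
    have := mul_nonneg (sub_nonneg.2 h1) hb0
    have := mul_nonneg (sub_nonneg.2 h0) hb1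
    have := mul_nonneg hpos.le (mul_nonneg (sub_nonneg.2 h0) (sub_nonneg.2 h1))
    linarith
  exact nonneg_of_mul_nonneg_left h2 hpos

/-- Monotonicity of `y²` on `[0, 1/2]`. -/
lemma y_sq_mono {s t : ℝ} (h0 : 0 ≤ s) (hst : s ≤ t) (ht : t ≤ 1 / 2) :
    (s * (1 - s)) ^ 2 ≤ (t * (1 - t)) ^ 2 := by
  have h1 : 0 ≤ s * (1 - s) := mul_nonneg h0 (by linarith)
  have h2 : s * (1 - s) ≤ t * (1 - t) := by nlinarith
  exact pow_le_pow_left₀ h1 h2 2

/-- The universal bound `y² ≤ 1/16`. -/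
lemma y_sq_le (s : ℝ) (h0 : 0 ≤ s) (h1 : s ≤ 1) : (s * (1 - s)) ^ 2 ≤ 1 / 16 := by
  have h2 : 0 ≤ s * (1 - s) := mul_nonneg h0 (by linarith)
  have h3 : s * (1 - s) ≤ 1 / 4 := by nlinarith [sq_nonneg (s - 1 / 2)]
  nlinarith

/-- Part A: for `x ≥ 0.0918` the sum of the four `y²` is at most `9/64`. -/
lemma part_A {x a b c : ℝ} (hx : 918 / 10000 ≤ x) (hxa : x ≤ a) (hxb : x ≤ b) (hxc : x ≤ c)
    (hsum : x + a + b + c = 1) :
    (x * (1 - x)) ^ 2 + (a * (1 - a)) ^ 2 + (b * (1 - b)) ^ 2 + (c * (1 - c)) ^ 2 ≤ 9 / 64 := by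
  have hx4 : x ≤ 1 / 4 := by linarith
  set w : ℝ := (1 - x) / 3 with hw
  have hw3 : 3 * w = 1 - x := by rw [hw]; ring
  have hb0 : 0 ≤ (1 - w) * (2 * x - 1 + 3 * w) - x ^ 2 := by
    have : (1 - w) * (2 * x - 1 + 3 * w) - x ^ 2 = x * (2 * w) := by
      have hxw : x = 1 - 3 * w := by linarith
      rw [hxw]; ring
    rw [this]
    have : 0 ≤ w := by rw [hw]; linarith
    positivity
  have hb1 : 0 ≤ (1 - w) * (2 * (1 - 3 * x) - 1 + 3 * w) - (1 - 3 * x) ^ 2 := by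
    have : (1 - w) * (2 * (1 - 3 * x) - 1 + 3 * w) - (1 - 3 * x) ^ 2 = (1 + 6 * x - 34 * x ^ 2) / 3 := by
      rw [hw]; ring
    rw [this]
    nlinarith
  have key : ∀ s, x ≤ s → s ≤ 1 - 3 * x →
      (s * (1 - s)) ^ 2 ≤ (w * (1 - w)) ^ 2 + 2 * w * (1 - w) * (1 - 2 * w) * (s - w) :=
    fun s h1 h2 => y_sq_le_tangent w s (bracket_nonneg h1 h2 hb0 hb1)
  have ha := key a hxa (by linarith)
  have hb := key b hxb (by linarith)
  have hc := key c hxc (by linarith)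
  have hsum3 : (a - w) + (b - w) + (c - w) = 0 := by linarith
  have e0 : 2 * w * (1 - w) * (1 - 2 * w) * (a - w) + 2 * w * (1 - w) * (1 - 2 * w) * (b - w)
      + 2 * w * (1 - w) * (1 - 2 * w) * (c - w) = 0 := by
    have : 2 * w * (1 - w) * (1 - 2 * w) * (a - w) + 2 * w * (1 - w) * (1 - 2 * w) * (b - w)
      + 2 * w * (1 - w) * (1 - 2 * w) * (c - w)
        = 2 * w * (1 - w) * (1 - 2 * w) * ((a - w) + (b - w) + (c - w)) := by ring
    rw [this, hsum3, mul_zero]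
  have htot : (x * (1 - x)) ^ 2 + 3 * (w * (1 - w)) ^ 2 ≤ 9 / 64 := by
    have e : (x * (1 - x)) ^ 2 + 3 * (w * (1 - w)) ^ 2 - 9 / 64
        = (x - 1 / 4) ^ 2 * (28 * x ^ 2 - 38 * x + 13 / 4) / 27 := by
      rw [hw]; ring
    have hq : 28 * x ^ 2 - 38 * x + 13 / 4 ≤ 0 := by nlinarith
    have : (x - 1 / 4) ^ 2 * (28 * x ^ 2 - 38 * x + 13 / 4) ≤ 0 :=
      mul_nonpos_of_nonneg_of_nonpos (sq_nonneg _) hq
    linarith
  linarith

/-- The crude bound: for small `x` the other masses are not below `0.1`. -/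
lemma crude {x b u v : ℝ} (hx0 : 0 ≤ x) (hx : x ≤ 918 / 10000)
    (hb0 : 0 ≤ b) (hb : b ≤ 1 / 10) (hu0 : 0 ≤ u) (hu : u ≤ 1) (hv0 : 0 ≤ v) (hv : v ≤ 1) :
    (x * (1 - x)) ^ 2 + (u * (1 - u)) ^ 2 + (b * (1 - b)) ^ 2 + (v * (1 - v)) ^ 2 ≤ 9 / 64 := by
  have h1 := y_sq_mono hx0 hx (by norm_num)
  have h2 := y_sq_mono hb0 hb (by norm_num)
  have h3 := y_sq_le u hu0 hu
  have h4 := y_sq_le v hv0 hv
  norm_num at h1 h2
  norm_num
  linarith

/-- Tangent argument: a large mass `a ≥ t` forces the sum below `9/64`. -/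
lemma big_mass {x a b c xl xh t p : ℝ}
    (hxl : 0 ≤ xl) (hxlx : xl ≤ x) (hxxh : x ≤ xh) (hxh : xh ≤ 1 / 2)
    (hat : t ≤ a) (ha1 : a ≤ 1) (hb10 : 1 / 10 ≤ b) (hb1 : b ≤ 1) (hc10 : 1 / 10 ≤ c) (hc1 : c ≤ 1)
    (hsum : x + a + b + c = 1)
    (hp : 2 * p = 1 - xl - t)
    (hbr1 : 0 ≤ (1 - p) * (2 * (1 / 10) - 1 + 3 * p) - (1 / 10) ^ 2)
    (hbr2 : 0 ≤ (1 - p) * (2 * 1 - 1 + 3 * p) - 1 ^ 2)
    (hbr3 : 0 ≤ (1 - t) * (2 * t - 1 + 3 * t) - t ^ 2)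
    (hbr4 : 0 ≤ (1 - t) * (2 * 1 - 1 + 3 * t) - 1 ^ 2)
    (hslope : 2 * t * (1 - t) * (1 - 2 * t) ≤ 2 * p * (1 - p) * (1 - 2 * p))
    (hslope0 : 0 ≤ 2 * p * (1 - p) * (1 - 2 * p))
    (htot : (xh * (1 - xh)) ^ 2 + (t * (1 - t)) ^ 2 + 2 * (p * (1 - p)) ^ 2 ≤ 9 / 64) :
    (x * (1 - x)) ^ 2 + (a * (1 - a)) ^ 2 + (b * (1 - b)) ^ 2 + (c * (1 - c)) ^ 2 ≤ 9 / 64 := by
  have h1 := y_sq_mono (hxl.trans hxlx) hxxh hxh
  have h2 := y_sq_le_tangent t a (bracket_nonneg hat ha1 hbr3 hbr4)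
  have h3 := y_sq_le_tangent p b (bracket_nonneg hb10 hb1 hbr1 hbr2)
  have h4 := y_sq_le_tangent p c (bracket_nonneg hc10 hc1 hbr1 hbr2)
  set gt := 2 * t * (1 - t) * (1 - 2 * t) with hgt
  set gp := 2 * p * (1 - p) * (1 - 2 * p) with hgp
  have e : gt * (a - t) + gp * (b - p) + gp * (c - p)
      = (gt - gp) * (a - t) - gp * (x - xl) := by
    have : b + c - 2 * p = -(a - t) - (x - xl) := by linarith
    have e2 : gp * (b - p) + gp * (c - p) = gp * (b + c - 2 * p) := by ring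
    rw [add_assoc, e2, this]; ring
  have h5 : (gt - gp) * (a - t) ≤ 0 :=
    mul_nonpos_of_nonpos_of_nonneg (by linarith) (by linarith)
  have h6 : 0 ≤ gp * (x - xl) := mul_nonneg hslope0 (by linarith)
  linarith

/-- The determinant bound by the vertex value: everything reduced to the two end values of `X`. -/
lemma det_bound {A B C M X Xb th : ℝ} (hA : A ≤ M) (hB : B ≤ M) (hC : C ≤ M) (hM : 0 ≤ M)
    (hX0 : 0 ≤ X) (hXb : X ≤ Xb) (hXbpos : 0 < Xb)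
    (hD : 9 / 8 - 2 * X ≤ A + B + C)
    (hH0 : 0 < -(9 / 8 : ℝ) ^ 2 / 4 + 2 * (9 / 8) * M - 3 * M ^ 2)
    (hH1 : th * Xb < -(9 / 8 - 2 * Xb) ^ 2 / 4 + 2 * (9 / 8 - 2 * Xb) * M - 3 * M ^ 2) :
    th * X < A * B + B * C + C * A - (A + B + C) ^ 2 / 4 := by
  set D := A + B + C with hDdef
  have h1 : A * B + B * C + C * A - D ^ 2 / 4 ≥ -D ^ 2 / 4 + 2 * D * M - 3 * M ^ 2 := by
    have ha := sub_nonneg.2 hA
    have hb := sub_nonneg.2 hB
    have hc := sub_nonneg.2 hC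
    have := mul_nonneg ha hb
    have := mul_nonneg hb hc
    have := mul_nonneg hc ha
    rw [hDdef]
    nlinarith
  have hD3 : D ≤ 3 * M := by rw [hDdef]; linarith
  have h2 : -D ^ 2 / 4 + 2 * D * M - 3 * M ^ 2
      ≥ -(9 / 8 - 2 * X) ^ 2 / 4 + 2 * (9 / 8 - 2 * X) * M - 3 * M ^ 2 := by
    have : 0 ≤ (D - (9 / 8 - 2 * X)) * (2 * M - (D + (9 / 8 - 2 * X)) / 4) :=
      mul_nonneg (by linarith) (by linarith)
    nlinarith
  have h3 : th * X < -(9 / 8 - 2 * X) ^ 2 / 4 + 2 * (9 / 8 - 2 * X) * M - 3 * M ^ 2 := by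
    set H0 := -(9 / 8 : ℝ) ^ 2 / 4 + 2 * (9 / 8) * M - 3 * M ^ 2 with hH0def
    set H1 := -(9 / 8 - 2 * Xb) ^ 2 / 4 + 2 * (9 / 8 - 2 * Xb) * M - 3 * M ^ 2 - th * Xb with hH1def
    have hH1' : 0 < H1 := by rw [hH1def]; linarith
    have e : (-(9 / 8 - 2 * X) ^ 2 / 4 + 2 * (9 / 8 - 2 * X) * M - 3 * M ^ 2 - th * X) * Xb
        = (Xb - X) * H0 + X * H1 + Xb * (X * (Xb - X)) := by
      rw [hH0def, hH1def]; ring
    have hpos : 0 < (-(9 / 8 - 2 * X) ^ 2 / 4 + 2 * (9 / 8 - 2 * X) * M - 3 * M ^ 2 - th * X) * Xb := by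
      rw [e]
      rcases eq_or_lt_of_le hX0 with h | h
      · subst h
        have : 0 < (Xb - 0) * H0 := mul_pos (by linarith) hH0
        simpa using this
      · have t1 : 0 ≤ (Xb - X) * H0 := mul_nonneg (by linarith) hH0.le
        have t2 : 0 < X * H1 := mul_pos h hH1'
        have t3 : 0 ≤ Xb * (X * (Xb - X)) :=
          mul_nonneg hXbpos.le (mul_nonneg hX0 (by linarith))
        linarith
    have := (mul_pos_iff_of_pos_right hXbpos).1 hpos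
    linarith
  linarith

/-- The case of an interval `xl ≤ x ≤ xh` of the smallest mass, with all masses below `t`. -/
lemma interval_case {x a b c X P Q T al be ga xl xh t p : ℝ}
    (hxl : 0 ≤ xl) (hxlx : xl ≤ x) (hxxh : x ≤ xh) (hxh : xh ≤ 1 / 2)
    (hx0 : 0 < xh)
    (ha0 : 0 ≤ a) (ha1 : a ≤ 1) (hb0 : 0 ≤ b) (hb1 : b ≤ 1) (hc0 : 0 ≤ c) (hc1 : c ≤ 1)
    (ha10 : 1 / 10 ≤ a) (hb10 : 1 / 10 ≤ b) (hc10 : 1 / 10 ≤ c)
    (hsum : x + a + b + c = 1)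
    (hX0 : 0 ≤ X) (hX : X ≤ 8 * (x * (1 - x)) ^ 2)
    (hP : P ≤ 8 * (a * (1 - a)) ^ 2) (hQ : Q ≤ 8 * (b * (1 - b)) ^ 2)
    (hT : T ≤ 8 * (c * (1 - c)) ^ 2)
    (hal : 0 ≤ al) (hbe : 0 ≤ be) (hga : 0 ≤ ga) (hs : al + be + ga ≤ 1)
    (hS : 9 / 8 < P + Q + T + X)
    (ht12 : t ≤ 1 / 2)
    (hp : 2 * p = 1 - xl - t)
    (hbr1 : 0 ≤ (1 - p) * (2 * (1 / 10) - 1 + 3 * p) - (1 / 10) ^ 2)
    (hbr2 : 0 ≤ (1 - p) * (2 * 1 - 1 + 3 * p) - 1 ^ 2)
    (hbr3 : 0 ≤ (1 - t) * (2 * t - 1 + 3 * t) - t ^ 2)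
    (hbr4 : 0 ≤ (1 - t) * (2 * 1 - 1 + 3 * t) - 1 ^ 2)
    (hslope : 2 * t * (1 - t) * (1 - 2 * t) ≤ 2 * p * (1 - p) * (1 - 2 * p))
    (hslope0 : 0 ≤ 2 * p * (1 - p) * (1 - 2 * p))
    (htot : (xh * (1 - xh)) ^ 2 + (t * (1 - t)) ^ 2 + 2 * (p * (1 - p)) ^ 2 ≤ 9 / 64)
    (hH0 : 0 < -(9 / 8 : ℝ) ^ 2 / 4 + 2 * (9 / 8) * (8 * (t * (1 - t)) ^ 2)
      - 3 * (8 * (t * (1 - t)) ^ 2) ^ 2)
    (hH1 : (14412 / 10000 : ℝ) * (8 * (xh * (1 - xh)) ^ 2)
      < -(9 / 8 - 2 * (8 * (xh * (1 - xh)) ^ 2)) ^ 2 / 4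
        + 2 * (9 / 8 - 2 * (8 * (xh * (1 - xh)) ^ 2)) * (8 * (t * (1 - t)) ^ 2)
        - 3 * (8 * (t * (1 - t)) ^ 2) ^ 2) :
    (14412 / 10000 : ℝ) * X < (P - al * X) * (Q - be * X) + (Q - be * X) * (T - ga * X)
      + (T - ga * X) * (P - al * X)
      - ((P - al * X) + (Q - be * X) + (T - ga * X)) ^ 2 / 4 := by
  have hx00 : 0 ≤ x := hxl.trans hxlx
  have hYpos : 0 < (xh * (1 - xh)) ^ 2 := by
    have : 0 < xh * (1 - xh) := mul_pos hx0 (by linarith)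
    positivity
  have hsumY : 9 / 64 < (x * (1 - x)) ^ 2 + (a * (1 - a)) ^ 2 + (b * (1 - b)) ^ 2
      + (c * (1 - c)) ^ 2 := by linarith
  have small : ∀ {u v w : ℝ}, u ≤ 1 → 1 / 10 ≤ v → v ≤ 1 → 1 / 10 ≤ w → w ≤ 1 →
      x + u + v + w = 1 →
      9 / 64 < (x * (1 - x)) ^ 2 + (u * (1 - u)) ^ 2 + (v * (1 - v)) ^ 2 + (w * (1 - w)) ^ 2 →
      u < t := by
    intro u v w hu hv0 hv1 hw0 hw1 hsum' hS'
    by_contra hcon
    have := big_mass hxl hxlx hxxh hxh (not_lt.1 hcon) hu hv0 hv1 hw0 hw1 hsum' hp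
      hbr1 hbr2 hbr3 hbr4 hslope hslope0 htot
    linarith
  have hat := small ha1 hb10 hb1 hc10 hc1 hsum hsumY
  have hbt := small (u := b) (v := a) (w := c) hb1 ha10 ha1 hc10 hc1 (by linarith) (by linarith)
  have hct := small (u := c) (v := a) (w := b) hc1 ha10 ha1 hb10 hb1 (by linarith) (by linarith)
  have hPM : P ≤ 8 * (t * (1 - t)) ^ 2 := by
    have := y_sq_mono ha0 hat.le ht12
    linarith
  have hQM : Q ≤ 8 * (t * (1 - t)) ^ 2 := by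
    have := y_sq_mono hb0 hbt.le ht12
    linarith
  have hTM : T ≤ 8 * (t * (1 - t)) ^ 2 := by
    have := y_sq_mono hc0 hct.le ht12
    linarith
  have hXb : X ≤ 8 * (xh * (1 - xh)) ^ 2 := by
    have := y_sq_mono hx00 hxxh hxh
    linarith
  have hm1 : 0 ≤ al * X := mul_nonneg hal hX0
  have hm2 : 0 ≤ be * X := mul_nonneg hbe hX0
  have hm3 : 0 ≤ ga * X := mul_nonneg hga hX0
  have hm4 : (al + be + ga) * X ≤ 1 * X := mul_le_mul_of_nonneg_right hs hX0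
  refine det_bound (M := 8 * (t * (1 - t)) ^ 2) (Xb := 8 * (xh * (1 - xh)) ^ 2)
    (by linarith) (by linarith) (by linarith) (by positivity) hX0 hXb (by linarith) ?_ hH0 hH1
  nlinarith

/-- The case of small `x`, where the trivial bound `M = 1/2` suffices. -/
lemma first_case {x a b c X P Q T al be ga : ℝ}
    (hx00 : 0 ≤ x) (hxxh : x ≤ 59 / 1000)
    (ha0 : 0 ≤ a) (ha1 : a ≤ 1) (hb0 : 0 ≤ b) (hb1 : b ≤ 1) (hc0 : 0 ≤ c) (hc1 : c ≤ 1)
    (hX0 : 0 ≤ X) (hX : X ≤ 8 * (x * (1 - x)) ^ 2)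
    (hP : P ≤ 8 * (a * (1 - a)) ^ 2) (hQ : Q ≤ 8 * (b * (1 - b)) ^ 2)
    (hT : T ≤ 8 * (c * (1 - c)) ^ 2)
    (hal : 0 ≤ al) (hbe : 0 ≤ be) (hga : 0 ≤ ga) (hs : al + be + ga ≤ 1)
    (hS : 9 / 8 < P + Q + T + X) :
    (14412 / 10000 : ℝ) * X < (P - al * X) * (Q - be * X) + (Q - be * X) * (T - ga * X)
      + (T - ga * X) * (P - al * X)
      - ((P - al * X) + (Q - be * X) + (T - ga * X)) ^ 2 / 4 := by
  have h1 := y_sq_le a ha0 ha1
  have h2 := y_sq_le b hb0 hb1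
  have h3 := y_sq_le c hc0 hc1
  have hXb : X ≤ 8 * ((59 / 1000 : ℝ) * (1 - 59 / 1000)) ^ 2 := by
    have := y_sq_mono hx00 hxxh (by norm_num)
    linarith
  have hm1 : 0 ≤ al * X := mul_nonneg hal hX0
  have hm2 : 0 ≤ be * X := mul_nonneg hbe hX0
  have hm3 : 0 ≤ ga * X := mul_nonneg hga hX0
  have hm4 : (al + be + ga) * X ≤ 1 * X := mul_le_mul_of_nonneg_right hs hX0
  refine det_bound (M := 1 / 2) (Xb := 8 * ((59 / 1000 : ℝ) * (1 - 59 / 1000)) ^ 2)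
    (by linarith) (by linarith) (by linarith) (by norm_num) hX0 hXb (by norm_num) ?_ (by norm_num)
      (by norm_num)
  nlinarith

/-- **Arithmetic core of `k = 4`.** -/
theorem main {x a b c X P Q T al be ga : ℝ}
    (hx0 : 0 ≤ x) (hxa : x ≤ a) (hxb : x ≤ b) (hxc : x ≤ c) (hsum : x + a + b + c = 1)
    (hX0 : 0 ≤ X) (hX : X ≤ 8 * (x * (1 - x)) ^ 2)
    (hP : P ≤ 8 * (a * (1 - a)) ^ 2) (hQ : Q ≤ 8 * (b * (1 - b)) ^ 2)
    (hT : T ≤ 8 * (c * (1 - c)) ^ 2)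
    (hal : 0 ≤ al) (hbe : 0 ≤ be) (hga : 0 ≤ ga) (hs : al + be + ga ≤ 1)
    (hS : 9 / 8 < P + Q + T + X) :
    (14412 / 10000 : ℝ) * X < (P - al * X) * (Q - be * X) + (Q - be * X) * (T - ga * X)
      + (T - ga * X) * (P - al * X)
      - ((P - al * X) + (Q - be * X) + (T - ga * X)) ^ 2 / 4 := by
  have ha0 : 0 ≤ a := hx0.trans hxa
  have hb0 : 0 ≤ b := hx0.trans hxb
  have hc0 : 0 ≤ c := hx0.trans hxc
  have ha1 : a ≤ 1 := by linarith
  have hb1 : b ≤ 1 := by linarith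
  have hc1 : c ≤ 1 := by linarith
  have hsumY : 9 / 64 < (x * (1 - x)) ^ 2 + (a * (1 - a)) ^ 2 + (b * (1 - b)) ^ 2
      + (c * (1 - c)) ^ 2 := by linarith
  rcases le_or_gt (918 / 10000) x with hxbig | hxsmall
  · have := part_A hxbig hxa hxb hxc hsum
    linarith
  rcases le_or_gt x (59 / 1000) with h0 | h0
  · exact first_case hx0 h0 ha0 ha1 hb0 hb1 hc0 hc1 hX0 hX hP hQ hT hal hbe hga hs hS
  have large : ∀ {u v w : ℝ}, 0 ≤ u → u ≤ 1 → 0 ≤ v → v ≤ 1 → 0 ≤ w → w ≤ 1 →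
      9 / 64 < (x * (1 - x)) ^ 2 + (v * (1 - v)) ^ 2 + (u * (1 - u)) ^ 2 + (w * (1 - w)) ^ 2 →
      1 / 10 ≤ u := by
    intro u v w hu0 hu1 hv0 hv1 hw0 hw1 hS'
    by_contra hcon
    have := crude hx0 hxsmall.le hu0 (not_le.1 hcon).le hv0 hv1 hw0 hw1
    linarith
  have ha10 : 1 / 10 ≤ a := large ha0 ha1 hb0 hb1 hc0 hc1 (by linarith)
  have hb10 : 1 / 10 ≤ b := large hb0 hb1 ha0 ha1 hc0 hc1 (by linarith)
  have hc10 : 1 / 10 ≤ c := large hc0 hc1 ha0 ha1 hb0 hb1 (by linarith)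
  have case : ∀ (xl xh t p : ℝ), 0 ≤ xl → xl ≤ x → x ≤ xh → xh ≤ 1 / 2 → 0 < xh → t ≤ 1 / 2 →
      2 * p = 1 - xl - t →
      0 ≤ (1 - p) * (2 * (1 / 10) - 1 + 3 * p) - (1 / 10) ^ 2 →
      0 ≤ (1 - p) * (2 * 1 - 1 + 3 * p) - 1 ^ 2 →
      0 ≤ (1 - t) * (2 * t - 1 + 3 * t) - t ^ 2 →
      0 ≤ (1 - t) * (2 * 1 - 1 + 3 * t) - 1 ^ 2 →
      2 * t * (1 - t) * (1 - 2 * t) ≤ 2 * p * (1 - p) * (1 - 2 * p) →
      0 ≤ 2 * p * (1 - p) * (1 - 2 * p) →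
      (xh * (1 - xh)) ^ 2 + (t * (1 - t)) ^ 2 + 2 * (p * (1 - p)) ^ 2 ≤ 9 / 64 →
      0 < -(9 / 8 : ℝ) ^ 2 / 4 + 2 * (9 / 8) * (8 * (t * (1 - t)) ^ 2)
        - 3 * (8 * (t * (1 - t)) ^ 2) ^ 2 →
      (14412 / 10000 : ℝ) * (8 * (xh * (1 - xh)) ^ 2)
        < -(9 / 8 - 2 * (8 * (xh * (1 - xh)) ^ 2)) ^ 2 / 4
          + 2 * (9 / 8 - 2 * (8 * (xh * (1 - xh)) ^ 2)) * (8 * (t * (1 - t)) ^ 2)
          - 3 * (8 * (t * (1 - t)) ^ 2) ^ 2 →
      (14412 / 10000 : ℝ) * X < (P - al * X) * (Q - be * X) + (Q - be * X) * (T - ga * X)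
        + (T - ga * X) * (P - al * X)
        - ((P - al * X) + (Q - be * X) + (T - ga * X)) ^ 2 / 4 :=
    fun xl xh t p h1 h2 h3 h4 h5 h6 h7 h8 h9 h10 h11 h12 h13 h14 h15 h16 =>
      interval_case h1 h2 h3 h4 h5 ha0 ha1 hb0 hb1 hc0 hc1 ha10 hb10 hc10 hsum hX0 hX hP hQ hT
        hal hbe hga hs hS h6 h7 h8 h9 h10 h11 h12 h13 h14 h15 h16
  rcases le_or_gt x (75 / 1000) with h1 | h1
  · exact case (59 / 1000) (75 / 1000) (396 / 1000) (2725 / 10000) (by norm_num) h0.le h1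
      (by norm_num) (by norm_num) (by norm_num) (by norm_num) (by norm_num) (by norm_num)
      (by norm_num) (by norm_num) (by norm_num) (by norm_num) (by norm_num) (by norm_num)
      (by norm_num)
  rcases le_or_gt x (82 / 1000) with h2 | h2
  · exact case (75 / 1000) (82 / 1000) (366 / 1000) (2795 / 10000) (by norm_num) h1.le h2
      (by norm_num) (by norm_num) (by norm_num) (by norm_num) (by norm_num) (by norm_num)
      (by norm_num) (by norm_num) (by norm_num) (by norm_num) (by norm_num) (by norm_num)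
      (by norm_num)
  rcases le_or_gt x (86 / 1000) with h3 | h3
  · exact case (82 / 1000) (86 / 1000) (351 / 1000) (2835 / 10000) (by norm_num) h2.le h3
      (by norm_num) (by norm_num) (by norm_num) (by norm_num) (by norm_num) (by norm_num)
      (by norm_num) (by norm_num) (by norm_num) (by norm_num) (by norm_num) (by norm_num)
      (by norm_num)
  rcases le_or_gt x (88 / 1000) with h4 | h4
  · exact case (86 / 1000) (88 / 1000) (338 / 1000) (2880 / 10000) (by norm_num) h3.le h4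
      (by norm_num) (by norm_num) (by norm_num) (by norm_num) (by norm_num) (by norm_num)
      (by norm_num) (by norm_num) (by norm_num) (by norm_num) (by norm_num) (by norm_num)
      (by norm_num)
  rcases le_or_gt x (89 / 1000) with h5 | h5
  · exact case (88 / 1000) (89 / 1000) (329 / 1000) (2915 / 10000) (by norm_num) h4.le h5
      (by norm_num) (by norm_num) (by norm_num) (by norm_num) (by norm_num) (by norm_num)
      (by norm_num) (by norm_num) (by norm_num) (by norm_num) (by norm_num) (by norm_num)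
      (by norm_num)
  rcases le_or_gt x (90 / 1000) with h6 | h6
  · exact case (89 / 1000) (90 / 1000) (327 / 1000) (2920 / 10000) (by norm_num) h5.le h6
      (by norm_num) (by norm_num) (by norm_num) (by norm_num) (by norm_num) (by norm_num)
      (by norm_num) (by norm_num) (by norm_num) (by norm_num) (by norm_num) (by norm_num)
      (by norm_num)
  rcases le_or_gt x (91 / 1000) with h7 | h7
  · exact case (90 / 1000) (91 / 1000) (325 / 1000) (2925 / 10000) (by norm_num) h6.le h7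
      (by norm_num) (by norm_num) (by norm_num) (by norm_num) (by norm_num) (by norm_num)
      (by norm_num) (by norm_num) (by norm_num) (by norm_num) (by norm_num) (by norm_num)
      (by norm_num)
  · exact case (91 / 1000) (918 / 10000) (321 / 1000) (2940 / 10000) (by norm_num) h7.le hxsmall.le
      (by norm_num) (by norm_num) (by norm_num) (by norm_num) (by norm_num) (by norm_num)
      (by norm_num) (by norm_num) (by norm_num) (by norm_num) (by norm_num) (by norm_num)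
      (by norm_num)

end Step4Arith

end Crest.Agent.Propeller
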