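import Crest.Agent.Lib.Propeller.DelL
import Crest.Agent.Lib.Propeller.Kron
import Crest.Agent.Lib.Propeller.DimRed
import Crest.Agent.Lib.Propeller.Step4Arith

/-!
# Propeller: the induction step at `k = 4`, in dimension 3.

The smallest cell `j` (mass `x`), `e = z j / ‖z j‖`, `v i = prp e (z i)`: a zero-sum triple.
The gain of deleting `j` is bounded by the pair small ball bound with the area `Δ` of the triangle
`v`, the area is bounded below by the three-dimensional cone cap (Step4Arith).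
-/

set_option autoImplicit false
set_option linter.unusedSectionVars false
open MeasureTheory ProbabilityTheory
open scoped RealInnerProductSpace

namespace Crest.Agent.Propeller

universe u

variable {E : Type u} [NormedAddCommGroup E] [InnerProductSpace ℝ E] [FiniteDimensional ℝ E]
  [MeasurableSpace E] [BorelSpace E]

/-- The cells of a partition have total mass one. -/
lemma sum_real_cells {ι : Type*} [Fintype ι] {A : ι → Set E} (hA : IsPartition A) :
    ∑ i, (stdGaussian E).real (A i) = 1 := by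
  have h := sum_setIntegral_cells hA (f := fun _ : E => (1 : ℝ)) (integrable_const _)
  simp only [integral_const, smul_eq_mul, mul_one, probReal_univ] at h
  have e : ∀ x, ((stdGaussian E).restrict (A x)).real Set.univ = (stdGaussian E).real (A x) :=
    fun x => by simp [Measure.real]
  simp only [e] at h
  exact h

/-- The cone cap in normalised form. -/
lemma pi_norm_sq_le {z a : ℝ} (hz0 : 0 ≤ z)
    (h : z ≤ 4 * phi0 * (a * (1 - a))) :
    Real.pi * z ^ 2 ≤ 8 * (a * (1 - a)) ^ 2 := by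
  have hpi := Real.pi_pos
  have h1 : z ^ 2 ≤ (4 * phi0 * (a * (1 - a))) ^ 2 := pow_le_pow_left₀ hz0 h 2
  have h2 : (4 * phi0 * (a * (1 - a))) ^ 2 = 16 * phi0 ^ 2 * (a * (1 - a)) ^ 2 := by ring
  rw [h2, phi0_sq] at h1
  have h3 : Real.pi * z ^ 2 ≤ Real.pi * (16 * (1 / (2 * Real.pi)) * (a * (1 - a)) ^ 2) :=
    mul_le_mul_of_nonneg_left h1 hpi.le
  refine h3.trans (le_of_eq ?_)
  field_simp
  ring

/-- **The step `k = 4`.** -/
theorem step4 (hn : Module.finrank ℝ E = 3) (hP : PF E 3) (z : Fin 4 → E) (A : Fin 4 → Set E)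
    (hc : Critical z A) (hR : R < S z) : False := by
  classical
  have hpi := Real.pi_pos
  have hP' : PF E (4 - 1) := hP
  have hneg : ∀ a b : Fin 4, a ≠ b → ⟪z a, z b⟫ < 0 := by
    intro a b hab
    have := hc.inner_le hP' hab
    linarith
  have hne : ∀ i j : Fin 4, j ≠ i → z j ≠ z i := fun i =>
    ne_of_inner_neg (fun j hj => hneg j i hj)
  set m : Fin 4 → ℝ := fun i => (stdGaussian E).real (A i) with hm
  have hm0 : ∀ i, 0 ≤ m i := fun i => measureReal_nonneg
  have hmsum : ∑ i, m i = 1 := sum_real_cells hc.part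
  have hm1 : ∀ i, m i ≤ 1 := fun i => by
    have : m i ≤ ∑ i, m i := Finset.single_le_sum (fun i _ => hm0 i) (Finset.mem_univ i)
    linarith
  have hcap : ∀ i, Real.pi * ‖z i‖ ^ 2 ≤ 8 * (m i * (1 - m i)) ^ 2 := fun i =>
    pi_norm_sq_le (norm_nonneg _) (hc.norm_le_cap3 hn i (hne i))
  obtain ⟨j, -, hj⟩ := Finset.exists_min_image Finset.univ m ⟨0, Finset.mem_univ _⟩
  have hcard : (Finset.univ.erase j).card = 3 := by
    rw [Finset.card_erase_of_mem (Finset.mem_univ j)]
    simp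
  obtain ⟨a, b, c, hab, hac, hbc, herase⟩ := Finset.card_eq_three.1 hcard
  have haE : a ∈ Finset.univ.erase j := by rw [herase]; simp
  have hbE : b ∈ Finset.univ.erase j := by rw [herase]; simp
  have hcE : c ∈ Finset.univ.erase j := by rw [herase]; simp
  have haj : a ≠ j := Finset.ne_of_mem_erase haE
  have hbj : b ≠ j := Finset.ne_of_mem_erase hbE
  have hcj : c ≠ j := Finset.ne_of_mem_erase hcE
  have hsumsplit : ∀ f : Fin 4 → ℝ, ∑ i, f i = f j + f a + f b + f c := by
    intro f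
    rw [← Finset.add_sum_erase _ _ (Finset.mem_univ j), herase, Finset.sum_insert (by simp [hab, hac]),
      Finset.sum_insert (by simp [hbc]), Finset.sum_singleton]
    ring
  have hsumz : z j + z a + z b + z c = 0 := by
    have h := hc.sum_zero
    rw [← Finset.add_sum_erase _ _ (Finset.mem_univ j), herase, Finset.sum_insert (by simp [hab, hac]),
      Finset.sum_insert (by simp [hbc]), Finset.sum_singleton] at h
    rw [← h]
    abel
  -- the deleted vector
  set s := ‖z j‖ with hsdef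
  have hs : 0 < s := by
    rw [hsdef, norm_pos_iff]
    intro h0
    have := hneg j a haj.symm
    rw [h0, inner_zero_left] at this
    exact lt_irrefl _ this
  set e : E := s⁻¹ • z j with he_def
  have he : ‖e‖ = 1 := by
    rw [he_def, norm_smul, norm_inv, Real.norm_eq_abs, abs_of_pos hs]
    exact inv_mul_cancel₀ hs.ne'
  -- coefficients
  set q : Fin 4 → ℝ := fun i => -⟪e, z i⟫ / s with hq
  have hinner : ∀ i, ⟪e, z i⟫ = s⁻¹ * ⟪z j, z i⟫ := fun i => by
    rw [he_def, real_inner_smul_left]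
  have hq0 : ∀ i, i ≠ j → 0 ≤ q i := fun i hi => by
    have := hneg j i hi.symm
    simp only [hq]
    rw [hinner]
    have h2 : -(s⁻¹ * ⟪z j, z i⟫) = s⁻¹ * (-⟪z j, z i⟫) := by ring
    rw [h2]
    have h3 : 0 ≤ -⟪z j, z i⟫ := by linarith
    positivity
  have hqsq : ∀ i, ⟪e, z i⟫ ^ 2 = q i ^ 2 * s ^ 2 := fun i => by
    simp only [hq]
    field_simp
  have hqsum : q a + q b + q c = 1 := by
    have h1 : ⟪e, z j + z a + z b + z c⟫ = 0 := by rw [hsumz, inner_zero_right]
    rw [inner_add_right, inner_add_right, inner_add_right] at h1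
    have h2 : ⟪e, z j⟫ = s := by
      rw [hinner, real_inner_self_eq_norm_sq, ← hsdef]
      field_simp
    simp only [hq]
    field_simp
    linarith
  have hqsq1 : q a ^ 2 + q b ^ 2 + q c ^ 2 ≤ 1 := by
    have ha := hq0 a haj
    have hb := hq0 b hbj
    have hc' := hq0 c hcj
    have e1 : (q a + q b + q c) ^ 2 = 1 := by rw [hqsum]; ring
    nlinarith [mul_nonneg ha hb, mul_nonneg ha hc', mul_nonneg hb hc']
  -- the projected triple
  set v : Fin 4 → E := fun i => prp e (z i) with hv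
  have hvnorm : ∀ i, ‖v i‖ ^ 2 = ‖z i‖ ^ 2 - q i ^ 2 * s ^ 2 := fun i => by
    simp only [hv]
    rw [norm_prp_sq e (z i) he, hqsq]
  have hvsum : v a + v b + v c = 0 := by
    have h := sum_prp_erase z j hc.sum_zero hs
    rw [herase, Finset.sum_insert (by simp [hab, hac]), Finset.sum_insert (by simp [hbc]),
      Finset.sum_singleton] at h
    rw [add_assoc]
    exact h
  -- the arithmetic core
  have hX0 : 0 ≤ Real.pi * s ^ 2 := by positivity
  have hxa : m j ≤ m a := hj a (Finset.mem_univ _)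
  have hxb : m j ≤ m b := hj b (Finset.mem_univ _)
  have hxc : m j ≤ m c := hj c (Finset.mem_univ _)
  have hSum : 9 / 8 < Real.pi * ‖z a‖ ^ 2 + Real.pi * ‖z b‖ ^ 2 + Real.pi * ‖z c‖ ^ 2
      + Real.pi * s ^ 2 := by
    have h1 : S z = s ^ 2 + ‖z a‖ ^ 2 + ‖z b‖ ^ 2 + ‖z c‖ ^ 2 := by
      unfold S
      exact hsumsplit _
    have h2 : Real.pi * R = 9 / 8 := by
      unfold R
      field_simp
    have h3 : Real.pi * R < Real.pi * S z := mul_lt_mul_of_pos_left hR hpi
    rw [h2, h1] at h3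
    linarith
  have hcore := Step4Arith.main (hm0 j) hxa hxb hxc
    (by have := hsumsplit m; linarith) hX0 (hcap j) (hcap a) (hcap b) (hcap c)
    (sq_nonneg (q a)) (sq_nonneg (q b)) (sq_nonneg (q c)) hqsq1 hSum
  set D2 : ℝ := ‖v a‖ ^ 2 * ‖v b‖ ^ 2 - ⟪v a, v b⟫ ^ 2 with hD2
  have hdet := det_triple (v a) (v b) (v c) hvsum
  have hAr : (14412 / 10000 : ℝ) * (Real.pi * s ^ 2) < Real.pi ^ 2 * D2 := by
    refine hcore.trans_le (le_of_eq ?_)
    rw [hD2, hdet, hvnorm, hvnorm, hvnorm]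
    ring
  have hD2pos : 0 < D2 := by
    by_contra hcon
    push Not at hcon
    have h1 : Real.pi ^ 2 * D2 ≤ 0 := mul_nonpos_of_nonneg_of_nonpos (by positivity) hcon
    have h2 : 0 < (14412 / 10000 : ℝ) * (Real.pi * s ^ 2) := by positivity
    linarith
  set Δ := Real.sqrt D2 with hΔ
  have hΔpos : 0 < Δ := Real.sqrt_pos.2 hD2pos
  have hΔsq : Δ ^ 2 = D2 := Real.sq_sqrt hD2pos.le
  -- the gain
  have hne4 : (Finset.univ.erase j).Nonempty := ⟨a, haE⟩
  have hgain := gain_le_pair z j hne4 hc.sum_zero hs (by norm_num) haE hbE hab Δ hΔpos (by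
    rw [hΔsq])
  have hdel := hc.deletion_one hR hP' j (by norm_num)
  set L := F z - F (restr z (Finset.univ.erase j)) with hL
  have hSpos : 0 < S z := lt_trans R_pos hR
  have hdel2 : s ^ 2 * (4 / 3) ≤ 2 * L := by
    have h1 : 0 ≤ L ^ 2 / S z := by positivity
    have h2 : ((4 : ℕ) : ℝ) / (((4 : ℕ) : ℝ) - 1) = 4 / 3 := by norm_num
    rw [h2] at hdel
    linarith
  have hpos2 : 0 ≤ Real.sqrt (2 / Real.pi) := Real.sqrt_nonneg _
  have hgain2 : L * (36 * Real.pi * Δ) ≤ 64 * s ^ 3 * Real.sqrt (2 / Real.pi) := by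
    have h1 : (0 : ℝ) < 12 * Real.pi * (((4 : ℕ) : ℝ) - 1) * Δ := by
      have : ((4 : ℕ) : ℝ) - 1 = 3 := by norm_num
      rw [this]
      positivity
    have h2 := (le_div_iff₀ h1).1 hgain
    have h3 : (((4 : ℕ) : ℝ) * s) ^ 3 = 64 * s ^ 3 := by push_cast; ring
    rw [h3] at h2
    have h4 : ((4 : ℕ) : ℝ) - 1 = 3 := by norm_num
    rw [h4] at h2
    linarith [h2]
  -- `Δ ≤ (8/(3π)) s √(2/π)`
  have hΔle : 3 * Real.pi * Δ ≤ 8 * s * Real.sqrt (2 / Real.pi) := by
    have h1 : s ^ 2 * (4 / 3) * (36 * Real.pi * Δ) ≤ 2 * L * (36 * Real.pi * Δ) :=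
      mul_le_mul_of_nonneg_right hdel2 (by positivity)
    have h2 : s ^ 2 * (4 / 3) * (36 * Real.pi * Δ) ≤ 2 * (64 * s ^ 3 * Real.sqrt (2 / Real.pi)) := by
      linarith
    have h3 : s ^ 2 * (16 * (3 * Real.pi * Δ)) ≤ s ^ 2 * (16 * (8 * s * Real.sqrt (2 / Real.pi))) := by
      have e1 : s ^ 2 * (16 * (3 * Real.pi * Δ)) = s ^ 2 * (4 / 3) * (36 * Real.pi * Δ) := by ring
      have e2 : s ^ 2 * (16 * (8 * s * Real.sqrt (2 / Real.pi)))
          = 2 * (64 * s ^ 3 * Real.sqrt (2 / Real.pi)) := by ring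
      rw [e1, e2]
      exact h2
    have h4 := le_of_mul_le_mul_left h3 (by positivity)
    linarith
  -- squaring
  have hΔsq2 : 9 * Real.pi ^ 3 * D2 ≤ 128 * s ^ 2 := by
    have h1 : (3 * Real.pi * Δ) ^ 2 ≤ (8 * s * Real.sqrt (2 / Real.pi)) ^ 2 :=
      pow_le_pow_left₀ (by positivity) hΔle 2
    have h2 : (8 * s * Real.sqrt (2 / Real.pi)) ^ 2 = 64 * s ^ 2 * (2 / Real.pi) := by
      rw [mul_pow, mul_pow, Real.sq_sqrt (by positivity)]
      norm_num
    rw [h2, mul_pow, mul_pow, hΔsq] at h1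
    have h3 : Real.pi * ((3 : ℝ) ^ 2 * Real.pi ^ 2 * D2) ≤ Real.pi * (64 * s ^ 2 * (2 / Real.pi)) :=
      mul_le_mul_of_nonneg_left h1 hpi.le
    have h4 : Real.pi * (64 * s ^ 2 * (2 / Real.pi)) = 128 * s ^ 2 := by
      field_simp
      ring
    rw [h4] at h3
    nlinarith
  -- contradiction with the numerics of `π`
  have hpi2 : (9.869 : ℝ) < Real.pi ^ 2 := by
    have := Real.pi_gt_d4
    nlinarith
  have h5 : 9 * Real.pi * ((14412 / 10000 : ℝ) * (Real.pi * s ^ 2))
      < 9 * Real.pi * (Real.pi ^ 2 * D2) :=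
    mul_lt_mul_of_pos_left hAr (by positivity)
  have h6 : 9 * Real.pi * (Real.pi ^ 2 * D2) = 9 * Real.pi ^ 3 * D2 := by ring
  have h7 : 9 * Real.pi * ((14412 / 10000 : ℝ) * (Real.pi * s ^ 2))
      = 9 * (14412 / 10000) * (Real.pi ^ 2 * s ^ 2) := by ring
  rw [h6, h7] at h5
  have h8 : 0 < s ^ 2 := by positivity
  have h9 : 9.869 * s ^ 2 < Real.pi ^ 2 * s ^ 2 := mul_lt_mul_of_pos_right hpi2 h8
  norm_num at h5 h9
  nlinarith

end Crest.Agent.Propeller
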