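/-
The induction step of the Propeller bound at level `k = 7`, in dimension 7
(cap `J_7`, single deletion of the smallest node, triangle and rectangle closures, budget).
-/
import Crest.Agent.Lib.Propeller.Step8
import Crest.Agent.Lib.Propeller.K7Data
import Crest.Agent.Lib.Propeller.RectBall

set_option autoImplicit false
set_option linter.unusedSectionVars false
open MeasureTheory ProbabilityTheory
open scoped RealInnerProductSpace

namespace Crest.Agent.Propeller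

open Gen

universe u

variable {E : Type u} [NormedAddCommGroup E] [InnerProductSpace ℝ E] [FiniteDimensional ℝ E]
  [MeasurableSpace E] [BorelSpace E]
variable {k : ℕ}

/-- The rectangle closure in the sorted form of the checker. -/
theorem critical_hrt (hk : 5 ≤ k) (hP : PF E (k - 1)) {z : Fin k → E} {A : Fin k → Set E}
    (hc : Critical z A) (hR : R < S z) (σ : Equiv.Perm (Fin k))
    (hσn : ∀ i j : Fin k, i ≤ j → ‖z (σ j)‖ ≤ ‖z (σ i)‖) (D : ℝ) (hD : 0 < D) :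
    let y := yOf σ (fun i => Real.sqrt (2 * Real.pi) * ‖z i‖)
    D ^ 2 ≤ 4 / 3 * (y 2 ^ 2 * (y 3 ^ 2
        - (∑ l ∈ Finset.Ico 4 (k - 1), y l ^ 2 + y (k - 1) ^ 2))) →
    ∑ l ∈ Finset.Ico 4 (k - 1), y l ^ 2 + y (k - 1) ^ 2 ≤ y 3 ^ 2 →
    2 * Real.pi * D * y (k - 1)
      ≤ (Kn k 4 : ℝ) / (Kd k 4 : ℝ) * y (k - 1) ^ 2 + ∑ l ∈ Finset.Ico 4 (k - 1), y l ^ 2 := by
  classical
  intro y hD2 hYle
  have hpi := Real.pi_pos
  set r := Real.sqrt (2 * Real.pi) with hr
  have hr0 : 0 < r := Real.sqrt_pos.2 (by positivity)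
  have hr2 : r ^ 2 = 2 * Real.pi := Real.sq_sqrt (by positivity)
  have h2pi : 0 < 2 * Real.pi := by positivity
  let pos (n : ℕ) (h : n < k) : Fin k := σ ⟨n, h⟩
  have hyp : ∀ (n : ℕ) (h : n < k), y n = r * ‖z (pos n h)‖ := fun n h =>
    yOf_of_lt σ _ h
  have hyp2 : ∀ (n : ℕ) (h : n < k), y n ^ 2 = 2 * Real.pi * ‖z (pos n h)‖ ^ 2 := by
    intro n h
    rw [hyp n h, mul_pow, hr2]
  have hinj : ∀ (n l : ℕ) (h1 : n < k) (h2 : l < k), pos n h1 = pos l h2 → n = l := by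
    intro n l h1 h2 h
    have := σ.injective h
    simpa using this
  set B := blk σ 4 with hB
  have hmemB : ∀ (n : ℕ) (h : n < k), pos n h ∈ B ↔ n < 4 := by
    intro n h
    rw [hB, mem_blk]
    simp [pos]
  set j := pos (k - 1) (by omega) with hj
  set a := pos 0 (by omega) with ha
  set b := pos 1 (by omega) with hb
  set c := pos 2 (by omega) with hc'
  set d := pos 3 (by omega) with hd
  have hjB : j ∉ B := by
    rw [hj, hmemB]
    omega
  have haB : a ∈ B := by rw [ha, hmemB]; omega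
  have hbB : b ∈ B := by rw [hb, hmemB]; omega
  have hcB : c ∈ B := by rw [hc', hmemB]; omega
  have hdB : d ∈ B := by rw [hd, hmemB]; omega
  have hab : a ≠ b := fun h => absurd (hinj _ _ _ _ h) (by norm_num)
  have hac : a ≠ c := fun h => absurd (hinj _ _ _ _ h) (by norm_num)
  have had : a ≠ d := fun h => absurd (hinj _ _ _ _ h) (by norm_num)
  have hbc : b ≠ c := fun h => absurd (hinj _ _ _ _ h) (by norm_num)
  have hbd : b ≠ d := fun h => absurd (hinj _ _ _ _ h) (by norm_num)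
  have hcd : c ≠ d := fun h => absurd (hinj _ _ _ _ h) (by norm_num)
  have h12 : ‖z b‖ ≤ ‖z a‖ := hσn ⟨0, by omega⟩ ⟨1, by omega⟩ (by simp [Fin.le_def])
  have h23 : ‖z c‖ ≤ ‖z b‖ := hσn ⟨1, by omega⟩ ⟨2, by omega⟩ (by simp [Fin.le_def])
  have h34 : ‖z d‖ ≤ ‖z c‖ := hσn ⟨2, by omega⟩ ⟨3, by omega⟩ (by simp [Fin.le_def])
  -- the block is `{a, b, c, d}`
  have hBset : ({a, b, c, d} : Finset (Fin k)) = B := by
    ext l
    simp only [Finset.mem_insert, Finset.mem_singleton]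
    constructor
    · rintro (rfl | rfl | rfl | rfl)
      · exact haB
      · exact hbB
      · exact hcB
      · exact hdB
    · intro hl
      rw [hB, mem_blk] at hl
      obtain ⟨i, rfl⟩ := σ.surjective l
      simp only [Equiv.symm_apply_apply] at hl
      obtain ⟨m, hm⟩ := i
      simp only at hl
      interval_cases m
      · left; rfl
      · right; left; rfl
      · right; right; left; rfl
      · right; right; right; rfl
  -- the sums
  have he_j : y (k - 1) ^ 2 = 2 * Real.pi * ‖z j‖ ^ 2 := hyp2 (k - 1) (by omega)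
  have hτk : 4 ≤ k - 1 := by omega
  have hsumY : ∑ l ∈ Bᶜ, ‖z l‖ ^ 2
      = (∑ l ∈ Finset.Ico 4 (k - 1), y l ^ 2 + y (k - 1) ^ 2) / (2 * Real.pi) := by
    have hf : ∀ i : Fin k, ‖z (σ i)‖ ^ 2 = (fun n => y n ^ 2 / (2 * Real.pi)) i.val := by
      intro i
      simp only
      rw [hyp2 i.val i.isLt]
      field_simp
      simp [pos]
    rw [hB, sum_compl_blk σ (fun l => ‖z l‖ ^ 2) 4 (fun n => y n ^ 2 / (2 * Real.pi)) hf]
    have hkk : k = (k - 1) + 1 := by omega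
    have e1 : Finset.Ico 4 k = Finset.Ico 4 ((k - 1) + 1) := by rw [← hkk]
    rw [e1, Finset.sum_Ico_succ_top hτk, add_div, Finset.sum_div]
  have hjX : j ∈ Bᶜ := Finset.mem_compl.2 hjB
  have hsumT : ∑ l ∈ Bᶜ.erase j, ‖z l‖ ^ 2
      = (∑ l ∈ Finset.Ico 4 (k - 1), y l ^ 2) / (2 * Real.pi) := by
    have h1 := Finset.add_sum_erase Bᶜ (fun l => ‖z l‖ ^ 2) hjX
    rw [hsumY, add_div, he_j] at h1
    have h2 : 2 * Real.pi * ‖z j‖ ^ 2 / (2 * Real.pi) = ‖z j‖ ^ 2 := by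
      field_simp
    rw [h2] at h1
    linarith
  set Tr := ∑ l ∈ Finset.Ico 4 (k - 1), y l ^ 2 with hTr
  set Yr := Tr + y (k - 1) ^ 2 with hYr
  set XX := Yr / (2 * Real.pi) with hXX
  have hXXle : ∑ l ∈ ({a, b, c, d} : Finset (Fin k))ᶜ, ‖z l‖ ^ 2 ≤ XX := by
    rw [hBset, hsumY]
  set Δ := D / (4 * Real.pi) with hΔ
  have hΔ0 : 0 < Δ := by positivity
  have he_c : y 2 ^ 2 = 2 * Real.pi * ‖z c‖ ^ 2 := hyp2 2 (by omega)
  have he_d : y 3 ^ 2 = 2 * Real.pi * ‖z d‖ ^ 2 := hyp2 3 (by omega)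
  have hΔ2 : Δ ^ 2 ≤ ‖z c‖ ^ 2 * (‖z d‖ ^ 2 - XX) / 3 := by
    have h1 : Δ ^ 2 = D ^ 2 / (4 * Real.pi) ^ 2 := by
      rw [hΔ, div_pow]
    rw [h1, div_le_iff₀ (by positivity)]
    refine hD2.trans (le_of_eq ?_)
    rw [he_c, he_d, hXX]
    field_simp
    ring
  have hcard : (B.card : ℝ) = 4 := by
    rw [hB, card_blk σ (by omega)]
    norm_num
  have hfin := critical_nt_rect hc hR hP (by omega) j a b c d B hjB haB hbB hcB hdB hab hac had
    hbc hbd hcd h12 h23 h34 XX hXXle Δ hΔ0 hΔ2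
  rw [hcard, hsumT] at hfin
  have h5 := mul_le_mul_of_nonneg_left hfin hpi.le
  have e0 : ((4 : ℕ) : ℝ) = 4 := by norm_num
  rw [Kn_div_Kd (by omega) hτk, hyp (k - 1) (by omega)]
  have hs2 : (r * ‖z (pos (k - 1) (by omega))‖) ^ 2 = 2 * Real.pi * ‖z j‖ ^ 2 := by
    rw [mul_pow, hr2]
  rw [hs2, e0]
  have e1 : 2 * Real.pi * D * (r * ‖z j‖) = Real.pi * (8 * Real.pi * Δ * (r * ‖z j‖)) := by
    rw [hΔ]
    field_simp
    ring
  have e2 : Real.pi * (4 * cT k 4 * (((k : ℝ) - 1) / (k : ℝ)) * ‖z j‖ ^ 2 + 2 * (Tr / (2 * Real.pi)))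
      = 2 * cT k 4 * (((k : ℝ) - 1) / (k : ℝ)) * (2 * Real.pi * ‖z j‖ ^ 2) + Tr := by
    field_simp
    ring
  rw [e1]
  rw [e2] at h5
  exact h5

/-- **The step `k = 7`.** -/
theorem step7 (hn : Module.finrank ℝ E = 7) (hP : PF E 6) (z : Fin 7 → E) (A : Fin 7 → Set E)
    (hc : Critical z A) (hR : R < S z) : False := by
  classical
  have hpi := Real.pi_pos
  have hP' : PF E (7 - 1) := hP
  have hneg : ∀ a b : Fin 7, a ≠ b → ⟪z a, z b⟫ < 0 := fun a b hab => hc.inner_neg hR hP' hab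
  have hne : ∀ i j : Fin 7, j ≠ i → z j ≠ z i := fun i =>
    ne_of_inner_neg (fun j hj => hneg j i hj)
  have hr0 : 0 < Real.sqrt (2 * Real.pi) := Real.sqrt_pos.2 (by positivity)
  have hx0 : ∀ i, 0 ≤ Real.sqrt (2 * Real.pi) * ‖z i‖ := fun i => by positivity
  have hval : ∀ i, K8.tab.Valid (Real.sqrt (2 * Real.pi) * ‖z i‖) ((stdGaussian E).real (A i)) :=
    fun i => valid_of_tangent (hx0 i) (by norm_num) (by norm_num) f7_eq
      (fun τ h0 h1 => hc.tangent7 hn i (hne i) h0 h1) K8.tab K8.tab_ok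
  have hle1 : ∀ i, (stdGaussian E).real (A i) ≤ 1 := by
    intro i
    have h1 : ∑ i, (stdGaussian E).real (A i) = 1 := sum_real_cells hc.part
    have h2 := Finset.single_le_sum (f := fun i => (stdGaussian E).real (A i))
      (fun i _ => measureReal_nonneg) (Finset.mem_univ i)
    linarith
  have hX0 : ∀ i, 16384 * (Real.sqrt (2 * Real.pi) * ‖z i‖) ≤ ((16500 : ℕ) : ℝ) := by
    intro i
    have h1 := hc.tangent7 hn i (hne i) (τ := 1 / 1024) (by norm_num) (by norm_num)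
    have h2 := hle1 i
    unfold P7 at h1
    generalize Real.sqrt (2 * Real.pi) * ‖z i‖ = x at h1 ⊢
    generalize (stdGaussian E).real (A i) = a at h1 h2
    push_cast at h1 ⊢
    norm_num at h1
    linarith
  exact step_of_chk_aux (by norm_num) hP' hc hR K8.tab true hval 16500 hX0 (by norm_num)
    (fun σ hσ _ _ D hD => critical_hrt (by norm_num) hP' hc hR σ hσ D hD) K7.tree K7.tree_ok

end Crest.Agent.Propeller
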