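import Crest.Agent.Lib.Propeller.DelL

/-!
# Propeller: pair small ball with a tail

For a family `v i`, `i ∈ T`, with `u = ∑ v i ≠ 0`: condition on `⟪u, g⟫`; the projected family is
zero-sum, so the event lies in a random triangle, and `E (Y - t n)² = Y² + t²`.
-/

set_option autoImplicit false
set_option linter.unusedSectionVars false
open MeasureTheory ProbabilityTheory
open scoped RealInnerProductSpace ENNReal

namespace Crest.Agent.Propeller

universe u v

variable {E : Type u} [NormedAddCommGroup E] [InnerProductSpace ℝ E] [FiniteDimensional ℝ E]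
  [MeasurableSpace E] [BorelSpace E]
variable {ι : Type v}

lemma integral_id_N : ∫ n : ℝ, n ∂(gaussianReal 0 1) = 0 := integral_id_gaussianReal

lemma integrable_id_N : Integrable (fun n : ℝ => n) (gaussianReal 0 1) :=
  (memLp_id_gaussianReal (μ := 0) (v := 1) 1).integrable le_rfl

lemma integrable_sq_N : Integrable (fun n : ℝ => n ^ 2) (gaussianReal 0 1) :=
  (memLp_id_gaussianReal (μ := 0) (v := 1) 2).integrable_sq

lemma integral_sq_N : ∫ n : ℝ, n ^ 2 ∂(gaussianReal 0 1) = 1 := by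
  have h := variance_id_gaussianReal (μ := 0) (v := 1)
  rw [variance_eq_integral measurable_id.aemeasurable] at h
  simpa [integral_id_gaussianReal] using h

/-- `E (Y - t n)²/D = (Y² + t²)/D`. -/
lemma lintegral_shift_sq (Y t D : ℝ) (hD : 0 < D) :
    ∫⁻ n, ENNReal.ofReal ((Y - n * t) ^ 2 / D) ∂(gaussianReal 0 1)
      = ENNReal.ofReal ((Y ^ 2 + t ^ 2) / D) := by
  have hform : ∀ n : ℝ, (Y - n * t) ^ 2 / D = Y ^ 2 / D - (2 * Y * t / D) * n + (t ^ 2 / D) * n ^ 2 := by
    intro n; ring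
  have hi1 : Integrable (fun n : ℝ => Y ^ 2 / D - (2 * Y * t / D) * n) (gaussianReal 0 1) :=
    (integrable_const _).sub (integrable_id_N.const_mul _)
  have hi : Integrable (fun n : ℝ => (Y - n * t) ^ 2 / D) (gaussianReal 0 1) := by
    simp_rw [hform]
    exact hi1.add (integrable_sq_N.const_mul _)
  rw [← ofReal_integral_eq_lintegral_ofReal hi
    (Filter.Eventually.of_forall fun n => by simp only [Pi.zero_apply]; positivity)]
  congr 1
  simp_rw [hform]
  rw [integral_add hi1 (integrable_sq_N.const_mul _),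
    integral_sub (integrable_const _) (integrable_id_N.const_mul _),
    integral_const_mul, integral_const_mul, integral_id_N, integral_sq_N]
  simp
  ring

/-- **Pair small ball with a tail.** -/
theorem below_tail [DecidableEq ι] (T : Finset ι) (v : ι → E) (y : ι → ℝ)
    (hu : ∑ i ∈ T, v i ≠ 0) {a b : ι} (ha : a ∈ T) (hb : b ∈ T) (hab : a ≠ b)
    (Δ : ℝ) (hΔ : 0 < Δ)
    (hΔ2 : Δ ^ 2 ≤ ‖prp (‖∑ i ∈ T, v i‖⁻¹ • ∑ i ∈ T, v i) (v a)‖ ^ 2
        * ‖prp (‖∑ i ∈ T, v i‖⁻¹ • ∑ i ∈ T, v i) (v b)‖ ^ 2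
        - ⟪prp (‖∑ i ∈ T, v i‖⁻¹ • ∑ i ∈ T, v i) (v a),
            prp (‖∑ i ∈ T, v i‖⁻¹ • ∑ i ∈ T, v i) (v b)⟫ ^ 2) :
    stdGaussian E (below T v y)
      ≤ ENNReal.ofReal (((∑ i ∈ T, y i) ^ 2 + ‖∑ i ∈ T, v i‖ ^ 2) / (4 * Real.pi * Δ)) := by
  have hpi := Real.pi_pos
  set u := ∑ i ∈ T, v i with hudef
  set t := ‖u‖ with htdef
  have ht : 0 < t := norm_pos_iff.2 hu
  set e : E := t⁻¹ • u with he_def
  have he : ‖e‖ = 1 := by
    rw [he_def, norm_smul, norm_inv, Real.norm_eq_abs, abs_of_pos ht, ← htdef]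
    exact inv_mul_cancel₀ ht.ne'
  have hue : u = t • e := by
    rw [he_def, smul_smul, mul_inv_cancel₀ ht.ne', one_smul]
  have hzero : ∑ i ∈ T, prp e (v i) = 0 := by
    rw [sum_prp, ← hudef, hue, prp, inner_smul_right, real_inner_self_eq_norm_sq, he]
    simp
  have hsum_e : ∑ i ∈ T, ⟪v i, e⟫ = t := by
    rw [← sum_inner, ← hudef, hue, inner_smul_left, real_inner_self_eq_norm_sq, he]
    simp
  rw [measure_split e he (measurableSet_below _ _ _)]
  have hslice : ∀ n : ℝ, stdGaussian E {g' | n • e + prp e g' ∈ below T v y}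
      ≤ ENNReal.ofReal (((∑ i ∈ T, y i) - n * t) ^ 2 / (4 * Real.pi * Δ)) := by
    intro n
    have hset : {g' : E | n • e + prp e g' ∈ below T v y}
        = below T (fun i => prp e (v i)) (fun i => y i - n * ⟪v i, e⟫) := by
      ext g'
      simp only [below, Set.mem_ofPred_eq, inner_split]
      constructor
      · intro h i hi
        have := h i hi
        linarith
      · intro h i hi
        have := h i hi
        linarith
    rw [hset]
    refine (below_zero_sum T (fun i => prp e (v i)) _ hzero ha hb hab Δ hΔ hΔ2).trans ?_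
    apply ENNReal.ofReal_le_ofReal
    have hS : ∑ i ∈ T, (y i - n * ⟪v i, e⟫) = ∑ i ∈ T, y i - n * t := by
      rw [Finset.sum_sub_distrib, ← Finset.mul_sum, hsum_e]
    rw [hS]
    have h2 : (max 0 (∑ i ∈ T, y i - n * t)) ^ 2 ≤ (∑ i ∈ T, y i - n * t) ^ 2 := by
      rcases le_total 0 (∑ i ∈ T, y i - n * t) with h | h
      · rw [max_eq_right h]
      · rw [max_eq_left h]
        nlinarith [sq_nonneg (∑ i ∈ T, y i - n * t)]
    exact div_le_div_of_nonneg_right h2 (by positivity)
  calc ∫⁻ n, stdGaussian E {g' | n • e + prp e g' ∈ below T v y} ∂(gaussianReal 0 1)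
      ≤ ∫⁻ n, ENNReal.ofReal (((∑ i ∈ T, y i) - n * t) ^ 2 / (4 * Real.pi * Δ)) ∂(gaussianReal 0 1) :=
        lintegral_mono hslice
    _ = _ := lintegral_shift_sq _ _ _ (by positivity)

end Crest.Agent.Propeller
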