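/-
Certificate checker for the arithmetic of the single deletion step (level 5).

Masses are natural numbers in units `10⁻⁵`, values in units `10⁻⁷`.  A table of tangents `σ ≤ c + d a`,
lines dominating `σ²` on mass intervals, a quad tree on the two smallest masses `(x, y)`.
All checks are `Bool` functions on `ℕ`/`ℤ`, evaluated by the kernel.
-/
import Mathlib

set_option autoImplicit false

namespace Crest.Agent.Propeller.Tang

/-- Table entry: on the masses `[lo, hi]` use the tangent `σ ≤ c + d a`. -/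
structure Ent where
  lo : ℕ
  hi : ℕ
  c : ℕ
  d : ℕ

/-- A line `ap - am + b a`. -/
structure Ln where
  ap : ℕ
  am : ℕ
  b : ℕ

/-- Masses. -/
noncomputable def mm (n : ℕ) : ℝ := (n : ℝ) / 100000

/-- Values. -/
noncomputable def cc (n : ℕ) : ℝ := (n : ℝ) / 10000000

/-- The value of a line. -/
noncomputable def Ln.val (l : Ln) (a : ℝ) : ℝ := cc l.ap - cc l.am + cc l.b * a

lemma mm_nonneg (n : ℕ) : 0 ≤ mm n := by unfold mm; positivity
lemma cc_nonneg (n : ℕ) : 0 ≤ cc n := by unfold cc; positivity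
lemma mm_le_mm {m n : ℕ} (h : m ≤ n) : mm m ≤ mm n := by
  unfold mm
  have : (m : ℝ) ≤ n := by exact_mod_cast h
  linarith
lemma le_of_mm_le {m n : ℕ} (h : mm m ≤ mm n) : m ≤ n := by
  unfold mm at h
  have : (m : ℝ) ≤ n := by linarith
  exact_mod_cast this
lemma mm_one : mm 100000 = 1 := by unfold mm; norm_num
lemma mm_zero : mm 0 = 0 := by unfold mm; norm_num

/-- A cell: a pair (mass, value) with all the tangent bounds. -/
structure Cell (tab : List Ent) (a σ : ℝ) : Prop where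
  s0 : 0 ≤ σ
  a0 : 0 ≤ a
  a1 : a ≤ 1
  le2 : σ ≤ 2
  cap : ∀ e ∈ tab, σ ≤ cc e.c + cc e.d * a

/-- Maximum of naturals by `Nat.ble`. -/
def nmax (a b : ℕ) : ℕ := bif Nat.ble a b then b else a
/-- Minimum of naturals by `Nat.ble`. -/
def nmin (a b : ℕ) : ℕ := bif Nat.ble a b then a else b

lemma nmax_ge_left (a b : ℕ) : a ≤ nmax a b := by
  unfold nmax
  cases h : Nat.ble a b
  · simp
  · simpa using Nat.le_of_ble_eq_true h

lemma nmax_ge_right (a b : ℕ) : b ≤ nmax a b := by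
  unfold nmax
  cases h : Nat.ble a b
  · have : ¬ a ≤ b := fun h2 => by simp [Nat.ble_eq_true_of_le h2] at h
    simp only [cond_false]; omega
  · simp

lemma nmin_le_left (a b : ℕ) : nmin a b ≤ a := by
  unfold nmin
  cases h : Nat.ble a b
  · have : ¬ a ≤ b := fun h2 => by simp [Nat.ble_eq_true_of_le h2] at h
    simp only [cond_false]; omega
  · simp

lemma nmin_le_right (a b : ℕ) : nmin a b ≤ b := by
  unfold nmin
  cases h : Nat.ble a b
  · simp
  · simpa using Nat.le_of_ble_eq_true h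

lemma nmax_cases (a b : ℕ) : nmax a b = a ∨ nmax a b = b := by
  unfold nmax
  cases Nat.ble a b <;> simp

lemma nmin_cases (a b : ℕ) : nmin a b = a ∨ nmin a b = b := by
  unfold nmin
  cases Nat.ble a b <;> simp

/-- The point check `(c + d e)² ≤ ap - am + b e`. -/
def chkPt (c d e ap am b : ℕ) : Bool :=
  Nat.ble ((c * 100000 + d * e) ^ 2 + am * 100000000000000000)
    (ap * 100000000000000000 + b * e * 1000000000000)

lemma chkPt_sound {c d e ap am b : ℕ} (h : chkPt c d e ap am b = true) :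
    (cc c + cc d * mm e) ^ 2 ≤ cc ap - cc am + cc b * mm e := by
  unfold chkPt at h
  have h1 := Nat.le_of_ble_eq_true h
  have h2 : (((c * 100000 + d * e) ^ 2 + am * 100000000000000000 : ℕ) : ℝ)
      ≤ ((ap * 100000000000000000 + b * e * 1000000000000 : ℕ) : ℝ) := by exact_mod_cast h1
  push_cast at h2
  unfold cc mm
  have e1 : ((c : ℝ) / 10000000 + (d : ℝ) / 10000000 * ((e : ℝ) / 100000)) ^ 2
      = ((c : ℝ) * 100000 + (d : ℝ) * e) ^ 2 / 10 ^ 24 := by ring
  rw [e1]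
  have e2 : (ap : ℝ) / 10000000 - (am : ℝ) / 10000000 + (b : ℝ) / 10000000 * ((e : ℝ) / 100000)
      = ((ap : ℝ) * 100000000000000000 + (b : ℝ) * e * 1000000000000
          - (am : ℝ) * 100000000000000000) / 10 ^ 24 := by ring
  rw [e2]
  apply div_le_div_of_nonneg_right _ (by positivity)
  linarith

/-- Convexity between two points. -/
lemma chord_le {c d al be u v a : ℝ} (hu : u ≤ a) (hv : a ≤ v)
    (h1 : (c + d * u) ^ 2 ≤ al + be * u) (h2 : (c + d * v) ^ 2 ≤ al + be * v) :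
    (c + d * a) ^ 2 ≤ al + be * a := by
  rcases eq_or_lt_of_le (hu.trans hv) with huv | huv
  · have : a = u := le_antisymm (huv ▸ hv) hu
    rw [this]; exact h1
  have hpos : 0 < v - u := by linarith
  have e : ((c + d * a) ^ 2) * (v - u) = (v - a) * (c + d * u) ^ 2 + (a - u) * (c + d * v) ^ 2
      - d ^ 2 * ((a - u) * (v - a)) * (v - u) := by ring
  have h3 := mul_le_mul_of_nonneg_left h1 (sub_nonneg.2 hv)
  have h4 := mul_le_mul_of_nonneg_left h2 (sub_nonneg.2 hu)
  have h5 : 0 ≤ d ^ 2 * ((a - u) * (v - a)) * (v - u) := by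
    have := mul_nonneg (sub_nonneg.2 hu) (sub_nonneg.2 hv)
    positivity
  have h6 : ((c + d * a) ^ 2) * (v - u) ≤ (al + be * a) * (v - u) := by
    rw [e]
    have e2 : (al + be * a) * (v - u) = (v - a) * (al + be * u) + (a - u) * (al + be * v) := by ring
    rw [e2]
    linarith
  exact le_of_mul_le_mul_right h6 hpos

/-- The check of a line on one piece. -/
def chk1 (e : Ent) (l : Ln) (s0 s1 : ℕ) : Bool :=
  Nat.blt (nmin e.hi s1) (nmax e.lo s0) ||
    (chkPt e.c e.d (nmax e.lo s0) l.ap l.am l.b && chkPt e.c e.d (nmin e.hi s1) l.ap l.am l.b)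

/-- The check of a line on `[s0, s1]`. -/
def lineOK (tab : List Ent) (l : Ln) (s0 s1 : ℕ) : Bool := tab.all fun e => chk1 e l s0 s1

/-- The pieces cover `[s, t]`. -/
def covers : List Ent → ℕ → ℕ → Bool
  | [], s, t => Nat.ble t s
  | e :: l, s, t => Nat.ble e.lo s && covers l e.hi t

lemma covers_sound_lt : ∀ (l : List Ent) (s t : ℕ), covers l s t = true →
    ∀ a : ℝ, mm s < a → a ≤ mm t → ∃ e ∈ l, mm e.lo ≤ a ∧ a ≤ mm e.hi := by
  intro l
  induction l with
  | nil =>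
    intro s t h a h1 h2
    have := mm_le_mm (Nat.le_of_ble_eq_true h)
    linarith
  | cons e l ih =>
    intro s t h a h1 h2
    simp only [covers, Bool.and_eq_true] at h
    have hlo := mm_le_mm (Nat.le_of_ble_eq_true h.1)
    rcases le_or_gt a (mm e.hi) with h3 | h3
    · exact ⟨e, by simp, by linarith, h3⟩
    · obtain ⟨e', he', h4⟩ := ih e.hi t h.2 a h3 h2
      exact ⟨e', by simp [he'], h4⟩

lemma covers_sound {tab : List Ent} (h : covers tab 0 100000 = true) (hne : tab ≠ [])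
    {a : ℝ} (h0 : 0 ≤ a) (h1 : a ≤ 1) : ∃ e ∈ tab, mm e.lo ≤ a ∧ a ≤ mm e.hi := by
  rcases eq_or_lt_of_le h0 with h2 | h2
  · cases tab with
    | nil => exact absurd rfl hne
    | cons e l =>
      simp only [covers, Bool.and_eq_true] at h
      have hlo := mm_le_mm (Nat.le_of_ble_eq_true h.1)
      rw [mm_zero] at hlo
      exact ⟨e, by simp, by linarith, by rw [← h2]; exact mm_nonneg _⟩
  · exact covers_sound_lt tab 0 100000 h a (by rw [mm_zero]; exact h2) (by rw [mm_one]; exact h1)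

/-- **A line dominates `σ²`.** -/
lemma lineOK_sound {tab : List Ent} (hcov : covers tab 0 100000 = true) (hne : tab ≠ [])
    {l : Ln} {s0 s1 : ℕ} (h : lineOK tab l s0 s1 = true) {a σ : ℝ} (hc : Cell tab a σ)
    (h0 : mm s0 ≤ a) (h1 : a ≤ mm s1) : σ ^ 2 ≤ l.val a := by
  obtain ⟨e, he, h2, h3⟩ := covers_sound hcov hne hc.a0 hc.a1
  have hchk := List.all_eq_true.1 h e he
  unfold chk1 at hchk
  set u := nmax e.lo s0 with hu
  set v := nmin e.hi s1 with hv
  have hua : mm u ≤ a := by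
    rcases nmax_cases e.lo s0 with h4 | h4 <;> rw [hu, h4] <;> assumption
  have hav : a ≤ mm v := by
    rcases nmin_cases e.hi s1 with h4 | h4 <;> rw [hv, h4] <;> assumption
  have huv : u ≤ v := le_of_mm_le (hua.trans hav)
  have hnb : Nat.blt v u = false := by
    unfold Nat.blt
    cases h5 : Nat.ble (v + 1) u
    · rfl
    · have := Nat.le_of_ble_eq_true h5
      omega
  rw [hnb] at hchk
  simp only [Bool.false_or, Bool.and_eq_true] at hchk
  have h4 := chkPt_sound hchk.1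
  have h5 := chkPt_sound hchk.2
  have h6 := chord_le hua hav h4 h5
  have h7 : σ ≤ cc e.c + cc e.d * a := hc.cap e he
  have h8 : σ ^ 2 ≤ (cc e.c + cc e.d * a) ^ 2 := pow_le_pow_left₀ hc.s0 h7 2
  unfold Ln.val
  linarith

/-- An upper bound of all the tangents at the mass `t`, in units `10⁻¹²`. -/
def ubN : List Ent → ℕ → ℕ
  | [], _ => 2000000000000
  | e :: l, t => nmin (e.c * 100000 + e.d * t) (ubN l t)

lemma ubN_sound {tab : List Ent} {a σ : ℝ} (hc : Cell tab a σ) {t : ℕ} (ht : a ≤ mm t) :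
    σ ≤ (ubN tab t : ℝ) / 1000000000000 := by
  have hgen : ∀ l : List Ent, (∀ e ∈ l, e ∈ tab) → σ ≤ (ubN l t : ℝ) / 1000000000000 := by
    intro l
    induction l with
    | nil =>
      intro _
      simp only [ubN]
      have := hc.le2
      norm_num
      linarith
    | cons e l ih =>
      intro hl
      have h1 := ih (fun e' he' => hl e' (by simp [he']))
      simp only [ubN]
      rcases nmin_cases (e.c * 100000 + e.d * t) (ubN l t) with h2 | h2
      · rw [h2]
        have h3 := hc.cap e (hl e (by simp))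
        have h4 : cc e.d * a ≤ cc e.d * mm t := mul_le_mul_of_nonneg_left ht (cc_nonneg _)
        have h5 : cc e.c + cc e.d * mm t = ((e.c * 100000 + e.d * t : ℕ) : ℝ) / 1000000000000 := by
          unfold cc mm
          push_cast
          ring
        rw [← h5]
        linarith
      · rw [h2]; exact h1
  exact hgen tab (fun e he => he)

/-- `ub² ≤ m` in the value scale. -/
def ubOK (tab : List Ent) (t m : ℕ) : Bool :=
  Nat.ble (ubN tab t ^ 2) (m * 100000000000000000)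

lemma ubOK_sound {tab : List Ent} {a σ : ℝ} (hc : Cell tab a σ) {t m : ℕ} (ht : a ≤ mm t)
    (h : ubOK tab t m = true) : σ ^ 2 ≤ cc m := by
  have h1 := ubN_sound hc ht
  have h2 : σ ^ 2 ≤ ((ubN tab t : ℝ) / 1000000000000) ^ 2 := pow_le_pow_left₀ hc.s0 h1 2
  have h3 := Nat.le_of_ble_eq_true h
  have h4 : ((ubN tab t ^ 2 : ℕ) : ℝ) ≤ ((m * 100000000000000000 : ℕ) : ℝ) := by exact_mod_cast h3
  push_cast at h4
  have h5 : ((ubN tab t : ℝ) / 1000000000000) ^ 2 = (ubN tab t : ℝ) ^ 2 / 10 ^ 24 := by ring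
  unfold cc
  rw [h5] at h2
  have h6 : (ubN tab t : ℝ) ^ 2 / 10 ^ 24 ≤ (m : ℝ) * 100000000000000000 / 10 ^ 24 :=
    div_le_div_of_nonneg_right h4 (by positivity)
  have h7 : (m : ℝ) * 100000000000000000 / 10 ^ 24 = (m : ℝ) / 10000000 := by ring
  linarith

/-! ### The budget check -/

/-- The check at one corner. -/
def budOK (a0p a0m bx by' bt bp x y t : ℕ) : Bool :=
  Nat.ble (x + y + t) 100000 &&
    Nat.ble (a0p * 100000 + bx * x + by' * y + bt * t + bp * (100000 - x - y - t))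
      (2250000000000 + a0m * 100000)

lemma budOK_sound {a0p a0m bx by' bt bp x y t : ℕ} (h : budOK a0p a0m bx by' bt bp x y t = true) :
    cc a0p - cc a0m + cc bx * mm x + cc by' * mm y + cc bt * mm t
      + cc bp * (1 - mm x - mm y - mm t) ≤ 9 / 4 := by
  unfold budOK at h
  simp only [Bool.and_eq_true] at h
  have h1 := Nat.le_of_ble_eq_true h.1
  have h2 := Nat.le_of_ble_eq_true h.2
  obtain ⟨n, hn⟩ : ∃ n, n = 100000 - x - y - t := ⟨_, rfl⟩
  rw [← hn] at h2
  have hn2 : n + x + y + t = 100000 := by omega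
  have hn3 : (n : ℝ) + x + y + t = 100000 := by exact_mod_cast hn2
  have h3 : ((a0p * 100000 + bx * x + by' * y + bt * t + bp * n : ℕ) : ℝ)
      ≤ ((2250000000000 + a0m * 100000 : ℕ) : ℝ) := by exact_mod_cast h2
  push_cast at h3
  have hn4 : (n : ℝ) = 100000 - x - y - t := by linarith
  rw [hn4] at h3
  unfold cc mm
  have e : (a0p : ℝ) / 10000000 - (a0m : ℝ) / 10000000 + (bx : ℝ) / 10000000 * ((x : ℝ) / 100000)
      + (by' : ℝ) / 10000000 * ((y : ℝ) / 100000) + (bt : ℝ) / 10000000 * ((t : ℝ) / 100000)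
      + (bp : ℝ) / 10000000 * (1 - (x : ℝ) / 100000 - (y : ℝ) / 100000 - (t : ℝ) / 100000)
      = ((a0p : ℝ) * 100000 + bx * x + by' * y + bt * t + bp * (100000 - x - y - t)
          - a0m * 100000) / 1000000000000 := by ring
  rw [e, div_le_iff₀ (by norm_num)]
  linarith

/-- The four corners. -/
def corners (a0p a0m bx by' bt bp xl xh yl yh t : ℕ) : Bool :=
  budOK a0p a0m bx by' bt bp xl yl t && budOK a0p a0m bx by' bt bp xl yh t
    && budOK a0p a0m bx by' bt bp xh yl t && budOK a0p a0m bx by' bt bp xh yh t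

/-- Linear functions on a rectangle. -/
lemma bilin {x y xl xh yl yh A B C V : ℝ} (hx1 : xl ≤ x) (hx2 : x ≤ xh) (hy1 : yl ≤ y) (hy2 : y ≤ yh)
    (h00 : A + B * xl + C * yl ≤ V) (h01 : A + B * xl + C * yh ≤ V)
    (h10 : A + B * xh + C * yl ≤ V) (h11 : A + B * xh + C * yh ≤ V) :
    A + B * x + C * y ≤ V := by
  have hB : B * x ≤ max (B * xl) (B * xh) := by
    rcases le_total 0 B with h | h
    · exact le_max_of_le_right (mul_le_mul_of_nonneg_left hx2 h)
    · exact le_max_of_le_left (mul_le_mul_of_nonpos_left hx1 h)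
  have hC : C * y ≤ max (C * yl) (C * yh) := by
    rcases le_total 0 C with h | h
    · exact le_max_of_le_right (mul_le_mul_of_nonneg_left hy2 h)
    · exact le_max_of_le_left (mul_le_mul_of_nonpos_left hy1 h)
  rcases max_cases (B * xl) (B * xh) with ⟨e1, _⟩ | ⟨e1, _⟩ <;>
    rcases max_cases (C * yl) (C * yh) with ⟨e2, _⟩ | ⟨e2, _⟩ <;>
    rw [e1] at hB <;> rw [e2] at hC <;> linarith

lemma corners_sound {a0p a0m bx by' bt bp xl xh yl yh t : ℕ}
    (h : corners a0p a0m bx by' bt bp xl xh yl yh t = true)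
    {x y w : ℝ} (hx1 : mm xl ≤ x) (hx2 : x ≤ mm xh) (hy1 : mm yl ≤ y) (hy2 : y ≤ mm yh)
    (hw : mm t ≤ w) (hbb : bt ≤ bp) :
    cc a0p - cc a0m + cc bx * x + cc by' * y + cc bt * w + cc bp * (1 - x - y - w) ≤ 9 / 4 := by
  unfold corners at h
  simp only [Bool.and_eq_true] at h
  have h00 := budOK_sound h.1.1.1
  have h01 := budOK_sound h.1.1.2
  have h10 := budOK_sound h.1.2
  have h11 := budOK_sound h.2
  have hcc : cc bt ≤ cc bp := by
    unfold cc
    have : (bt : ℝ) ≤ bp := by exact_mod_cast hbb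
    linarith
  have h1 : (cc bt - cc bp) * w ≤ (cc bt - cc bp) * mm t :=
    mul_le_mul_of_nonpos_left hw (by linarith)
  have h2 := bilin (A := cc a0p - cc a0m + cc bt * mm t + cc bp * (1 - mm t))
    (B := cc bx - cc bp) (C := cc by' - cc bp) (V := 9 / 4) hx1 hx2 hy1 hy2
    (by linarith) (by linarith) (by linarith) (by linarith)
  nlinarith

/-! ### The closure check -/

/-- The closure polynomial, in units `10⁻¹⁴`. -/
def closF (m1 m2 x z : ℤ) : ℤ :=
  9 * (22500000 - 2 * x - z) * (22500000 - 2 * x - z)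
    - 18 * (m1 * m1 + m2 * m2
        + (22500000 - 2 * x - z - m1 - m2) * (22500000 - 2 * x - z - m1 - m2))
    + 6 * z * (22500000 - 2 * x - z - 2 * m1) - z * z - 36 * 70363 * x * 1000

/-- The closure check at the two ends. -/
def closOK (m1 m2 x z : ℕ) : Bool :=
  let zl : ℤ := max 0 (22500000 - 2 * (x : ℤ) - (m1 : ℤ) - 2 * (m2 : ℤ))
  decide ((z : ℤ) < zl) || (decide (0 < closF m1 m2 x zl) && decide (0 < closF m1 m2 x z))

/-- The value of the closure polynomial in the real scale. -/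
noncomputable def closR (M1 M2 X Z : ℝ) : ℝ :=
  9 * (9 / 4 - 2 * X - Z) ^ 2
    - 18 * (M1 ^ 2 + M2 ^ 2 + (9 / 4 - 2 * X - Z - M1 - M2) ^ 2)
    + 6 * Z * (9 / 4 - 2 * X - Z - 2 * M1) - Z ^ 2 - 36 * (70363 / 10000) * X

lemma closF_cast (m1 m2 x : ℕ) (z : ℤ) :
    ((closF m1 m2 x z : ℤ) : ℝ) / 10 ^ 14 = closR (cc m1) (cc m2) (cc x) ((z : ℝ) / 10000000) := by
  unfold closF closR cc
  push_cast
  ring

lemma closF_pos {m1 m2 x : ℕ} {z : ℤ} (h : 0 < closF m1 m2 x z) :
    0 < closR (cc m1) (cc m2) (cc x) ((z : ℝ) / 10000000) := by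
  rw [← closF_cast]
  have : (0 : ℝ) < ((closF m1 m2 x z : ℤ) : ℝ) := by exact_mod_cast h
  positivity

/-- Concavity of the closure polynomial in `Z`. -/
lemma closR_concave {M1 M2 X Zl Zh Z : ℝ} (h1 : Zl ≤ Z) (h2 : Z ≤ Zh)
    (hl : 0 < closR M1 M2 X Zl) (hh : 0 < closR M1 M2 X Zh) : 0 < closR M1 M2 X Z := by
  rcases eq_or_lt_of_le (h1.trans h2) with h3 | h3
  · have : Z = Zl := le_antisymm (h3 ▸ h2) h1
    rw [this]; exact hl
  have hpos : 0 < Zh - Zl := by linarith
  have e : closR M1 M2 X Z * (Zh - Zl)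
      = (Zh - Z) * closR M1 M2 X Zl + (Z - Zl) * closR M1 M2 X Zh
        + 16 * ((Z - Zl) * (Zh - Z)) * (Zh - Zl) := by
    unfold closR
    ring
  have h4 : 0 < closR M1 M2 X Z * (Zh - Zl) := by
    rw [e]
    have t3 : 0 ≤ 16 * ((Z - Zl) * (Zh - Z)) * (Zh - Zl) := by
      have := mul_nonneg (sub_nonneg.2 h1) (sub_nonneg.2 h2)
      positivity
    rcases eq_or_lt_of_le h1 with h5 | h5
    · rw [← h5]
      have : 0 < (Zh - Zl) * closR M1 M2 X Zl := mul_pos hpos hl
      have h6 : (Zl - Zl) * closR M1 M2 X Zh = 0 := by ring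
      rw [h6]
      linarith [t3, h5 ▸ t3]
    · have t1 : 0 ≤ (Zh - Z) * closR M1 M2 X Zl := mul_nonneg (by linarith) hl.le
      have t2 : 0 < (Z - Zl) * closR M1 M2 X Zh := mul_pos (by linarith) hh
      linarith
  exact (mul_pos_iff_of_pos_right hpos).1 h4

/-- The vertex bound for the determinant: two levels. -/
lemma g_ge_vertex {A B C M1 M2 : ℝ} (hA : A ≤ M1) (hB : B ≤ M2) (hC : C ≤ M2) (h12 : M2 ≤ M1) :
    (A + B + C) ^ 2 / 4 - (M1 ^ 2 + M2 ^ 2 + (A + B + C - M1 - M2) ^ 2) / 2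
      ≤ A * B + B * C + C * A - (A + B + C) ^ 2 / 4 := by
  have e1 := sub_nonneg.2 hA
  have e2 := sub_nonneg.2 hB
  have e3 := sub_nonneg.2 hC
  have e4 := sub_nonneg.2 h12
  have p1 := mul_nonneg e4 e1
  have p2 := mul_nonneg e1 e2
  have p3 := mul_nonneg e1 e3
  have p4 := mul_nonneg e2 e3
  nlinarith

/-- Monotonicity of the vertex value in the sum. -/
lemma vertex_mono {D D0 M1 M2 : ℝ} (h1 : D0 ≤ D) (h2 : D ≤ M1 + 2 * M2) (hM1 : 0 ≤ M1) :
    D0 ^ 2 / 4 - (M1 ^ 2 + M2 ^ 2 + (D0 - M1 - M2) ^ 2) / 2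
      ≤ D ^ 2 / 4 - (M1 ^ 2 + M2 ^ 2 + (D - M1 - M2) ^ 2) / 2 := by
  have e : (D ^ 2 / 4 - (M1 ^ 2 + M2 ^ 2 + (D - M1 - M2) ^ 2) / 2)
      - (D0 ^ 2 / 4 - (M1 ^ 2 + M2 ^ 2 + (D0 - M1 - M2) ^ 2) / 2)
      = (D - D0) * (M1 + M2 - (D + D0) / 4) := by ring
  have : 0 ≤ (D - D0) * (M1 + M2 - (D + D0) / 4) :=
    mul_nonneg (by linarith) (by linarith)
  linarith

/-- The closure: a lower bound of the sharp determinant for all the permutations. -/
lemma closure_main {A B C Z C' M1 M2 X Xb Zl Zh : ℝ}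
    (hA : A ≤ M1) (hB : B ≤ M2) (hC : C ≤ M2) (h12 : M2 ≤ M1) (hM2 : 0 ≤ M2)
    (hZ0 : 0 ≤ Z) (hZl : Zl ≤ Z) (hZh : Z ≤ Zh) (hX0 : 0 ≤ X) (hXb : X ≤ Xb)
    (hD : 9 / 4 - 2 * Xb - Z ≤ A + B + C) (hC' : C' ≤ M1)
    (hl : 0 < closR M1 M2 Xb Zl) (hh : 0 < closR M1 M2 Xb Zh) :
    (70363 / 10000 : ℝ) * X < A * B + B * C + C * A - (A + B + C) ^ 2 / 4
      + Z / 6 * (A + B + C - 2 * C') - Z ^ 2 / 36 := by
  have hM1 : 0 ≤ M1 := hM2.trans h12
  have h1 := g_ge_vertex hA hB hC h12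
  have h2 := vertex_mono (M1 := M1) (M2 := M2) hD (by linarith) hM1
  have h3 := closR_concave hZl hZh hl hh
  unfold closR at h3
  have h4 : Z / 6 * (9 / 4 - 2 * Xb - Z - 2 * M1) ≤ Z / 6 * (A + B + C - 2 * C') :=
    mul_le_mul_of_nonneg_left (by linarith) (by positivity)
  have h5 : (70363 / 10000 : ℝ) * X ≤ (70363 / 10000 : ℝ) * Xb :=
    mul_le_mul_of_nonneg_left hXb (by norm_num)
  nlinarith

end Crest.Agent.Propeller.Tang
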