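/-
The tree of cases for the single deletion step at level 5, and its soundness.
-/
import Crest.Agent.Lib.Propeller.TangTree

set_option autoImplicit false

namespace Crest.Agent.Propeller.Tang

/-- The sharp pick for three vertices. -/
def Pick (A B C Z X : ℝ) : Prop :=
  (A * B - ((A + B - C) / 2 - Z / 6) ^ 2 ≤ (70363 / 10000 : ℝ) * X)
    ∨ (A * C - ((A + C - B) / 2 - Z / 6) ^ 2 ≤ (70363 / 10000 : ℝ) * X)
    ∨ (B * C - ((B + C - A) / 2 - Z / 6) ^ 2 ≤ (70363 / 10000 : ℝ) * X)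

/-- A configuration at level 5, in the scale `σ̂ = √(2π) ‖z‖`. -/
structure Conf (tab : List Ent) (x y a b c sx sy sa sb sc ql qa qb qc : ℝ) : Prop where
  cx : Cell tab x sx
  cy : Cell tab y sy
  ca : Cell tab a sa
  cb : Cell tab b sb
  cc' : Cell tab c sc
  hxy : x ≤ y
  hya : y ≤ a
  hyb : y ≤ b
  hyc : y ≤ c
  hsum : x + y + a + b + c = 1
  hbud : 9 / 4 < sx ^ 2 + sy ^ 2 + sa ^ 2 + sb ^ 2 + sc ^ 2
  ha10 : mm 10000 ≤ a
  hb10 : mm 10000 ≤ b
  hc10 : mm 10000 ≤ c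
  ql0 : 0 ≤ ql
  qa0 : 0 ≤ qa
  qb0 : 0 ≤ qb
  qc0 : 0 ≤ qc
  hq : ql + qa + qb + qc = 1
  hZ0 : 0 ≤ sy ^ 2 - ql ^ 2 * sx ^ 2
  hpick : Pick (sa ^ 2 - qa ^ 2 * sx ^ 2) (sb ^ 2 - qb ^ 2 * sx ^ 2) (sc ^ 2 - qc ^ 2 * sx ^ 2)
    (sy ^ 2 - ql ^ 2 * sx ^ 2) (sx ^ 2)

lemma cc_add (m n : ℕ) : cc (m + n) = cc m + cc n := by unfold cc; push_cast; ring
lemma cc_mul (k n : ℕ) : cc (k * n) = (k : ℝ) * cc n := by unfold cc; push_cast; ring
lemma mm_add (m n : ℕ) : mm (m + n) = mm m + mm n := by unfold mm; push_cast; ring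
lemma mm_mul (k n : ℕ) : mm (k * n) = (k : ℝ) * mm n := by unfold mm; push_cast; ring
lemma cc_zero : cc 0 = 0 := by unfold cc; norm_num

/-- The case tree. -/
inductive Tr where
  | vac : Tr
  | inf (lx ly lp : Ln) : Tr
  | ok (lx ly : Ln) (t1 : ℕ) (lt1 lp1 : Ln) (t2 : ℕ) (lt2 lp2 : Ln) (m1 m2 x z : ℕ) : Tr
  | sx (m : ℕ) (l r : Tr) : Tr
  | sy (m : ℕ) (l r : Tr) : Tr

/-- The check of a leaf where the budget fails outright. -/
def chkInf (tab : List Ent) (xl xh yl yh : ℕ) (lx ly lp : Ln) : Bool :=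
  lineOK tab lx xl xh && lineOK tab ly yl yh && lineOK tab lp (nmax 10000 yl) 100000 &&
    corners (lx.ap + ly.ap + 3 * lp.ap) (lx.am + ly.am + 3 * lp.am) lx.b ly.b 0 lp.b xl xh yl yh 0

/-- The check of a closure leaf. -/
def chkOk (tab : List Ent) (xl xh yl yh : ℕ) (lx ly : Ln) (t1 : ℕ) (lt1 lp1 : Ln) (t2 : ℕ)
    (lt2 lp2 : Ln) (m1 m2 x z : ℕ) : Bool :=
  lineOK tab lx xl xh && lineOK tab ly yl yh &&
  Nat.ble lt1.b lp1.b && lineOK tab lt1 t1 100000 && lineOK tab lp1 (nmax 10000 yl) 100000 &&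
  corners (lx.ap + ly.ap + lt1.ap + 2 * lp1.ap) (lx.am + ly.am + lt1.am + 2 * lp1.am)
    lx.b ly.b lt1.b lp1.b xl xh yl yh t1 &&
  (Nat.ble t1 t2 || Nat.blt 100000 (xl + 2 * yl + 2 * t2) ||
    (Nat.ble lt2.b lp2.b && lineOK tab lt2 t2 100000 && lineOK tab lp2 (nmax 10000 yl) 100000 &&
      corners (lx.ap + ly.ap + 2 * lt2.ap + lp2.ap) (lx.am + ly.am + 2 * lt2.am + lp2.am)
        lx.b ly.b lt2.b lp2.b xl xh yl yh (2 * t2))) &&
  Nat.ble m2 m1 && ubOK tab t1 m1 && ubOK tab t2 m2 && ubOK tab xh x && ubOK tab yh z &&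
  closOK m1 m2 x z

/-- The check of a tree. -/
def chk (tab : List Ent) : Tr → ℕ → ℕ → ℕ → ℕ → Bool
  | Tr.vac, xl, _, yl, yh => Nat.blt yh xl || Nat.blt 100000 (4 * yl + xl)
  | Tr.inf lx ly lp, xl, xh, yl, yh => chkInf tab xl xh yl yh lx ly lp
  | Tr.ok lx ly t1 lt1 lp1 t2 lt2 lp2 m1 m2 x z, xl, xh, yl, yh =>
      chkOk tab xl xh yl yh lx ly t1 lt1 lp1 t2 lt2 lp2 m1 m2 x z
  | Tr.sx m l r, xl, xh, yl, yh => chk tab l xl m yl yh && chk tab r m xh yl yh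
  | Tr.sy m l r, xl, xh, yl, yh => chk tab l xl xh yl m && chk tab r xl xh m yh

section sound

variable {tab : List Ent} (hcov : covers tab 0 100000 = true) (hne : tab ≠ [])
variable {x y a b c sx sy sa sb sc ql qa qb qc : ℝ}

/-- One big cell is excluded by the budget. -/
lemma no_big (hcov : covers tab 0 100000 = true) (hne : tab ≠ [])
    {xl xh yl yh t1 : ℕ} {lx ly lt lp : Ln}
    {su sv sw u v w : ℝ} (hcu : Cell tab u su) (hcv : Cell tab v sv) (hcw : Cell tab w sw)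
    (hcx : Cell tab x sx) (hcy : Cell tab y sy)
    (hs : x + y + u + v + w = 1)
    (hbud : 9 / 4 < sx ^ 2 + sy ^ 2 + su ^ 2 + sv ^ 2 + sw ^ 2)
    (hv1 : mm (nmax 10000 yl) ≤ v) (hw1 : mm (nmax 10000 yl) ≤ w)
    (hx1 : mm xl ≤ x) (hx2 : x ≤ mm xh) (hy1 : mm yl ≤ y) (hy2 : y ≤ mm yh)
    (hlx : lineOK tab lx xl xh = true) (hly : lineOK tab ly yl yh = true)
    (hlt : lineOK tab lt t1 100000 = true) (hlp : lineOK tab lp (nmax 10000 yl) 100000 = true)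
    (hbb : lt.b ≤ lp.b)
    (hcorn : corners (lx.ap + ly.ap + lt.ap + 2 * lp.ap) (lx.am + ly.am + lt.am + 2 * lp.am)
      lx.b ly.b lt.b lp.b xl xh yl yh t1 = true) :
    u < mm t1 := by
  by_contra hcon
  push Not at hcon
  have h1 := lineOK_sound hcov hne hlx hcx hx1 hx2
  have h2 := lineOK_sound hcov hne hly hcy hy1 hy2
  have h3 := lineOK_sound hcov hne hlt hcu hcon (by rw [mm_one]; exact hcu.a1)
  have h4 := lineOK_sound hcov hne hlp hcv hv1 (by rw [mm_one]; exact hcv.a1)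
  have h5 := lineOK_sound hcov hne hlp hcw hw1 (by rw [mm_one]; exact hcw.a1)
  have h6 := corners_sound hcorn hx1 hx2 hy1 hy2 hcon hbb
  unfold Ln.val at h1 h2 h3 h4 h5
  simp only [cc_add, cc_mul] at h6
  have hvw : v + w = 1 - x - y - u := by linarith
  have e : cc lp.b * v + cc lp.b * w = cc lp.b * (1 - x - y - u) := by
    rw [← mul_add, hvw]
  push_cast at h6
  linarith

/-- Two big cells are excluded by the budget. -/
lemma no_two (hcov : covers tab 0 100000 = true) (hne : tab ≠ [])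
    {xl xh yl yh t2 : ℕ} {lx ly lt lp : Ln}
    {su sv sw u v w : ℝ} (hcu : Cell tab u su) (hcv : Cell tab v sv) (hcw : Cell tab w sw)
    (hcx : Cell tab x sx) (hcy : Cell tab y sy)
    (hs : x + y + u + v + w = 1)
    (hbud : 9 / 4 < sx ^ 2 + sy ^ 2 + su ^ 2 + sv ^ 2 + sw ^ 2)
    (hw1 : mm (nmax 10000 yl) ≤ w)
    (hx1 : mm xl ≤ x) (hx2 : x ≤ mm xh) (hy1 : mm yl ≤ y) (hy2 : y ≤ mm yh)
    (hlx : lineOK tab lx xl xh = true) (hly : lineOK tab ly yl yh = true)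
    (hlt : lineOK tab lt t2 100000 = true) (hlp : lineOK tab lp (nmax 10000 yl) 100000 = true)
    (hbb : lt.b ≤ lp.b)
    (hcorn : corners (lx.ap + ly.ap + 2 * lt.ap + lp.ap) (lx.am + ly.am + 2 * lt.am + lp.am)
      lx.b ly.b lt.b lp.b xl xh yl yh (2 * t2) = true)
    (hu : mm t2 ≤ u) (hv : mm t2 ≤ v) : False := by
  have h1 := lineOK_sound hcov hne hlx hcx hx1 hx2
  have h2 := lineOK_sound hcov hne hly hcy hy1 hy2
  have h3 := lineOK_sound hcov hne hlt hcu hu (by rw [mm_one]; exact hcu.a1)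
  have h3' := lineOK_sound hcov hne hlt hcv hv (by rw [mm_one]; exact hcv.a1)
  have h4 := lineOK_sound hcov hne hlp hcw hw1 (by rw [mm_one]; exact hcw.a1)
  have hw2 : mm (2 * t2) ≤ u + v := by rw [mm_mul]; push_cast; linarith
  have h6 := corners_sound (w := u + v) hcorn hx1 hx2 hy1 hy2 hw2 hbb
  unfold Ln.val at h1 h2 h3 h3' h4
  simp only [cc_add, cc_mul] at h6
  have hvw : w = 1 - x - y - (u + v) := by linarith
  have e : cc lp.b * w = cc lp.b * (1 - x - y - (u + v)) := by rw [← hvw]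
  have e2 : cc lt.b * u + cc lt.b * v = cc lt.b * (u + v) := by ring
  push_cast at h6
  linarith

/-- The closure with the permutations of the vertices. -/
lemma closure_any {A B C Z M1 M2 X Xb Zl Zh : ℝ}
    (hA : A ≤ M1) (hB : B ≤ M1) (hC : C ≤ M1)
    (htwo : (B ≤ M2 ∧ C ≤ M2) ∨ (A ≤ M2 ∧ C ≤ M2) ∨ (A ≤ M2 ∧ B ≤ M2))
    (h12 : M2 ≤ M1) (hM2 : 0 ≤ M2)
    (hZ0 : 0 ≤ Z) (hZl : Zl ≤ Z) (hZh : Z ≤ Zh) (hX0 : 0 ≤ X) (hXb : X ≤ Xb)
    (hD : 9 / 4 - 2 * Xb - Z ≤ A + B + C)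
    (hl : 0 < closR M1 M2 Xb Zl) (hh : 0 < closR M1 M2 Xb Zh)
    (hp : Pick A B C Z X) : False := by
  have key : ∀ C', C' ≤ M1 → (70363 / 10000 : ℝ) * X
      < A * B + B * C + C * A - (A + B + C) ^ 2 / 4 + Z / 6 * (A + B + C - 2 * C') - Z ^ 2 / 36 := by
    intro C' hC'
    rcases htwo with ⟨h1, h2⟩ | ⟨h1, h2⟩ | ⟨h1, h2⟩
    · exact closure_main hA h1 h2 h12 hM2 hZ0 hZl hZh hX0 hXb hD hC' hl hh
    · have := closure_main (A := B) (B := A) (C := C) hB h1 h2 h12 hM2 hZ0 hZl hZh hX0 hXb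
        (by linarith) hC' hl hh
      have e1 : B * A + A * C + C * B - (B + A + C) ^ 2 / 4 + Z / 6 * (B + A + C - 2 * C') - Z ^ 2 / 36
          = A * B + B * C + C * A - (A + B + C) ^ 2 / 4 + Z / 6 * (A + B + C - 2 * C') - Z ^ 2 / 36 := by
        ring
      rwa [e1] at this
    · have := closure_main (A := C) (B := A) (C := B) hC h1 h2 h12 hM2 hZ0 hZl hZh hX0 hXb
        (by linarith) hC' hl hh
      have e1 : C * A + A * B + B * C - (C + A + B) ^ 2 / 4 + Z / 6 * (C + A + B - 2 * C') - Z ^ 2 / 36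
          = A * B + B * C + C * A - (A + B + C) ^ 2 / 4 + Z / 6 * (A + B + C - 2 * C') - Z ^ 2 / 36 := by
        ring
      rwa [e1] at this
  rcases hp with h | h | h
  · have := key C hC
    have e : A * B - ((A + B - C) / 2 - Z / 6) ^ 2
        = A * B + B * C + C * A - (A + B + C) ^ 2 / 4 + Z / 6 * (A + B + C - 2 * C) - Z ^ 2 / 36 := by
      ring
    linarith
  · have := key B hB
    have e : A * C - ((A + C - B) / 2 - Z / 6) ^ 2
        = A * B + B * C + C * A - (A + B + C) ^ 2 / 4 + Z / 6 * (A + B + C - 2 * B) - Z ^ 2 / 36 := by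
      ring
    linarith
  · have := key A hA
    have e : B * C - ((B + C - A) / 2 - Z / 6) ^ 2
        = A * B + B * C + C * A - (A + B + C) ^ 2 / 4 + Z / 6 * (A + B + C - 2 * A) - Z ^ 2 / 36 := by
      ring
    linarith

/-- The closure at a leaf. -/
lemma closOK_contra {m1 m2 xb z : ℕ} (hcl : closOK m1 m2 xb z = true)
    {A B C Z X : ℝ}
    (hA : A ≤ cc m1) (hB : B ≤ cc m1) (hC : C ≤ cc m1)
    (htwo : (B ≤ cc m2 ∧ C ≤ cc m2) ∨ (A ≤ cc m2 ∧ C ≤ cc m2) ∨ (A ≤ cc m2 ∧ B ≤ cc m2))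
    (h12 : m2 ≤ m1)
    (hZ0 : 0 ≤ Z) (hZh : Z ≤ cc z) (hX0 : 0 ≤ X) (hXb : X ≤ cc xb)
    (hD : 9 / 4 - 2 * X - Z ≤ A + B + C)
    (hp : Pick A B C Z X) : False := by
  have h12' : cc m2 ≤ cc m1 := by
    unfold cc
    have : (m2 : ℝ) ≤ m1 := by exact_mod_cast h12
    linarith
  unfold closOK at hcl
  simp only [Bool.or_eq_true, Bool.and_eq_true, decide_eq_true_eq] at hcl
  set zl : ℤ := max 0 (22500000 - 2 * (xb : ℤ) - (m1 : ℤ) - 2 * (m2 : ℤ)) with hzl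
  have hD2 : 9 / 4 - 2 * cc xb - Z ≤ A + B + C := by linarith
  have hsum3 : A + B + C ≤ cc m1 + 2 * cc m2 := by
    rcases htwo with ⟨h1, h2⟩ | ⟨h1, h2⟩ | ⟨h1, h2⟩ <;> linarith
  have hZl : (zl : ℝ) / 10000000 ≤ Z := by
    rcases max_cases (0 : ℤ) (22500000 - 2 * (xb : ℤ) - (m1 : ℤ) - 2 * (m2 : ℤ)) with ⟨e, _⟩ | ⟨e, _⟩
    · rw [hzl, e]
      simpa using hZ0
    · rw [hzl, e]
      push_cast
      unfold cc at hD2 hsum3
      have e2 : ((22500000 : ℝ) - 2 * (xb : ℝ) - (m1 : ℝ) - 2 * (m2 : ℝ)) / 10000000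
          = 9 / 4 - 2 * ((xb : ℝ) / 10000000) - (m1 : ℝ) / 10000000 - 2 * ((m2 : ℝ) / 10000000) := by
        ring
      rw [e2]
      linarith
  rcases hcl with hcl | ⟨h1, h2⟩
  · have : ((z : ℤ) : ℝ) < (zl : ℝ) := by exact_mod_cast hcl
    have h3 : (zl : ℝ) / 10000000 ≤ (z : ℝ) / 10000000 := by
      unfold cc at hZh
      linarith
    have h4 : (zl : ℝ) ≤ (z : ℝ) := by linarith
    push_cast at this
    linarith
  · have hl := closF_pos h1
    have hh := closF_pos h2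
    have hh' : 0 < closR (cc m1) (cc m2) (cc xb) (cc z) := by
      have : cc z = (((z : ℕ) : ℤ) : ℝ) / 10000000 := by
        unfold cc; push_cast; ring
      rw [this]; exact hh
    have hM2 : 0 ≤ cc m2 := cc_nonneg _
    exact closure_any hA hB hC htwo h12' hM2 hZ0 hZl hZh hX0 hXb hD2 hl hh' hp

end sound

/-- **Soundness of the tree.** -/
theorem chk_sound {tab : List Ent} (hcov : covers tab 0 100000 = true) (hne : tab ≠ [])
    {x y a b c sx sy sa sb sc ql qa qb qc : ℝ}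
    (hc : Conf tab x y a b c sx sy sa sb sc ql qa qb qc) :
    ∀ (T : Tr) (xl xh yl yh : ℕ), chk tab T xl xh yl yh = true →
      mm xl ≤ x → x ≤ mm xh → mm yl ≤ y → y ≤ mm yh → False := by
  intro T
  induction T with
  | vac =>
    intro xl xh yl yh h hx1 hx2 hy1 hy2
    simp only [chk, Bool.or_eq_true] at h
    unfold Nat.blt at h
    rcases h with h | h
    · have h1 := Nat.le_of_ble_eq_true h
      have h2 : (yh : ℝ) + 1 ≤ xl := by exact_mod_cast h1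
      have h3 := hc.hxy
      unfold mm at hx1 hy2
      have : (yh : ℝ) ≥ xl := by linarith
      linarith
    · have h1 := Nat.le_of_ble_eq_true h
      have h2 : (100000 : ℝ) + 1 ≤ 4 * yl + xl := by exact_mod_cast h1
      have h3 := hc.hya
      have h4 := hc.hyb
      have h5 := hc.hyc
      have h6 := hc.hsum
      unfold mm at hx1 hy1
      linarith
  | inf lx ly lp =>
    intro xl xh yl yh h hx1 hx2 hy1 hy2
    simp only [chk, chkInf, Bool.and_eq_true] at h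
    obtain ⟨⟨⟨h1, h2⟩, h3⟩, h4⟩ := h
    have e1 := lineOK_sound hcov hne h1 hc.cx hx1 hx2
    have e2 := lineOK_sound hcov hne h2 hc.cy hy1 hy2
    have dom : ∀ {u σ : ℝ}, Cell tab u σ → mm 10000 ≤ u → y ≤ u → σ ^ 2 ≤ lp.val u := by
      intro u σ hu h10 hyu
      refine lineOK_sound hcov hne h3 hu ?_ (by rw [mm_one]; exact hu.a1)
      rcases nmax_cases 10000 yl with e | e <;> rw [e]
      · exact h10
      · linarith
    have e3 := dom hc.ca hc.ha10 hc.hya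
    have e4 := dom hc.cb hc.hb10 hc.hyb
    have e5 := dom hc.cc' hc.hc10 hc.hyc
    have h6 := corners_sound (w := 0) h4 hx1 hx2 hy1 hy2 (by rw [mm_zero]) (Nat.zero_le _)
    unfold Ln.val at e1 e2 e3 e4 e5
    simp only [cc_add, cc_mul, cc_zero] at h6
    have hb := hc.hbud
    have hs := hc.hsum
    have hvw : a + b + c = 1 - x - y - 0 := by linarith
    have e : cc lp.b * a + cc lp.b * b + cc lp.b * c = cc lp.b * (1 - x - y - 0) := by
      rw [← hvw]; ring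
    push_cast at h6
    linarith
  | ok lx ly t1 lt1 lp1 t2 lt2 lp2 m1 m2 xb z =>
    intro xl xh yl yh h hx1 hx2 hy1 hy2
    simp only [chk, chkOk, Bool.and_eq_true] at h
    obtain ⟨⟨⟨⟨⟨⟨⟨⟨⟨⟨⟨⟨hlx, hly⟩, hbb1⟩, hlt1⟩, hlp1⟩, hc1⟩, hkind2⟩, h12⟩, hu1⟩, hu2⟩, hux⟩, huz⟩,
      hcl⟩ := h
    have hbb1' : lt1.b ≤ lp1.b := Nat.le_of_ble_eq_true hbb1
    have h12' : m2 ≤ m1 := Nat.le_of_ble_eq_true h12
    have dom : ∀ {u : ℝ}, mm 10000 ≤ u → y ≤ u → mm (nmax 10000 yl) ≤ u := by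
      intro u h10 hyu
      rcases nmax_cases 10000 yl with e | e <;> rw [e]
      · exact h10
      · linarith
    have da := dom hc.ha10 hc.hya
    have db := dom hc.hb10 hc.hyb
    have dc := dom hc.hc10 hc.hyc
    have hb0 := hc.hbud
    have hs0 := hc.hsum
    -- no big cell
    have ha1 : a < mm t1 := no_big hcov hne hc.ca hc.cb hc.cc' hc.cx hc.cy (by linarith)
      (by linarith) db dc hx1 hx2 hy1 hy2 hlx hly hlt1 hlp1 hbb1' hc1
    have hb1 : b < mm t1 := no_big hcov hne hc.cb hc.ca hc.cc' hc.cx hc.cy (by linarith)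
      (by linarith) da dc hx1 hx2 hy1 hy2 hlx hly hlt1 hlp1 hbb1' hc1
    have hc1' : c < mm t1 := no_big hcov hne hc.cc' hc.ca hc.cb hc.cx hc.cy (by linarith)
      (by linarith) da db hx1 hx2 hy1 hy2 hlx hly hlt1 hlp1 hbb1' hc1
    -- no two big cells
    have hno2 : ∀ {su sv sw u v w : ℝ}, Cell tab u su → Cell tab v sv → Cell tab w sw →
        u < mm t1 → y ≤ w → x + y + u + v + w = 1 →
        9 / 4 < sx ^ 2 + sy ^ 2 + su ^ 2 + sv ^ 2 + sw ^ 2 → mm (nmax 10000 yl) ≤ w →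
        mm t2 ≤ u → mm t2 ≤ v → False := by
      intro su sv sw u v w hcu hcv hcw hut hyw hs hbud hw1 hu hv
      simp only [Bool.or_eq_true, Bool.and_eq_true] at hkind2
      rcases hkind2 with (h3 | h3) | h3
      · have := mm_le_mm (Nat.le_of_ble_eq_true h3)
        linarith
      · unfold Nat.blt at h3
        have h4 := Nat.le_of_ble_eq_true h3
        have h5 : (100000 : ℝ) + 1 ≤ (xl : ℝ) + 2 * yl + 2 * t2 := by exact_mod_cast h4
        unfold mm at hx1 hy1 hu hv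
        linarith
      · obtain ⟨⟨⟨h4, h5⟩, h6⟩, h7⟩ := h3
        exact no_two hcov hne hcu hcv hcw hc.cx hc.cy hs hbud hw1 hx1 hx2 hy1 hy2 hlx hly h5 h6
          (Nat.le_of_ble_eq_true h4) h7 hu hv
    -- the bounds
    have sa1 := ubOK_sound hc.ca ha1.le hu1
    have sb1 := ubOK_sound hc.cb hb1.le hu1
    have sc1 := ubOK_sound hc.cc' hc1'.le hu1
    have sx1 := ubOK_sound hc.cx hx2 hux
    have sy1 := ubOK_sound hc.cy hy2 huz
    -- K bounds
    have hX0 : 0 ≤ sx ^ 2 := sq_nonneg _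
    have Kle : ∀ q s : ℝ, s ^ 2 - q ^ 2 * sx ^ 2 ≤ s ^ 2 := by
      intro q s
      have : 0 ≤ q ^ 2 * sx ^ 2 := by positivity
      linarith
    have hql := hc.ql0
    have hqa := hc.qa0
    have hqb := hc.qb0
    have hqc := hc.qc0
    have hq := hc.hq
    have hqsq : ql ^ 2 + qa ^ 2 + qb ^ 2 + qc ^ 2 ≤ 1 := by
      have e1 : (ql + qa + qb + qc) ^ 2 = 1 := by rw [hq]; norm_num
      nlinarith [mul_nonneg hql hqa, mul_nonneg hql hqb, mul_nonneg hql hqc, mul_nonneg hqa hqb,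
        mul_nonneg hqa hqc, mul_nonneg hqb hqc]
    have hD : 9 / 4 - 2 * sx ^ 2 - (sy ^ 2 - ql ^ 2 * sx ^ 2)
        ≤ (sa ^ 2 - qa ^ 2 * sx ^ 2) + (sb ^ 2 - qb ^ 2 * sx ^ 2) + (sc ^ 2 - qc ^ 2 * sx ^ 2) := by
      have : (ql ^ 2 + qa ^ 2 + qb ^ 2 + qc ^ 2) * sx ^ 2 ≤ 1 * sx ^ 2 :=
        mul_le_mul_of_nonneg_right hqsq hX0
      nlinarith
    -- at most one cell above `t2`
    have htwo : ((sb ^ 2 - qb ^ 2 * sx ^ 2 ≤ cc m2 ∧ sc ^ 2 - qc ^ 2 * sx ^ 2 ≤ cc m2)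
        ∨ (sa ^ 2 - qa ^ 2 * sx ^ 2 ≤ cc m2 ∧ sc ^ 2 - qc ^ 2 * sx ^ 2 ≤ cc m2)
        ∨ (sa ^ 2 - qa ^ 2 * sx ^ 2 ≤ cc m2 ∧ sb ^ 2 - qb ^ 2 * sx ^ 2 ≤ cc m2)) := by
      have big : ∀ {u σ q : ℝ}, Cell tab u σ → u < mm t2 → σ ^ 2 - q ^ 2 * sx ^ 2 ≤ cc m2 := by
        intro u σ q hu hlt
        have := ubOK_sound hu hlt.le hu2
        have := Kle q σ
        linarith
      rcases lt_or_ge a (mm t2) with h1 | h1
      · rcases lt_or_ge b (mm t2) with h2 | h2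
        · exact Or.inr (Or.inr ⟨big hc.ca h1, big hc.cb h2⟩)
        · rcases lt_or_ge c (mm t2) with h3 | h3
          · exact Or.inr (Or.inl ⟨big hc.ca h1, big hc.cc' h3⟩)
          · exact (hno2 hc.cb hc.cc' hc.ca hb1 hc.hya (by linarith) (by linarith) da h2 h3).elim
      · rcases lt_or_ge b (mm t2) with h2 | h2
        · rcases lt_or_ge c (mm t2) with h3 | h3
          · exact Or.inl ⟨big hc.cb h2, big hc.cc' h3⟩
          · exact (hno2 hc.ca hc.cc' hc.cb ha1 hc.hyb (by linarith) (by linarith) db h1 h3).elim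
        · exact (hno2 hc.ca hc.cb hc.cc' ha1 hc.hyc (by linarith) (by linarith) dc h1 h2).elim
    exact closOK_contra hcl (by have := Kle qa sa; linarith) (by have := Kle qb sb; linarith)
      (by have := Kle qc sc; linarith) htwo h12' hc.hZ0 (by have := Kle ql sy; linarith) hX0 sx1
      hD hc.hpick
  | sx m l r ihl ihr =>
    intro xl xh yl yh h hx1 hx2 hy1 hy2
    simp only [chk, Bool.and_eq_true] at h
    rcases le_total x (mm m) with h1 | h1
    · exact ihl xl m yl yh h.1 hx1 h1 hy1 hy2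
    · exact ihr m xh yl yh h.2 h1 hx2 hy1 hy2
  | sy m l r ihl ihr =>
    intro xl xh yl yh h hx1 hx2 hy1 hy2
    simp only [chk, Bool.and_eq_true] at h
    rcases le_total y (mm m) with h1 | h1
    · exact ihl xl xh yl m h.1 hx1 hx2 hy1 h1
    · exact ihr xl xh m yh h.2 hx1 hx2 h1 hy2

end Crest.Agent.Propeller.Tang
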